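import Vale.Agent.Lib.H24.PTNum

/-! Further closure properties of polynomial time functions. -/

namespace Vale.Agent.P338.PTX

open Vale.Agent.Lib.H24.T

variable {α β γ : Type} [Enc α] [Enc β] [Enc γ]

@[fun_prop] theorem dand {p q : α → Prop} [DecidablePred p] [DecidablePred q]
    (hp : PT fun a => decide (p a)) (hq : PT fun a => decide (q a)) :
    PT fun a => decide (p a ∧ q a) := (hp.and hq).of_eq fun a => by simp

@[fun_prop] theorem dor {p q : α → Prop} [DecidablePred p] [DecidablePred q]
    (hp : PT fun a => decide (p a)) (hq : PT fun a => decide (q a)) :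
    PT fun a => decide (p a ∨ q a) := (hp.or hq).of_eq fun a => by simp

@[fun_prop] theorem dnot {p : α → Prop} [DecidablePred p]
    (hp : PT fun a => decide (p a)) : PT fun a => decide (¬ p a) := hp.not.of_eq fun a => by simp

@[fun_prop] theorem bne' {f g : α → Bool} (hf : PT f) (hg : PT g) : PT fun a => f a != g a :=
  (hf.cond hg.not hg).of_eq fun a => by cases f a <;> cases g a <;> rfl

@[fun_prop] theorem bxor {f g : α → Bool} (hf : PT f) (hg : PT g) : PT fun a => xor (f a) (g a) :=
  bne' hf hg

@[fun_prop] theorem beq' {f g : α → Bool} (hf : PT f) (hg : PT g) :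
    PT fun a => decide (f a = g a) :=
  (hf.cond hg hg.not).of_eq fun a => by cases f a <;> cases g a <;> rfl

@[fun_prop] theorem toNat' {f : α → Bool} (hf : PT f) : PT fun a => (f a).toNat :=
  (hf.cond (PT.const 1) (PT.const 0)).of_eq fun a => by cases f a <;> rfl

@[fun_prop] theorem nmax {f g : α → ℕ} (hf : PT f) (hg : PT g) : PT fun a => max (f a) (g a) :=
  (PT.ite (hf.le hg) hg hf).of_eq fun a => by split_ifs <;> omega

@[fun_prop] theorem nmin {f g : α → ℕ} (hf : PT f) (hg : PT g) : PT fun a => min (f a) (g a) :=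
  (PT.ite (hf.le hg) hf hg).of_eq fun a => by split_ifs <;> omega

theorem divMod {f g : α → ℕ} (hf : PT f) (hg : PT g) : PT fun a => (f a / g a, f a % g a) := by
  have h1 : PT (fun p : α × (ℕ × ℕ) × Bool => g p.1) := by fun_prop
  refine PT.binRec (φ := fun a m => (m / g a, m % g a))
    (ψ := fun a y b => if Nat.bit b y.2 < g a ∨ g a = 0 then (Nat.bit false y.1, Nat.bit b y.2)
      else (Nat.bit true y.1, Nat.bit b y.2 - g a))
    (by fun_prop) (by simpa using PT.const (0, 0)) hf (fun a b m => ?_)
    (fun a => 8 * sz (f a) + 3) (by fun_prop) (fun a m hm => ?_)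
  · generalize g a = n
    rcases Nat.eq_zero_or_pos n with rfl | hn
    · simp
    have e1 := Nat.div_add_mod m n
    have e2 := Nat.mod_lt m hn
    have e3 := Bool.toNat_le b
    simp only [Nat.bit_val, hn.ne', or_false, Bool.toNat_false, Bool.toNat_true]
    generalize m / n = q at *
    generalize m % n = r at *
    split_ifs with h
    · exact Prod.ext_iff.2 ((Nat.div_mod_unique hn).2 ⟨by subst e1; ring, h⟩)
    · refine Prod.ext_iff.2 ((Nat.div_mod_unique hn).2 ⟨?_, by omega⟩)
      rw [← e1, mul_add n, mul_one, mul_left_comm]; omega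
  · have h2 := sz_nat_mono (n := f a) ((Nat.div_le_self m (g a)).trans hm)
    have h3 := sz_nat_mono (n := f a) ((Nat.mod_le m (g a)).trans hm)
    simp only [sz_pair]; omega

@[fun_prop] theorem div {f g : α → ℕ} (hf : PT f) (hg : PT g) : PT fun a => f a / g a :=
  (divMod hf hg).fst

@[fun_prop] theorem mod {f g : α → ℕ} (hf : PT f) (hg : PT g) : PT fun a => f a % g a :=
  (divMod hf hg).snd

@[fun_prop] theorem pow {f : α → ℕ} {l : α → List β} (hf : PT f) (hl : PT l) :
    PT fun a => f a ^ (l a).length := by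
  have h1 : PT (fun p : α × ℕ => f p.1) := by fun_prop
  have key : ∀ x i : ℕ, (fun y => y * x)^[i] 1 = x ^ i := fun x i => by simp
  refine (PT.iterate (h := fun a y => y * f a) (by fun_prop) hl (PT.const 1)
    (fun a => 4 * (sz (f a) * (l a).length + 1) + 1) (by fun_prop)
    fun a i hi => sz_nat_le ?_).of_eq fun a => key _ _
  rw [key]
  calc f a ^ i ≤ (2 ^ sz (f a)) ^ i := Nat.pow_le_pow_left (lt_two_pow_sz _).le i
    _ ≤ (2 ^ sz (f a)) ^ (l a).length := Nat.pow_le_pow_right (by positivity) hi
    _ < _ := by rw [← pow_mul]; exact Nat.pow_lt_pow_right (by omega) (by omega)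

@[fun_prop] theorem ipow {f : α → ℤ} {l : α → List β} (hf : PT f) (hl : PT l) :
    PT fun a => f a ^ (l a).length := by
  have h : PT fun a => if f a < 0 ∧ (l a).length % 2 = 1 then
      -(((f a).natAbs ^ (l a).length : ℕ) : ℤ) else (((f a).natAbs ^ (l a).length : ℕ) : ℤ) := by
    fun_prop
  refine h.of_eq fun a => ?_
  push_cast
  split_ifs with h
  · rw [abs_of_neg h.1, (Nat.odd_iff.2 h.2).neg_pow, neg_neg]
  · rcases lt_or_ge (f a) 0 with h' | h'
    · exact (Nat.even_iff.2 (by omega)).pow_abs _
    · rw [abs_of_nonneg h']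

@[fun_prop] theorem testBit {f g : α → ℕ} (hf : PT f) (hg : PT g) :
    PT fun a => (f a).testBit (g a) :=
  (PT.getD hf.bits hg (PT.const false)).of_eq fun a => by
    rw [Nat.testBit_eq_inth]; rfl

@[fun_prop] theorem xor' {f g : α → ℕ} (hf : PT f) (hg : PT g) : PT fun a => f a ^^^ g a := by
  refine (PT.binRec2 (φ := fun m n => m ^^^ n) (ψ := fun y b => Nat.bit (b.1 != b.2) y)
    (by fun_prop) (fun x y m n => Nat.xor_bit _ _ _ _) (fun a => 4 * (sz a.1 + sz a.2) + 1)
    (by fun_prop) (fun m n m' hm n' hn => sz_nat_le (Nat.xor_lt_two_pow ?_ ?_))).comp (hf.pair hg)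
  · exact (hm.trans_lt (lt_two_pow_sz m)).trans_le (Nat.pow_le_pow_right (by omega) (by simp))
  · exact (hn.trans_lt (lt_two_pow_sz n)).trans_le (Nat.pow_le_pow_right (by omega) (by simp))

@[fun_prop] theorem size {f : α → ℕ} (hf : PT f) : PT fun a => (f a).size :=
  hf.bits.length.of_eq fun _ => Nat.size_eq_bits_len _

theorem edivNat {f : α → ℤ} {g : α → ℕ} (hf : PT f) (hg : PT g) : PT fun a => f a / (g a : ℤ) := by
  have h : PT fun a => if f a < 0 ∧ 0 < g a then -((((f a).natAbs - 1) / g a : ℕ) + 1 : ℤ)
      else (((f a).natAbs / g a : ℕ) : ℤ) := by fun_prop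
  refine h.of_eq fun a => ?_
  rcases Nat.eq_zero_or_pos (g a) with h0 | h0
  · simp [h0]
  rcases f a with m | m
  · simp
  · rw [if_pos ⟨Int.negSucc_lt_zero m, h0⟩, Int.negSucc_ediv m (by omega)]; rfl

@[fun_prop] theorem ediv {f g : α → ℤ} (hf : PT f) (hg : PT g) : PT fun a => f a / g a :=
  (PT.ite hg.neg_test (edivNat hf hg.natAbs).neg (edivNat hf hg.natAbs)).of_eq fun a => by
    split_ifs with h
    · rw [← Int.ediv_neg]; congr 1; omega
    · congr 1; omega

@[fun_prop] theorem emod {f g : α → ℤ} (hf : PT f) (hg : PT g) : PT fun a => f a % g a :=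
  (hf.isub (hg.imul (ediv hf hg))).of_eq fun _ => (Int.emod_def _ _).symm

theorem sum_lt_sz (l : List ℕ) : l.sum < 2 ^ sz l := by
  induction l with
  | nil => simp
  | cons x l ih =>
    have h1 := lt_two_pow_sz x
    have h2 : 1 ≤ 2 ^ sz x := Nat.one_le_two_pow
    have h3 : 1 ≤ 2 ^ sz l := Nat.one_le_two_pow
    simp only [List.sum_cons, sz_cons, pow_add]
    nlinarith

theorem prod_lt_sz (l : List ℕ) : l.prod < 2 ^ sz l := by
  induction l with
  | nil => simp
  | cons x l ih =>
    have h1 := lt_two_pow_sz x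
    have := Nat.mul_lt_mul'' h1 ih
    simp only [List.prod_cons, sz_cons, pow_add]
    omega

@[fun_prop] theorem sum {f : α → List ℕ} (hf : PT f) : PT fun a => (f a).sum := by
  refine (PT.foldl (h := fun _ (y x : ℕ) => y + x) (by fun_prop) hf (PT.const 0)
    (fun a => 4 * sz (f a) + 1) (by fun_prop) fun a i => sz_nat_le ?_).of_eq
    fun a => List.sum_eq_foldl.symm
  rw [← List.sum_eq_foldl]
  exact (sum_lt_sz _).trans_le (Nat.pow_le_pow_right (by omega) (sz_take _ _))

@[fun_prop] theorem prod {f : α → List ℕ} (hf : PT f) : PT fun a => (f a).prod := by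
  refine (PT.foldl (h := fun _ (y x : ℕ) => y * x) (by fun_prop) hf (PT.const 1)
    (fun a => 4 * sz (f a) + 1) (by fun_prop) fun a i => sz_nat_le ?_).of_eq
    fun a => List.prod_eq_foldl.symm
  rw [← List.prod_eq_foldl]
  exact (prod_lt_sz _).trans_le (Nat.pow_le_pow_right (by omega) (sz_take _ _))

@[fun_prop] theorem isum {f : α → List ℤ} (hf : PT f) : PT fun a => (f a).sum := by
  have h : PT fun a => ((((f a).map fun x => x.toNat).sum : ℕ) : ℤ) -
      (((f a).map fun x => (-x).toNat).sum : ℕ) := by fun_prop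
  refine h.of_eq fun a => ?_
  induction f a with
  | nil => rfl
  | cons x l ih => simp only [List.map_cons, List.sum_cons]; omega

@[fun_prop] theorem take {f : α → List β} {n : α → ℕ} (hn : PT n) (hf : PT f) :
    PT fun a => (f a).take (n a) := by
  have h : PT (fun a => ((f a).reverse.drop ((f a).length - n a)).reverse) := by fun_prop
  refine h.of_eq fun a => ?_
  rw [List.drop_reverse, List.reverse_reverse]
  rcases le_total (n a) (f a).length with h | h
  · congr 1; omega
  · rw [List.take_of_length_le h, List.take_of_length_le (by omega)]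

@[fun_prop] theorem range {f : α → List β} (hf : PT f) : PT fun a => List.range (f a).length :=
  hf.range_length

@[fun_prop] theorem replicate {l : α → List β} {x : α → γ} (hl : PT l) (hx : PT x) :
    PT fun a => List.replicate (l a).length (x a) :=
  (PT.map (g := fun a _ => x a) hl (by fun_prop)).of_eq fun a => by simp

@[fun_prop] theorem fact {d : α → List β} (hd : PT d) : PT fun x => (d x).length.factorial := by
  have h : PT fun x => ((List.range (d x).length).map fun j => j + 1).prod := by fun_prop
  refine h.of_eq fun x => ?_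
  induction (d x).length with
  | zero => rfl
  | succ n ih => rw [List.range_succ, List.map_append, List.prod_append, ih]; simp [mul_comm,
      Nat.factorial_succ]

@[fun_prop] theorem flatten {f : α → List (List β)} (hf : PT f) : PT fun a => (f a).flatten :=
  (PT.flatMap (g := fun _ b => b) hf (by fun_prop)).of_eq fun a => by simp [List.flatMap]

end Vale.Agent.P338.PTX
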