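import Vale.Agent.P338.CN1

/-! Module J, part 2: address maps acting on arrays. -/

namespace Vale.Agent.P338

open Function
open Vale.Agent.Lib.H24.T (Enc sz PT)

/-- flip bit `ρ` of the selected cells -/
def flp (ρ : ℕ) (t : ℕ → ZMod 2) (x : CA') : CA' := (x.1, fun r => x.2 r ^^^ (t r).val * 2 ^ ρ)

theorem xo_apply (q ρ : ℕ) (t : ℕ → ZMod 2) (F : CA' → ℕ → Zq q) :
    xo q ρ t F = fun x => F (flp ρ t x) := rfl

theorem z2 : ∀ a : ZMod 2, a = 0 ∨ a = 1 := by decide

theorem flp_zero (ρ : ℕ) (x : CA') : flp ρ 0 x = x := by simp [flp]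

theorem flp_add (ρ : ℕ) (a b : ℕ → ZMod 2) (x : CA') : flp ρ (a + b) x = flp ρ b (flp ρ a x) := by
  refine Prod.ext rfl (funext fun r => ?_)
  dsimp only [flp]
  rw [Nat.xor_assoc, Pi.add_apply]
  have e : ((1 : ZMod 2) + 1).val = 0 := rfl
  have e' : (1 : ZMod 2).val = 1 := rfl
  rcases z2 (a r) with h | h <;> rcases z2 (b r) with h' | h' <;> simp [h, h', e, e']

theorem add_self2 (a : ℕ → ZMod 2) : a + a = 0 := funext fun _ => CharTwo.add_self_eq_zero _

theorem xo_zero (q ρ : ℕ) : xo q ρ 0 = 1 :=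
  LinearMap.ext fun F => funext fun x => congrArg F (flp_zero ρ x)

theorem xo_add (q ρ : ℕ) (a b : ℕ → ZMod 2) : xo q ρ (a + b) = xo q ρ a * xo q ρ b :=
  LinearMap.ext fun F => funext fun x => congrArg F (flp_add ρ a b x)

/-- bit `ρ` of a cell -/
def bt (ρ : ℕ) (x : CA') (r : ℕ) : ZMod 2 := if (x.2 r).testBit ρ then 1 else 0

theorem bt_flp (ρ : ℕ) (t : ℕ → ZMod 2) (x : CA') (r : ℕ) : bt ρ (flp ρ t x) r = bt ρ x r + t r := by
  have e' : (1 : ZMod 2).val = 1 := rfl
  have e : (1 : ZMod 2) + 1 = 0 := rfl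
  rcases z2 (t r) with h | h <;> cases h' : (x.2 r).testBit ρ <;> simp [bt, flp, h, h', e, e']

/-- a vector supported on one group -/
def grp (y k : ℕ) (z : ℕ → ZMod 2) : ℕ → ZMod 2 :=
  fun r => if y ≤ r ∧ r < y + k then z (r - y) else 0

section
variable {y k p c : ℕ} {z z' : ℕ → ZMod 2}

theorem grp_congr (h : ∀ c < k, z c = z' c) : grp y k z = grp y k z' := funext fun r => by
  unfold grp; split_ifs with h1
  · exact h _ (by omega)
  · rfl

theorem grp_add : grp y k (z + z') = grp y k z + grp y k z' := funext fun r => by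
  simp only [grp, Pi.add_apply]; split_ifs <;> simp

theorem grp_single (h : c < k) : grp y k (Pi.single c 1) = Pi.single (y + c) 1 := funext fun r => by
  simp only [grp, Pi.single_apply]; split_ifs <;> first | rfl | omega

theorem sum_single (a : ZMod 2) :
    ∑ c ∈ Finset.range k, (Pi.single (y + c) a : ℕ → ZMod 2) = a • grp y k 1 := funext fun r => by
  simp only [grp, Finset.sum_apply, Pi.single_apply, Pi.smul_apply, Pi.one_apply, smul_eq_mul]
  split_ifs with h
  · rw [Finset.sum_eq_single (r - y) (fun b _ hb => if_neg (by omega))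
      (fun hb => absurd (Finset.mem_range.2 (by omega)) hb), if_pos (by omega), mul_one]
  · rw [Finset.sum_eq_zero fun b hb => if_neg (by have := Finset.mem_range.1 hb; omega), mul_zero]

theorem grp_ne {a b : ℕ} (h : a ≠ b) (hc : c < k) : grp (p + a * k) k z (p + b * k + c) = 0 := by
  refine if_neg ?_
  rcases h.lt_or_gt with h | h
  · have := Nat.mul_le_mul_right k (Nat.succ_le_of_lt h)
    rw [Nat.succ_mul] at this; omega
  · have := Nat.mul_le_mul_right k (Nat.succ_le_of_lt h)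
    rw [Nat.succ_mul] at this; omega

theorem sum_dir (v : Fin mm → ZMod 2) :
    ∑ c ∈ Finset.range k, dir p k v c = ∑ a : Fin mm, v a • grp (p + a * k) k 1 := by
  unfold dir
  rw [Finset.sum_comm]
  exact Finset.sum_congr rfl fun a _ => sum_single _
end

/-- the change of coordinates of a step -/
def Th (ρ p k : ℕ) (v : Fin mm → ZMod 2) (b : Fin mm) (x : CA') : CA' :=
  flp ρ (∑ a ∈ Finset.univ.erase b, v a • grp (p + a * k) k fun c => bt ρ x (p + b * k + c)) x

theorem Th_flp (ρ p k : ℕ) (v : Fin mm → ZMod 2) (b : Fin mm) (x : CA') (t : ℕ → ZMod 2) :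
    Th ρ p k v b (flp ρ t (Th ρ p k v b x)) = flp ρ (t + ∑ a ∈ Finset.univ.erase b,
      v a • grp (p + a * k) k fun c => t (p + b * k + c)) x := by
  have e : ∀ a : Fin mm,
      (grp (p + a * k) k fun c => bt ρ (flp ρ t (Th ρ p k v b x)) (p + b * k + c)) =
      grp (p + a * k) k (fun c => bt ρ x (p + b * k + c)) +
        grp (p + a * k) k fun c => t (p + b * k + c) := fun a => by
    rw [← grp_add]
    refine grp_congr fun c hc => ?_
    rw [bt_flp, Th, bt_flp, Finset.sum_apply, Finset.sum_eq_zero, add_zero]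
    · rfl
    · intro a ha
      rw [Pi.smul_apply, grp_ne (fun h => Finset.ne_of_mem_erase ha (Fin.ext h)) hc, smul_zero]
  rw [Th]
  simp only [e, smul_add, Finset.sum_add_distrib]
  rw [Th, ← flp_add, ← flp_add]
  refine congrArg (fun t => flp ρ t x) ?_
  rw [add_left_comm, ← add_assoc (∑ _ ∈ _, _), add_self2, zero_add]

theorem cpr_conj {D V : Type} [CommRing D] [AddCommGroup V] [Module D V] (h i : D)
    (X : (ℕ → ZMod 2) → Module.End D V) (A : Module.End D V) (hA : A * A = 1)
    (τ τ' : ℕ → ℕ → ZMod 2) (k : ℕ) (H : ∀ c < k, A * X (τ c) * A = X (τ' c)) :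
    A * cpr h i X τ k * A = cpr h i X τ' k := by
  induction k with
  | zero => simpa [cpr] using hA
  | succ k ih =>
    have ih := ih fun c hc => H c (by omega)
    simp only [cpr, List.range_succ, List.map_append, List.prod_append, List.map_cons,
      List.map_nil, List.prod_cons, List.prod_nil, mul_one] at ih ⊢
    rw [← ih, ← H k (by omega)]
    simp only [cop, mul_add, add_mul, mul_smul_comm, smul_mul_assoc, mul_one, mul_assoc]
    rw [← mul_assoc A A, hA, one_mul]

theorem cpr_comm {D V : Type} [CommRing D] [AddCommGroup V] [Module D V] (h i : D)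
    (X : (ℕ → ZMod 2) → Module.End D V) (A : Module.End D V) (hA : ∀ t, Commute A (X t))
    (τ : ℕ → ℕ → ZMod 2) (k : ℕ) : Commute A (cpr h i X τ k) :=
  Commute.list_prod_right _ _ fun x hx => by
    obtain ⟨c, -, rfl⟩ := List.mem_map.1 hx
    exact ((Commute.one_right A).smul_right _).add_right ((hA _).smul_right _)

theorem cpr_dir (q ρ p k : ℕ) (v : Fin mm → ZMod 2) (b : Fin mm) (hb : v b = 1)
    (F : CA' → ℕ → Zq q) : cpr (hh q) (ii q) (xo q ρ) (dir p k v) k F = fun x =>
      cpr (hh q) (ii q) (xo q ρ) (fun c => Pi.single (p + b * k + c) 1) k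
        (fun x => F (Th ρ p k v b x)) (Th ρ p k v b x) := by
  rw [← cpr_conj (hh q) (ii q) (xo q ρ) (LinearMap.funLeft _ _ (Th ρ p k v b)) ?_
    (fun c => Pi.single (p + b * k + c) 1) _ k fun c hc => ?_]
  · rfl
  · refine LinearMap.ext fun F => funext fun x => congrArg F ?_
    have := Th_flp ρ p k v b x 0
    have e : ∀ y, grp y k (fun _ => 0) = 0 := fun y => funext fun r => by simp [grp]
    simpa only [flp_zero, Pi.zero_apply, e, smul_zero, Finset.sum_const_zero, add_zero] using this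
  · refine LinearMap.ext fun F => funext fun x => congrArg F ((Th_flp ρ p k v b x _).trans ?_)
    refine congrArg (fun t => flp ρ t x) ?_
    rw [dir, ← Finset.add_sum_erase _ _ (Finset.mem_univ b), hb]
    refine congrArg _ (Finset.sum_congr rfl fun a _ => ?_)
    rw [grp_congr (z' := Pi.single c 1) fun c' _ => by simp [Pi.single_apply], grp_single hc,
      ← Pi.single_smul, smul_eq_mul, mul_one]

namespace CP
/-- real indices -/
def ok (P : CP) (j : ℕ) : Bool := okB P.w P.R (List.replicate P.D ()) (fun _ => 2 ^ P.K) j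
/-- real addresses -/
def real (P : CP) (x : CA') : Prop := ∀ r < P.D, x.2 r < 2 ^ P.K
/-- the array of a function on addresses -/
def arr (P : CP) (q B : ℕ) (F : CA' → ℕ → Zq q) : List Atom := carr q B P.w P.R P.K P.D F

theorem ok_iff {P : CP} {j : ℕ} : P.ok j = true ↔ P.real (P.dec j) := by
  rw [ok, okB_iff, List.length_replicate]; rfl

theorem pt_ok : PT fun a : CP × ℕ => a.1.ok a.2 :=
  PT.okB (w := CP.w) (X := CP.R) (u := fun P => List.replicate P.D ()) (r := fun P _ => 2 ^ P.K)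
    (by fun_prop) (by fun_prop) (by fun_prop) (by fun_prop)

theorem real_flp {P : CP} (h : P.ρ < P.K) {x : CA'} (hx : P.real x) (t : ℕ → ZMod 2) :
    P.real (flp P.ρ t x) := fun r hr => Nat.xor_lt_two_pow (hx r hr) (by
  have e' : (1 : ZMod 2).val = 1 := rfl
  have := Nat.pow_lt_pow_right (a := 2) (by omega) h
  rcases z2 (t r) with h | h <;> simp [h, e', this])
end CP

variable {ι : Type}

namespace CE
variable (e : CE ι)

/-- the values of an array -/
def val (F : ∀ i, CA' → ℕ → Zq (e.q i)) (i : ι) (j : ℕ) : ℕ → Zq (e.q i) :=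
  cond ((e.P i).ok j) (F i ((e.P i).dec j)) 0

/-- the arrays of a family -/
def arr (F : ∀ i, CA' → ℕ → Zq (e.q i)) (i : ι) : List Atom :=
  tab (e.P i).N fun j => atm (e.q i) (e.B i) (e.val F i j)

theorem arr_eq (F : ∀ i, CA' → ℕ → Zq (e.q i)) (i : ι) :
    e.arr F i = (e.P i).arr (e.q i) (e.B i) (F i) := rfl

theorem atv (v : ∀ i, ℕ → ℕ → Zq (e.q i)) : e.env.At fun i j => atm (e.q i) (e.B i) (v i j) :=
  e.ae.at fun i j k t => (v i j k).val.testBit t

theorem bd (F : ∀ i, CA' → ℕ → Zq (e.q i)) : Bd (fun i => (sz (e.arr F i) : ℝ)) e.U :=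
  e.ok.sztab (e.atv _)

/-- the address map can be applied to arrays -/
def Act (θ : ι → CA' → CA') : Prop :=
  ∀ F, Op e.env e.U (e.arr F) (e.arr fun i x => F i (θ i x)) 0

variable {e} {θ θ₁ θ₂ : ι → CA' → CA'}

theorem Act.id : e.Act fun _ x => x := fun F => Op.lin e.ok.bdE (e.bd F) fun _ h => h

theorem Act.comp (h₁ : e.Act θ₁) (h₂ : e.Act θ₂) : e.Act fun i x => θ₁ i (θ₂ i x) :=
  fun F => (h₁ F).trans0 (h₂ _)

theorem Act.congr (h : e.Act θ₁) (h' : ∀ i x, θ i x = θ₁ i x) : e.Act θ := by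
  rwa [show θ = θ₁ from funext₂ h']

theorem Act.of_mv (h : e.ae.Mv (fun i => (e.P i).dec) (fun i => (e.P i).real) θ 0)
    (hθ : ∀ i x, (e.P i).real x → (e.P i).real (θ i x)) : e.Act θ := by
  intro F
  obtain ⟨φ, h1, h2⟩ := h
  refine (h1 fun i j k t => (e.val F i j k).val.testBit t).thenL e.ok.bdE fun hP hx => ?_
  refine (Lin.sel (e := e.env) hP e.ok CP.pt_ok hx (Lin.map0
    (fun i _ => atB (e.B i) (2 * e.q i + 2) fun _ _ => false) hx fun hy => hy.zeroA)).congr
    fun i => tab_congr fun j _ => ?_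
  dsimp only
  cases hj : (e.P i).ok j
  · simp [val, hj, atm_eq]
  · have h3 : (e.P i).dec (φ i j) = θ i ((e.P i).dec j) := h2 i j (CP.ok_iff.1 hj)
    have h4 : (e.P i).ok (φ i j) = true := CP.ok_iff.2 (h3 ▸ hθ i _ (CP.ok_iff.1 hj))
    simp only [val, hj, h4, cond_true, atm_eq, h3]

theorem Act.sum (β : ι → CA' → ℕ → ZMod 2) (y : ι → Fin mm → ℕ) (v : Fin mm → ZMod 2)
    (S : Finset (Fin mm))
    (h1 : ∀ a ∈ S, e.Act fun i x => flp (e.P i).ρ (grp (y i a) (e.P i).k (β i x)) x)
    (h2 : ∀ a ∈ S, ∀ i x z, ∀ c < (e.P i).k,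
      β i (flp (e.P i).ρ (grp (y i a) (e.P i).k z) x) c = β i x c) :
    e.Act fun i x => flp (e.P i).ρ (∑ a ∈ S, v a • grp (y i a) (e.P i).k (β i x)) x := by
  induction S using Finset.induction_on with
  | empty => exact Act.id.congr fun i x => by rw [Finset.sum_empty, flp_zero]
  | insert a S ha ih =>
    have ih := ih (fun b hb => h1 b (Finset.mem_insert_of_mem hb))
      fun b hb => h2 b (Finset.mem_insert_of_mem hb)
    rcases z2 (v a) with h | h
    · exact ih.congr fun i x => by rw [Finset.sum_insert ha, h, zero_smul, zero_add]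
    · refine (ih.comp (h1 a (Finset.mem_insert_self _ _))).congr fun i x => ?_
      rw [Finset.sum_insert ha, h, one_smul, flp_add]
      exact congrArg (fun t => flp _ t _) (Finset.sum_congr rfl fun b _ => congrArg _
        (grp_congr fun c hc => (h2 a (Finset.mem_insert_self _ _) i x _ c hc).symm))

variable {W : ℕ} {γ : ℝ} (hs : SWSpec W γ) (h0 : 0 ≤ γ) {J : ι → ℕ} (h : e.Sw W γ J)
include hs h0 h

theorem Act.site (t : Site e) : e.Act fun i x => flp (e.P i).ρ
    (grp (t.y (e.P i)) (e.P i).k fun c => if t.b i x.2 c then 1 else 0) x := by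
  refine Act.of_mv (AE.Mv.mono (Site.CW.xor t hs h0 h) (fun i x hx => ⟨fun r hr => ?_, ?_⟩)
    fun _ => le_rfl) fun i x hx => CP.real_flp (e.h i).hρ hx _
  · have := t.h i
    exact ⟨hx _ (by omega), hx _ (by omega)⟩
  · refine Prod.ext rfl (funext fun r => ?_)
    have := (t.h i).1
    have e' : (1 : ZMod 2).val = 1 := rfl
    dsimp only [flp, cw, grp]
    split_ifs with h1 h2 h3 h4 <;> first | omega | simp [*]

variable (hm : ∀ i, (e.P i).p + mm * (e.P i).k ≤ (e.P i).D)
include hm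

omit hs h0 h in
theorem grp_le (a : Fin mm) (i : ι) : (e.P i).k ≤ (e.P i).p + a * (e.P i).k ∧
    (e.P i).p + a * (e.P i).k + (e.P i).k ≤ (e.P i).D := by
  have := Nat.mul_le_mul_right (e.P i).k (Nat.succ_le_of_lt a.2)
  have := (e.h i).hp
  have := hm i
  rw [Nat.succ_mul] at *
  omega

theorem Act.tr (v : Fin mm → ZMod 2) : e.Act fun i x =>
    flp (e.P i).ρ (∑ c ∈ Finset.range (e.P i).k, dir (e.P i).p (e.P i).k v c) x := by
  refine (Act.sum (fun _ _ => 1) (fun i a => (e.P i).p + a * (e.P i).k) v Finset.univ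
    (fun a _ => ?_) fun _ _ _ _ _ _ _ => rfl).congr fun i x => by rw [sum_dir]
  exact Act.site hs h0 h ⟨true, fun P => P.p + a * P.k, fun P => P.p + a * P.k, by fun_prop,
    by fun_prop, fun i => ⟨(grp_le hm a i).1, (grp_le hm a i).2, (grp_le hm a i).1,
      (grp_le hm a i).2, Or.inl rfl⟩⟩

theorem Act.th (v : Fin mm → ZMod 2) (b : Fin mm) :
    e.Act fun i => Th (e.P i).ρ (e.P i).p (e.P i).k v b := by
  refine Act.sum (fun i x c => bt (e.P i).ρ x ((e.P i).p + b * (e.P i).k + c))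
    (fun i a => (e.P i).p + a * (e.P i).k) v (Finset.univ.erase b) (fun a ha => ?_)
    fun a ha i x z c hc => ?_
  · refine Act.site hs h0 h ⟨false, fun P => P.p + a * P.k, fun P => P.p + b * P.k, by fun_prop,
      by fun_prop, fun i => ⟨(grp_le hm a i).1, (grp_le hm a i).2, (grp_le hm b i).1,
        (grp_le hm b i).2, Or.inr ?_⟩⟩
    rcases (Finset.ne_of_mem_erase ha).lt_or_gt with h | h
    · have := Nat.mul_le_mul_right (e.P i).k (Nat.succ_le_of_lt h)
      rw [Nat.succ_mul] at this; omega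
    · have := Nat.mul_le_mul_right (e.P i).k (Nat.succ_le_of_lt h)
      rw [Nat.succ_mul] at this; omega
  · rw [bt_flp, grp_ne (fun h => Finset.ne_of_mem_erase ha (Fin.ext h)) hc, add_zero]

end CE

theorem CE.Act.leaf (e : CE ι) : e.Act fun i => flp (e.P i).ρ (Pi.single (e.P i).p 1) := by
  let T : CP → ℕ := fun P => pb 2 P.KU P.ρ
  let w : CP → ℕ := fun P => P.w * pb P.R P.DU P.p
  have eT : ∀ i, T (e.P i) = 2 ^ (e.P i).ρ := fun i => pb_eq (e.h i).hρ.le
  have hp : ∀ i, (e.P i).p < (e.P i).D := fun i => by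
    have := (e.h i).hD; have := (e.h i).k0; omega
  have ew : ∀ i, w (e.P i) = (e.P i).w * (e.P i).R ^ (e.P i).p := fun i =>
    congrArg _ (pb_eq (hp i).le)
  have rot : ∀ {r : CP → ℕ}, PT r → ∀ G, Lin (e.ae.ctx e.U (e.ae.arr G)) e.P →
      Lin (e.ae.ctx e.U (e.ae.arr G)) (e.ae.arr G) → Lin (e.ae.ctx e.U (e.ae.arr G)) fun i =>
        tab (e.P i).N fun j => atB (e.B i) (2 * e.q i + 2) (G i (upd (w (e.P i)) (e.P i).R j
          ((dg (w (e.P i)) (e.P i).R j + r (e.P i)) % (e.P i).R))) :=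
    fun {r} hr G hP hx => Lin.rot (e := e.env) (w := w) (X := CP.R) (r := fun a => r a.1) hP e.ok
      (e.ae.at G) (by fun_prop) (by fun_prop)
      (fun i => ⟨ew i ▸ Nat.mul_pos (e.h i).w0 (pow_pos (e.P i).R_pos _), (e.P i).R_pos⟩)
      (fun i => ew i ▸ pow_dvd (hp i)) (fun i => (e.h i).N0) (by fun_prop) (fun _ _ _ _ => rfl) hx
  refine Act.of_mv ⟨fun i j => upd (w (e.P i)) (e.P i).R j ((dg (w (e.P i)) (e.P i).R j +
    cond (((e.P i).cell j (e.P i).p).testBit (e.P i).ρ) ((e.P i).R - T (e.P i)) (T (e.P i))) %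
      (e.P i).R), AE.Pm.lin fun G hP hx => ?_, fun i j hj => ?_⟩
    fun i x hx => CP.real_flp (e.h i).hρ hx _
  · refine (Lin.sel (e := e.env) (b := fun a => (a.1.cell a.2 a.1.p).testBit a.1.ρ) hP e.ok
      (by fun_prop) (rot (r := fun P => P.R - T P) (by fun_prop) G hP hx)
      (rot (r := T) (by fun_prop) G hP hx)).congr fun i => tab_congr fun j _ => ?_
    dsimp only
    cases ((e.P i).cell j (e.P i).p).testBit (e.P i).ρ <;> rfl
  · have h1 := hj _ (hp i)
    have h2 := CP.real_flp (e.h i).hρ hj (Pi.single (e.P i).p 1) _ (hp i)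
    have h3 := xor_two_pow (e.P i).ρ (((e.P i).dec j).2 (e.P i).p)
    have h4 := (e.P i).R_ge
    have hw := (e.h i).w0
    have hR := (e.P i).R_pos
    have e' : (1 : ZMod 2).val = 1 := rfl
    have h5 := Nat.pow_lt_pow_right (a := 2) (by omega) (e.h i).hρ
    simp only [flp, Pi.single_eq_same, e', one_mul] at h2
    have e1 : (dg (w (e.P i)) (e.P i).R j + cond (((e.P i).cell j (e.P i).p).testBit (e.P i).ρ)
        ((e.P i).R - T (e.P i)) (T (e.P i))) % (e.P i).R =
        ((e.P i).dec j).2 (e.P i).p ^^^ 2 ^ (e.P i).ρ := by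
      rw [CP.cell_eq _ (hp i).le, eT, ew]
      change (((e.P i).dec j).2 (e.P i).p + _) % _ = _
      cases hb : (((e.P i).dec j).2 (e.P i).p).testBit (e.P i).ρ <;>
        simp only [hb, Bool.toNat_true, Bool.toNat_false, cond_true, cond_false] at h3 ⊢
      · rw [Nat.mod_eq_of_lt (by omega)]; omega
      · rw [Nat.mod_eq_sub_mod (by omega), Nat.mod_eq_of_lt (by omega)]; omega
    dsimp only
    rw [e1, ew]
    refine Prod.ext (upd_mod (Dvd.intro _ rfl)) (funext fun r => ?_)
    dsimp only [flp, CP.dec, cdec] at h2 ⊢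
    rcases lt_trichotomy r (e.P i).p with h | rfl | h
    · rw [dg_upd_lo (pow_dvd h), Pi.single_eq_of_ne h.ne]; simp
    · rw [dg_upd_self (by positivity) (by omega), Pi.single_eq_same, e', one_mul]
    · rw [dg_upd_hi (by positivity) (by omega) (pow_dvd h), Pi.single_eq_of_ne h.ne']; simp

end Vale.Agent.P338
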