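import Vale.Agent.P338.Wrd
import Vale.Agent.P338.CN2

/-! Module J: tensor powers of butterflies. -/

namespace Vale.Agent.P338

open Function
open Vale.Agent.Lib.H24.T (Enc sz PT)

variable {ι : Type}

namespace CE
section
variable {e : CE ι} {α : Type} [Enc α] {c : Ctx ι α} (hP : Lin c e.P) (hN : e.env.Ok CP.N c.U)
  {F G : ∀ i, CA' → ℕ → Zq (e.q i)}

theorem hq {β : Type} [Enc β] {X : ι → ℕ → β}
    (h : Lin (e.env.cel c CP.N X) (e.env.el CP.N hN.1).P) :
    Lin (e.env.cel c CP.N X) fun t => List.replicate (e.q t.1.1) () :=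
  (h.parI (f := fun p => p.1.qU) (by fun_prop)).congr fun t => by
    rw [← (e.h t.1.1).hq, ← eq_rep]

omit hN [Enc α] in
theorem hs {β : Type} [Enc β] {X : ι → ℕ → β} :
    Small (fun t => e.q t.1.1) (e.env.cel c CP.N X).U :=
  (e.small.of_le fun _ => Nat.le_add_left _ _).re fun t : Pos fun i => (e.P i).N => t.1.1

include hP hN

theorem addA (hF : Lin c (e.arr F)) (hG : Lin c (e.arr G)) :
    Lin c (e.arr fun i => F i + G i) :=
  Lin.mapI (e := e.env) (fun i j => atm (e.q i) (e.B i) (e.val (fun i => F i + G i) i j)) hP hN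
    ((e.atv _).pair (e.atv _)) (Lin.ztab hF hG) fun h hx =>
      (Lin.addZ (hq hN h) hs (fun t => (e.h t.1.1).q1) hx.fst hx.snd).congr fun t => by
        refine congrArg _ (funext fun k => ?_)
        unfold val
        cases (e.P t.1.1).ok t.1.2 <;> simp

theorem mulA (m : ∀ q, Zq q)
    (H : ∀ {κ β : Type} [Enc β] {c : Ctx κ β} {q B : κ → ℕ},
      (Lin c fun i => List.replicate (q i) ()) → Small q c.U → (∀ i, 1 ≤ q i) →
      ∀ {x : ∀ i, ℕ → Zq (q i)}, (Lin c fun i => atm (q i) (B i) (x i)) →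
      Lin c fun i => atm (q i) (B i) fun k => m (q i) * x i k) (hF : Lin c (e.arr F)) :
    Lin c (e.arr fun i => m (e.q i) • F i) :=
  Lin.mapI (e := e.env) (fun i j => atm (e.q i) (e.B i) (e.val (fun i => m (e.q i) • F i) i j))
    hP hN (e.atv _) hF fun h hx =>
      (H (hq hN h) hs (fun t => (e.h t.1.1).q1) hx).congr fun t => by
        refine congrArg _ (funext fun k => ?_)
        unfold val
        cases (e.P t.1.1).ok t.1.2 <;> simp

theorem negA (hF : Lin c (e.arr F)) : Lin c (e.arr fun i => (-1 : Zq (e.q i)) • F i) :=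
  mulA hP hN (fun _ => -1) (fun a b c _ d => (Lin.negZ a b c d).congr fun _ => by simp) hF

theorem halfA (hF : Lin c (e.arr F)) : Lin c (e.arr fun i => hh (e.q i) • F i) :=
  mulA hP hN hh (fun a b c _ d => Lin.halfZ a b c d) hF

theorem iiA (hF : Lin c (e.arr F)) : Lin c (e.arr fun i => ii (e.q i) • F i) :=
  mulA hP hN ii (fun a b c _ d => Lin.mulI a b c d) hF

theorem sgA (b : Bool) (hF : Lin c (e.arr F)) :
    Lin c (e.arr fun i => (if b then -1 else 1 : Zq (e.q i)) • F i) := by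
  cases b
  · simpa using hF
  · simpa using negA hP hN hF

theorem cfA (a : Bool × Bool) (hF : Lin c (e.arr F)) :
    Lin c (e.arr fun i => cfC (hh (e.q i)) a • F i) := by
  obtain ⟨a, b⟩ := a
  cases b
  · simpa [cfC] using sgA hP hN a hF
  · simpa only [cfC, mul_smul, if_true] using sgA hP hN a (halfA hP hN hF)
end

/-- the tensor power of butterflies -/
abbrev cp (e : CE ι) (p k : ι → ℕ) (F : ∀ i, CA' → ℕ → Zq (e.q i)) (i : ι) : CA' → ℕ → Zq (e.q i) :=
  cpr (hh (e.q i)) (ii (e.q i)) (xo (e.q i) (e.P i).ρ) (fun c => Pi.single (p i + c) 1) (k i) (F i)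

theorem leaf (e : CE ι) (F : ∀ i, CA' → ℕ → Zq (e.q i)) :
    Op e.env e.U (e.arr F) (e.arr (e.cp (fun i => (e.P i).p) (fun _ => 1) F)) 0 :=
  Op.lin e.ok.bdE (e.bd F) fun hP hx => by
    have h1 : Lin _ _ := Lin.op (e := e.env) rfl hP hx (CE.Act.leaf e F)
    refine (halfA hP e.ok (addA hP e.ok (addA hP e.ok hx h1)
      (iiA hP e.ok (addA hP e.ok hx (negA hP e.ok h1))))).congr fun i => ?_
    refine congrArg (fun F => e.arr F i) (funext fun i => funext fun x => funext fun k => ?_)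
    simp [cp, cpr, cop, xo_apply]
    ring

theorem node (e : CE ι) {W : ℕ} {γ : ℝ} (hs : SWSpec W γ) (h0 : 0 ≤ γ) {J : ι → ℕ}
    (h : e.Sw W γ J) (hm : ∀ i, (e.P i).p + mm * (e.P i).k ≤ (e.P i).D) {T : ι → ℝ}
    (hT : ∀ i, 0 ≤ T i) (hr : ∀ (a : Fin mm) F, Op e.env e.U (e.arr F)
      (e.arr (e.cp (fun i => (e.P i).p + a * (e.P i).k) (fun i => (e.P i).k) F)) T)
    {w : ℕ} {τ : Equiv.Perm (Fin w)} {sg : Fin w → Bool} {t : Fin w → Fin mm → ZMod 2}
    {L : List (Ins (Fin w) ((Fin mm → ZMod 2) × Bool) (Bool × Bool))}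
    (hL : ∀ I ∈ L, I.Ok fun g => g.1 ≠ 0)
    (hn : ∀ (D V : Type) [CommRing D] [AddCommGroup V] [Module D V] (h i : D), 2 * h = 1 →
      i * i = -1 → ∀ (X : (ℕ → ZMod 2) → Module.End D V), X 0 = 1 →
      (∀ a b, X (a + b) = X a * X b) → ∀ (p κ : ℕ) (σ : Fin w → V),
      L.foldl (Ins.run (fun g => stepOp h i X p κ g) (cfC h)) σ = fun u =>
        (if sg u then -1 else 1 : D) • X (∑ c ∈ Finset.range κ, dir p κ (t u) c)
          (cpr h i X (fun c => Pi.single (p + c) 1) (mm * κ) (σ (τ u))))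
    (σ : Fin w → ∀ i, CA' → ℕ → Zq (e.q i)) :
    Op e.env e.U (fun i => List.ofFn fun u => e.arr (σ u) i)
      (fun i => List.ofFn fun u =>
        e.arr (e.cp (fun i => (e.P i).p) (fun i => mm * (e.P i).k) (σ u)) i)
      fun i => L.countP Ins.isStep * T i := by
  have hE := e.ok.bdE
  refine (Op.net (e := e.env) (M := fun i => CA' → ℕ → Zq (e.q i))
    (fun i => (e.P i).arr (e.q i) (e.B i))
    (fun i g => stepOp (hh (e.q i)) (ii (e.q i)) (xo (e.q i) (e.P i).ρ) (e.P i).p (e.P i).k g)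
    (fun i => cfC (hh (e.q i))) (fun g => g.1 ≠ 0) hE e.bd (fun g hg v => ?_) (fun a v v' => ?_)
    hT L hL fun i u => σ u i).thenL hE fun hP hx => Lin.ofFn (Cmp.bdx hx) fun u => ?_
  · obtain ⟨v₀, b⟩ := g
    obtain ⟨a, ha⟩ : ∃ a, v₀ a = 1 := by
      by_contra hc
      exact hg (funext fun a => (z2 (v₀ a)).resolve_right fun h => hc ⟨a, h⟩)
    have h1 := ((Act.th hs h0 h hm v₀ a v).trans0' (hr a _)).trans0 (Act.th hs h0 h hm v₀ a _)
    cases b
    · exact h1.congr (fun _ => rfl) fun i => by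
        rw [arr_eq, ← cpr_dir _ _ _ _ v₀ a ha]; rfl
    · exact (h1.trans0 (Act.tr hs h0 h hm v₀ _)).congr (fun _ => rfl) fun i => by
        simp only [arr_eq, stepOp, if_true, Module.End.mul_apply, xo_apply,
          cpr_dir _ _ _ _ v₀ a ha]
  · exact Op.lin hE ((e.bd v).szpair (e.bd v')) fun hP hx =>
      addA hP e.ok hx.fst (cfA hP e.ok a hx.snd)
  · have h1 := Lin.congr (y' := e.arr fun i => (if sg (τ.symm u) then -1 else 1 : Zq (e.q i)) •
        fun x => e.cp (fun i => (e.P i).p) (fun i => mm * (e.P i).k) (σ u) i (flp (e.P i).ρ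
          (∑ c ∈ Finset.range (e.P i).k, dir (e.P i).p (e.P i).k (t (τ.symm u)) c) x))
      (hx.getFn (τ.symm u)) fun i => by
        rw [hn _ _ _ _ (two_hh (e.h i).q1) (ii_mul _) _ (xo_zero _ (e.P i).ρ) (xo_add _ _)]
        simp only [Equiv.apply_symm_apply, xo_apply, arr_eq]
    have h2 : Lin _ _ := Lin.op (e := e.env) rfl hP (sgA hP e.ok (sg (τ.symm u)) h1)
      (Act.tr hs h0 h hm (t (τ.symm u)) _)
    refine h2.congr fun i => congrArg (fun F => e.arr F i) (funext fun i => funext fun x => ?_)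
    simp only [Pi.smul_apply, ← flp_add, add_self2, flp_zero, smul_smul]
    cases sg (τ.symm u) <;> simp

end CE

namespace CP
/-- parameters of the wires -/
def ch (W : ℕ) (P : CP) : CP :=
  ((P.uU, P.gU, P.DU, P.kU.take (P.k / mm), P.qU), (P.w / W, P.ρ, P.p))
/-- parameters of a recursive call -/
def sp (a : ℕ) (P : CP) : CP := (P.1, (P.w, P.ρ, P.p + a * P.k))

theorem pt_ch (W : ℕ) : PT (ch W) := by unfold ch; fun_prop
theorem pt_sp (a : ℕ) : PT (sp a) := by unfold sp; fun_prop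

variable {P : CP} {W : ℕ}

theorem ch_k : (P.ch W).k = P.k / mm := by
  simp only [ch, k, kU, List.length_take]; exact min_eq_left (Nat.div_le_self _ _)

theorem ch_N (h : W ∣ P.w) : W * (P.ch W).N = P.N := by
  rw [N, ← mul_assoc]
  exact congrArg (· * _) (Nat.mul_div_cancel' h)

theorem ch_dec (h : W ∣ P.w) {u : ℕ} (hu : u < W) (j : ℕ) :
    P.dec (u + W * j) = (u + W * ((P.ch W).dec j).1, ((P.ch W).dec j).2) := by
  have e : P.w = W * (P.ch W).w := (Nat.mul_div_cancel' h).symm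
  have e1 : (u + W * j) / W = j := by
    rw [Nat.add_mul_div_left _ _ (by omega), Nat.div_eq_of_lt hu, zero_add]
  refine Prod.ext ?_ (funext fun r => ?_)
  · dsimp only [dec, cdec]
    rw [e, Nat.mod_mul, e1, Nat.add_mul_mod_self_left, Nat.mod_eq_of_lt hu]
  · dsimp only [dec, cdec, dg]
    rw [e, mul_assoc, ← Nat.div_div_eq_div_mul, e1]
    rfl

theorem ch_ok (h : W ∣ P.w) {u : ℕ} (hu : u < W) (j : ℕ) : P.ok (u + W * j) = (P.ch W).ok j :=
  Bool.eq_iff_iff.2 (by rw [ok_iff, ok_iff, ch_dec h hu]; rfl)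
end CP

/-- the family of the wires -/
abbrev CE.ch (e : CE ι) (W : ℕ) (h : ∀ i, W ∣ (e.P i).w ∧ mm ≤ (e.P i).k) : CE ι where
  s := e.s
  P := fun i => (e.P i).ch W
  q := e.q
  B := e.B
  U := e.U
  h := fun i => by
    have h0 := e.h i
    have hW : 0 < W := Nat.pos_of_dvd_of_pos (h i).1 h0.w0
    have h1 := Nat.div_le_self (e.P i).k mm
    have h2 : ((e.P i).ch W).N ≤ (e.P i).N := CP.ch_N (h i).1 ▸ Nat.le_mul_of_pos_left _ hW
    exact ⟨Nat.div_pos (Nat.le_of_dvd h0.w0 (h i).1) hW, h0.g1, h0.u0, h0.q1, h0.hq,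
      CP.ch_k ▸ Nat.div_pos (h i).2 (by decide), CP.ch_k ▸ h1.trans h0.hp,
      CP.ch_k ▸ (Nat.add_le_add_left h1 _).trans h0.hD, h0.hρ,
      (qp_mono (Nat.add_le_add_right (Nat.size_le_size h2) _)).trans h0.hB⟩
  hU := e.hU.of_le fun i => by
    have hW : 0 < W := Nat.pos_of_dvd_of_pos (h i).1 (e.h i).w0
    have h2 : ((e.P i).ch W).N ≤ (e.P i).N := CP.ch_N (h i).1 ▸ Nat.le_mul_of_pos_left _ hW
    gcongr

/-- one wire -/
def wire {q : ℕ} (W u : ℕ) (F : CA' → ℕ → Zq q) : CA' → ℕ → Zq q := fun x => F (u + W * x.1, x.2)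

theorem CE.val_wire (e : CE ι) {W : ℕ} (h : ∀ i, W ∣ (e.P i).w ∧ mm ≤ (e.P i).k)
    (F : ∀ i, CA' → ℕ → Zq (e.q i)) {u : ℕ} (hu : u < W) (i : ι) (j : ℕ) :
    e.val F i (u + W * j) = (e.ch W h).val (fun i => wire W u (F i)) i j := by
  rw [CE.val, CP.ch_dec (h i).1 hu, CP.ch_ok (h i).1 hu]; rfl

theorem cpr_wire {q : ℕ} (W u ρ k : ℕ) (τ : ℕ → ℕ → ZMod 2) (F : CA' → ℕ → Zq q) :
    cpr (hh q) (ii q) (xo q ρ) τ k (wire W u F) = wire W u (cpr (hh q) (ii q) (xo q ρ) τ k F) :=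
  (LinearMap.congr_fun (cpr_comm (hh q) (ii q) (xo q ρ)
    (LinearMap.funLeft _ _ fun x : CA' => (u + W * x.1, x.2)) (fun _ => rfl) τ k).eq F).symm

theorem CE.wires (e : CE ι) {W : ℕ} (h : ∀ i, W ∣ (e.P i).w ∧ mm ≤ (e.P i).k)
    {F G : ∀ i, CA' → ℕ → Zq (e.q i)} {V : ι → ℝ}
    (H : Op (e.ch W h).env e.U
      (fun i => List.ofFn fun u : Fin W => (e.ch W h).arr (fun i => wire W u (F i)) i)
      (fun i => List.ofFn fun u : Fin W => (e.ch W h).arr (fun i => wire W u (G i)) i) V) :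
    Cmp e.s (fun i => (e.P i, e.arr F i)) (e.arr G) e.U V := by
  have h0 := Lin.self (c := e.env.ctx e.U (e.arr F)) ((e.env.hS.bd.trans e.ok.bdE).szpair (e.bd F))
  have h1 := Lin.par (e := e.env) h0.fst e.ok.bdE (CP.pt_ch W)
  have h2 := Lin.unitsP (e := (e.ch W h).env) h1 (e.ch W h).ok
  have h3 := Lin.ofFn (y := fun i (u : Fin W) => (e.ch W h).arr (fun i => wire W u (F i)) i)
    (Cmp.bdx h0) fun u => (Lin.split (F := fun i j => atm (e.q i) (e.B i) (e.val F i j)) W u u.2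
      (h0.snd.congr fun i => by rw [CP.ch_N (h i).1]; rfl) h2).congr fun i =>
        tab_congr fun j _ => by rw [e.val_wire h F u.2]
  have h4 := Cmp.trans0' (h1.pair h3) H
  have h5 := Lin.self (c := ⟨e.s, _, e.U⟩) h4.bdy
  refine h4.trans0 ((Lin.join W (G := fun i u j => atm (e.q i) (e.B i)
    ((e.ch W h).val (fun i => wire W u (G i)) i j))
    (Lin.unitsP (e := (e.ch W h).env) h5.fst (e.ch W h).ok)
    fun u hu => h5.snd.getFn ⟨u, hu⟩).congr fun i => ?_)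
  have hW : 0 < W := Nat.pos_of_dvd_of_pos (h i).1 (e.h i).w0
  rw [CP.ch_N (h i).1]
  exact tab_congr fun j _ => by rw [← e.val_wire h G (Nat.mod_lt _ hW), Nat.mod_add_div]

/-- instances of the recursion -/
structure CK (WS WC : ℕ) where
  s : Prog
  J : ℕ
  j : ℕ
  P : CP
  q : ℕ
  B : ℕ
  F : CA' → ℕ → Zq q
  h : CG P q B
  hu : P.u = mm ^ J
  hk : P.k = mm ^ j
  hw : WC ^ j * WS ^ (J + j) ∣ P.w
  hρ : j = 0 ∨ P.ρ + 1 + 2 * P.g ≤ P.K

namespace CK
variable {WS WC : ℕ} (γ : ℝ) (k : CK WS WC)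
/-- input -/
def x : CP × List Atom := (k.P, k.P.arr k.q k.B k.F)
/-- output -/
def y : List Atom := k.P.arr k.q k.B
  (cpr (hh k.q) (ii k.q) (xo k.q k.P.ρ) (fun c => Pi.single (k.P.p + c) 1) k.P.k k.F)
/-- size -/
noncomputable def M : ℝ := k.P.N * (k.B * (k.q + 1))
/-- total cost -/
noncomputable def τ : ℝ := (k.j * (k.P.g + 2) * γ ^ (k.J + k.j) + γ ^ k.j) * k.M
/-- cost of one level -/
noncomputable def U : ℝ := (if k.j = 0 then 1 else (k.P.g + 2) * γ ^ (k.J + k.j)) * k.M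

theorem M0 : 0 ≤ k.M := by unfold M; positivity

theorem M_le (h : 1 ≤ γ) : k.M ≤ k.U γ := by
  refine le_mul_of_one_le_left k.M0 ?_
  split_ifs
  · rfl
  · exact one_le_mul_of_one_le_of_one_le (by linarith [(by positivity : (0 : ℝ) ≤ k.P.g)])
      (one_le_pow₀ h)

theorem V_eq {n : ℕ} (h : k.j = n + 1) :
    k.τ γ - k.U γ = γ * ((n * (k.P.g + 2) * γ ^ (k.J + n) + γ ^ n) * k.M) := by
  rw [τ, U, h, if_neg (by omega)]; push_cast; ring

theorem V0 (h : 0 ≤ γ) : 0 ≤ k.τ γ - k.U γ := by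
  rcases hj : k.j with _ | n
  · simp [τ, U, hj]
  · have := k.M0
    rw [k.V_eq γ hj]; positivity

theorem kk {n : ℕ} (h : k.j = n + 1) : k.P.k = mm * mm ^ n ∧ (k.P.ch WC).k = mm ^ n ∧
    WC ∣ k.P.w ∧ mm ≤ k.P.k ∧ WC ^ n * WS ^ (k.J + n) ∣ (k.P.ch WC).w := by
  have e : k.P.k = mm * mm ^ n := by rw [k.hk, h, pow_succ']
  have hw := k.hw
  rw [h, pow_succ', mul_assoc, ← add_assoc, pow_succ, ← mul_assoc (WC ^ n)] at hw
  refine ⟨e, by rw [CP.ch_k, e, Nat.mul_div_cancel_left _ (by decide)], (Dvd.intro _ rfl).trans hw,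
    e ▸ Nat.le_mul_of_pos_right _ (pow_pos (by decide) _), (Dvd.intro _ rfl).trans
      (Nat.dvd_div_of_mul_dvd hw)⟩
end CK

theorem cn_rec (h : CNetStmt) {WS : ℕ} {γ : ℝ} (h1 : 1 ≤ γ) (h2 : γ < mm) (hs : SWSpec WS γ) :
    ∃ (WC : ℕ) (γ' : ℝ), 0 < WC ∧ γ ≤ γ' ∧ γ' < mm ∧
      Cmp CK.s (CK.x (WS := WS) (WC := WC)) CK.y (CK.τ γ') 0 := by
  obtain ⟨W, τ, sg, t, L, hW, hc, hL, hn⟩ := h
  have hW' : (0 : ℝ) < W := by exact_mod_cast hW
  obtain ⟨γ', g1, g2, g3⟩ : ∃ γ' : ℝ, γ ≤ γ' ∧ γ' < mm ∧ (L.countP Ins.isStep : ℝ) ≤ γ' * W := by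
    refine ⟨max γ (L.countP Ins.isStep / W), le_max_left _ _, max_lt h2 ?_, ?_⟩
    · rw [div_lt_iff₀ hW', mul_comm]; exact_mod_cast hc
    · rw [← div_le_iff₀ hW']; exact le_max_right _ _
  replace hs := hs.mono (by linarith) g1
  replace h1 : 1 ≤ γ' := h1.trans g1
  have h0 : 0 ≤ γ' := by linarith
  refine ⟨W, γ', hW, g1, g2, Cmp.recur CK.j (U := CK.U γ') (V := fun k => k.τ γ' - k.U γ')
    (fun k => by simp) (fun k => k.V0 γ' h0) ?_ _⟩
  let E : ∀ {κ : Type}, (κ → RI (CK.x (WS := WS) (WC := W)) CK.y CK.j (CK.τ γ')) → CE κ :=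
    fun r => ⟨fun i => (r i).s, fun i => (r i).k.P, fun i => (r i).k.q, fun i => (r i).k.B,
      fun i => (r i).k.U γ', fun i => (r i).k.h,
      Bd.le_right (fun i => (r i).k.M0) fun i => (r i).k.M_le γ' h1⟩
  have hx := Lin.self (c := (E id).env.ctx (E id).U ((E id).arr fun r => r.k.F))
    (((E id).env.hS.bd.trans (E id).ok.bdE).szpair ((E id).bd _))
  refine Cmp.cases (b := fun r => decide (r.k.P.k = 1)) (Lin.par (e := (E id).env) hx.fst
    (E id).ok.bdE (f := fun P => decide (P.k = 1)) (by fun_prop)) ?_ ?_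
  · let e := E fun r : {r : RI (CK.x (WS := WS) (WC := W)) CK.y CK.j (CK.τ γ') //
      decide (r.k.P.k = 1) = true} => r.1
    have h3 := e.leaf fun r => r.1.k.F
    refine ((Cmp.trans0 h3 (Lin.self (c := ⟨e.s, _, e.U⟩) (Cmp.bdy h3)).snd).monoV
      fun r => mul_nonneg r.1.C0 (r.1.k.V0 γ' h0)).congr (fun _ => rfl) fun r => ?_
    rw [CK.y, of_decide_eq_true r.2]; rfl
  · let e := E fun r : {r : RI (CK.x (WS := WS) (WC := W)) CK.y CK.j (CK.τ γ') //
      decide (r.k.P.k = 1) = false} => r.1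
    have hj : ∀ r : {r : RI (CK.x (WS := WS) (WC := W)) CK.y CK.j (CK.τ γ') //
        decide (r.k.P.k = 1) = false}, r.1.k.j = r.1.k.j - 1 + 1 := fun r => by
      have := of_decide_eq_false r.2
      rw [r.1.k.hk] at this
      have : r.1.k.j ≠ 0 := fun h => this (by rw [h, pow_zero])
      omega
    have hk := fun r => CK.kk _ (hj r)
    let e' := e.ch W fun r => ⟨(hk r).2.2.1, (hk r).2.2.2.1⟩
    have hm : ∀ r, (e'.P r).p + mm * (e'.P r).k ≤ (e'.P r).D := fun r => by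
      have := r.1.k.h.hD
      rw [(hk r).1, ← (hk r).2.1] at this
      exact this
    have hρ : ∀ r, (e'.P r).ρ + 1 + 2 * (e'.P r).g ≤ (e'.P r).K := fun r =>
      r.1.k.hρ.resolve_left (by have := hj r; omega)
    have hM : ∀ r, W * ((e'.P r).N * (e'.B r * (e'.q r + 1)) : ℝ) = r.1.k.M := fun r => by
      rw [CK.M, ← CP.ch_N (hk r).2.2.1]; push_cast; ring
    have H := e'.node hs h0 (J := fun r => r.1.k.J + (r.1.k.j - 1))
      ⟨fun r => ⟨?_, (Dvd.intro_left _ rfl).trans (hk r).2.2.2.2, hρ r⟩, ?_⟩ hm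
      (T := fun r => r.1.C * ((((r.1.k.j - 1 : ℕ) * ((e'.P r).g + 2) * γ' ^ (r.1.k.J + (r.1.k.j - 1))
        + γ' ^ (r.1.k.j - 1)) * ((e'.P r).N * (e'.B r * (e'.q r + 1))))))
      (fun r => mul_nonneg r.1.C0 (by positivity)) (fun a F => ?_) hL hn
      fun u r => wire W u r.1.k.F
    · refine (e.wires _ (G := e.cp (fun r => (e.P r).p) (fun r => (e.P r).k) fun r => r.1.k.F)
        (H.congr (fun _ => rfl) fun r => ?_)).monoV fun r => ?_
      · refine congrArg _ (funext fun u => ?_)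
        rw [CE.arr_eq, CE.arr_eq, CE.cp, CE.cp, cpr_wire]
        dsimp only [e', e, E]
        rw [(hk r).2.1, ← (hk r).1]
        rfl
      · rw [r.1.k.V_eq γ' (hj r), ← hM, mul_left_comm]
        refine mul_le_mul_of_nonneg_left ?_ r.1.C0
        rw [mul_left_comm _ (W : ℝ), ← mul_assoc γ']
        exact mul_le_mul_of_nonneg_right g3 (by positivity)
    · rw [pow_add, ← (hk r).2.1, ← r.1.k.hu]; rfl
    · refine Bd.le_right (fun r => by positivity) fun r => ?_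
      change _ ≤ CK.U γ' r.1.k
      rw [CK.U, if_neg (by have := hj r; omega), ← hM]
      have : (1 : ℝ) ≤ W := by exact_mod_cast hW
      exact mul_le_mul (mul_le_mul_of_nonneg_left (pow_le_pow_right₀ h1 (by dsimp only; omega))
        (by positivity)) (le_mul_of_one_le_left (by positivity) this) (by positivity)
        (by positivity)
    · have hE := e'.ok.bdE
      let K : _ → CK WS W := fun r : {r : RI (CK.x (WS := WS) (WC := W)) CK.y CK.j (CK.τ γ') //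
          decide (r.k.P.k = 1) = false} =>
        ⟨r.1.s, r.1.k.J, r.1.k.j - 1, (e'.P r).sp a, e'.q r, e'.B r, F r,
          ⟨(e'.h r).w0, (e'.h r).g1, (e'.h r).u0, (e'.h r).q1, (e'.h r).hq, (e'.h r).k0,
            (CE.grp_le hm a r).1, (CE.grp_le hm a r).2, (e'.h r).hρ, (e'.h r).hB⟩,
          r.1.k.hu, (hk r).2.1, (hk r).2.2.2.2, Or.inr (hρ r)⟩
      have h6 := RI.call (fun r => r.1) K (U := e'.U)
        (fun r => by have := hj r; dsimp only [K]; omega)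
        (((e'.env.hS.pt (CP.pt_sp a)).bd.trans hE).szpair (e'.bd F))
        (e'.bd (e'.cp (fun i => (e'.P i).p + a * (e'.P i).k) (fun i => (e'.P i).k) F))
      exact Op.call (CP.pt_sp a) hE (e'.bd F) h6

theorem cn (h : CNetStmt) {WS : ℕ} {γ : ℝ} (h1 : 1 ≤ γ) (h2 : γ < mm) (hs : SWSpec WS γ) :
    ∃ (WC : ℕ) (γ' : ℝ), 0 < WC ∧ γ ≤ γ' ∧ γ' < mm ∧ CNSpec WS WC γ' := by
  obtain ⟨W, γ', a1, a2, a3, H⟩ := cn_rec h h1 h2 hs
  refine ⟨W, γ', a1, a2, a3, fun ι s J j w g ρ p D q B F hc => ?_⟩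
  let P : ι → CP := fun i => ((List.replicate (mm ^ J i) (), List.replicate (g i) (),
    List.replicate (D i) (), List.replicate (mm ^ j i) (), List.replicate (q i) ()),
    (w i, ρ i, p i))
  have eu : ∀ i, (P i).u = mm ^ J i := fun i => List.length_replicate
  have eg : ∀ i, (P i).g = g i := fun i => List.length_replicate
  have eD : ∀ i, (P i).D = D i := fun i => List.length_replicate
  have ek : ∀ i, (P i).k = mm ^ j i := fun i => List.length_replicate
  have eK : ∀ i, (P i).K = g i * mm ^ J i := fun i => by rw [CP.K_eq, eu, eg]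
  have eR : ∀ i, (P i).R = (2 ^ g i + 1) ^ mm ^ J i := fun i => by rw [CP.R, CP.Q, eu, eg]
  have eN : ∀ i, (P i).N = w i * ((2 ^ g i + 1) ^ mm ^ J i) ^ D i := fun i => by
    rw [CP.N, eR, eD]; rfl
  let K : ι → CK WS W := fun i => ⟨s i, J i, j i, P i, q i, B i, F i,
    ⟨(hc i).2.1, eg i ▸ (hc i).2.2.1, eu i ▸ pow_pos (by decide) _, (hc i).2.2.2.1,
      List.length_replicate, ek i ▸ pow_pos (by decide) _, ek i ▸ (hc i).2.2.2.2.1,
      ek i ▸ eD i ▸ (hc i).2.2.2.2.2.1, eK i ▸ (hc i).2.2.2.2.2.2.1,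
      eN i ▸ (hc i).2.2.2.2.2.2.2.2⟩, eu i, ek i, (hc i).1,
      eK i ▸ eg i ▸ (hc i).2.2.2.2.2.2.2.1⟩
  have e : (fun i => CK.τ γ' (K i)) = fun i => (j i * (g i + 2) * γ' ^ (J i + j i) + γ' ^ j i) *
      ((w i * ((2 ^ g i + 1) ^ mm ^ J i) ^ D i : ℕ) * (B i * (q i + 1))) := funext fun i => by
    simp only [CK.τ, CK.M, K, eg, eN]
  have H := H.re K
  rw [e] at H
  refine H.congr (fun i => ?_) fun i => ?_
  · simp only [CK.x, K, CP.arr, eR, eK, eD]; rfl
  · simp only [CK.y, K, CP.arr, eR, eK, eD, ek]; rfl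

end Vale.Agent.P338
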