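import Vale.Agent.Lib.H24.PTList

/-! Stack programs with recursion. -/

namespace Vale.Agent.P338

open Function
open Vale.Agent.Lib.H24.T (scons W Tr ser serB update_scons_succ update_scons_zero scons_nil
  W0 W1 W2 W3 uW0 uW1 uW2 uW3)

/-- Structured programs over Boolean stacks, with recursion. -/
inductive Prog : Type
  | skip : Prog
  | push (x : ℕ) (γ : Bool) : Prog
  | pushv (x : ℕ) (d : Bool) : Prog
  | pop (x : ℕ) : Prog
  | popv (x : ℕ) : Prog
  | seq (p q : Prog) : Prog
  | ifv (f : Option Bool → Bool) (p q : Prog) : Prog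
  | whilePop (x : ℕ) (p : Prog) : Prog
  | call (x : ℕ) : Prog
  | fix (x : ℕ) (b : Prog) : Prog

/-- Big step semantics; the first argument is the program run by `call`. -/
inductive Exec : Prog → Prog → Option Bool → (ℕ → List Bool) → ℕ → Option Bool →
    (ℕ → List Bool) → Prop
  | skip {s v S} : Exec s .skip v S 0 v S
  | push {s x γ v S} : Exec s (.push x γ) v S 0 v (update S x (γ :: S x))
  | pushv {s x d v S} : Exec s (.pushv x d) v S 0 v (update S x (v.getD d :: S x))
  | pop {s x v S} : Exec s (.pop x) v S 0 v (update S x (S x).tail)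
  | popv {s x v S} : Exec s (.popv x) v S 0 (S x).head? (update S x (S x).tail)
  | seq {s p q v S t v1 S1 t' v2 S2} : Exec s p v S t v1 S1 → Exec s q v1 S1 t' v2 S2 →
      Exec s (.seq p q) v S (t + t') v2 S2
  | ifT {s f p q v S t v' S'} : f v = true → Exec s p v S t v' S' →
      Exec s (.ifv f p q) v S t v' S'
  | ifF {s f p q v S t v' S'} : f v = false → Exec s q v S t v' S' →
      Exec s (.ifv f p q) v S t v' S'
  | whileNil {s x p v S} : S x = [] → Exec s (.whilePop x p) v S 1 none S
  | whileCons {s x p v S γ l t v1 S1 t' v2 S2} : S x = γ :: l →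
      Exec s p (some γ) (update S x l) t v1 S1 → Exec s (.whilePop x p) v1 S1 t' v2 S2 →
      Exec s (.whilePop x p) v S (t + t' + 1) v2 S2
  | call {s x v S t v' y} : Exec s s none (W (S x) [] [] []) t v' (W y [] [] []) →
      Exec s (.call x) v S (t + (S x).length + y.length + 1) none (update S x y)
  | fix {s x b v S t v' y} : Exec b b none (W (S x) [] [] []) t v' (W y [] [] []) →
      Exec s (.fix x b) v S (t + (S x).length + y.length + 1) none (update S x y)

/-- Renaming of stacks. -/
def Prog.up : Prog → Prog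
  | .skip => .skip
  | .push x γ => .push (x + 1) γ
  | .pushv x d => .pushv (x + 1) d
  | .pop x => .pop (x + 1)
  | .popv x => .popv (x + 1)
  | .seq p q => .seq p.up q.up
  | .ifv f p q => .ifv f p.up q.up
  | .whilePop x p => .whilePop (x + 1) p.up
  | .call x => .call (x + 1)
  | .fix x b => .fix (x + 1) b

theorem exec_up (l : List Bool) {s p v S t v' S'} (h : Exec s p v S t v' S') :
    Exec s p.up v (scons l S) t v' (scons l S') := by
  induction h with
  | skip => exact Exec.skip
  | push => rw [← update_scons_succ]; exact Exec.push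
  | pushv => rw [← update_scons_succ]; exact Exec.pushv
  | pop => rw [← update_scons_succ]; exact Exec.pop
  | popv => rw [← update_scons_succ]; exact Exec.popv
  | seq h1 h2 ih1 ih2 => exact Exec.seq ih1 ih2
  | ifT hf h1 ih => exact Exec.ifT hf ih
  | ifF hf h1 ih => exact Exec.ifF hf ih
  | whileNil hx => exact Exec.whileNil hx
  | whileCons hx h1 h2 ih1 ih2 =>
    rw [← update_scons_succ] at ih1
    exact Exec.whileCons hx ih1 ih2
  | call h _ => rw [← update_scons_succ]; exact Exec.call h
  | fix h _ => rw [← update_scons_succ]; exact Exec.fix h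

/-- Embedding of recursion-free programs. -/
def emb : Vale.Agent.Lib.H24.T.Prog ℕ Bool → Prog
  | .skip => .skip
  | .push x γ => .push x γ
  | .pushv x d => .pushv x d
  | .pop x => .pop x
  | .popv x => .popv x
  | .seq p q => .seq (emb p) (emb q)
  | .ifv f p q => .ifv f (emb p) (emb q)
  | .whilePop x p => .whilePop x (emb p)

theorem exec_emb (s : Prog) {p v S t v' S'} (h : Vale.Agent.Lib.H24.T.Exec p v S t v' S') :
    Exec s (emb p) v S t v' S' := by
  induction h with
  | skip => exact Exec.skip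
  | push => exact Exec.push
  | pushv => exact Exec.pushv
  | pop => exact Exec.pop
  | popv => exact Exec.popv
  | seq h1 h2 ih1 ih2 => exact Exec.seq ih1 ih2
  | ifT hf h1 ih => exact Exec.ifT hf ih
  | ifF hf h1 ih => exact Exec.ifF hf ih
  | whileNil hx => exact Exec.whileNil hx
  | whileCons hx h1 h2 ih1 ih2 => exact Exec.whileCons hx ih1 ih2

/-- The number of push instructions. -/
def Prog.size : Prog → ℕ
  | .push _ _ => 1
  | .pushv _ _ => 1
  | .seq p q => p.size + q.size
  | .ifv _ p q => p.size + q.size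
  | .whilePop _ p => p.size
  | .call _ => 1
  | .fix _ _ => 1
  | _ => 0

theorem exec_length {s p v S t v' S'} (h : Exec s p v S t v' S') (r : ℕ) :
    (S' r).length ≤ (S r).length + p.size * (t + 1) := by
  induction h with
  | skip => simp
  | @push s x γ v S => by_cases hr : r = x <;> simp [hr, Prog.size]
  | @pushv s x γ v S => by_cases hr : r = x <;> simp [hr, Prog.size]
  | @pop s x v S => by_cases hr : r = x <;> simp [hr, Prog.size]
  | @popv s x v S => by_cases hr : r = x <;> simp [hr, Prog.size]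
  | seq h1 h2 ih1 ih2 => simp only [Prog.size]; nlinarith
  | ifT hf h1 ih => simp only [Prog.size]; nlinarith
  | ifF hf h1 ih => simp only [Prog.size]; nlinarith
  | whileNil hx => simp
  | @whileCons s x p v S γ l t v1 S1 t' v2 S2 hx h1 h2 ih1 ih2 =>
    have : (update S x l r).length ≤ (S r).length := by
      by_cases hr : r = x
      · subst hr; simp [hx]
      · simp [hr]
    simp only [Prog.size] at *
    nlinarith
  | @call s x v S t v' y h _ => by_cases hr : r = x <;> simp [hr, Prog.size]; omega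
  | @fix s x b v S t v' y h _ => by_cases hr : r = x <;> simp [hr, Prog.size]; omega

/-- Hoare triple with a time bound. -/
def Tri (s p : Prog) (S S' : ℕ → List Bool) (t : ℕ) : Prop :=
  ∀ v, ∃ t' v', t' ≤ t ∧ Exec s p v S t' v' S'

/-- `p` turns the word `x` on stack `0` into `y` within time `t`. -/
def Run (s p : Prog) (x y : List Bool) (t : ℕ) : Prop :=
  Tri s p (W x [] [] []) (W y [] [] []) t

variable {s : Prog}

theorem Tri.emb {p S S' t} (h : Vale.Agent.Lib.H24.T.Tri p S S' t) : Tri s (emb p) S S' t :=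
  fun v => by
    obtain ⟨t1, v1, h1, h2⟩ := h v
    exact ⟨t1, v1, h1, exec_emb s h2⟩

theorem Run.emb {p x y t} (h : Vale.Agent.Lib.H24.T.Run p x y t) : Run s (emb p) x y t :=
  Tri.emb h

theorem Tri.mono {p S S' t t'} (h : Tri s p S S' t) (ht : t ≤ t') : Tri s p S S' t' := fun v => by
  obtain ⟨t1, v1, h1, h2⟩ := h v
  exact ⟨t1, v1, h1.trans ht, h2⟩

theorem Tri.seq {p q S S1 S2 t t'} (h : Tri s p S S1 t) (h' : Tri s q S1 S2 t') :
    Tri s (.seq p q) S S2 (t + t') := fun v => by
  obtain ⟨t1, v1, h1, h2⟩ := h v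
  obtain ⟨t2, v2, h3, h4⟩ := h' v1
  exact ⟨t1 + t2, v2, by omega, h2.seq h4⟩

theorem Tri.cast {p S S' t S₁ S₁'} (h : Tri s p S S' t) (h1 : S = S₁) (h2 : S' = S₁') :
    Tri s p S₁ S₁' t := h1 ▸ h2 ▸ h

theorem Tri.skip {S} : Tri s .skip S S 0 := fun v => ⟨0, v, le_rfl, Exec.skip⟩

theorem Tri.push (x b S) : Tri s (.push x b) S (update S x (b :: S x)) 0 :=
  fun v => ⟨0, v, le_rfl, Exec.push⟩

theorem Tri.pop (x S) : Tri s (.pop x) S (update S x (S x).tail) 0 :=
  fun v => ⟨0, v, le_rfl, Exec.pop⟩

theorem Tri.up {p S S' t} (l : List Bool) (h : Tri s p S S' t) :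
    Tri s p.up (scons l S) (scons l S') t := fun v => by
  obtain ⟨t1, v1, h1, h2⟩ := h v
  exact ⟨t1, v1, h1, exec_up l h2⟩

/-- Pop a symbol and branch on it. -/
def brk (x : ℕ) (p q : Prog) : Prog := .seq (.popv x) (.ifv (fun o => o.getD false) p q)

theorem Tri.brkT {x p q S S' t l} (hx : S x = true :: l) (h : Tri s p (update S x l) S' t) :
    Tri s (brk x p q) S S' t := fun v => by
  obtain ⟨t1, v1, h1, h2⟩ := h (some true)
  refine ⟨0 + t1, v1, by omega, Exec.seq Exec.popv (Exec.ifT ?_ ?_)⟩ <;> simp [hx, h2]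

theorem Tri.brkF {x p q S S' t l} (hx : S x = false :: l) (h : Tri s q (update S x l) S' t) :
    Tri s (brk x p q) S S' t := fun v => by
  obtain ⟨t1, v1, h1, h2⟩ := h (some false)
  refine ⟨0 + t1, v1, by omega, Exec.seq Exec.popv (Exec.ifF ?_ ?_)⟩ <;> simp [hx, h2]

theorem Tri.whileNil {x p S} (hx : S x = []) : Tri s (.whilePop x p) S S 1 :=
  fun _ => ⟨1, none, le_rfl, Exec.whileNil hx⟩

theorem Tri.whileCons {x p S b l S1 S2 t t'} (hx : S x = b :: l)
    (h : Tri s p (update S x l) S1 t)
    (h' : Tri s (.whilePop x p) S1 S2 t') : Tri s (.whilePop x p) S S2 (t + t' + 1) := fun _ => by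
  obtain ⟨t1, v1, h1, h2⟩ := h (some b)
  obtain ⟨t2, v2, h3, h4⟩ := h' v1
  exact ⟨t1 + t2 + 1, v2, by omega, Exec.whileCons hx h2 h4⟩

theorem Run.mono {p x y t t'} (h : Run s p x y t) (ht : t ≤ t') : Run s p x y t' := Tri.mono h ht

theorem Run.length {p x y t} (h : Run s p x y t) : y.length ≤ x.length + p.size * (t + 1) := by
  obtain ⟨t', v', h1, h2⟩ := h none
  have := exec_length h2 0
  simp only [W0] at this
  nlinarith

theorem Run.comp {p q x y z t t'} (h : Run s p x y t) (h' : Run s q y z t') :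
    Run s (.seq p q) x z (t + t') := Tri.seq h h'

theorem Run.call {x y t} (h : Run s s x y t) :
    Run s (.call 0) x y (t + x.length + y.length + 1) := fun v => by
  obtain ⟨t', v', h1, h2⟩ := h none
  have := Exec.call (x := 0) (v := v) (S := W x [] [] []) h2
  rw [uW0] at this
  exact ⟨_, _, by simp; omega, this⟩

theorem Run.fix {b x y t} (h : Run b b x y t) :
    Run s (.fix 0 b) x y (t + x.length + y.length + 1) := fun v => by
  obtain ⟨t', v', h1, h2⟩ := h none
  have := Exec.fix (s := s) (x := 0) (v := v) (S := W x [] [] []) h2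
  rw [uW0] at this
  exact ⟨_, _, by simp; omega, this⟩

end Vale.Agent.P338
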