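import Vale.Agent.P338.Defs
import Vale.Agent.P338.Prog
import Vale.Agent.Lib.H24.PTNum
import Vale.Agent.P344.Fourier

/-! Shared definitions and the statements of the independent modules. -/

namespace Vale.Agent.P338

open Function
open Vale.Agent.Lib.H24.T (code PT)

/-- little-endian value of a bit list -/
def lv : List Bool → ℕ
  | [] => 0
  | b :: l => b.toNat + 2 * lv l

/-- little-endian bits, length `k` -/
def lb (k z : ℕ) : List Bool := (List.range k).map fun j => z.testBit j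

/-! ### Module A: compilation and final statement -/

/-- Module A, part 1 (file Compile.lean, theorem `compile`). -/
def CompileStmt : Prop :=
  ∀ p : Prog, ∃ (M : TM) (C : ℕ), ∀ (x y out : List Bool) (t : ℕ),
    Run p p (code (y.reverse, x.reverse)) (code out) t →
    ∃ t', t' ≤ C * (t + x.length + y.length + out.length + 1) ∧ M.HaltsIn x y t' ∧
      (M.step^[t'] (M.init x y)).tape M.out = M.word (out.map M.bit)

/-- What the algorithm delivers: a stack program multiplying little-endian factors. -/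
def AlgStmt : Prop :=
  ∃ (p : Prog) (C κ : ℝ), 0 < κ ∧ κ < 1 ∧ ∀ (s : Prog) (x y : List Bool), x.length = y.length →
    ∃ t : ℕ, (t : ℝ) ≤ C * (x.length + 1) * Real.logb 2 (x.length + 2) ^ (1 - κ) ∧
      Run s p (code (x, y)) (code (lb (2 * x.length) (lv x * lv y))) t

/-- Module A, part 2 (file Final.lean, theorem `final : AlgStmt → FinalStmt`). -/
def FinalStmt : Prop :=
  (∃ M : TM, M.Multiplies ∧ ∃ C κ : ℝ, 0 < κ ∧ ∀ n : ℕ, 2 ≤ n →
    (M.T n : ℝ) ≤ C * n * Real.log n ^ (1 - κ)) ∧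
  ¬ ∀ M : TM, M.Multiplies → ∃ c : ℝ, 0 < c ∧ ∃ N : ℕ, 2 ≤ N ∧ ∀ n : ℕ, N ≤ n →
    c * n * Real.log n ≤ M.T n

/-! ### Module B: the two finite networks -/

/-- Instructions of a network on wires `W`. -/
inductive Ins (W G C : Type) : Type
  | step (w : W) (g : G) : Ins W G C
  | gate (w w' : W) (c : C) : Ins W G C

/-- Effect of one instruction. -/
def Ins.run {W G C D V : Type} [DecidableEq W] [CommRing D] [AddCommGroup V] [Module D V]
    (Γ : G → V → V) (cf : C → D) (σ : W → V) : Ins W G C → W → V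
  | .step w g => update σ w (Γ g (σ w))
  | .gate w w' c => update σ w (σ w + cf c • σ w')

/-- Whether an instruction is a step. -/
def Ins.isStep {W G C : Type} : Ins W G C → Bool
  | .step _ _ => true
  | .gate _ _ _ => false

/-- Admissible instructions. -/
def Ins.Ok {W G C : Type} (P : G → Prop) : Ins W G C → Prop
  | .step _ g => P g
  | .gate w w' _ => w ≠ w'

/-- the common arity of the recursions -/
def mm : ℕ := 68921

/-- the dyadic rationals -/
abbrev K2 : Type := Localization.Away (2 : ℤ)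

/-- zero or a signed power of two -/
def GoodK (c : K2) : Prop :=
  c = 0 ∨ c ∈ Submonoid.closure ({-1, 2, IsLocalization.Away.invSelf (2 : ℤ)} : Set K2)

/-- Module B, part 1 (file NetSwap.lean, theorem `swapNet`). -/
def SwapNetStmt : Prop :=
  ∃ (w : ℕ) (τ : Equiv.Perm (Fin w)) (L : List (Ins (Fin w) ((Fin mm → K2) × (Fin mm → K2)) Unit)),
    0 < w ∧ L.countP Ins.isStep < w * mm ∧
    (∀ I ∈ L, I.Ok fun g => (∀ a, GoodK (g.1 a)) ∧ ∀ a, GoodK (g.2 a)) ∧
    ∀ (V : Type) [AddCommGroup V] [Module (ZMod 2) V]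
      (Γ : Matrix (Fin mm) (Fin mm) K2 → Module.End (ZMod 2) V),
      Γ 0 = 1 → (∀ A B, Γ (A + B) = Γ A * Γ B) → ∀ σ : Fin w → V,
      L.foldl (Ins.run (fun g => Γ (Matrix.vecMulVec g.1 g.2)) fun _ => (1 : ZMod 2)) σ =
        fun u => Γ 1 (σ (τ u))

section
variable {D V : Type} [CommRing D] [AddCommGroup V] [Module D V]

/-- the operator `(1+i)/2 + (1-i)/2 X`, where `h` is one half -/
def cop (h i : D) (X : Module.End D V) : Module.End D V := (h * (1 + i)) • 1 + (h * (1 - i)) • X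

/-- the product of `cop` over the directions `τ 0, …, τ (κ-1)` -/
def cpr (h i : D) (X : (ℕ → ZMod 2) → Module.End D V) (τ : ℕ → ℕ → ZMod 2) (κ : ℕ) :
    Module.End D V := ((List.range κ).map fun c => cop h i (X (τ c))).prod

/-- the direction `v ⊗ e_c` for groups of `κ` cells starting at cell `p` -/
def dir (p κ : ℕ) (v : Fin mm → ZMod 2) (c : ℕ) : ℕ → ZMod 2 :=
  ∑ a : Fin mm, Pi.single (p + a * κ + c) (v a)

/-- the meaning of a step: `cpr` or its inverse -/
def stepOp (h i : D) (X : (ℕ → ZMod 2) → Module.End D V) (p κ : ℕ)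
    (g : (Fin mm → ZMod 2) × Bool) : Module.End D V :=
  (if g.2 then X (∑ c ∈ Finset.range κ, dir p κ g.1 c) else 1) * cpr h i X (dir p κ g.1) κ

/-- gate coefficients: (negative, halved) -/
def cfC (h : D) (c : Bool × Bool) : D := (if c.1 then -1 else 1) * if c.2 then h else 1
end

/-- Module B, part 2 (file NetC.lean, theorem `cNet`). -/
def CNetStmt : Prop :=
  ∃ (w : ℕ) (τ : Equiv.Perm (Fin w)) (sg : Fin w → Bool) (t : Fin w → Fin mm → ZMod 2)
    (L : List (Ins (Fin w) ((Fin mm → ZMod 2) × Bool) (Bool × Bool))),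
    0 < w ∧ L.countP Ins.isStep < w * mm ∧ (∀ I ∈ L, I.Ok fun g => g.1 ≠ 0) ∧
    ∀ (D V : Type) [CommRing D] [AddCommGroup V] [Module D V] (h i : D), 2 * h = 1 → i * i = -1 →
      ∀ (X : (ℕ → ZMod 2) → Module.End D V), X 0 = 1 → (∀ a b, X (a + b) = X a * X b) →
      ∀ (p κ : ℕ) (σ : Fin w → V),
      L.foldl (Ins.run (fun g => stepOp h i X p κ g) (cfC h)) σ = fun u =>
        (if sg u then -1 else 1 : D) • X (∑ c ∈ Finset.range κ, dir p κ (t u) c)
          (cpr h i X (fun c => Pi.single (p + c) 1) (mm * κ) (σ (τ u)))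

/-! ### Module C: constants and the Fourier algebra -/

/-- `e^{2 π i a / b}` -/
noncomputable def eph (q : ℤ × ℕ) : ℂ := Complex.exp (2 * Real.pi * Complex.I * (q.1 / q.2))

/-- a rational scale and a list of phases -/
abbrev CSpec : Type := (ℤ × ℕ) × List (ℤ × ℕ)

/-- the value of a constant -/
noncomputable def CSpec.val (c : CSpec) : ℂ := (c.1.1 / c.1.2 : ℂ) * (c.2.map eph).sum

/-- Module C, part 1 (file Const.lean, theorem `const_exists`). -/
def ConstStmt : Prop :=
  ∃ ev : List Unit × CSpec → ℤ × ℤ, PT ev ∧ ∀ (f : List Unit) (c : CSpec), 0 < c.1.2 →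
    (∀ q ∈ c.2, 0 < q.2) →
    ‖((ev (f, c)).1 + (ev (f, c)).2 * Complex.I) - 2 ^ f.length * c.val‖ ≤
      (|(c.1.1 : ℝ)| * c.2.length + 1) * (100 * f.length + 1000)

/-- index set of one axis: copy bit and position -/
abbrev Ax (L : ℕ) : Type := Bool × Fin (2 ^ L)

/-- the butterfly on bit `l` of the position -/
noncomputable def bitC (L l : ℕ) : Matrix (Ax L) (Ax L) ℂ := fun a b =>
  if a.1 = b.1 then
    (if (b.2 : ℕ) = a.2 then (1 + Complex.I) / 2 else
      if (b.2 : ℕ) = (a.2 : ℕ) ^^^ 2 ^ l then (1 - Complex.I) / 2 else 0) else 0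

/-- A stage: `(0, _, δ)` diagonal, `(1, l, δ)` butterflies on bit `l` and then a diagonal,
`(2, i, δ)` shear on axis `i` onto the copy `false`, `(3, i, δ)` shear onto the copy `true`. -/
abbrev Stage : Type := ℕ × ℕ × List ℤ

/-- The matrix of a stage on axis number `i` with modulus `s`; `ds` gives scale and phase of the
diagonal entries and `ms` the shear coefficients. -/
noncomputable def stageM (ds : ℕ × ℕ × List ℤ × Bool × ℕ → (ℤ × ℕ) × (ℤ × ℕ))
    (ms : List Unit × ℕ × ℕ × List ℤ × ℕ → CSpec) (L i s : ℕ) (g : Stage) :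
    Matrix (Ax L) (Ax L) ℂ :=
  if g.1 ≤ 1 then
    Matrix.diagonal (fun a : Ax L => CSpec.val ((ds (2 ^ L, s, g.2.2, a.1, a.2)).1,
      [(ds (2 ^ L, s, g.2.2, a.1, a.2)).2])) * (if g.1 = 1 then bitC L g.2.1 else 1)
  else if g.2.1 = i then
    1 + Matrix.of fun a b : Ax L => if a.1 = decide (g.1 = 3) ∧ b.1 = !a.1 ∧ a.2 = b.2 then
      (ms (List.replicate (2 ^ L) (), 2 ^ L, s, g.2.2, a.2)).val else 0
  else 1

/-- Module C, part 2 (file FFT.lean, theorem `fft_exists`).  The list of stages is executed from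
left to right; `inv` selects the sign of the transform. -/
def FFTStmt : Prop :=
  ∃ (ds : ℕ × ℕ × List ℤ × Bool × ℕ → (ℤ × ℕ) × (ℤ × ℕ))
    (ms : List Unit × ℕ × ℕ × List ℤ × ℕ → CSpec)
    (st : List Unit × List Unit × Bool → List Stage), PT ds ∧ PT ms ∧ PT st ∧
    ∀ (L d : ℕ) (inv : Bool), 1 ≤ L →
      (st (List.replicate L (), List.replicate d (), inv)).length ≤ 30 * (L + d + 1) ∧
      ((st (List.replicate L (), List.replicate d (), inv)).countP (fun g => g.1 = 1) ≤ 12 * L) ∧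
      ((st (List.replicate L (), List.replicate d (), inv)).countP (fun g => 2 ≤ g.1) ≤ 6 * d) ∧
      (∀ l, l < L → ((st (List.replicate L (), List.replicate d (), inv)).countP
        (fun g => g.1 = 1 ∧ g.2.1 = l) ≤ 12)) ∧
      (∀ g ∈ st (List.replicate L (), List.replicate d (), inv), g.1 ≤ 3 ∧
        (g.1 = 1 → g.2.1 < L) ∧ (2 ≤ g.1 → g.2.1 < d) ∧
        ∀ (s : ℕ) (c : Bool) (j : ℕ), 0 < s → s ≤ 2 ^ L → j < 2 ^ L →
          0 < (ds (2 ^ L, s, g.2.2, c, j)).1.2 ∧ 0 < (ds (2 ^ L, s, g.2.2, c, j)).2.2 ∧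
          ((ds (2 ^ L, s, g.2.2, c, j)).1.1.natAbs ≤ 1) ∧
          0 < (ms (List.replicate (2 ^ L) (), 2 ^ L, s, g.2.2, j)).1.2 ∧
          (∀ q ∈ (ms (List.replicate (2 ^ L) (), 2 ^ L, s, g.2.2, j)).2, 0 < q.2) ∧
          (ms (List.replicate (2 ^ L) (), 2 ^ L, s, g.2.2, j)).1.1.natAbs ≤ 1 ∧
          (ms (List.replicate (2 ^ L) (), 2 ^ L, s, g.2.2, j)).2.length ≤ 2 ^ (L + 1)) ∧
      ∀ (i s : ℕ), i < d → 0 < s → s ≤ 2 ^ L → ∀ a b : Ax L, (b.2 : ℕ) < s →
        ((st (List.replicate L (), List.replicate d (), inv)).map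
          (stageM ds ms L i s)).reverse.prod a b =
        if (a.2 : ℕ) < s ∧ b.1 = !a.1 then (1 / s : ℂ) *
          eph ((if a.1 = inv then -1 else 1) * ((a.2 : ℕ) * (b.2 : ℕ) : ℤ), s) else 0

end Vale.Agent.P338
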