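import Vale.Agent.P338.PTX
import Vale.Agent.P338.Spec

/-! Polynomial time approximation of sums of roots of unity. -/

namespace Vale.Agent.P338.CC

open Vale.Agent.Lib.H24.T Finset Complex

theorem pt_sum {α : Type} [Enc α] {u : α → List Unit} {G : α → ℕ → ℤ} (hu : PT u)
    (hG : PT fun p : α × List Unit => G p.1 p.2.length) :
    PT fun a => ∑ n ∈ range (u a).length, G a n := by
  have h1 : PT fun p : α × ℕ => G p.1 ((u p.1).take p.2).length :=
    hG.comp (g := fun p : α × ℕ => (p.1, (u p.1).take p.2)) (by fun_prop)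
  refine (PTX.isum (PT.map (g := fun a n => G a ((u a).take n).length) (PTX.range hu) h1)).of_eq
    fun a => ?_
  rw [Finset.sum_list_map_count, ← Finset.sum_list_map_count, ← List.sum_toFinset _
    List.nodup_range, List.toFinset_range]
  exact sum_congr rfl fun n hn => by rw [List.length_take, min_eq_left (mem_range.1 hn).le]

lemma ediv_err (z w : ℤ) (hw : 0 < w) : |((z / w : ℤ) : ℝ) - z / w| ≤ 1 := by
  have h0 : (0 : ℝ) < w := by exact_mod_cast hw
  have h1 : ((z % w : ℤ) : ℝ) = z - w * (z / w : ℤ) := by rw [Int.emod_def]; push_cast; rfl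
  have h2 : (0 : ℝ) ≤ (z % w : ℤ) := by exact_mod_cast Int.emod_nonneg z hw.ne'
  have h3 : ((z % w : ℤ) : ℝ) ≤ w := by exact_mod_cast (Int.emod_lt_of_pos z hw).le
  have : ((z / w : ℤ) : ℝ) - z / w = -((z % w : ℤ) / w) := by rw [h1]; field_simp; ring
  rw [this, abs_neg, abs_of_nonneg (by positivity), div_le_one h0]
  exact h3

/-- approximation of `4 * 2 ^ N * arctan (1 / m)` -/
def atA (m : ℤ) (N : ℕ) : ℤ :=
  ∑ n ∈ range N, (-1) ^ n * (4 * 2 ^ N / (m * (m * m) ^ n * (2 * n + 1)))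

lemma atA_err (m : ℤ) (hm : 2 ≤ m) (N : ℕ) :
    |(atA m N : ℝ) - 4 * 2 ^ N * Real.arctan (m : ℝ)⁻¹| ≤ N + 4 := by
  have h2 : (2 : ℝ) ≤ m := by exact_mod_cast hm
  have hx : (m : ℝ)⁻¹ ≤ 2⁻¹ := inv_anti₀ (by norm_num) h2
  have h0 : 0 < (m : ℝ)⁻¹ := by positivity
  have hs := (hasSum_nat_add_iff' N).2
    (Real.hasSum_arctan (x := (m : ℝ)⁻¹) (by rw [Real.norm_of_nonneg h0.le]; linarith))
  have h3 := hs.norm_le_of_bounded (hasSum_geometric_two' ((2 : ℝ)⁻¹ ^ N)) fun n => by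
    rw [norm_div, norm_mul, norm_pow, norm_neg, norm_one, one_pow, one_mul, norm_pow,
      Real.norm_of_nonneg h0.le, Real.norm_natCast]
    calc _ ≤ (m : ℝ)⁻¹ ^ (2 * (n + N) + 1) :=
          div_le_self (by positivity) (by exact_mod_cast Nat.le_add_left _ _)
      _ ≤ 2⁻¹ ^ (2 * (n + N) + 1) := by gcongr
      _ ≤ 2⁻¹ ^ (N + 1 + n) := pow_le_pow_of_le_one (by norm_num) (by norm_num) (by omega)
      _ = _ := by rw [pow_add, pow_succ, inv_pow _ n]; rfl
  have h4 : |(atA m N : ℝ) - 4 * 2 ^ N * ∑ n ∈ range N,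
      (-1) ^ n * (m : ℝ)⁻¹ ^ (2 * n + 1) / (2 * n + 1 : ℕ)| ≤ N := by
    rw [atA, Int.cast_sum, mul_sum, ← sum_sub_distrib]
    refine (abs_sum_le_sum_abs _ _).trans ((sum_le_card_nsmul _ _ 1 fun n _ => ?_).trans (by simp))
    refine le_trans (le_of_eq ?_) (ediv_err (4 * 2 ^ N) (m * (m * m) ^ n * (2 * n + 1))
      (by positivity))
    have hn : ∀ x : ℝ, |(-1) ^ n * x| = |x| := fun x => by simp [abs_mul]
    refine Eq.trans ?_ (hn _)
    congr 1
    push_cast
    rw [pow_succ, pow_mul, inv_pow, inv_pow, sq]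
    field_simp
  rw [Real.norm_eq_abs, abs_le] at h3
  rw [abs_le] at h4 ⊢
  have h5 : (2 : ℝ) ^ N * 2⁻¹ ^ N = 1 := by rw [← mul_pow]; simp
  have h6 : (0 : ℝ) < 2 ^ N := by positivity
  constructor <;> nlinarith [h3.1, h3.2]

/-- approximation of `2 ^ N * π` -/
def piA (N : ℕ) : ℤ := atA 2 N + atA 3 N

lemma piA_err (N : ℕ) : |(piA N : ℝ) - 2 ^ N * Real.pi| ≤ 2 * N + 8 := by
  have h1 := atA_err 2 le_rfl N
  have h2 := atA_err 3 (by norm_num) N
  have h3 := Real.arctan_inv_2_add_arctan_inv_3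
  rw [piA, show Real.pi = 4 * (Real.arctan 2⁻¹ + Real.arctan 3⁻¹) by linarith]
  rw [abs_le] at *
  push_cast at *
  constructor <;> linarith [h1.1, h1.2, h2.1, h2.2]

/-- real part of a power of `i` -/
def sg (k : ℕ) : ℤ := if k % 4 = 0 then 1 else if k % 4 = 2 then -1 else 0

lemma sg_eq (k : ℕ) : (sg k : ℂ) + sg (k + 3) * I = I ^ k := by
  rw [I_pow_eq_pow_mod, sg, sg, Nat.add_mod]
  have : k % 4 < 4 := Nat.mod_lt _ (by norm_num)
  generalize k % 4 = j at *
  interval_cases j <;> simp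

/-- a term of the exponential series -/
def tm (F N : ℕ) (q : ℤ × ℕ) (k : ℕ) : ℤ :=
  2 ^ F * (2 * piA N * (q.1 % q.2)) ^ k / ((q.2 * 2 ^ N) ^ k * k.factorial)

/-- real (`j = 0`) and imaginary (`j = 3`) part -/
def ex (F N : ℕ) (j : ℕ) (q : ℤ × ℕ) : ℤ := ∑ k ∈ range N, sg (k + j) * tm F N q k

lemma ex_err (F : ℕ) (q : ℤ × ℕ) (hq : 0 < q.2) :
    ‖(ex F (F + 70) 0 q + ex F (F + 70) 3 q * I) - 2 ^ F * eph q‖ ≤ 5 * F + 400 := by
  obtain ⟨a, b⟩ := q
  generalize hN : F + 70 = N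
  have hb : (0 : ℝ) < b := by exact_mod_cast hq
  have r0 : (0 : ℝ) ≤ (a % b : ℤ) := by exact_mod_cast Int.emod_nonneg a (by omega)
  have r1 : ((a % b : ℤ) : ℝ) ≤ b := by exact_mod_cast (Int.emod_lt_of_pos a (by omega)).le
  have r2 : ((a % b : ℤ) : ℝ) / b ≤ 1 := (div_le_one hb).2 r1
  have r3 : 0 ≤ ((a % b : ℤ) : ℝ) / b := by positivity
  have hp : (0 : ℝ) < 2 ^ N := by positivity
  set θ : ℝ := 2 * piA N * (a % b : ℤ) / (b * 2 ^ N) with hθ
  have e0 : θ - 2 * Real.pi * ((a % b : ℤ) / b) =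
      2 * ((a % b : ℤ) / b) * (piA N - 2 ^ N * Real.pi) / 2 ^ N := by rw [hθ]; field_simp
  have e1 : |θ - 2 * Real.pi * ((a % b : ℤ) / b)| ≤ 2 * (2 * N + 8) / 2 ^ N := by
    rw [e0, abs_div, abs_of_pos hp, abs_mul, abs_of_nonneg (by positivity)]
    gcongr
    · linarith
    · exact piA_err N
  have e2 : (2 * N + 8 : ℝ) ≤ 2 ^ N := by
    have : N - 4 < 2 ^ (N - 4) := Nat.lt_two_pow_self
    have : 2 ^ N = 2 ^ (N - 4) * 2 ^ 4 := by rw [← pow_add]; congr 1; omega
    exact_mod_cast (by omega : 2 * N + 8 ≤ 2 ^ N)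
  have e3 : |θ| ≤ 10 := by
    have h1 := e1.trans ((div_le_iff₀ hp).2 (show _ ≤ 2 * 2 ^ N by linarith))
    have := Real.pi_lt_four
    have := Real.pi_pos
    rw [abs_le] at h1 ⊢
    constructor <;> nlinarith [h1.1, h1.2]
  have hN' : (N : ℝ) = F + 70 := by rw [← hN]; push_cast; rfl
  have s1 : ‖(ex F N 0 (a, b) + ex F N 3 (a, b) * I) -
      2 ^ F * ∑ k ∈ range N, (I * θ) ^ k / k.factorial‖ ≤ N := by
    simp only [ex, Int.cast_sum, sum_mul, mul_sum, ← sum_add_distrib, ← sum_sub_distrib]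
    refine (norm_sum_le _ _).trans ((sum_le_card_nsmul _ _ 1 fun k _ => ?_).trans (by simp))
    have := ediv_err (2 ^ F * (2 * piA N * (a % b)) ^ k) ((b * 2 ^ N) ^ k * k.factorial)
      (by positivity)
    refine le_trans (le_of_eq ?_) this
    have hn : ∀ x : ℝ, ‖I ^ k * x‖ = |x| := fun x => by simp
    refine Eq.trans ?_ (hn _)
    rw [mul_pow I, ← sg_eq, hθ, tm]
    congr 1
    push_cast
    rw [div_pow]
    ring_nf
  have s2 : ‖exp (I * θ) - ∑ k ∈ range N, (I * θ) ^ k / k.factorial‖ ≤ 1 / 2 ^ F := by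
    have n1 : ‖I * θ‖ ≤ 10 := by simpa using e3
    refine (exp_bound' ?_).trans ?_
    · rw [div_le_iff₀ (by positivity)]; push_cast; linarith
    · have t1 := Real.pow_div_factorial_le_exp 20 (by norm_num) N
      have t2 : Real.exp 20 ≤ 3 ^ 20 := by
        rw [← Nat.cast_ofNat (R := ℝ) (n := 20), ← Real.exp_one_pow]
        gcongr; exact Real.exp_one_lt_three.le
      have t3 : (20 : ℝ) ^ N = 10 ^ N * (2 ^ F * 2 ^ 70) := by
        rw [← pow_add, hN, ← mul_pow]; norm_num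
      have t4 : ‖I * θ‖ ^ N / N.factorial ≤ 10 ^ N / N.factorial := by gcongr
      rw [t3, mul_div_right_comm] at t1
      rw [le_div_iff₀ (by positivity)]
      have t5 : (0 : ℝ) < 2 ^ F := by positivity
      nlinarith
  have s3 : ‖exp (I * θ) - eph (a, b)‖ ≤ 2 * (2 * N + 8) / 2 ^ N := by
    have : eph (a, b) = exp (I * (2 * Real.pi * ((a % b : ℤ) / b) : ℝ)) := by
      rw [eph, ← exp_periodic.int_mul (-(a / b)), Int.emod_def]
      congr 1
      have : (b : ℂ) ≠ 0 := by exact_mod_cast hq.ne'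
      push_cast; field_simp; ring
    rw [this, ← sub_add_cancel θ (2 * Real.pi * ((a % b : ℤ) / b)), ofReal_add, mul_add, exp_add,
      ← sub_one_mul, norm_mul, norm_exp_I_mul_ofReal, mul_one]
    exact Real.norm_exp_I_mul_ofReal_sub_one_le.trans e1
  have s4 : (2 : ℝ) ^ F * (2 * (2 * N + 8) / 2 ^ N) ≤ 2 * (2 * N + 8) := by
    rw [mul_div_left_comm, ← hN, pow_add, ← div_div, div_self (by positivity)]
    exact mul_le_of_le_one_right (by positivity) (by norm_num)
  have s5 : ∀ x y z w c : ℂ, x - c * w = (x - c * y) - c * (z - y) + c * (z - w) := by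
    intros; ring
  rw [s5 _ (∑ k ∈ range N, (I * θ) ^ k / k.factorial) (exp (I * θ))]
  refine (norm_add_le _ _).trans ((add_le_add (norm_sub_le _ _) le_rfl).trans ?_)
  rw [norm_mul, norm_mul, norm_pow, Complex.norm_two]
  have t5 : (0 : ℝ) < 2 ^ F := by positivity
  have t6 := mul_le_mul_of_nonneg_left s2 t5.le
  have t7 := mul_le_mul_of_nonneg_left s3 t5.le
  rw [mul_one_div_cancel t5.ne'] at t6
  linarith

section
variable {α : Type} [Enc α]

lemma pt_atA (m : ℤ) {u : α → List Unit} (hu : PT u) : PT fun a => atA m (u a).length :=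
  pt_sum hu (by fun_prop)

lemma pt_ex (j : ℕ) {f u : α → List Unit} {q : α → ℤ × ℕ} (hf : PT f) (hu : PT u) (hq : PT q) :
    PT fun a => ex (f a).length (u a).length j (q a) := by
  have h1 : PT fun a => piA (u a).length := (pt_atA 2 hu).iadd (pt_atA 3 hu)
  refine pt_sum hu ?_
  unfold sg tm
  generalize hP : (fun a => piA (u a).length) = P at h1
  simp only [show ∀ a, piA (u a).length = P a from congrFun hP]
  fun_prop

end

end Vale.Agent.P338.CC

namespace Vale.Agent.P338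

open CC Vale.Agent.Lib.H24.T Complex

theorem const_exists : ConstStmt := by
  have hp : ∀ j, PT fun p : List Unit × CSpec => p.2.1.1 * (p.2.2.map fun q =>
      ex p.1.length (p.1 ++ List.replicate 70 ()).length j q).sum / p.2.1.2 := fun j => by
    have : PT fun x : (List Unit × CSpec) × ℤ × ℕ =>
        ex x.1.1.length (x.1.1 ++ List.replicate 70 ()).length j x.2 :=
      pt_ex j (by fun_prop) (by fun_prop) (by fun_prop)
    exact PTX.ediv (PT.imul (by fun_prop) (PTX.isum (PT.map (by fun_prop) this))) (by fun_prop)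
  refine ⟨_, (hp 0).pair (hp 3), ?_⟩
  rintro f ⟨⟨a, b⟩, l⟩ hb hl
  simp only [List.length_append, List.length_replicate, CSpec.val] at hb hl ⊢
  generalize f.length = F
  have h1 : ‖((l.map (ex F (F + 70) 0)).sum + (l.map (ex F (F + 70) 3)).sum * I) -
      2 ^ F * (l.map eph).sum‖ ≤ l.length * (5 * F + 400) := by
    induction l with
    | nil => simp
    | cons q l ih =>
      have := norm_add_le_of_le (ex_err F q (hl q (by simp))) (ih fun q hq => hl q (by simp [hq]))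
      simp only [List.map_cons, List.sum_cons, List.length_cons, Int.cast_add, Nat.cast_succ]
      refine le_of_eq_of_le (congrArg _ (by ring)) (this.trans_eq (by ring))
  generalize (l.map (ex F (F + 70) 0)).sum = X at *
  generalize (l.map (ex F (F + 70) 3)).sum = Y at *
  have h2 := ediv_err (a * X) b (by omega)
  have h3 := ediv_err (a * Y) b (by omega)
  have hb' : (1 : ℝ) ≤ b := by exact_mod_cast hb
  have e : ((a * X / b : ℤ) + (a * Y / b : ℤ) * I) - 2 ^ F * ((a / b : ℂ) * (l.map eph).sum) =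
      ((((a * X / b : ℤ) : ℝ) - (a * X : ℤ) / (b : ℤ) : ℝ) : ℂ) +
      ((((a * Y / b : ℤ) : ℝ) - (a * Y : ℤ) / (b : ℤ) : ℝ) : ℂ) * I +
      (a / b : ℂ) * (X + Y * I - 2 ^ F * (l.map eph).sum) := by push_cast; ring
  rw [e]
  have h4 : ‖(a / b : ℂ)‖ ≤ |(a : ℝ)| := by
    rw [norm_div, Complex.norm_intCast, Complex.norm_natCast]; exact div_le_self (abs_nonneg _) hb'
  refine (norm_add_le_of_le (norm_add_le_of_le ((Complex.norm_real _).le.trans h2)
    (r₂ := 1) (by rwa [norm_mul, norm_I, mul_one, Complex.norm_real]))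
    (norm_mul_le_of_le h4 h1)).trans ?_
  have : 0 ≤ |(a : ℝ)| * l.length := by positivity
  have : (0 : ℝ) ≤ F := by positivity
  nlinarith

end Vale.Agent.P338
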