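import Vale.Agent.P338.Swp

/-! Module H: the change between natural order and residue order. -/

namespace Vale.Agent.P338

open Function
open Vale.Agent.Lib.H24.T (Enc PT sz)

namespace CR

theorem pmRot {ι π : Type} [Enc π] (a : AE ι π) {w X : π → ℕ} (hw : PT w) (hX : PT X)
    (h0 : ∀ i, 0 < w (a.P i) ∧ 0 < X (a.P i)) (hd : ∀ i, w (a.P i) * X (a.P i) ∣ a.N (a.P i))
    {r : π × ℕ → ℕ} (hr : PT r)
    (hi : ∀ i j j', j / (w (a.P i) * X (a.P i)) = j' / (w (a.P i) * X (a.P i)) →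
      r (a.P i, j) = r (a.P i, j')) :
    a.Pm (fun i j => upd (w (a.P i)) (X (a.P i)) j
      ((dg (w (a.P i)) (X (a.P i)) j + r (a.P i, j)) % X (a.P i))) 0 :=
  AE.Pm.lin fun G hP hx => Lin.rot hP a.hN (a.at G) hw hX h0 hd a.N0 hr hi hx

/-- the moduli in reverse order -/
def sr (p : Par) (t : ℕ) : ℕ := p.sf (p.d - 1 - t)

/-- product of the moduli above `i` -/
def pi (p : Par) (i : ℕ) : ℕ := pw (sr p) (p.d - 1 - i)

/-- inverse of `pi` -/
def cc (p : Par) (i : ℕ) : ℕ :=
  ((List.range p.TU.length).filter fun x => decide (x * pi p i % p.sf i = 1 % p.sf i)).headD 0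

/-- value of the `m` highest digits -/
def sm (p : Par) (m : ℕ) (r : ℕ → ℕ) : ℕ :=
  ∑ t ∈ Finset.range m, r (p.d - 1 - t) * pw (sr p) t

/-- the digits of an index -/
def dgs (p : Par) (j i : ℕ) : ℕ := dg (p.Lp * pw p.sf i) (p.sf i) j

/-- the shift of digit `i` -/
def sh (p : Par) (i : ℕ) (r : ℕ → ℕ) : ℕ := cc p i * sm p (p.d - 1 - i) r % p.sf i

/-- from residues to digits -/
def un (p : Par) : ℕ → (ℕ → ℕ) → ℕ → ℕ
  | 0, r => r
  | t + 1, r => un p t (update r t ((r t + (p.sf t - sh p t r)) % p.sf t))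

/-- the natural index of a residue vector -/
def psi (p : Par) (r : Fin p.d → ℕ) : ℕ :=
  sm p p.d (un p p.d fun i => if h : i < p.d then r ⟨i, h⟩ else 0)

/-- digits of a natural index -/
def kd (p : Par) (n a : ℕ) : ℕ := dg (pi p a) (p.sf a) n

/-- arrays indexed by digits -/
def aarr (p : Par) (Z : ℕ → (ℕ → ℕ) → Zq p.q) : List Atom :=
  tab (p.Lp * p.Ns) fun j => atm p.q p.B fun k => Z (k + p.B * (j % p.Lp)) (dgs p j)

/-- reversal of the digit order -/
def rv (w : ℕ) (r r' : ℕ → ℕ) (d j : ℕ) : ℕ :=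
  j % w + w * ∑ t ∈ Finset.range d, dg (w * pw r (d - 1 - t)) (r (d - 1 - t)) j * pw r' t

theorem rv_mod (w : ℕ) (r r' : ℕ → ℕ) (d j : ℕ) : rv w r r' d j % w = j % w := by simp [rv]

theorem rv_div {w : ℕ} (hw : 0 < w) (r r' : ℕ → ℕ) (d j : ℕ) : rv w r r' d j / w =
    ∑ t ∈ Finset.range d, dg (w * pw r (d - 1 - t)) (r (d - 1 - t)) j * pw r' t := by
  unfold rv
  rw [Nat.add_mul_div_left _ _ hw, Nat.div_eq_of_lt (Nat.mod_lt _ hw), zero_add]

theorem dg_div (w a X j : ℕ) : dg (w * a) X j = dg a X (j / w) := by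
  unfold dg; rw [Nat.div_div_eq_div_mul]

theorem pw_sr (p : Par) : pw (sr p) p.d = p.Ns := Finset.prod_range_reflect p.sf p.d

theorem sm_congr (p : Par) {m : ℕ} (hm : m ≤ p.d) {r r' : ℕ → ℕ}
    (h : ∀ l, p.d - m ≤ l → l < p.d → r l = r' l) : sm p m r = sm p m r' :=
  Finset.sum_congr rfl fun t ht => by
    have := Finset.mem_range.1 ht
    rw [h _ (by omega) (by omega)]

theorem sh_congr (p : Par) {i : ℕ} {r r' : ℕ → ℕ} (h : ∀ l, i < l → l < p.d → r l = r' l) :
    sh p i r = sh p i r' := by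
  unfold sh
  rcases Nat.eq_zero_or_pos p.d with h0 | h0
  · simp [sm, h0]
  · rw [sm_congr p (by omega) fun l h1 h2 => h l (by omega) h2]

theorem sm_kd (p : Par) {m : ℕ} (hm : m ≤ p.d) (n : ℕ) : sm p m (kd p n) = n % pw (sr p) m := by
  have := sum_dg' 1 (sr p) n m
  simp only [one_mul] at this
  rw [dg, Nat.div_one] at this
  rw [← this]
  refine Finset.sum_congr rfl fun t ht => ?_
  have := Finset.mem_range.1 ht
  rw [kd, pi, show p.d - 1 - (p.d - 1 - t) = t by omega, sr]

section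
variable {α : Type} [Enc α] {f : α → Par} {i j : α → ℕ}

@[fun_prop] theorem pt_sr (h : PT f) (hi : PT i) : PT fun a => sr (f a) (i a) := by
  unfold sr; fun_prop

theorem pt_pwr (h : PT f) (hi : PT i) : PT fun a => pw (sr (f a)) (min (i a) (f a).d) := by
  have : PT fun a => ((List.range ((f a).dU.take (i a)).length).map fun l => sr (f a) l).prod := by
    fun_prop
  exact this.of_eq fun a => by rw [List.length_take]; rfl

@[fun_prop] theorem pt_pi (h : PT f) (hi : PT i) : PT fun a => pi (f a) (i a) :=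
  (pt_pwr (i := fun a => (f a).d - 1 - i a) h (by fun_prop)).of_eq fun a => by
    rw [min_eq_left (by omega), pi]

@[fun_prop] theorem pt_cc (h : PT f) (hi : PT i) : PT fun a => cc (f a) (i a) := by
  unfold cc; fun_prop

@[fun_prop] theorem pt_sh (h : PT f) (hi : PT i) (hj : PT j) :
    PT fun a => sh (f a) (i a) (dgs (f a) (j a)) := by
  have h1 : PT fun q : α × ℕ => pw (sr (f q.1)) (min q.2 (f q.1).d) :=
    pt_pwr (f := fun q : α × ℕ => f q.1) (by fun_prop) (by fun_prop)
  have h2 : PT fun q : α × ℕ => pw (f q.1).sf (min ((f q.1).d - 1 - q.2) (f q.1).d) :=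
    Par.pt_pw (f := fun q : α × ℕ => f q.1) (by fun_prop) (by fun_prop)
  have h3 : PT fun q : α × ℕ => dg ((f q.1).Lp * pw (f q.1).sf (min ((f q.1).d - 1 - q.2) (f q.1).d))
      ((f q.1).sf ((f q.1).d - 1 - q.2)) (j q.1) * pw (sr (f q.1)) (min q.2 (f q.1).d) :=
    PT.mul (PT.dg (PT.mul (by fun_prop) h2) (by fun_prop) (by fun_prop)) h1
  have h4 : PT fun a => ((List.range ((f a).dU.drop (i a + 1)).length).map fun t =>
      dg ((f a).Lp * pw (f a).sf (min ((f a).d - 1 - t) (f a).d))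
      ((f a).sf ((f a).d - 1 - t)) (j a) * pw (sr (f a)) (min t (f a).d)).sum :=
    PTX.sum (PT.map (by fun_prop) h3)
  have h5 : PT fun a => sm (f a) ((f a).d - 1 - i a) (dgs (f a) (j a)) := h4.of_eq fun a => by
    rw [List.length_drop, show (f a).dU.length - (i a + 1) = (f a).d - 1 - i a by
      simp only [Par.d]; omega]
    refine Finset.sum_congr (s₁ := Finset.range _) rfl fun t ht => ?_
    have := Finset.mem_range.1 ht
    rw [min_eq_left (by omega), min_eq_left (by omega), dgs]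
  unfold sh
  fun_prop
end

section
variable {WS WC J j : ℕ} {p : Par} (h : Good WS WC J j p)
include h

theorem cc_spec {i : ℕ} (hi : i < p.d) : cc p i * pi p i ≡ 1 [MOD p.sf i] := by
  have hc : Nat.Coprime (pi p i) (p.sf i) := by
    unfold pi pw
    refine Nat.Coprime.prod_left fun t ht => ?_
    have := Finset.mem_range.1 ht
    exact h.hc _ (by omega) _ hi (by omega)
  obtain ⟨x, hx, e⟩ := Nat.exists_mul_mod_eq_of_coprime 1 hc (h.hs i hi).1.ne'
  have hm : x ∈ (List.range p.TU.length).filter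
      fun x => decide (x * pi p i % p.sf i = 1 % p.sf i) := by
    simp only [List.mem_filter, List.mem_range, decide_eq_true_eq]
    exact ⟨h.hT ▸ hx.trans_le (h.hs i hi).2, by rwa [mul_comm]⟩
  unfold cc
  generalize hl : (List.range p.TU.length).filter _ = l at hm
  cases l with
  | nil => simp at hm
  | cons y l =>
    have : y ∈ (List.range p.TU.length).filter
      fun x => decide (x * pi p i % p.sf i = 1 % p.sf i) := hl ▸ List.mem_cons_self
    exact of_decide_eq_true (List.mem_filter.1 this).2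

theorem kd_sh {i : ℕ} (hi : i < p.d) (n : ℕ) :
    (kd p n i + sh p i (kd p n)) % p.sf i = cc p i * n % p.sf i := by
  have e1 : n % (pi p i * p.sf i) = n % pi p i + pi p i * kd p n i := Nat.mod_mul
  have e2 : n % pi p i + pi p i * kd p n i ≡ n [MOD p.sf i] :=
    e1 ▸ (Nat.mod_modEq n _).of_mul_left _
  rw [sh, sm_kd p (by omega), Nat.add_mod_mod]
  refine Nat.ModEq.trans ?_ (e2.mul_left (cc p i))
  rw [mul_add, ← mul_assoc, add_comm]
  exact Nat.ModEq.add_left _ (by simpa using ((cc_spec h hi).mul_right (kd p n i)).symm)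

theorem un_spec (n : ℕ) (t : ℕ) (ht : t ≤ p.d) (r : ℕ → ℕ)
    (hr : ∀ l < p.d, r l = if l < t then cc p l * n % p.sf l else kd p n l) :
    ∀ l < p.d, un p t r l = kd p n l := by
  induction t generalizing r with
  | zero => simpa [un] using hr
  | succ t ih =>
    refine ih (by omega) _ fun l hl => ?_
    rcases eq_or_ne l t with rfl | hne
    · have s0 := (h.hs l hl).1
      have e1 : sh p l r = sh p l (kd p n) :=
        sh_congr p fun a h1 h2 => by rw [hr a h2, if_neg (by omega)]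
      have e2 : sh p l (kd p n) < p.sf l := Nat.mod_lt _ s0
      rw [update_self, if_neg (by omega), hr l hl, if_pos (by omega), e1, ← kd_sh h hl,
        Nat.mod_add_mod, show kd p n l + sh p l (kd p n) + (p.sf l - sh p l (kd p n)) =
          kd p n l + p.sf l by omega, Nat.add_mod_right]
      exact Nat.mod_eq_of_lt (dg_lt s0)
    · rw [update_of_ne hne, hr l hl]
      exact if_congr (by omega) rfl rfl

theorem psi_spec {n : ℕ} (hn : n < p.Ns) : psi p (fun i => cc p i * n % p.sf i) = n := by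
  rw [psi, sm_congr p le_rfl fun l _ hl => un_spec h n p.d le_rfl _
    (fun l hl => by rw [dif_pos hl, if_pos hl]) l hl, sm_kd p le_rfl, pw_sr, Nat.mod_eq_of_lt hn]

theorem dgs_ext (a : ℕ) :
    (fun i => if hi : i < p.d then (fun i : Fin p.d => dgs p a i) ⟨i, hi⟩ else 0) = dgs p a := by
  funext i
  split_ifs with hi
  · rfl
  · rw [dgs, Par.sf, List.getD_eq_default _ _ (by rw [h.hl]; omega), dg, Nat.mod_one]

theorem dgs_upd {i v : ℕ} (hi : i < p.d) (hv : v < p.sf i) (a : ℕ) :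
    dgs p (upd (p.Lp * pw p.sf i) (p.sf i) a v) = update (dgs p a) i v := by
  have h0 : 0 < p.Lp * pw p.sf i :=
    Nat.mul_pos h.Lp_pos (pw_pos fun t ht => (h.hs t (by omega)).1)
  funext l
  rcases lt_trichotomy l i with h1 | rfl | h1
  · rw [update_of_ne h1.ne, dgs, dgs, dg_upd_lo (pw_dvd _ _ h1)]
  · rw [update_self, dgs, dg_upd_self h0 hv]
  · rw [update_of_ne h1.ne', dgs, dgs, dg_upd_hi h0 hv (pw_dvd _ _ h1)]

theorem cT_ge {γ : ℝ} (h1 : 1 ≤ γ) : (p.d : ℝ) ≤ cT γ J j p ∧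
    p.d * (p.Q.size * γ ^ (J + j)) ≤ cT γ J j p := by
  have a1 : (1 : ℝ) ≤ p.d := by exact_mod_cast h.d_pos
  have a2 : (p.d : ℝ) ≤ p.L := by exact_mod_cast h.d_le
  have a3 : (p.Q.size : ℝ) ≤ p.g + 2 := by
    have : p.Q.size ≤ p.g + 2 := Nat.size_le.2 (by
      have := Nat.two_pow_pos p.g
      rw [Par.Q, pow_add]; omega)
    exact_mod_cast this
  have a4 := one_le_pow₀ (n := J) h1
  have a5 := one_le_pow₀ (n := j) h1
  have a6 := one_le_pow₀ (n := J + j) h1
  have a7 : (0 : ℝ) ≤ p.g := by positivity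
  have b1 : (p.d : ℝ) * ((p.g + 2) * γ ^ J) ≤ p.d ^ 2 * (p.g + 2) * γ ^ J := by
    have : (0 : ℝ) ≤ (p.g + 2) * γ ^ J := by positivity
    nlinarith [mul_nonneg (zero_le_one.trans a1) this]
  have b2 : (0 : ℝ) ≤ p.L * (j * (p.g + 2) * γ ^ (J + j) + γ ^ j) := by positivity
  unfold cT
  constructor
  · have : (1 : ℝ) ≤ (p.g + 2) * γ ^ J := by nlinarith
    nlinarith
  · have b3 : (p.d : ℝ) * (p.Q.size * γ ^ (J + j)) ≤ p.d * ((p.g + 2) * γ ^ (J + j)) := by gcongr
    rcases Nat.eq_zero_or_pos j with rfl | hj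
    · rw [add_zero] at b2 b3 ⊢
      linarith
    · have a8 : (1 : ℝ) ≤ j := by exact_mod_cast hj
      have b4 : (p.d : ℝ) * ((p.g + 2) * γ ^ (J + j)) ≤ p.L * (j * (p.g + 2) * γ ^ (J + j) + γ ^ j) := by
        have : (0 : ℝ) ≤ (p.g + 2) * γ ^ (J + j) := by positivity
        gcongr
        nlinarith
      have : (0 : ℝ) ≤ p.d ^ 2 * (p.g + 2) * γ ^ J := by positivity
      linarith
end

section
variable {ι : Type} {WS WC : ℕ} {J j : ι → ℕ} (s : ι → Prog) (P : ι → Par)
  (h : ∀ i, Good WS WC (J i) (j i) (P i))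

/-- one pass over a padded array -/
noncomputable def U1 (P : ι → Par) (i : ι) : ℝ := (P i).N * ((P i).B * ((P i).q + 1))

theorem ok1 {N : Par → ℕ} (hN : PT N) (hle : ∀ i, N (P i) ≤ (P i).N) : (pe s P h).Ok N (U1 P) :=
  ⟨hN, 2, fun i => ⟨by unfold U1; positivity, by
    have a1 : (N (P i) : ℝ) ≤ (P i).N := by exact_mod_cast hle i
    have a2 : (1 : ℝ) ≤ (P i).N := by exact_mod_cast (h i).N_pos
    have a3 : (0 : ℝ) ≤ (P i).B * ((P i).q + 1) := by positivity
    simp only [pe, U1]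
    push_cast
    nlinarith⟩⟩

include h in
theorem bdU {γ : ℝ} (h1 : 1 ≤ γ) {c : ι → ℝ} (hc : ∀ i, c i ≤ cT γ (J i) (j i) (P i)) :
    Bd (fun i => c i * U1 P i) fun i => uT γ (J i) (j i) (P i) :=
  (Bd.refl fun i => by
    have := (cT_ge (h i) h1).1
    have : (0 : ℝ) ≤ cT γ (J i) (j i) (P i) := le_trans (by positivity) this
    unfold uT; positivity).of_le fun i =>
    mul_le_mul_of_nonneg_right (hc i) (by unfold U1; positivity)

include h in
theorem bdU1 {γ : ℝ} (h1 : 1 ≤ γ) : Bd (U1 P) fun i => uT γ (J i) (j i) (P i) :=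
  (bdU P h h1 (c := fun _ => 1) fun i => le_trans (by exact_mod_cast (h i).d_pos)
    (cT_ge (h i) h1).1).of_le fun i => by simp

/-- arrays of `N` atoms -/
noncomputable def ae {γ : ℝ} (h1 : 1 ≤ γ) (N : Par → ℕ) (hN : PT N) (hle : ∀ i, N (P i) ≤ (P i).N)
    (h0 : ∀ i, 0 < N (P i)) : AE ι Par where
  toEnv := pe s P h
  U := fun i => uT γ (J i) (j i) (P i)
  N := N
  B := fun i => (P i).B
  l := fun i => 2 * (P i).q + 2
  hN := (ok1 s P h hN hle).mono (bdU1 P h h1)
  hA := ⟨4, fun i => ⟨by simp only [pe]; positivity, by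
    have a1 : (1 : ℝ) ≤ (P i).B := by exact_mod_cast (h i).B_pos
    have a2 : (0 : ℝ) ≤ (P i).q := by positivity
    simp only [pe]
    push_cast
    nlinarith⟩⟩
  N0 := h0

theorem loopRot {γ : ℝ} (h1 : 1 ≤ γ) {ix : Par × ℕ → ℕ} (hix : PT ix)
    (hlt : ∀ i, ∀ t < (P i).d, ix (P i, t) < (P i).d) {ρ : Par × ℕ → (ℕ → ℕ) → ℕ}
    (hρ : PT fun q : (Par × ℕ) × ℕ => ρ q.1 (dgs q.1.1 q.2))
    (hc : ∀ q r r', (∀ l, ix q < l → r l = r' l) → ρ q r = ρ q r')
    (Z : ∀ i, ℕ → ℕ → (ℕ → ℕ) → Zq (P i).q)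
    (hZ : ∀ i, ∀ t < (P i).d, ∀ k r, Z i (t + 1) k r = Z i t k (update r (ix (P i, t))
      ((r (ix (P i, t)) + ρ (P i, t) r) % (P i).sf (ix (P i, t))))) :
    Op (pe s P h) (fun i => uT γ (J i) (j i) (P i)) (fun i => aarr (P i) (Z i 0))
      (fun i => aarr (P i) (Z i (P i).d)) 0 := by
  have hN : PT fun p : Par => p.Lp * p.Ns := by fun_prop
  let a := ae s P h h1 _ hN (fun i => (h i).le_N) fun i => Nat.mul_pos (h i).Lp_pos (h i).Ns_pos
  have hI : PT fun p : Par => List.range p.dU.length := by fun_prop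
  let a' := a.ext _ hI 0 (U1 P) (ok1 s P h hN fun i => (h i).le_N)
  have lt : ∀ q : Pos fun i => (List.range (P i).dU.length).length, q.1.2 < (P q.1.1).d :=
    fun q => by simpa using q.2
  have eP : ∀ q, a'.P q = (P q.1.1, q.1.2) := fun q => by
    have := lt q
    simp [a', a, ae, pe, AE.ext, Env.ext, this]
  have := Op.loop (e := pe s P h) (U := fun i => uT γ (J i) (j i) (P i)) (V := 0) hI 0
    (fun i t => aarr (P i) (Z i t)) (U₁ := fun i _ => U1 P i) (V₁ := fun _ _ => 0) ?_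
    (Bd.sum_const ((bdU P h h1 fun i => (cT_ge (h i) h1).1).of_le fun i => by simp [pe]))
    a.hN.bdE (a.bd fun i j k t => (Z i 0 (k + (P i).B * (j % (P i).Lp)) (dgs (P i) j)).val.testBit t)
    (fun _ => le_rfl) fun i => by simp
  · exact this.congr (fun _ => rfl) fun i => by simp only [List.length_range]; rfl
  let G : (Pos fun i => (List.range (P i).dU.length).length) → ℕ → ℕ → ℕ → Bool := fun q j k t =>
    (Z q.1.1 q.1.2 (k + (P q.1.1).B * (j % (P q.1.1).Lp)) (dgs (P q.1.1) j)).val.testBit t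
  have hw : PT fun p : Par × ℕ => p.1.Lp * pw p.1.sf (min (ix p) p.1.d) :=
    PT.mul (by fun_prop) (Par.pt_pw (by fun_prop) hix)
  have em : ∀ i t, t < (P i).d → min (ix (P i, t)) (P i).d = ix (P i, t) :=
    fun i t ht => min_eq_left (hlt _ _ ht).le
  have hX : PT fun p : Par × ℕ => p.1.sf (ix p) := by fun_prop
  have o := pmRot a' hw hX (fun q => ?_) (fun q => ?_) hρ (fun q j j' e => ?_) G
  · refine o.congr (fun _ => rfl) fun q => ?_
    refine tab_congr fun j _ => ?_
    have hv := hlt _ _ (lt q)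
    simp only [G, eP, em _ _ (lt q)]
    rw [dgs_upd (h _) hv (Nat.mod_lt _ ((h _).hs _ hv).1), upd_mod (Dvd.intro _ rfl), atm_eq]
    simp only [hZ _ _ (lt q)]
    rfl
  · simp only [eP, em _ _ (lt q)]
    exact ⟨Nat.mul_pos (h _).Lp_pos (pw_pos fun t ht => ((h _).hs t
      (ht.trans (hlt _ _ (lt q)))).1), ((h _).hs _ (hlt _ _ (lt q))).1⟩
  · simp only [eP, em _ _ (lt q)]
    exact pw_dvd _ _ (hlt _ _ (lt q))
  · simp only [eP, em _ _ (lt q)] at e
    rw [eP]
    exact hc _ _ _ fun l hl => dg_congr (pw_dvd _ _ hl) e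

/-- range of a padded digit -/
def XX (p : Par) : ℕ := p.Q ^ (mulU p.uU p.dU).length

theorem XX_eq (p : Par) : XX p = p.R ^ p.d := by rw [XX, length_mulU, pow_mul]; rfl

theorem XX_ge (p : Par) : 2 ^ p.L ≤ XX p := by
  rw [XX_eq, p.L_eq, mul_comm, pow_mul]
  exact Nat.pow_le_pow_left Good.R_ge _

theorem rev {γ : ℝ} (h1 : 1 ≤ γ) (hSW : SWSpec WS γ) {r r' : Par → ℕ → ℕ}
    (hr : PT fun q : Par × ℕ => r q.1 q.2) (hr' : PT fun q : Par × ℕ => r' q.1 q.2)
    (hb : ∀ i, ∀ t < (P i).d, 0 < r (P i) t ∧ r (P i) t ≤ 2 ^ (P i).L)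
    (e : ∀ i, ∀ t < (P i).d, r' (P i) t = r (P i) ((P i).d - 1 - t))
    (en : ∀ i, pw (r (P i)) (P i).d = (P i).Ns) (en' : ∀ i, pw (r' (P i)) (P i).d = (P i).Ns)
    (G : ι → ℕ → ℕ → ℕ → Bool) :
    Op (pe s P h) (fun i => uT γ (J i) (j i) (P i))
      (fun i => tab ((P i).Lp * (P i).Ns) fun x => atB (P i).B (2 * (P i).q + 2) (G i x))
      (fun i => tab ((P i).Lp * (P i).Ns) fun x => atB (P i).B (2 * (P i).q + 2)
        (G i (rv (P i).Lp (r (P i)) (r' (P i)) (P i).d x))) 0 := by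
  have hN : PT fun p : Par => p.Lp * p.Ns := by fun_prop
  have n0 : ∀ i, 0 < (P i).Lp * (P i).Ns := fun i => Nat.mul_pos (h i).Lp_pos (h i).Ns_pos
  let a0 := ae s P h h1 _ hN (fun i => (h i).le_N) n0
  have hX : PT XX := by unfold XX; fun_prop
  have X0 : ∀ p, 0 < XX p := fun p => (Nat.two_pow_pos _).trans_le (XX_ge p)
  have hM : PT fun p : Par => p.Lp * XX p ^ p.dU.length := by fun_prop
  have hle : ∀ i, (P i).Lp * XX (P i) ^ (P i).dU.length ≤ (P i).N := fun i => by
    have := XX_ge (P i)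
    rw [Par.N, Par.D_eq, pow_add, pow_mul, ← XX_eq, Par.Lp, mul_assoc]
    gcongr
  let a := ae s P h h1 _ hM hle fun i => Nat.mul_pos (h i).Lp_pos (pow_pos (X0 _) _)
  have eX : ∀ i, (P i).Q ^ mm ^ (J i + j i) = XX (P i) := fun i => by
    rw [XX, length_mulU, pow_add, ← (h i).hu, ← (h i).hd]
  have hb1 : ∀ i, ∀ t < (P i).d, 0 < r (P i) t ∧ r (P i) t ≤ XX (P i) := fun i t ht =>
    ⟨(hb i t ht).1, (hb i t ht).2.trans (XX_ge _)⟩
  have hb2 : ∀ i, ∀ t < (P i).d, 0 < r' (P i) t ∧ r' (P i) t ≤ XX (P i) := fun i t ht => by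
    rw [e i t ht]
    exact hb1 i _ (by omega)
  let G1 : ι → ℕ → ℕ → ℕ → Bool := fun i x =>
    cond (okB (P i).Lp (XX (P i)) (P i).dU (r' (P i)) x)
      (G i (rrx (P i).Lp (fun _ => XX (P i)) (r' (P i)) (P i).dU.length x)) fun _ _ => false
  have o1 : Op (pe s P h) a.U (a0.arr G) (a.arr G1) 0 := by
    refine Op.lin a.hN.bdE (a0.bd G) fun hP hx => ?_
    have hz := Lin.zeroA (Lin.head (hx.congr (y' := fun i => atB (P i).B (2 * (P i).q + 2) (G i 0) ::
      tab ((P i).Lp * (P i).Ns - 1) fun x => atB (P i).B (2 * (P i).q + 2) (G i (x + 1))) fun i => by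
        rw [← tab_succ' _ fun x => atB (P i).B (2 * (P i).q + 2) (G i x),
          Nat.sub_add_cancel (n0 i)]; rfl))
    refine (Lin.pad (e := pe s P h) (w := Par.Lp) (X := XX) (u := Par.dU) (r := r')
      (F := fun i x => atB (P i).B (2 * (P i).q + 2) (G i x)) hP a.hN (by fun_prop) hX
      (by fun_prop) hr' (fun i => (h i).Lp_pos) hb2 (fun _ => rfl) hz
      (Bd.re (a.at fun _ _ _ _ => false) fun i => (i, 0))
      (hx.congr fun i => congrArg (fun n => tab ((P i).Lp * n) _) (en' i))).congr fun i => tab_congr fun x _ => ?_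
    simp only [G1, pe]
    cases okB (P i).Lp (XX (P i)) (P i).dU (r' (P i)) x <;> rfl
  have o2 := AE.Pm.invol hSW h1 a (fun i => J i + j i) (w := Par.Lp) (Q := Par.Q)
    (k := fun p => mulU p.uU p.dU) (n := Par.dU) (θ := fun p t => p.d - 1 - t) (by fun_prop)
    (by fun_prop) (by fun_prop) (by fun_prop) (by fun_prop) (fun i => ?_)
    (Bd.le_right a.E0 fun i => ?_) ?_ G1
  · refine ((o1.trans0 o2).thenL a.hN.bdE fun hP hx => Lin.unpad (e := pe s P h) (w := Par.Lp)
      (X := XX) (u := Par.dU) (r := r) hP a.hN (by fun_prop) hX (by fun_prop) hr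
      (fun i => (h i).Lp_pos) hb1 (fun _ => rfl) hx).congr (fun _ => rfl) fun i => ?_
    rw [← en i]
    refine tab_congr fun x _ => ?_
    have w0 := (h i).Lp_pos
    have key : ∀ t < (P i).d, dg ((P i).Lp * XX (P i) ^ t) (XX (P i))
        (invI (P i).Lp (XX (P i)) (fun t => (P i).d - 1 - t) (P i).d
          (rrx (P i).Lp (r (P i)) (fun _ => XX (P i)) (P i).d x)) =
        dg ((P i).Lp * pw (r (P i)) ((P i).d - 1 - t)) (r (P i) ((P i).d - 1 - t)) x := by
      intro t ht
      rw [dg_invI (n := (P i).d) w0 (X0 _) (fun t ht => by omega) _ le_rfl _ t ht,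
        if_pos (Or.inl ht), ← pw_const]
      exact dg_rrx (r' := fun _ => XX (P i)) w0
        (fun t ht => (dg_lt (hb1 i t ht).1).trans_le (hb1 i t ht).2) (by omega)
    simp only [G1, a, ae, pe, eX]
    rw [okB_iff.2 fun t (ht : t < (P i).d) => by
      rw [key t ht, e i t ht]; exact dg_lt (hb1 i _ (by omega)).1, cond_true, rrx, rv, invI_mod,
      rrx_mod]
    congr 4
    exact Finset.sum_congr rfl fun t ht => by rw [pw_const, key t (Finset.mem_range.1 ht)]
  · refine ⟨by rw [length_mulU, pow_add, ← (h i).hu, ← (h i).hd]; rfl,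
      ((Dvd.intro_left _ rfl).trans (h i).hA).trans ((Dvd.intro _ rfl).trans (Dvd.intro _ rfl)),
      (h i).Lp_pos, by rw [show (a.P i) = P i from rfl, eX]; rfl, ?_, ?_,
      (qp_mono ((Nat.size_le_size (hle i)).trans
        ((Nat.le_add_right _ _).trans (Nat.le_add_right _ _)))).trans (h i).hB,
      fun t (ht : t < (P i).d) => show (P i).d - 1 - t < (P i).d by omega⟩
    · obtain ⟨g, hg⟩ : ∃ g, (P i).g = g + 1 := ⟨(P i).g - 1, by have := (h i).hg; omega⟩
      show (2 ^ (P i).g + 1) % 2 = 1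
      rw [hg, pow_succ]; omega
    · show 3 ≤ 2 ^ (P i).g + 1
      have := Nat.pow_le_pow_right (show 0 < 2 by omega) (h i).hg
      omega
  · simp only [a, ae, pe]
    push_cast
    gcongr
    linarith [(by positivity : (0 : ℝ) ≤ (P i).q)]
  · refine ((bdU P h h1 fun i => (cT_ge (h i) h1).2).cmul 3).of_le fun i => ?_
    have a1 : (((P i).Lp * XX (P i) ^ (P i).dU.length : ℕ) : ℝ) ≤ (P i).N := by
      exact_mod_cast hle i
    have a2 : (0 : ℝ) ≤ γ := by linarith
    have a3 : (((2 * (P i).q + 2 : ℕ) : ℝ) + 1) ≤ 3 * ((P i).q + 1) := by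
      push_cast; linarith [(by positivity : (0 : ℝ) ≤ (P i).q)]
    simp only [a, ae, pe, U1]
    calc _ ≤ ((P i).dU.length : ℝ) * ((P i).Q.size * γ ^ (J i + j i) *
          ((P i).N * ((P i).B * (3 * ((P i).q + 1))))) := by gcongr
      _ = _ := by push_cast; ring
end

end CR

open CR in
theorem crt : CrtStmt := by
  intro WS WC γ h1 hSW
  refine ⟨cc, psi, fun J j p h => ⟨fun i hi => Nat.coprime_of_mul_modEq_one _ (cc_spec h hi),
    fun n hn => psi_spec h hn⟩, fun ι s P J j h => ⟨fun X => ?_, fun Y => ?_⟩⟩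
  · have o1 := rev s P h h1 hSW (r := Par.sf) (r' := sr) (by fun_prop) (by fun_prop)
      (fun i => (h i).hs) (fun _ _ _ => rfl) (fun _ => rfl) (fun i => pw_sr _)
      fun i x k t => (X i (x / (P i).Lp) (k + (P i).B * (x % (P i).Lp))).val.testBit t
    have o2 := loopRot s P h h1 (ix := fun q => q.2) (by fun_prop) (fun _ _ ht => ht)
      (ρ := fun q r => q.1.sf q.2 - sh q.1 q.2 r) (by fun_prop)
      (fun q r r' e => by rw [sh_congr _ fun l hl _ => e l hl])
      (fun i t k r => X i (sm (P i) (P i).d (un (P i) t r)) k) fun _ _ _ _ _ => rfl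
    refine ((o1.congr (fun _ => rfl) fun i => tab_congr fun x _ => ?_).trans0 o2).congr
      (fun _ => rfl) fun i => tab_congr fun x _ => ?_
    · rw [rv_mod, rv_div (h i).Lp_pos]; rfl
    · have := dgs_ext (h i) x
      simp only [psi, dgs] at this ⊢
      rw [this]
  · have o1 := loopRot s P h h1 (ix := fun q => q.1.d - 1 - q.2) (by fun_prop)
      (fun _ _ ht => by dsimp only; omega)
      (ρ := fun q r => sh q.1 (q.1.d - 1 - q.2) r) (by fun_prop)
      (fun q r r' e => sh_congr _ fun l hl _ => e l hl)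
      (fun i t k r => Y i k fun a => if (P i).d - t ≤ a then
        (r a + sh (P i) a r) % (P i).sf a else r a) fun i t ht k r => ?_
    · have o2 := rev s P h h1 hSW (r := sr) (r' := Par.sf) (by fun_prop) (by fun_prop)
        (fun i t ht => (h i).hs _ (by omega))
        (fun i t ht => by rw [sr, show (P i).d - 1 - ((P i).d - 1 - t) = t by omega])
        (fun i => pw_sr _) (fun _ => rfl)
        fun i x k t => (Y i (k + (P i).B * (x % (P i).Lp)) fun a => if (P i).d - (P i).d ≤ a then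
          (dgs (P i) x a + sh (P i) a (dgs (P i) x)) % (P i).sf a else dgs (P i) x a).val.testBit t
      refine (o1.trans0 o2).congr (fun i => tab_congr fun x _ => ?_)
        fun i => tab_congr fun x _ => ?_
      · refine congrArg _ (funext fun k => congrArg _ (funext fun a => ?_))
        rw [if_neg (by omega)]; rfl
      · have key : ∀ a < (P i).d, dgs (P i) (rv (P i).Lp (sr (P i)) (P i).sf (P i).d x) a =
            kd (P i) (x / (P i).Lp) a := by
          intro a ha
          have e : ∀ t < (P i).d, sr (P i) ((P i).d - 1 - t) = (P i).sf t := fun t ht => by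
            rw [sr, show (P i).d - 1 - ((P i).d - 1 - t) = t by omega]
          rw [dgs, dg_div, rv_div (h i).Lp_pos, dg_sum' _ (fun t ht => by
            rw [e t ht]; exact dg_lt ((h i).hs t ht).1) ha, e a ha, dg_div, kd, pi]
        rw [atm_eq, rv_mod]
        refine congrArg _ (funext fun k => funext fun t => ?_)
        refine congrArg (fun z : Zq (P i).q => z.val.testBit t)
          (congrArg (Y i _) (funext fun a => ?_))
        rw [if_pos (by omega), key a a.2, sh_congr _ fun l _ hl => key l hl, kd_sh (h i) a.2]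
    · refine congrArg _ (funext fun a => ?_)
      dsimp only
      rcases lt_trichotomy (a : ℕ) ((P i).d - 1 - t) with h2 | h2 | h2
      · rw [if_neg (by omega), if_neg (by omega), update_of_ne h2.ne]
      · rw [if_pos (by omega), if_neg (by omega), ← h2, update_self]
      · have e : ∀ v, sh (P i) a (update r ((P i).d - 1 - t) v) = sh (P i) a r := fun v =>
          sh_congr _ fun l hl _ => update_of_ne (h2.trans hl).ne' _ _
        rw [if_pos (by omega), if_pos (by omega), update_of_ne h2.ne', e]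

end Vale.Agent.P338
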