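import Vale.Agent.P338.FFT1
import Vale.Agent.P338.Const

/-! The list of stages computing the Fourier transform on one axis. -/

namespace Vale.Agent.P338.FF

open Complex Finset Matrix Vale.Agent.Lib.H24.T

/-- diagonal entries -/
def dsf (T s : ℕ) (δ : List ℤ) (c : Bool) (j q : ℕ) : (ℤ × ℕ) × (ℤ × ℕ) :=
  if δ.getD 0 0 = 0 then ((1, 1), ((δ.getD 2 0 + (j / q % 2 : ℕ)) * q +
    2 * δ.getD 3 0 * (j / q % 2 : ℕ) * (j % q : ℕ), 4 * q))
  else if δ.getD 0 0 = 1 then ((if j < s then 1 else 0, 1),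
    (cond c (δ.getD 1 0) (-δ.getD 1 0) * j * j * T + δ.getD 2 0 * j * s, 2 * s * T))
  else (cond c (1, s) (-1, 1), (0, 1))

/-- diagonal entries -/
def ds (x : ℕ × ℕ × List ℤ × Bool × ℕ) : (ℤ × ℕ) × (ℤ × ℕ) :=
  dsf x.1 x.2.1 x.2.2.1 x.2.2.2.1 x.2.2.2.2 (max 1 (x.2.2.1.getD 1 0).toNat)

/-- a phase of a shear coefficient -/
def ph (T s : ℕ) (σ e n m : ℤ) : ℤ × ℕ := (e * m * s - σ * m * m * T + 2 * m * n * s, 2 * s * T)

/-- shear coefficients -/
def msf (N T s : ℕ) (δ : List ℤ) (n : ℤ) : CSpec :=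
  (if δ.getD 3 0 = 0 then (1, 2) else (-1, 2 * s),
    ((List.range N).map fun m : ℕ => ph T s (δ.getD 1 0) (δ.getD 2 0) n m) ++
    (List.range N).map fun m : ℕ => ph T s (δ.getD 1 0) (δ.getD 2 0) n (m - T))

/-- shear coefficients -/
def ms (x : List Unit × ℕ × ℕ × List ℤ × ℕ) : CSpec := msf x.1.length x.2.1 x.2.2.1 x.2.2.2.1
  (ν (x.1.take (x.2.2.2.1.getD 0 0).toNat).length x.2.1 x.2.2.2.2)

/-- the stages of a layer -/
def lay (w1 u2 w2 : ℤ) (x : ℕ) : List Stage :=
  [(0, 0, [0, 2 ^ x, 0, w1]), (1, x, [0, 2 ^ x, u2, w2])]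

/-- forward network -/
def fw (L : ℕ) : List Stage := (List.range L).reverse.flatMap (lay 0 0 1)

/-- backward network -/
def bw (L : ℕ) : List Stage := (List.range L).flatMap (lay (-1) (-1) 0)

/-- shears -/
def shs (d k : ℕ) (δ : List ℤ) : List Stage := (List.range d).map fun i => (k, i, δ)

/-- a round -/
def rnd (L d : ℕ) (τ : ℤ) (t : Bool) (e : ℤ) : List Stage :=
  [(0, 0, [1, -τ, e])] ++ fw L ++ shs d (cond t 3 2) [L, cond t τ (-τ), e, cond t 0 1] ++ bw L ++
    [(0, 0, [1, τ, -e])]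

/-- all stages -/
def stf (L d : ℕ) (τ : ℤ) : List Stage :=
  rnd L d τ true 0 ++ rnd L d τ true 1 ++ rnd L d τ false 0 ++ rnd L d τ false 1 ++
    rnd L d τ true 0 ++ rnd L d τ true 1 ++ [(0, 0, [2])]

/-- all stages -/
def st (x : List Unit × List Unit × Bool) : List Stage :=
  stf x.1.length x.2.1.length (cond x.2.2 (-1) 1)

lemma pt_ds : PT ds := by unfold ds dsf; fun_prop

lemma pt_ms : PT ms := by
  have h : PT fun x : List Unit × ℕ × ℕ × List ℤ × ℕ =>
      ν (x.1.take (x.2.2.2.1.getD 0 0).toNat).length x.2.1 x.2.2.2.2 :=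
    CC.pt_sum (by fun_prop) (by fun_prop)
  have h2 : PT fun x : (List Unit × ℕ × ℕ × List ℤ × ℕ) × ℤ =>
      msf x.1.1.length x.1.2.1 x.1.2.2.1 x.1.2.2.2.1 x.2 := by unfold msf ph; fun_prop
  exact (h2.comp (PT.id.pair h)).of_eq fun _ => by rw [ms]

lemma pt_lay {α : Type} [Enc α] {u : α → List Unit} {l : α → List ℕ} (hu : PT u) (hl : PT l)
    (h : ∀ a, ∀ x ∈ l a, x < (u a).length) (w1 u2 w2 : ℤ) :
    PT fun a => (l a).flatMap (lay w1 u2 w2) := by
  have h1 : PT fun a => (l a).flatMap fun x => lay w1 u2 w2 ((u a).take x).length := by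
    unfold lay; fun_prop
  exact h1.of_eq fun a => List.flatMap_congr fun x hx => by
    rw [List.length_take, min_eq_left (h a x hx).le]

lemma pt_st : PT st := by
  have h1 : PT fun x : List Unit × List Unit × Bool => fw x.1.length :=
    pt_lay (u := fun x => x.1) (by fun_prop) (by fun_prop) (by simp) _ _ _
  have h2 : PT fun x : List Unit × List Unit × Bool => bw x.1.length :=
    pt_lay (u := fun x => x.1) (by fun_prop) (by fun_prop) (by simp) _ _ _
  have h3 : ∀ t e, PT fun x : List Unit × List Unit × Bool =>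
      rnd x.1.length x.2.1.length (cond x.2.2 (-1) 1) t e := fun t e =>
    ((((by fun_prop : PT _).append h1).append (by unfold shs; fun_prop)).append h2).append
      (by fun_prop)
  exact ((((((h3 _ _).append (h3 _ _)).append (h3 _ _)).append (h3 _ _)).append (h3 _ _)).append
    (h3 _ _)).append (PT.const _)

/-! Counting. -/

lemma cnt_lay (w1 u2 w2 : ℤ) (p : Stage → Bool) (q : ℕ → Bool) (h0 : ∀ δ, p (0, 0, δ) = false)
    (h1 : ∀ x δ, p (1, x, δ) = q x) (l : List ℕ) :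
    (l.flatMap (lay w1 u2 w2)).countP p = l.countP q := by
  induction l with
  | nil => rfl
  | cons x l ih => simp [lay, h0, h1, ih, List.countP_cons]

lemma cnt_st (L d : ℕ) (τ : ℤ) (p : Stage → Bool) (q : ℕ → Bool) (b : Bool)
    (h0 : ∀ δ, p (0, 0, δ) = false) (h1 : ∀ x δ, p (1, x, δ) = q x)
    (h2 : ∀ x δ, p (2, x, δ) = b) (h3 : ∀ x δ, p (3, x, δ) = b) :
    (stf L d τ).countP p = 12 * (List.range L).countP q + 6 * (b.toNat * d) := by
  have : ∀ t e, (rnd L d τ t e).countP p = 2 * (List.range L).countP q + b.toNat * d := by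
    intro t e
    have : ∀ δ, (shs d (cond t 3 2) δ).countP p = b.toNat * d := fun δ => by
      cases t <;> cases b <;> simp [shs, List.countP_map, Function.comp_def, h2, h3]
    simp only [rnd, fw, bw, List.countP_append, cnt_lay _ _ _ p q h0 h1, this, List.countP_reverse,
      List.countP_singleton, h0]
    simp; ring
  simp only [stf, List.countP_append, this, List.countP_singleton, h0]
  simp; ring

lemma len_st (L d : ℕ) (τ : ℤ) : (stf L d τ).length ≤ 30 * (L + d + 1) := by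
  simp [stf, rnd, fw, bw, shs, lay, List.length_flatMap]; omega

lemma mem_st {L d : ℕ} {τ : ℤ} {g : Stage} (h : g ∈ stf L d τ) :
    g.1 ≤ 3 ∧ (g.1 = 1 → g.2.1 < L) ∧ (2 ≤ g.1 → g.2.1 < d) := by
  have : ∀ t e, g ∈ rnd L d τ t e → g.1 ≤ 3 ∧ (g.1 = 1 → g.2.1 < L) ∧ (2 ≤ g.1 → g.2.1 < d) := by
    intro t e h
    simp only [rnd, fw, bw, shs, lay, List.mem_append, List.mem_flatMap, List.mem_reverse,
      List.mem_range, List.mem_map, List.mem_cons, List.not_mem_nil, or_false] at h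
    rcases h with (((rfl | ⟨x, h, rfl | rfl⟩) | ⟨x, h, rfl⟩) | ⟨x, h, rfl | rfl⟩) | rfl <;>
      cases t <;> simp [*]
  simp only [stf, List.mem_append, List.mem_singleton] at h
  rcases h with (((((h | h) | h) | h) | h) | h) | rfl
  exacts [this _ _ h, this _ _ h, this _ _ h, this _ _ h, this _ _ h, this _ _ h, by simp]

/-! The matrices of the stages. -/

variable {L : ℕ}

/-- block matrices -/
def B (a b c d : R L) : Matrix (Ax L) (Ax L) ℂ :=
  fun x y => cond x.1 (cond y.1 d c) (cond y.1 b a) x.2 y.2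

lemma B_mul (a b c d a' b' c' d' : R L) : B a b c d * B a' b' c' d' =
    B (a * a' + b * c') (a * b' + b * d') (c * a' + d * c') (c * b' + d * d') := by
  ext ⟨x, i⟩ ⟨y, j⟩
  rw [mul_apply, Fintype.sum_prod_type, Fintype.sum_bool]
  cases x <;> cases y <;> simp [B, mul_apply, add_comm]

lemma B_diag (f : Ax L → ℂ) :
    diagonal f = B (diagonal fun j => f (false, j)) 0 0 (diagonal fun j => f (true, j)) := by
  ext ⟨x, i⟩ ⟨y, j⟩
  cases x <;> cases y <;> simp [B, diagonal_apply]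

lemma B_one : (1 : Matrix (Ax L) (Ax L) ℂ) = B 1 0 0 1 := B_diag _

lemma B_bitC (l : ℕ) : bitC L l = B (Cm L l) 0 0 (Cm L l) := by
  ext ⟨x, i⟩ ⟨y, j⟩
  cases x <;> cases y <;> simp [B, bitC, Cm]

/-- shear with diagonal block `P` -/
def Sh (t : Bool) (P X : R L) : Matrix (Ax L) (Ax L) ℂ := cond t (B P 0 X P) (B P X 0 P)

variable {i s : ℕ}

/-- the matrix of a list of stages -/
noncomputable def ev (L i s : ℕ) (l : List Stage) : Matrix (Ax L) (Ax L) ℂ :=
  (l.map (stageM ds ms L i s)).reverse.prod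

lemma ev_append (a b : List Stage) : ev L i s (a ++ b) = ev L i s b * ev L i s a := by simp [ev]

lemma val_one (a : ℤ) (b : ℕ) (q : ℤ × ℕ) : CSpec.val ((a, b), [q]) = a / b * E (q.1 / q.2) := by
  simp [CSpec.val, eph, E]

lemma val_lay (l : ℕ) (u w : ℤ) (c : Bool) (j : ℕ) :
    CSpec.val ((ds (2 ^ L, s, [0, 2 ^ l, u, w], c, j)).1, [(ds (2 ^ L, s, [0, 2 ^ l, u, w], c, j)).2])
      = d0 l u w j := by
  have : max 1 (2 ^ l : ℤ).toNat = 2 ^ l := by
    rw [show (2 ^ l : ℤ) = (2 ^ l : ℕ) by simp, Int.toNat_natCast, max_eq_right Nat.one_le_two_pow]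
  simp only [ds, dsf, List.getD_cons_zero, List.getD_cons_succ, if_true, this, val_one, d0,
    Int.cast_add, Int.cast_mul, Int.cast_natCast]
  push_cast
  rw [div_one, one_mul]
  congr 1; field_simp; ring

lemma ev_lay (w1 u2 w2 : ℤ) (l : ℕ) :
    ev L i s (lay w1 u2 w2 l) = B (Lay L w1 u2 w2 l) 0 0 (Lay L w1 u2 w2 l) := by
  simp [ev, lay, stageM, B_diag, val_lay, B_bitC, B_mul, Lay]

lemma ev_fw {n : ℕ} (hn : n ≤ L) : ev L i s (fw n) = B (Mk L n) 0 0 (Mk L n) := by
  induction n with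
  | zero => rw [Mk_zero, ← B_one]; rfl
  | succ n ih =>
    rw [fw, List.range_succ, List.reverse_append, List.flatMap_append, ev_append, ← fw,
      ih (by omega), Mk_succ hn]
    simp [ev_lay, B_mul]

lemma ev_bw {n : ℕ} (hn : n ≤ L) : ∃ N, ev L i s (bw n) = B N 0 0 N ∧ N * Mk L n = 1 := by
  induction n with
  | zero => exact ⟨1, B_one, by rw [Mk_zero, mul_one]⟩
  | succ n ih =>
    obtain ⟨N, h1, h2⟩ := ih (by omega)
    refine ⟨Lay L (-1) (-1) 0 n * N, ?_, ?_⟩
    · rw [bw, List.range_succ, List.flatMap_append, ev_append, ← bw, h1]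
      simp [ev_lay, B_mul]
    · rw [Mk_succ hn, mul_assoc, ← mul_assoc N, h2, one_mul, Lay_inv hn]

lemma ev_shs {k : ℕ} (hk : 2 ≤ k) (δ : List ℤ) (d : ℕ) :
    ev L i s (shs d k δ) = if i < d then stageM ds ms L i s (k, i, δ) else 1 := by
  induction d with
  | zero => rfl
  | succ d ih =>
    rw [shs, List.range_succ, List.map_append, ev_append, ← shs, ih]
    by_cases h : d = i
    · simp [h, ev]
    · have : ev L i s [(k, d, δ)] = 1 := by simp [ev, stageM, h, show ¬ k ≤ 1 by omega]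
      rw [List.map_singleton, this, one_mul, if_congr (show i < d ↔ i < d + 1 by omega) rfl rfl]

lemma val_ms (hs : 0 < s) (σ e p : ℤ) (h : ℕ) :
    (ms (List.replicate (2 ^ L) (), 2 ^ L, s, [L, σ, e, p], h)).val =
      ∑ m : Fin (2 ^ L), ((if p = 0 then 1 / 2 else -1 / (2 * s) : ℂ) *
        (fq L s σ e (m : ℕ) + fq L s σ e ((m : ℕ) - 2 ^ L))) * E ((m : ℕ) * ρ L h) := by
  have h0 : (s : ℂ) ≠ 0 := by exact_mod_cast hs.ne'
  have h1 : ∀ m : ℤ, eph (ph (2 ^ L) s σ e (ν L (2 ^ L) h) m) = fq L s σ e m * E (m * ρ L h) := by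
    intro m
    rw [fq, ← E_add, eph, E, ph]
    push_cast
    rw [ν_eq]
    congr 2; field_simp
  have h2 : ∀ f : ℕ → ℂ, ((List.range (2 ^ L)).map f).sum = ∑ m : Fin (2 ^ L), f m := fun f =>
    (Fin.sum_univ_eq_sum_range f _).symm
  simp only [ms, msf, CSpec.val, List.getD_cons_zero, List.getD_cons_succ, Int.toNat_natCast,
    List.length_take, List.length_replicate, min_eq_left Nat.lt_two_pow_self.le, List.map_append,
    List.map_map, List.sum_append, Function.comp_def, h1, h2, ← sum_add_distrib, mul_sum]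
  refine sum_congr rfl fun m _ => ?_
  push_cast
  rw [E_congr (a := ((m : ℕ) - 2 ^ L) * ρ L h) (b := (m : ℕ) * ρ L h) (-ν L (2 ^ L) h)
    (by rw [Int.cast_neg, ν_eq]; ring)]
  split_ifs <;> push_cast <;> ring

lemma ev_dq (hs : 0 < s) (a e : ℤ) :
    ev L i s [(0, 0, [1, a, e])] = B (dq L s (-a) e) 0 0 (dq L s a e) := by
  have h0 : (s : ℂ) ≠ 0 := by exact_mod_cast hs.ne'
  simp only [ev, stageM, List.map_singleton, List.reverse_singleton, List.prod_singleton, B_diag,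
    zero_le, if_true, zero_ne_one, if_false, mul_one, ds, dsf, List.getD_cons_zero,
    List.getD_cons_succ, one_ne_zero, val_one, dq]
  congr 2 <;> funext j <;> congr 1 <;> first | (simp; done) | (congr 1; simp; field_simp)

lemma ev_rnd {d : ℕ} (hi : i < d) (hs : 0 < s) (τ : ℤ) (t : Bool) (e : ℤ) :
    ev L i s (rnd L d τ t e) =
      Sh t (Pm L s) (Am L s (cond t τ (-τ)) e (cond t (1 / 2) (-1 / (2 * s)))) := by
  obtain ⟨N, h1, h2⟩ := ev_bw (i := i) (s := s) (le_refl L)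
  have h3 : ∀ (σ p : ℤ), stageM ds ms L i s (cond t 3 2, i, [L, σ, e, p]) = Sh t 1 (diagonal
      fun h => (ms (List.replicate (2 ^ L) (), 2 ^ L, s, [L, σ, e, p], h)).val) := by
    intro σ p
    ext ⟨x, a⟩ ⟨y, b⟩
    cases t <;> cases x <;> cases y <;> simp [stageM, Sh, B, one_apply, diagonal_apply]
  have h4 : ∀ X : R L, N * (Mk L L * X) = X := fun X => by rw [← mul_assoc, h2, one_mul]
  have h5 := dq_dq (L := L) s τ e
  have h6 := dq_dq (L := L) s (-τ) e
  simp only [rnd, ev_append, h1, ev_fw le_rfl, ev_dq hs]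
  rw [ev_shs (by cases t <;> simp), if_pos hi, h3]
  simp only [val_ms hs]
  cases t <;> simp only [Sh, cond_true, cond_false, B_mul, mul_zero, zero_mul, add_zero, zero_add,
    one_mul, ← mul_assoc (diagonal _), Mk_circ, mul_assoc (Mk L L), h4, neg_neg, Am] at h6 ⊢ <;>
    simp [h5, h6, mul_assoc]

lemma Sh_pair (hs : 0 < s) (t : Bool) (σ : ℤ) (z : ℂ) :
    Sh t (Pm L s) (Am L s σ 1 z) * Sh t (Pm L s) (Am L s σ 0 z) =
      Sh t (Pm L s) ((2 * z) • Fm L s σ) := by
  have h1 : ∀ e, Am L s σ e z * Pm L s = Am L s σ e z := fun e => by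
    rw [Am, mul_assoc, dq_Pm]
  have h2 : ∀ e, Pm L s * Am L s σ e z = Am L s σ e z := fun e => by
    rw [Am, ← mul_assoc, ← mul_assoc, Pm_dq]
  cases t <;> simp [Sh, B_mul, h1, h2, Pm_Pm, ← Am_add hs, add_comm]

lemma ev_st {d : ℕ} (hi : i < d) (hs : 0 < s) (hL : s ≤ 2 ^ L) {τ : ℤ} (hτ : |τ| = 1) :
    ev L i s (stf L d τ) = B 0 ((1 / s : ℂ) • Fm L s (-τ)) ((1 / s : ℂ) • Fm L s τ) 0 := by
  have h0 : (s : ℂ) ≠ 0 := by exact_mod_cast hs.ne'
  have h1 : ev L i s [(0, 0, [2])] = B (-1) 0 0 ((1 / s : ℂ) • 1) := by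
    ext ⟨x, a⟩ ⟨y, b⟩
    cases x <;> cases y <;> simp [ev, stageM, ds, dsf, val_one, B, one_apply]
    split_ifs <;> simp
  have h2 := Fm_Fm hs hL hτ
  have h3 := Fm_Fm hs hL (σ := -τ) (by rwa [abs_neg])
  have h4 : (2 * (-1 / (2 * s)) : ℂ) = -(1 / s) := by field_simp
  have h5 : ∀ t, ev L i s (rnd L d τ t 0 ++ rnd L d τ t 1) =
      Sh t (Pm L s) ((2 * cond t (1 / 2) (-1 / (2 * s) : ℂ)) • Fm L s (cond t τ (-τ))) := fun t => by
    rw [ev_append, ev_rnd hi hs, ev_rnd hi hs, Sh_pair hs]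
  rw [neg_neg] at h3
  rw [stf, List.append_assoc _ (rnd L d τ true 0), List.append_assoc _ (rnd L d τ false 0),
    ev_append, ev_append _ (_ ++ _), ev_append _ (_ ++ _), h5, h5, h1]
  simp [Sh, B_mul, h4, Pm_Pm, Pm_Fm, Fm_Pm, h2, h3, smul_smul, h0]

end Vale.Agent.P338.FF

namespace Vale.Agent.P338

open FF

theorem fft_exists : FFTStmt := by
  refine ⟨ds, ms, st, pt_ds, pt_ms, pt_st, fun L d inv _ => ?_⟩
  simp only [st, List.length_replicate]
  refine ⟨len_st _ _ _, ?_, ?_, fun l _ => ?_, fun g hg => ?_, fun i s hi hs hL a b hb => ?_⟩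
  · rw [cnt_st L d _ _ (fun _ => true) false] <;> simp
  · rw [cnt_st L d _ _ (fun _ => false) true] <;> simp
  · rw [cnt_st L d _ _ (· == l) false]
    · have := List.nodup_iff_count_le_one.1 (List.nodup_range (n := L)) l
      rw [List.count] at this
      simp only [Bool.toNat_false]; omega
    all_goals simp [Bool.beq_eq_decide_eq]
  · refine ⟨(mem_st hg).1, (mem_st hg).2.1, (mem_st hg).2.2, fun s c j hs _ _ => ?_⟩
    simp only [ds, dsf, ms, msf, ph, List.mem_append, List.mem_map, List.length_append,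
      List.length_map, List.length_range, List.length_replicate]
    refine ⟨?_, ?_, ?_, ?_, ?_, ?_, by omega⟩
    · split_ifs <;> cases c <;> simp [hs]
    · split_ifs <;> simp [hs]
    · split_ifs <;> cases c <;> simp
    · split_ifs <;> simp [hs]
    · rintro _ (⟨m, -, rfl⟩ | ⟨m, -, rfl⟩) <;> simp [hs]
    · split_ifs <;> simp
  · obtain ⟨x, j⟩ := a
    obtain ⟨y, k⟩ := b
    refine (congrFun₂ (ev_st hi hs hL (by cases inv <;> simp)) _ _).trans ?_
    cases x <;> cases y <;> cases inv <;> simp [B, Fm, show (k : ℕ) < s from hb, eph, E, mul_assoc]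

end Vale.Agent.P338
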