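import Vale.Agent.P338.Compile

/-! From the algorithm to the final statement. -/

namespace Vale.Agent.P338.CA

open Function
open Vale.Agent.Lib.H24.T (W W0 W1 W2 W3 uW0 uW1 uW2 uW3 code code_pair code_cons code_nil
  code_bool serB)

/-- Encoding loop. -/
def encP : Prog := .whilePop 3 (.seq (.ifv (fun o => o.getD false)
  (.seq (.push 0 false) (.seq (.push 0 false) (.push 0 true))) (.push 0 false)) (.push 0 true))

/-- Decoding loop. -/
def decP : Prog := .whilePop 0 (.ifv (fun o => o.getD false) (brk 0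
  (.seq (.pop 0) (.seq (.pop 0) (.push 1 true))) (.push 1 false)) .skip)

variable {s : Prog}

lemma encP_tri (z a b l : List Bool) : ∀ r : List Bool,
    Tri s encP (W (code r ++ z) a b l) (W (code (l.reverse ++ r) ++ z) a b []) (l.length + 1) := by
  induction l with
  | nil => exact fun r => Tri.whileNil rfl
  | cons γ l ih =>
    intro r v
    rw [List.reverse_cons, List.append_assoc]
    cases γ
    · obtain ⟨t, v', h1, h2⟩ := ih (false :: r) (some false)
      refine ⟨0 + 0 + t + 1, v', by simpa using h1, Exec.whileCons (γ := false) (l := l) rfl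
        (Exec.seq (Exec.ifF rfl Exec.push) Exec.push) ?_⟩
      simpa [code_cons, code_bool, serB, encP] using h2
    · obtain ⟨t, v', h1, h2⟩ := ih (true :: r) (some true)
      refine ⟨0 + (0 + 0) + 0 + t + 1, v', by simpa using h1, Exec.whileCons (γ := true) (l := l) rfl
        (Exec.seq (Exec.ifT rfl (Exec.seq Exec.push (Exec.seq Exec.push Exec.push))) Exec.push) ?_⟩
      simpa [code_cons, code_bool, serB, encP] using h2

lemma decP_tri (l : List Bool) : ∀ r : List Bool,
    Tri s decP (W (code l) r [] []) (W [] (l.reverse ++ r) [] []) (l.length + 2) := by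
  induction l with
  | nil =>
    intro r v
    refine ⟨0 + 1 + 1, none, le_rfl, Exec.whileCons (γ := false) (l := []) (t := 0) (t' := 1) rfl
      (Exec.ifF rfl Exec.skip) ?_⟩
    rw [uW0]; exact Exec.whileNil rfl
  | cons γ l ih =>
    intro r v
    rw [List.reverse_cons, List.append_assoc]
    cases γ
    · obtain ⟨t, v', h1, h2⟩ := ih (false :: r) (some false)
      refine ⟨0 + 0 + t + 1, v', by simpa using h1, Exec.whileCons (γ := true)
        (l := false :: code l) rfl
        (Exec.ifT rfl (Exec.seq Exec.popv (Exec.ifF (by simp) Exec.push))) ?_⟩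
      simpa [decP] using h2
    · obtain ⟨t, v', h1, h2⟩ := ih (true :: r) (some true)
      refine ⟨0 + (0 + (0 + 0)) + t + 1, v', by simpa using h1, Exec.whileCons (γ := true)
        (l := true :: false :: false :: code l) rfl (Exec.ifT rfl (Exec.seq Exec.popv
          (Exec.ifT (by simp) (Exec.seq Exec.pop (Exec.seq Exec.pop Exec.push))))) ?_⟩
      simpa [decP] using h2

lemma len_code (l : List Bool) : (code l).length ≤ 4 * l.length + 1 := by
  induction l with
  | nil => simp [code_nil]
  | cons b l ih => cases b <;> simp [code_cons, code_bool, serB] <;> omega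

/-- The wrapper program. -/
def wrap (q : Prog) : Prog :=
  .seq (emb (Vale.Agent.Lib.H24.T.mv 1 3)) (.seq (.push 0 false) (.seq encP
    (.seq (emb (Vale.Agent.Lib.H24.T.mv 2 3)) (.seq (.push 0 false) (.seq encP
      (.seq (.push 0 true) (.seq (.fix 0 q) decP)))))))

lemma wrap_tri {q : Prog} {x y out : List Bool} {t : ℕ}
    (h : Run q q (code (y.reverse, x.reverse)) (code out) t) :
    Tri s (wrap q) (W [] x.reverse y.reverse []) (W [] out.reverse [] [])
      (t + 6 * x.length + 6 * y.length + 5 * out.length + 11) := by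
  have e1 := Tri.emb (s := s) (Vale.Agent.Lib.H24.T.Tri.mv (a := 1) (b := 3) (by omega) _
    (W [] x.reverse y.reverse []) rfl)
  have e2 := Tri.push (s := s) 0 false (W [] [] y.reverse x)
  have e3 := encP_tri (s := s) [] [] y.reverse x []
  have e4 := Tri.emb (s := s) (Vale.Agent.Lib.H24.T.Tri.mv (a := 2) (b := 3) (by omega) _
    (W (code x.reverse) [] y.reverse []) rfl)
  have e5 := Tri.push (s := s) 0 false (W (code x.reverse) [] [] y)
  have e6 := encP_tri (s := s) (code x.reverse) [] [] y []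
  have e7 := Tri.push (s := s) 0 true (W (code y.reverse ++ code x.reverse) [] [] [])
  have e8 : Tri s _ _ _ _ := h.fix (s := s)
  have e9 := decP_tri (s := s) out []
  have l1 := len_code x.reverse
  have l2 := len_code y.reverse
  have l3 := len_code out
  simp only [W0, W1, W2, W3, uW0, uW1, uW2, uW3, List.append_nil, List.reverse_reverse,
    List.length_reverse, code_nil, code_pair, List.singleton_append, List.length_cons,
    List.length_append] at e1 e2 e3 e4 e5 e6 e7 e8 e9 l1 l2
  exact (e1.seq (e2.seq (e3.seq (e4.seq (e5.seq (e6.seq (e7.seq (e8.seq e9)))))))).mono (by omega)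

theorem compile' (q : Prog) : ∃ (M : TM) (C : ℕ), ∀ (x y out : List Bool) (t : ℕ),
    Run q q (code (y.reverse, x.reverse)) (code out) t →
    ∃ t', t' ≤ C * (t + x.length + y.length + out.length + 1) ∧ M.HaltsIn x y t' ∧
      (M.step^[t'] (M.init x y)).tape M.out = M.word (out.reverse.map M.bit) := by
  obtain ⟨M, C, h⟩ := core (wrap q)
  refine ⟨M, C * 12, fun x y out t ht => ?_⟩
  obtain ⟨t1, v, h1, h2⟩ := wrap_tri (s := wrap q) ht none
  obtain ⟨t', h3, h4⟩ := h x y _ t1 v h2
  refine ⟨t', h3.trans ?_, h4⟩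
  rw [mul_assoc, List.length_reverse]
  exact Nat.mul_le_mul_left _ (by omega)

lemma lv_reverse (x : List Bool) : lv x.reverse = val x := by
  rw [val, List.foldl_eq_foldr_reverse]
  induction x.reverse with
  | nil => rfl
  | cons b l ih => rw [lv, List.foldr_cons, ih, add_comm]

lemma log_bd {n κ : ℝ} (hn : 2 ≤ n) (h0 : 0 < κ) (h1 : κ < 1) :
    Real.logb 2 (n + 2) ^ (1 - κ) ≤ 3 * Real.log n ^ (1 - κ) ∧ 1 ≤ 2 * Real.log n ^ (1 - κ) := by
  have a1 := Real.log_two_gt_d9
  have a2 : Real.log 2 ≤ Real.log n := Real.log_le_log (by norm_num) hn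
  have a3 : Real.log (n + 2) ≤ 2 * Real.log n := by
    rw [← Nat.cast_ofNat (R := ℝ) (n := 2), ← Real.log_pow]
    exact Real.log_le_log (by positivity) (by push_cast; nlinarith)
  have a4 : Real.logb 2 (n + 2) ≤ 3 * Real.log n := by
    rw [Real.logb, div_le_iff₀ (by linarith)]; nlinarith
  have a5 : ∀ c : ℝ, 1 ≤ c → c ^ (1 - κ) ≤ c := fun c hc => by
    simpa using Real.rpow_le_rpow_of_exponent_le hc (show 1 - κ ≤ 1 by linarith)
  have a6 : ∀ c : ℝ, 1 ≤ c → (c * Real.log n) ^ (1 - κ) ≤ c * Real.log n ^ (1 - κ) := fun c hc => by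
    rw [Real.mul_rpow (by linarith) (by linarith)]
    exact mul_le_mul_of_nonneg_right (a5 c hc) (Real.rpow_nonneg (by linarith) _)
  exact ⟨(Real.rpow_le_rpow (Real.logb_nonneg (by norm_num) (by linarith)) a4 (by linarith)).trans
    (a6 3 (by norm_num)),
    (Real.one_le_rpow (by linarith) (by linarith)).trans (a6 2 (by norm_num))⟩

end Vale.Agent.P338.CA

namespace Vale.Agent.P338

open CA Filter

theorem final (h : AlgStmt) : FinalStmt := by
  obtain ⟨p, C, κ, h0, h1, h⟩ := h
  obtain ⟨M, D, hM⟩ := compile' p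
  have key : ∀ (n : ℕ) (x y : List Bool), x.length = n → y.length = n → ∃ t t' : ℕ,
      (t : ℝ) ≤ C * (n + 1) * Real.logb 2 (n + 2) ^ (1 - κ) ∧ t' ≤ D * (t + 4 * n + 1) ∧
      M.HaltsIn x y t' ∧ (M.step^[t'] (M.init x y)).tape M.out =
        M.word ((bin (2 * n) (val x * val y)).map M.bit) := by
    intro n x y hx hy
    obtain ⟨t, a1, a2⟩ := h p y.reverse x.reverse (by simp [hx, hy])
    obtain ⟨t', a3, a4, a5⟩ := hM x y _ t a2
    simp only [List.length_reverse, hx, hy, lb, List.length_map, List.length_range, lv_reverse,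
      ← List.map_reverse, mul_comm (val y)] at a1 a3 a5
    exact ⟨t, t', a1, a3.trans (Nat.mul_le_mul_left _ (by omega)), a4, a5⟩
  have hm : M.Multiplies := fun n _ x y hx hy => by
    obtain ⟨t, t', -, -, a⟩ := key n x y hx hy
    exact ⟨t', a⟩
  have hT : ∀ n : ℕ, 2 ≤ n → (M.T n : ℝ) ≤ D * (6 * |C| + 10) * n * Real.log n ^ (1 - κ) := by
    intro n hn
    have hn' : (2 : ℝ) ≤ n := by exact_mod_cast hn
    obtain ⟨b1, b2⟩ := log_bd hn' h0 h1
    have b0 : 0 ≤ Real.logb 2 (n + 2) ^ (1 - κ) :=
      Real.rpow_nonneg (Real.logb_nonneg (by norm_num) (by linarith)) _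
    generalize Real.log n ^ (1 - κ) = L at b1 b2 ⊢
    have hL : 0 < L := by linarith
    rw [← Nat.le_floor_iff (by positivity)]
    refine csSup_le' ?_
    rintro _ ⟨x, y, hx, hy, rfl⟩
    obtain ⟨t, t', a1, a2, a3, -⟩ := key n x y hx hy
    refine (Nat.sInf_le a3).trans (a2.trans (Nat.le_floor ?_))
    push_cast
    rw [mul_assoc, mul_assoc]
    refine mul_le_mul_of_nonneg_left ?_ (Nat.cast_nonneg _)
    have c1 : (t : ℝ) ≤ |C| * (2 * n) * (3 * L) :=
      a1.trans (mul_le_mul (mul_le_mul (le_abs_self _) (by linarith) (by linarith) (abs_nonneg _))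
        b1 b0 (by positivity))
    nlinarith
  refine ⟨⟨M, hm, _, κ, h0, hT⟩, fun H => ?_⟩
  obtain ⟨c, hc, N, hN, H⟩ := H M hm
  have t1 : Tendsto (fun n : ℕ => c * Real.log n ^ κ) atTop atTop :=
    ((tendsto_rpow_atTop h0).comp
      (Real.tendsto_log_atTop.comp tendsto_natCast_atTop_atTop)).const_mul_atTop hc
  obtain ⟨n, a1, a2⟩ := ((t1.eventually_gt_atTop (D * (6 * |C| + 10))).and
    (eventually_ge_atTop N)).exists
  have hn : (2 : ℝ) ≤ n := by exact_mod_cast hN.trans a2
  have hl : 0 < Real.log n := Real.log_pos (by linarith)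
  have a3 := (H n a2).trans (hT n (hN.trans a2))
  have a4 : Real.log n = Real.log n ^ κ * Real.log n ^ (1 - κ) := by
    rw [← Real.rpow_add hl]; simp
  have a5 : 0 < n * Real.log n ^ (1 - κ) := by positivity
  have a6 := mul_lt_mul_of_pos_right a1 a5
  nth_rewrite 1 [a4] at a3
  linarith

end Vale.Agent.P338
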