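import Vale.Agent.P338.Spec3

/-! Module F, part 1: long numbers as bit lists. -/

namespace Vale.Agent.P338

open Finset
open Vale.Agent.Lib.H24.T (Enc sz PT sz_list_le sz_bool length_le_sz sz_pair sz_pos)

theorem io_lb (k z : ℕ) : lb k z = tab k z.testBit := rfl

theorem io_lv_lt (l : List Bool) : lv l < 2 ^ l.length := by
  induction l with
  | nil => simp [lv]
  | cons a l ih =>
    have : a.toNat ≤ 1 := by cases a <;> simp
    simp only [lv, List.length_cons, pow_succ]
    omega

theorem io_lb_lv (l : List Bool) : lb l.length (lv l) = l := by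
  induction l with
  | nil => rfl
  | cons a l ih =>
    rw [List.length_cons, io_lb, tab_succ']
    congr 1
    · cases a <;> simp [lv, Nat.testBit_zero]
    · conv_rhs => rw [← ih, io_lb]
      refine tab_congr fun j _ => ?_
      rw [Nat.testBit_succ]
      congr 1
      cases a
      · simp [lv]
      · simp [lv]; omega

theorem io_lv_lb (n : ℕ) : ∀ z, lv (lb n z) = z % 2 ^ n := by
  induction n with
  | zero => intro z; simp [lb, lv, Nat.mod_one]
  | succ n ih =>
    intro z
    have e : (tab n fun j => z.testBit (j + 1)) = lb n (z / 2) :=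
      tab_congr fun j _ => Nat.testBit_succ _ _
    rw [io_lb, tab_succ', lv, e, ih, pow_succ', Nat.mod_mul, Nat.testBit_zero]
    rcases Nat.mod_two_eq_zero_or_one z with h | h <;> simp [h]

theorem io_lb_mod {n z z' : ℕ} (h : z ≡ z' [MOD 2 ^ n]) : lb n z = lb n z' :=
  tab_congr fun j hj => by
    have h1 := Nat.testBit_mod_two_pow z n j
    have h2 := Nat.testBit_mod_two_pow z' n j
    rw [show z % 2 ^ n = z' % 2 ^ n from h, h2] at h1
    simpa [hj] using h1.symm

theorem io_lb_sum {A B : ℕ} {z : ℕ → ℕ} (h : ∀ a < A, z a < 2 ^ B) :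
    lb (B * A) (∑ a ∈ range A, z a * (2 ^ B) ^ a) =
      tab (B * A) fun j => (z (j / B)).testBit (j % B) :=
  tab_congr fun j hj => by
    have hB : 0 < B := Nat.pos_of_ne_zero fun h0 => by simp [h0] at hj
    have h1 : j / B < A := Nat.div_lt_of_lt_mul hj
    rw [← dg_sum A h h1, dg, Nat.testBit_mod_two_pow, ← pow_mul, Nat.testBit_div_two_pow,
      Nat.mod_add_div]
    simp [Nat.mod_lt _ hB]

theorem io_cauchy (a b : ℕ → ℕ) (n : ℕ) :
    (∑ i ∈ range n, a i) * (∑ i ∈ range n, b i) =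
      ∑ k ∈ range n, ∑ l ∈ range (k + 1), a l * b (k - l) +
        ∑ m ∈ range n, ∑ k ∈ range m, a m * b (n - m + k) := by
  rw [Finset.sum_range_diag_flip n fun l k => a l * b k, ← sum_add_distrib, sum_mul]
  refine sum_congr rfl fun m hm => ?_
  have hm := mem_range.1 hm
  rw [← mul_sum, ← mul_sum, ← mul_add, ← sum_range_add, show n - m + m = n by omega]

theorem io_cauchy_eq {a b : ℕ → ℕ} {n r : ℕ} (ha : ∀ i, r ≤ i → a i = 0)
    (hb : ∀ i, r ≤ i → b i = 0) (h : 2 * r ≤ n) :
    (∑ i ∈ range n, a i) * (∑ i ∈ range n, b i) =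
      ∑ k ∈ range n, ∑ l ∈ range (k + 1), a l * b (k - l) := by
  rw [io_cauchy, sum_eq_zero (s := range n) (f := fun m => ∑ k ∈ range m, a m * b (n - m + k)),
    add_zero]
  refine fun m _ => sum_eq_zero fun k _ => ?_
  by_cases h1 : r ≤ m
  · rw [ha m h1, zero_mul]
  · rw [hb _ (by omega), mul_zero]

theorem io_kron (a b : ℕ → ℕ) (R n : ℕ) :
    (∑ i ∈ range n, a i * R ^ i) * (∑ i ∈ range n, b i * R ^ i) ≡
      ∑ k ∈ range n, (∑ l ∈ range (k + 1), a l * b (k - l)) * R ^ k [MOD R ^ n] := by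
  rw [io_cauchy]
  have e : ∑ k ∈ range n, ∑ l ∈ range (k + 1), a l * R ^ l * (b (k - l) * R ^ (k - l)) =
      ∑ k ∈ range n, (∑ l ∈ range (k + 1), a l * b (k - l)) * R ^ k :=
    sum_congr rfl fun k _ => by
      rw [sum_mul]
      refine sum_congr rfl fun l hl => ?_
      have hl := mem_range.1 hl
      rw [show R ^ k = R ^ l * R ^ (k - l) by rw [← pow_add]; congr 1; omega]
      ring
  rw [e]
  refine Nat.add_modEq_left_iff.2 (dvd_sum fun m hm => dvd_sum fun k _ => ?_)
  have hm := mem_range.1 hm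
  refine ⟨a m * b (n - m + k) * R ^ k, ?_⟩
  rw [show R ^ n = R ^ m * R ^ (n - m) by rw [← pow_add]; congr 1; omega, pow_add]
  ring

theorem io_sum_lt {k R : ℕ} {f : ℕ → ℕ} (h : ∀ l < k, f l < R) (hk : 0 < k) :
    ∑ l ∈ range k, f l < k * R := by
  have := sum_lt_sum_of_nonempty (s := range k) (f := f) (g := fun _ => R)
    ⟨0, mem_range.2 hk⟩ fun l hl => h l (mem_range.1 hl)
  simpa using this

theorem io_sum_mul (f : ℕ → ℕ) (M A : ℕ) :
    ∑ j ∈ range (M * A), f j = ∑ a ∈ range A, ∑ k ∈ range M, f (k + M * a) := by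
  induction A with
  | zero => simp
  | succ A ih =>
    rw [Nat.mul_succ, sum_range_add, ih, sum_range_succ]
    simp only [add_comm]

theorem io_idx {B C : ℕ} (hB : 0 < B) {b : ℕ} (hb : b < B) (a : ℕ) :
    (b + B * a) / (B * C) = a / C ∧ (b + B * a) % (B * C) = b + B * (a % C) := by
  have h1 : (b + B * a) / B = a := by
    rw [Nat.add_mul_div_left _ _ hB, Nat.div_eq_of_lt hb, zero_add]
  have h2 : (b + B * a) % B = b := by rw [Nat.add_mul_mod_self_left, Nat.mod_eq_of_lt hb]
  exact ⟨by rw [← Nat.div_div_eq_div_mul, h1], by rw [Nat.mod_mul, h1, h2]⟩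

theorem io_dm {B : ℕ} {b : ℕ} (hb : b < B) (a : ℕ) :
    (b + B * a) / B = a ∧ (b + B * a) % B = b :=
  ⟨by rw [Nat.add_mul_div_left _ _ (by omega), Nat.div_eq_of_lt hb, zero_add],
    by rw [Nat.add_mul_mod_self_left, Nat.mod_eq_of_lt hb]⟩

variable {ι α β : Type} [Enc α] [Enc β] {c : Ctx ι α}

theorem Lin.ioAdd {a b : ι → ℕ} (ha : Lin c fun i => List.replicate (a i) ())
    (hb : Lin c fun i => List.replicate (b i) ()) :
    Lin c fun i => List.replicate (a i + b i) () :=
  (ha.append hb).congr fun _ => List.replicate_add ..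

theorem Lin.ioMul (k : ℕ) {a : ι → ℕ} (ha : Lin c fun i => List.replicate (a i) ()) :
    Lin c fun i => List.replicate (k * a i) () := by
  induction k with
  | zero => exact (ha.cst []).congr fun i => by simp
  | succ k ih => exact (ih.ioAdd ha).congr fun i => by rw [Nat.succ_mul]

theorem Lin.ioRul {n z : ι → ℕ} (h : Lin c fun i => lb (n i) (z i)) :
    Lin c fun i => List.replicate (n i) () := Lin.ruler (F := fun i => (z i).testBit) h

theorem Lin.ioTake {m n z : ι → ℕ} (hn : Lin c fun i => List.replicate (n i) ())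
    (h : Lin c fun i => lb (m i) (z i)) (hz : ∀ i, n i ≤ m i) : Lin c fun i => lb (n i) (z i) :=
  (Lin.take hn h).congr fun i => by rw [io_lb, io_lb, take_tab, min_eq_left (hz i)]

theorem Lin.ioFit {m n z : ι → ℕ} (hn : Lin c fun i => List.replicate (n i) ())
    (h : Lin c fun i => lb (m i) (z i)) (hz : ∀ i, z i < 2 ^ m i) :
    Lin c fun i => lb (n i) (z i) := by
  refine Lin.ioTake (m := fun i => m i + n i) hn ((h.append (hn.fillN false)).congr fun i => ?_)
    fun i => by omega
  rw [io_lb, io_lb, replicate_tab, append_tab]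
  refine tab_congr fun j _ => ?_
  split_ifs with h1
  · rfl
  · exact Nat.testBit_eq_false_of_lt ((hz i).trans_le (Nat.pow_le_pow_right (by omega) (by omega)))

theorem Lin.ioShift {m s z : ι → ℕ} (hs : Lin c fun i => List.replicate (s i) ())
    (h : Lin c fun i => lb (m i) (z i)) : Lin c fun i => lb (s i + m i) (2 ^ s i * z i) :=
  ((hs.fillN false).append h).congr fun i => by
    rw [io_lb, io_lb, replicate_tab, append_tab]
    refine tab_congr fun j _ => ?_
    rw [Nat.testBit_two_pow_mul]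
    split_ifs with h1
    · simp [h1]
    · simp [not_lt.1 h1]

theorem Lin.ioShiftFit {m n s z : ι → ℕ} (hn : Lin c fun i => List.replicate (n i) ())
    (hs : Lin c fun i => List.replicate (s i) ()) (h : Lin c fun i => lb (m i) (z i))
    (hz : ∀ i, z i < 2 ^ m i) : Lin c fun i => lb (n i) (2 ^ s i * z i) :=
  hn.ioFit (hs.ioShift h) fun i => by
    rw [pow_add]
    exact Nat.mul_lt_mul_of_pos_left (hz i) (by positivity)

theorem Lin.ioRe {A B C : ι → ℕ} {G : ι → ℕ → ℕ → β} (hB : ∀ i, 0 < B i)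
    (ha : Lin c fun i => List.replicate (C i * A i) ())
    (hb : Lin c fun i => List.replicate (B i) ())
    (h : Lin c fun i => tab (A i) fun a => tab (B i * C i) (G i a)) :
    Lin c fun i => tab (C i * A i) fun j => tab (B i) fun b =>
      G i (j / C i) (b + B i * (j % C i)) :=
  (Lin.chunk (F := fun i j => G i (j / (B i * C i)) (j % (B i * C i))) hB ha hb
    (h.flat.congr fun i => by rw [mul_assoc])).congr fun i => tab_congr fun j _ =>
      tab_congr fun b hb => by rw [(io_idx (hB i) hb j).1, (io_idx (hB i) hb j).2]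

theorem Lin.ioUn {A B C : ι → ℕ} {G : ι → ℕ → ℕ → β} (hB : ∀ i, 0 < B i * C i)
    (ha : Lin c fun i => List.replicate (A i) ())
    (hb : Lin c fun i => List.replicate (B i * C i) ())
    (h : Lin c fun i => tab (C i * A i) fun j => tab (B i) fun b =>
      G i (j / C i) (b + B i * (j % C i))) :
    Lin c fun i => tab (A i) fun a => tab (B i * C i) (G i a) :=
  (Lin.chunk (F := fun i j => G i (j / (B i * C i)) (j % (B i * C i))) hB ha hb
    (h.flat.congr fun i => by
      rw [mul_assoc]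
      exact tab_congr fun j _ => by rw [Nat.div_div_eq_div_mul, Nat.mod_mul])).congr
    fun i => tab_congr fun j _ =>
      tab_congr fun b hb => by rw [(io_dm hb j).1, (io_dm hb j).2]

theorem Lin.ioSlice {A b : ι → ℕ} {z : ι → ℕ → ℕ} (W u : ℕ) (hu : u < W) (hb0 : ∀ i, 0 < b i)
    (hb : Lin c fun i => List.replicate (b i) ())
    (h : Lin c fun i => tab (A i) fun a => lb (b i * W) (z i a)) :
    Lin c fun i => tab (A i) fun a => lb (b i) (dg (2 ^ (b i * u)) (2 ^ b i) (z i a)) :=
  (Lin.split W u hu (Lin.ioRe (C := fun _ => W) (G := fun i a => (z i a).testBit) hb0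
    (h.ruler.ioMul W) hb h) h.ruler).congr fun i => tab_congr fun a _ => tab_congr fun t ht => by
      rw [(io_dm hu a).1, (io_dm hu a).2, dg, Nat.testBit_mod_two_pow, Nat.testBit_div_two_pow]
      simp [ht]

theorem Lin.ioFlat {A B : ι → ℕ} {z : ι → ℕ → ℕ} (hz : ∀ i, ∀ a < A i, z i a < 2 ^ B i)
    (h : Lin c fun i => tab (A i) fun a => lb (B i) (z i a)) :
    Lin c fun i => lb (B i * A i) (∑ a ∈ range (A i), z i a * (2 ^ B i) ^ a) :=
  (Lin.flat (G := fun i a => (z i a).testBit) h).congr fun i => io_lb_sum (hz i)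

theorem Lin.ioDig {A b z : ι → ℕ} (hb0 : ∀ i, 0 < b i) (ha : Lin c fun i => List.replicate (A i) ())
    (hb : Lin c fun i => List.replicate (b i) ()) (h : Lin c fun i => lb (b i * A i) (z i)) :
    Lin c fun i => tab (A i) fun a => lb (b i) (dg (2 ^ (b i * a)) (2 ^ b i) (z i)) :=
  (Lin.chunk (F := fun i => (z i).testBit) hb0 ha hb h).congr
    fun i => tab_congr fun a _ => tab_congr fun t ht => by
      rw [dg, Nat.testBit_mod_two_pow, Nat.testBit_div_two_pow]
      simp [ht]

theorem Lin.ioPad {A b : ι → ℕ} {z : ι → ℕ → ℕ} (k l m : ℕ) (hz : ∀ i a, z i a < 2 ^ b i)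
    (h : Lin c fun i => tab (A i) fun a => lb (b i) (z i a)) :
    Lin c fun i => tab (A i) fun a => lb (k * b i + l) (2 ^ (m * b i) * z i a) :=
  Lin.map0 (fun i a => lb (k * b i + l) (2 ^ (m * b i) * z i a)) h fun hy =>
    Lin.ioShiftFit ((hy.ioRul.ioMul k).ioAdd (b := fun _ => l) (hy.cst _)) (hy.ioRul.ioMul m) hy
      fun _ => hz _ _

theorem Lin.ioCut {A b : ι → ℕ} {z : ι → ℕ → ℕ} (k : ℕ) (hz : ∀ i a, z i a < 2 ^ (b i + 2))
    (h : Lin c fun i => tab (A i) fun a => lb (b i + 2) (z i a)) :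
    Lin c fun i => tab (A i) fun a => lb (k * b i) (z i a) :=
  Lin.map0 (fun i a => lb (k * b i) (z i a)) h fun hy =>
    Lin.ioFit (Lin.ioMul k (a := fun q : Pos A => b q.1.1) (hy.ioRul.tail.tail.congr fun _ => by
      simp [List.replicate_succ])) hy fun _ => hz _ _

theorem Lin.ioDbl {A M l : ι → ℕ} {z : ι → ℕ → ℕ → ℕ}
    (h : Lin c fun i => tab (A i) fun a => tab (M i) fun k => lb (l i) (z i a k)) :
    Lin c fun i => tab (A i) fun a => tab (M i + M i) fun k =>
      lb (l i) (if k < M i then z i a k else 0) :=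
  Lin.map0 (fun i a => tab (M i + M i) fun k => lb (l i) (if k < M i then z i a k else 0)) h
    fun hy => (hy.append (Lin.zeroA (B := fun q : Pos A => M q.1.1) (l := fun q : Pos A => l q.1.1)
      (v := fun q k => (z q.1.1 q.1.2 k).testBit) hy)).congr fun q => by
      rw [atB, append_tab]
      refine tab_congr fun k _ => ?_
      split_ifs with hk
      · rfl
      · exact tab_congr fun t _ => Nat.zero_testBit t

theorem io_sz_lb (n z : ℕ) : sz (lb n z) ≤ 4 * n + 1 := by
  have := sz_list_le (l := lb n z) (B := 3) fun a _ => sz_bool a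
  rw [io_lb, length_tab] at this
  rw [io_lb]
  omega

theorem Cmp.ioMul1 {n x y : ι → ℕ} {T : ι → ℝ}
    (hm : ∀ i, MulT (c.s i) (n i) (T i)) (hxy : ∀ i, x i < 2 ^ n i ∧ y i < 2 ^ n i)
    (hx : Lin c fun i => lb (n i) (x i)) (hy : Lin c fun i => lb (n i) (y i)) :
    Cmp c.s c.x (fun i => lb (n i) (x i * y i)) c.U T := by
  have h0 := hx.pair hy
  have h1 : Cmp c.s (fun i => (lb (n i) (x i), lb (n i) (y i)))
      (fun i => lb (2 * n i) (x i * y i)) c.U T :=
    Cmp.call h0.bd (((hx.len.cmul 8).add h0.one).of_le fun i => by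
      have := io_sz_lb (2 * n i) (x i * y i)
      simp only [io_lb, length_tab] at this ⊢
      exact_mod_cast (by omega)) fun i => by
      have := hm i (lb (n i) (x i)) (lb (n i) (y i)) (by simp [lb]) (by simp [lb])
      rwa [io_lv_lb, io_lv_lb, Nat.mod_eq_of_lt (hxy _).1, Nat.mod_eq_of_lt (hxy _).2] at this
  have h2 := Cmp.pair (Cmp.trans0' h0 h1) hx.ioRul
  have h3 := Lin.self (c := ⟨c.s, _, c.U⟩) h2.bdy
  have h4 : Lin ⟨c.s, _, c.U⟩ fun i => lb (n i) (x i * y i) :=
    Lin.ioTake (m := fun i => 2 * n i) h3.snd h3.fst fun i => by omega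
  exact (h2.trans0 h4).monoV fun q => by simp

theorem Cmp.ioMul {A n : ι → ℕ} {x y : ι → ℕ → ℕ} {T : ι → ℝ}
    (hm : ∀ i, MulT (c.s i) (n i) (T i)) (hxy : ∀ i a, x i a < 2 ^ n i ∧ y i a < 2 ^ n i)
    (hx : Lin c fun i => tab (A i) fun a => lb (n i) (x i a))
    (hy : Lin c fun i => tab (A i) fun a => lb (n i) (y i a)) :
    Cmp c.s c.x (fun i => tab (A i) fun a => lb (n i) (x i a * y i a)) c.U fun i => A i * T i := by
  have hF := hx.ztab hy
  have hT : ∀ i, 0 ≤ T i := fun i => by
    obtain ⟨t, ht, -⟩ := hm i (lb (n i) 0) (lb (n i) 0) (by simp [lb]) (by simp [lb])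
    exact (Nat.cast_nonneg t).trans ht
  have h0 := Lin.self (c := c.el A (fun i a => ((), (lb (n i) (x i a), lb (n i) (y i a))))
      fun i a => sz (lb (n i) (x i a), lb (n i) (y i a))) ⟨3, fun q => ⟨by positivity, by
    have : (1 : ℝ) ≤ sz (lb (n q.1.1) (x q.1.1 q.1.2), lb (n q.1.1) (y q.1.1 q.1.2)) := by
      exact_mod_cast sz_pos _
    dsimp only
    rw [sz_pair, Vale.Agent.Lib.H24.T.sz_unit]
    push_cast
    linarith⟩⟩
  have h1 := Cmp.ioMul1 (n := fun q : Pos A => n q.1.1) (x := fun q => x q.1.1 q.1.2)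
    (y := fun q => y q.1.1 q.1.2) (T := fun q => T q.1.1) (fun q => hm q.1.1) (fun q => hxy _ _)
    h0.snd.fst h0.snd.snd
  refine Cmp.mapV (U' := fun i a => sz (lb (n i) (x i a), lb (n i) (y i a))) (V' := fun i _ => T i)
    (G := fun i a => lb (n i) (x i a * y i a)) (hF.cst ()) hF h1 (hF.bd.of_le fun i => ?_)
    (fun i => mul_nonneg (by positivity) (hT i)) fun i => by simp
  rw [sz_tab]; push_cast
  have := Finset.sum_le_sum (s := range (A i))
    (f := fun a => (sz (lb (n i) (x i a), lb (n i) (y i a)) : ℝ))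
    (g := fun a => sz (lb (n i) (x i a), lb (n i) (y i a)) + 1) fun j _ => by linarith
  linarith

end Vale.Agent.P338
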