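import Vale.Agent.P338.Wrd
import Vale.Agent.P338.IO1

/-! Module F: input, pointwise products, output. -/

namespace Vale.Agent.P338

open Finset
open Vale.Agent.Lib.H24.T (Enc sz PT sz_list_le sz_bool length_le_sz sz_pair sz_pos sz_unit)

attribute [local irreducible] Par.qU Par.bU Par.LU Par.Ns Par.Lp Par.N Par.B

theorem io_wd {q v : ℕ} (h : v ≤ 2 ^ (2 * q)) : wd q (v : Zq q) = lb (2 * q + 2) v := by
  rw [wd, ZMod.val_natCast_of_lt (by omega)]

theorem io_val (q : ℕ) (v : Zq q) : v.val ≤ 2 ^ (2 * q) := Nat.lt_succ_iff.1 (ZMod.val_lt v)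

theorem Good.io_M {WS WC J j : ℕ} {p : Par} (h : Good WS WC J j p) :
    p.La / 2 + p.La / 2 = p.La ∧ 0 < p.La / 2 := by
  obtain ⟨k, hk⟩ : ∃ k, p.L = k + 1 := ⟨p.L - 1, by have := h.d_le; have := h.d_pos; omega⟩
  have e : p.La = 2 * (p.B * (p.w * 2 ^ k)) := by rw [Par.La, Par.Lp, hk]; ring
  have : 0 < p.B * (p.w * 2 ^ k) := Nat.mul_pos h.B_pos (Nat.mul_pos h.w_pos (by positivity))
  omega

theorem Good.io_Ns {WS WC J j : ℕ} {p : Par} (h : Good WS WC J j p) : p.Ns ≤ 2 ^ p.b := by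
  have := h.Ns_le
  rwa [← pow_mul, mul_comm, ← p.b_eq] at this

/-- all words of an array -/
def warr (p : Par) (X : ℕ → ℕ → Zq p.q) : List (List Bool) :=
  tab (p.La * p.Ns) fun j => wd p.q (X (j / p.La) (j % p.La))

section
variable {ι α : Type} [Enc α] {WS WC : ℕ} {J j : ι → ℕ} {s : ι → Prog} {P : ι → Par}
  {c : Ctx ι α}

theorem Lin.ioWarr {X : ∀ i, ℕ → ℕ → Zq (P i).q} (hx : Lin c fun i => narr (P i) (X i)) :
    Lin c fun i => warr (P i) (X i) :=
  (Lin.flat (G := fun i j k => wd (P i).q (X i (j / (P i).Lp) (k + (P i).B * (j % (P i).Lp))))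
    hx).congr fun i => by
      rw [warr, Par.La, mul_assoc]
      exact tab_congr fun j _ => by rw [Nat.div_div_eq_div_mul, Nat.mod_mul]

variable (h : ∀ i, Good WS WC (J i) (j i) (P i))

theorem io_rul (hU : (pe s P h).Ok Par.N c.U) (hP : Lin c P) {f : Par → ℕ} (hf : PT f)
    (hle : ∀ i, f (P i) ≤ 6 * ((P i).q * ((P i).La * (P i).Ns))) :
    Lin c fun i => List.replicate (f (P i)) () :=
  (Lin.par (e := pe s P h) hP hU.bdE hf).units ((hU.bdNE.cmul 6).of_le fun i => by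
    have h1 := (h i).le_N
    have h2 : f (P i) ≤ 6 * ((P i).N * ((P i).B * ((P i).q + 1))) := by
      refine (hle i).trans (Nat.mul_le_mul_left _ ?_)
      calc (P i).q * ((P i).La * (P i).Ns) = (P i).Lp * (P i).Ns * ((P i).B * (P i).q) := by
            rw [Par.La]; ring
        _ ≤ _ := Nat.mul_le_mul h1 (Nat.mul_le_mul_left _ (Nat.le_succ _))
    simp only [pe]
    exact_mod_cast h2)

/-- the rulers -/
structure Rul (c : Ctx ι α) (P : ι → Par) : Prop where
  b : Lin c fun i => List.replicate (P i).b ()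
  q : Lin c fun i => List.replicate (P i).q ()
  B : Lin c fun i => List.replicate (P i).B ()
  M : Lin c fun i => List.replicate ((P i).La / 2) ()
  Ns : Lin c fun i => List.replicate (P i).Ns ()
  bM : Lin c fun i => List.replicate ((P i).b * ((P i).La / 2)) ()
  qL : Lin c fun i => List.replicate (6 * (P i).q * (P i).La) ()
  LN : Lin c fun i => List.replicate ((P i).Lp * (P i).Ns) ()
  MN : Lin c fun i => List.replicate ((P i).La / 2 * (P i).Ns) ()
  bMN : Lin c fun i => List.replicate ((P i).b * ((P i).La / 2 * (P i).Ns)) ()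
  sq : Small (fun i => (P i).q) c.U

theorem io_all (hU : (pe s P h).Ok Par.N c.U) (hP : Lin c P) : Rul c P := by
  have key : ∀ {f : Par → ℕ}, PT f → (∀ i, ∃ x y z, f (P i) = x * (y * z) ∧ x ≤ 6 * (P i).q ∧
      y ≤ (P i).La ∧ z ≤ (P i).Ns) → Lin c fun i => List.replicate (f (P i)) () :=
    fun hf hle => io_rul h hU hP hf fun i => by
      obtain ⟨x, y, z, e, h1, h2, h3⟩ := hle i
      rw [e, ← mul_assoc 6]
      exact Nat.mul_le_mul h1 (Nat.mul_le_mul h2 h3)
  have a1 : ∀ i, 1 ≤ (P i).b ∧ (P i).b ≤ (P i).q ∧ 1 ≤ (P i).La / 2 ∧ (P i).La / 2 ≤ (P i).La ∧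
      1 ≤ (P i).Ns ∧ (P i).B ≤ (P i).La ∧ (P i).Lp ≤ (P i).La := fun i =>
    ⟨(h i).b_pos, by have := (P i).q_eq; omega, (h i).io_M.2, by omega, (h i).Ns_pos,
      Nat.le_mul_of_pos_right _ (h i).Lp_pos, Nat.le_mul_of_pos_left _ (h i).B_pos⟩
  refine ⟨key (f := fun p => p.b) (by fun_prop) fun i => ⟨(P i).b, 1, 1, ?_⟩,
    key (f := fun p => p.q) (by fun_prop) fun i => ⟨(P i).q, 1, 1, ?_⟩,
    key (f := fun p => p.B) (by fun_prop) fun i => ⟨1, (P i).B, 1, ?_⟩,
    key (f := fun p => p.La / 2) (by fun_prop) fun i => ⟨1, (P i).La / 2, 1, ?_⟩,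
    key (f := fun p => p.Ns) (by fun_prop) fun i => ⟨1, 1, (P i).Ns, ?_⟩,
    key (f := fun p => p.b * (p.La / 2)) (by fun_prop) fun i => ⟨(P i).b, (P i).La / 2, 1, ?_⟩,
    key (f := fun p => 6 * p.q * p.La) (by fun_prop) fun i => ⟨6 * (P i).q, (P i).La, 1, ?_⟩,
    key (f := fun p => p.Lp * p.Ns) (by fun_prop) fun i => ⟨1, (P i).Lp, (P i).Ns, ?_⟩,
    key (f := fun p => p.La / 2 * p.Ns) (by fun_prop) fun i => ⟨1, (P i).La / 2, (P i).Ns, ?_⟩,
    key (f := fun p => p.b * (p.La / 2 * p.Ns)) (by fun_prop)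
      fun i => ⟨(P i).b, (P i).La / 2, (P i).Ns, ?_⟩,
    (((pe s P h).hS.pt (f := fun p : Par => p.qU) (by fun_prop)).trans hU.bdE).of_le
      fun i => length_le_sz _⟩ <;>
  exact ⟨by simp only [one_mul, mul_one], by have := a1 i; omega, by have := a1 i; omega,
    by have := a1 i; omega⟩

include h in
theorem Rul.narr (r : Rul c P) {X : ∀ i, ℕ → ℕ → Zq (P i).q} (hx : Lin c fun i => warr (P i) (X i)) :
    Lin c fun i => narr (P i) (X i) :=
  (Lin.chunk (F := fun i j => wd (P i).q (X i (j / (P i).La) (j % (P i).La)))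
    (fun i => (h i).B_pos) r.LN r.B (hx.congr fun i => by rw [warr, Par.La, mul_assoc])).congr
    fun i => tab_congr fun j _ => tab_congr fun b hb => by
      rw [Par.La, (io_idx (h i).B_pos hb j).1, (io_idx (h i).B_pos hb j).2]

include h in
theorem Rul.parr (r : Rul c P) {X : ∀ i, ℕ → ℕ → Zq (P i).q}
    (hx : Lin c fun i => tab (P i).Ns fun n => tab ((P i).B * (P i).Lp) fun k => wd (P i).q (X i n k)) :
    Lin c fun i => P338.narr (P i) (X i) :=
  Lin.ioRe (G := fun i n k => wd (P i).q (X i n k)) (fun i => (h i).B_pos) r.LN r.B hx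

theorem io_bd {U : ι → ℝ} (hU : (pe s P h).Ok Par.N U) (X : ∀ i, ℕ → ℕ → Zq (P i).q) :
    Bd (fun i => (sz (narr (P i) (X i)) : ℝ)) U := by
  refine (hU.of_le (N' := fun p => p.Lp * p.Ns) (by fun_prop) 1
    fun i => by simpa [pe] using (h i).le_N).sztab ⟨16, fun q => ⟨(pe s P h).E0 _, ?_⟩⟩
  have h1 := sz_atB (P q.1).B (2 * (P q.1).q + 2) fun k t =>
    (X q.1 (q.2 / (P q.1).Lp) (k + (P q.1).B * (q.2 % (P q.1).Lp))).val.testBit t
  have h2 := (h q.1).B_pos
  have h3 : 4 * ((P q.1).B * (2 * (P q.1).q + 2 + 1) + 1) ≤ 16 * ((P q.1).B * ((P q.1).q + 1)) := by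
    nlinarith
  simp only [pe, atm_eq]
  exact_mod_cast h1.trans h3

include h in
theorem Rul.input (r : Rul c P) {x : ι → List Bool} (hx : Lin c x) :
    Lin c fun i => P338.narr (P i) fun n k =>
      ((2 ^ (1000 * (P i).b) * Xd (P i) (lv (x i)) n k : ℕ) : Zq (P i).q) := by
  have h1 : Lin c fun i => lb ((P i).b * ((P i).La / 2 * (P i).Ns)) (lv (x i)) :=
    r.bMN.ioFit (hx.congr fun i => io_lb_lv _) fun i => io_lv_lt _
  have h2 := Lin.ioPad 14000 2 1000 (fun i a => dg_lt (by positivity))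
    (Lin.ioDig (fun i => (h i).b_pos) r.MN r.b h1)
  have h4 := (Lin.chunk (fun i => (h i).io_M.2) r.Ns r.M h2).ioDbl
  have h5 : Lin c fun i => tab (P i).Ns fun n => tab ((P i).B * (P i).Lp) fun k => wd (P i).q
      ((2 ^ (1000 * (P i).b) * Xd (P i) (lv (x i)) n k : ℕ) : Zq (P i).q) := h4.congr fun i => by
    refine tab_congr fun n _ => ?_
    rw [(h i).io_M.1, ← Par.La]
    refine tab_congr fun k _ => ?_
    have e := (P i).q_eq
    rw [show 14000 * (P i).b = 2 * (P i).q by omega]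
    unfold Xd
    split_ifs with hk
    · refine io_wd ?_
      refine (Nat.mul_le_mul_left _ (dg_lt (by positivity)).le).trans ?_
      rw [← pow_add]
      exact Nat.pow_le_pow_right (by omega) (by omega)
    · rw [mul_zero, io_wd (by positivity)]
  exact r.parr h h5

/-- the Kronecker substitution -/
def kro (p : Par) (X : ℕ → Zq p.q) : ℕ := ∑ k ∈ range p.La, (X k).val * (2 ^ (6 * p.q)) ^ k

theorem io_val_lt {q : ℕ} (hq : 0 < q) (v : Zq q) : v.val < 2 ^ (6 * q) :=
  (io_val q v).trans_lt (Nat.pow_lt_pow_right (by omega) (by omega))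

include h in
theorem Rul.kro (r : Rul c P) {X : ∀ i, ℕ → ℕ → Zq (P i).q}
    (hx : Lin c fun i => P338.narr (P i) (X i)) :
    Lin c fun i => tab (P i).Ns fun n => lb (6 * (P i).q * (P i).La) (kro (P i) (X i n)) := by
  have hq : ∀ i, 0 < (P i).q := fun i => by have := (P i).q_eq; have := (h i).b_pos; omega
  have h1 := Lin.ioCut (b := fun i => 2 * (P i).q)
    (z := fun i j => (X i (j / (P i).La) (j % (P i).La)).val) 3
    (fun i a => (io_val _ _).trans_lt (Nat.pow_lt_pow_right (by omega) (by omega))) hx.ioWarr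
  refine (Lin.ioUn (B := fun i => 6 * (P i).q) (C := fun i => (P i).La)
    (G := fun i n t => (X i n (t / (6 * (P i).q))).val.testBit (t % (6 * (P i).q)))
    (fun i => Nat.mul_pos (by have := hq i; omega) (by have := (h i).io_M; omega)) r.Ns r.qL
    (h1.congr fun i => tab_congr fun a _ => ?_)).congr fun i => tab_congr fun n _ =>
      io_lb_sum fun a _ => io_val_lt (hq i) _
  rw [show 3 * (2 * (P i).q) = 6 * (P i).q by ring]
  exact tab_congr fun t ht => by rw [(io_dm ht _).1, (io_dm ht _).2]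

/-- a coefficient of the product -/
def cof {q : ℕ} (X Y : ℕ → Zq q) (k : ℕ) : ℕ := ∑ l ∈ range (k + 1), (X l).val * (Y (k - l)).val

theorem Good.cof_lt {WS WC J j : ℕ} {p : Par} (h : Good WS WC J j p) (X Y : ℕ → Zq p.q) {k : ℕ}
    (hk : k < p.La) : cof X Y k < 2 ^ (6 * p.q) := by
  have e := p.q_eq
  have := h.b_pos
  have h1 : cof X Y k < (k + 1) * 2 ^ (5 * p.q) := io_sum_lt (fun l _ =>
    (Nat.mul_le_mul (io_val _ _) (io_val _ _)).trans_lt (by
      rw [← pow_add]; exact Nat.pow_lt_pow_right (by omega) (by omega))) (by omega)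
  refine h1.trans_le ?_
  rw [show 6 * p.q = p.q + 5 * p.q by ring, pow_add]
  exact Nat.mul_le_mul_right _ ((Nat.succ_le_of_lt hk).trans (h.hLa.trans
    (Nat.pow_le_pow_right (by omega) (by omega))))

theorem io_three {q v : ℕ} (h : v < 2 ^ (6 * q)) :
    ((dg (2 ^ (2 * q * 0)) (2 ^ (2 * q)) v : ℕ) : Zq q) +
      -((dg (2 ^ (2 * q * 1)) (2 ^ (2 * q)) v : ℕ) : Zq q) +
      ((dg (2 ^ (2 * q * 2)) (2 ^ (2 * q)) v : ℕ) : Zq q) = v := by
  have e := sum_dg 1 (2 ^ (2 * q)) v 3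
  rw [show dg 1 ((2 ^ (2 * q)) ^ 3) v = v by
    rw [dg, Nat.div_one, Nat.mod_eq_of_lt (by rwa [← pow_mul, show 2 * q * 3 = 6 * q by ring])]] at e
  simp only [sum_range_succ, sum_range_zero, one_mul, ← pow_mul] at e
  conv_rhs => rw [← e]
  push_cast
  rw [pow_mul (2 : Zq q) (2 * q) 0, pow_mul (2 : Zq q) (2 * q) 1, pow_mul (2 : Zq q) (2 * q) 2,
    two_pow_eq]
  ring

include h in
theorem Rul.red (r : Rul c P) {X Y : ∀ i, ℕ → ℕ → Zq (P i).q}
    (hx : Lin c fun i => tab (P i).Ns fun n => lb (6 * (P i).q * (P i).La)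
      (P338.kro (P i) (X i n) * P338.kro (P i) (Y i n))) :
    Lin c fun i => P338.narr (P i) fun n k => ∑ l ∈ range (k + 1), X i n l * Y i n (k - l) := by
  have hq : ∀ i, 0 < (P i).q := fun i => by have := (P i).q_eq; have := (h i).b_pos; omega
  have hLN : Lin c fun i => List.replicate ((P i).La * (P i).Ns) () :=
    (r.MN.ioAdd r.MN).congr fun i => by rw [← add_mul, (h i).io_M.1]
  have h1 : Lin c fun i => tab ((P i).La * (P i).Ns) fun a => lb (2 * (P i).q * 3)
      (cof (X i (a / (P i).La)) (Y i (a / (P i).La)) (a % (P i).La)) := by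
    refine (Lin.ioRe (B := fun i => 6 * (P i).q) (C := fun i => (P i).La)
      (G := fun i n t => (cof (X i n) (Y i n) (t / (6 * (P i).q))).testBit (t % (6 * (P i).q)))
      (fun i => by have := hq i; omega) hLN (r.q.ioMul 6) (hx.congr fun i => tab_congr fun n _ => ?_)).congr
      fun i => tab_congr fun a _ => ?_
    · rw [← io_lb_sum fun a ha => (h i).cof_lt _ _ ha]
      refine io_lb_mod ?_
      rw [pow_mul 2 (6 * (P i).q) (P i).La]
      exact (io_kron (fun k => (X i n k).val) (fun k => (Y i n k).val) (2 ^ (6 * (P i).q))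
        (P i).La).symm
    · rw [show 2 * (P i).q * 3 = 6 * (P i).q by ring]
      exact tab_congr fun t ht => by rw [(io_dm ht _).1, (io_dm ht _).2]
  have h2 : ∀ u < 3, Lin c fun i => atm (P i).q ((P i).La * (P i).Ns) fun a =>
      ((dg (2 ^ (2 * (P i).q * u)) (2 ^ (2 * (P i).q))
        (cof (X i (a / (P i).La)) (Y i (a / (P i).La)) (a % (P i).La)) : ℕ) : Zq (P i).q) :=
    fun u hu => (Lin.ioPad 1 2 0 (fun i a => dg_lt (by positivity))
      (Lin.ioSlice 3 u hu (fun i => by have := hq i; omega) (r.q.ioMul 2) h1)).congr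
      fun i => tab_congr fun a _ => by
        rw [io_wd (dg_lt (by positivity)).le]
        simp only [one_mul, zero_mul, pow_zero]
  have h3 := Lin.addZ r.q r.sq hq (Lin.addZ r.q r.sq hq (h2 0 (by omega))
    (Lin.negZ r.q r.sq hq (h2 1 (by omega)))) (h2 2 (by omega))
  refine r.narr h (h3.congr fun i => tab_congr fun a _ => congrArg _ ?_)
  have hL : 0 < (P i).La := by have := (h i).io_M; omega
  beta_reduce
  rw [io_three ((h i).cof_lt _ _ (Nat.mod_lt _ hL)), cof]
  simp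

theorem Lin.ioCarry {A b n t : ι → ℕ} {z : ι → ℕ → ℕ} (W : ℕ) (hW : 4 ≤ W) (hb0 : ∀ i, 0 < b i)
    (hb : Lin c fun i => List.replicate (b i) ()) (hn : Lin c fun i => List.replicate (n i) ())
    (ht : Lin c fun i => List.replicate (t i) ()) (hz : ∀ i, ∀ a < A i, z i a < (2 ^ b i) ^ 4)
    (hx : Lin c fun i => tab (A i) fun a => lb (b i * W) (z i a)) :
    Lin c fun i => lb (n i) (2 ^ t i * ∑ a ∈ range (A i), z i a * (2 ^ b i) ^ a) := by
  have h1 : ∀ u < 4, Lin c fun i => lb (n i) (2 ^ (t i + u * b i) * ∑ a ∈ range (A i),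
      dg (2 ^ (b i * u)) (2 ^ b i) (z i a) * (2 ^ b i) ^ a) := fun u hu =>
    Lin.ioShiftFit hn (ht.ioAdd (hb.ioMul u)) (Lin.ioFlat (fun i a _ => dg_lt (by positivity))
      (Lin.ioSlice W u (by omega) hb0 hb hx)) fun i => by
        rw [pow_mul 2 (b i) (A i)]
        exact sum_lt_pow _ fun a _ => dg_lt (by positivity)
  refine ((((h1 0 (by omega)).addB (h1 1 (by omega))).addB (h1 2 (by omega))).addB
    (h1 3 (by omega))).congr fun i => congrArg _ ?_
  simp only [mul_sum, ← sum_add_distrib]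
  refine sum_congr rfl fun a ha => ?_
  have e := sum_dg 1 (2 ^ b i) (z i a) 4
  rw [show dg 1 ((2 ^ b i) ^ 4) (z i a) = z i a by
    rw [dg, Nat.div_one, Nat.mod_eq_of_lt (hz i a (mem_range.1 ha))]] at e
  simp only [sum_range_succ, sum_range_zero, one_mul, ← pow_mul] at e
  conv_lhs => rw [← e]
  ring

/-- the coefficients of the product -/
def zz (p : Par) (x y m k : ℕ) : ℕ :=
  ∑ m₁ ∈ range (m + 1), ∑ l ∈ range (k + 1), Xd p x m₁ l * Xd p y (m - m₁) (k - l)

theorem Xd_lt (p : Par) (x m k : ℕ) : Xd p x m k < 2 ^ p.b := by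
  unfold Xd
  split_ifs
  · exact dg_lt (by positivity)
  · positivity

theorem Good.zz_lt {WS WC J j : ℕ} {p : Par} (h : Good WS WC J j p) (x y : ℕ) {m k : ℕ}
    (hm : m < p.Ns) (hk : k < p.La) : zz p x y m k < (2 ^ p.b) ^ 4 := by
  have h1 : zz p x y m k < (m + 1) * (2 ^ p.b * (2 ^ p.b * 2 ^ p.b)) := io_sum_lt (fun m₁ _ =>
    (io_sum_lt (fun l _ => Nat.mul_lt_mul'' (Xd_lt ..) (Xd_lt ..)) (by omega)).trans_le
      (Nat.mul_le_mul_right _ ((Nat.succ_le_of_lt hk).trans h.hLa))) (by omega)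
  refine h1.trans_le ((Nat.mul_le_mul_right _ ((Nat.succ_le_of_lt hm).trans h.io_Ns)).trans_eq ?_)
  ring

theorem Good.Xd_sum {WS WC J j : ℕ} {p : Par} (h : Good WS WC J j p) {x : ℕ}
    (hx : x < (2 ^ p.b) ^ (p.La / 2 * (p.Ns / 2))) :
    (∑ m ∈ range p.Ns, (2 ^ p.b) ^ (p.La / 2 * m) * ∑ l ∈ range p.La, Xd p x m l * (2 ^ p.b) ^ l) = x ∧
      ∀ m, p.Ns / 2 ≤ m → ∀ l, Xd p x m l = 0 := by
  constructor
  · have e := sum_dg 1 (2 ^ p.b) x (p.La / 2 * p.Ns)
    rw [show dg 1 ((2 ^ p.b) ^ (p.La / 2 * p.Ns)) x = x by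
      rw [dg, Nat.div_one, Nat.mod_eq_of_lt (hx.trans_le (Nat.pow_le_pow_right (by positivity)
        (Nat.mul_le_mul_left _ (Nat.div_le_self _ _))))], io_sum_mul] at e
    refine Eq.trans (sum_congr rfl fun m _ => ?_) e
    conv_lhs => rw [← h.io_M.1, sum_range_add, h.io_M.1]
    rw [sum_eq_zero (s := range (p.La / 2))
      (f := fun l => Xd p x m (p.La / 2 + l) * (2 ^ p.b) ^ (p.La / 2 + l))
      fun l _ => by rw [Xd, if_neg (by omega), zero_mul], add_zero, mul_sum]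
    refine sum_congr rfl fun l hl => ?_
    rw [Xd, if_pos (mem_range.1 hl), one_mul, pow_mul 2 p.b]
    ring
  · intro m hm l
    unfold Xd
    split_ifs
    · rw [dg, Nat.div_eq_of_lt, Nat.zero_mod]
      rw [pow_mul]
      exact hx.trans_le (Nat.pow_le_pow_right (by positivity)
        ((Nat.mul_le_mul_left _ hm).trans (Nat.le_add_left _ _)))
    · rfl

theorem Good.zz_sum {WS WC J j : ℕ} {p : Par} (h : Good WS WC J j p) {x y : ℕ}
    (hx : x < (2 ^ p.b) ^ (p.La / 2 * (p.Ns / 2))) (hy : y < (2 ^ p.b) ^ (p.La / 2 * (p.Ns / 2))) :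
    x * y = ∑ m ∈ range p.Ns, ∑ k ∈ range p.La, zz p x y m k * (2 ^ p.b) ^ (k + p.La / 2 * m) := by
  obtain ⟨x1, x2⟩ := h.Xd_sum hx
  obtain ⟨y1, y2⟩ := h.Xd_sum hy
  conv_lhs => rw [← x1, ← y1]
  rw [io_cauchy_eq (r := p.Ns / 2) (fun m hm => by simp [x2 m hm]) (fun m hm => by simp [y2 m hm])
    (by omega)]
  refine sum_congr rfl fun m _ => ?_
  simp only [zz, sum_mul]
  rw [sum_comm]
  refine sum_congr rfl fun m₁ hm => ?_
  have hm := mem_range.1 hm
  have e := io_cauchy_eq (a := fun l => Xd p x m₁ l * (2 ^ p.b) ^ l)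
    (b := fun l => Xd p y (m - m₁) l * (2 ^ p.b) ^ l) (n := p.La) (r := p.La / 2)
    (fun l hl => by rw [Xd, if_neg (by omega), zero_mul])
    (fun l hl => by rw [Xd, if_neg (by omega), zero_mul]) (by omega)
  rw [mul_mul_mul_comm, e, ← pow_add, ← mul_add, show m₁ + (m - m₁) = m by omega, mul_sum]
  refine sum_congr rfl fun k _ => ?_
  rw [mul_sum]
  refine sum_congr rfl fun l hl => ?_
  have hl := mem_range.1 hl
  rw [pow_add, show (2 ^ p.b) ^ k = (2 ^ p.b) ^ l * (2 ^ p.b) ^ (k - l) by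
    rw [← pow_add]; congr 1; omega]
  ring

include h in
theorem Rul.output (r : Rul c P) {n x y : ι → ℕ}
    (hx : ∀ i, x i < 2 ^ n i ∧ y i < 2 ^ n i ∧ n i ≤ (P i).b * ((P i).La / 2) * ((P i).Ns / 2))
    (hn : Lin c fun i => List.replicate (n i) ())
    (hz : Lin c fun i => P338.narr (P i) fun m k => (zz (P i) (x i) (y i) m k : Zq (P i).q)) :
    Lin c fun i => lb (2 * n i) (x i * y i) := by
  have hL : ∀ i, 0 < (P i).La := fun i => by have := (h i).io_M; omega
  have h0 : ∀ i a, a < (P i).La * (P i).Ns →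
      zz (P i) (x i) (y i) (a / (P i).La) (a % (P i).La) ≤ 2 ^ (2 * (P i).q) := fun i a ha => by
    refine ((h i).zz_lt _ _ (Nat.div_lt_of_lt_mul ha) (Nat.mod_lt _ (hL i))).le.trans ?_
    rw [← pow_mul]
    exact Nat.pow_le_pow_right (by omega) (by have := (P i).q_eq; omega)
  have h1 : Lin c fun i => tab ((P i).La / 2 * (2 * (P i).Ns)) fun a => lb ((P i).b * 14000)
      (zz (P i) (x i) (y i) (a / (P i).La) (a % (P i).La)) :=
    (Lin.ioCut (b := fun i => 2 * (P i).q) (z := fun i a =>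
      ((zz (P i) (x i) (y i) (a / (P i).La) (a % (P i).La) : ℕ) : Zq (P i).q).val) 1
      (fun i a => (io_val _ _).trans_lt (Nat.pow_lt_pow_right (by omega) (by omega)))
      hz.ioWarr).congr fun i => by
        rw [← mul_assoc, mul_two, (h i).io_M.1]
        refine tab_congr fun a ha => ?_
        rw [ZMod.val_natCast_of_lt (Nat.lt_succ_of_le (h0 i a ha)),
          show (P i).b * 14000 = 1 * (2 * (P i).q) by have := (P i).q_eq; omega]
  have h2 := Lin.chunk (fun i => (h i).io_M.2) (r.Ns.ioMul 2) r.M h1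
  have h3 : ∀ u < 2, Lin c fun i => lb (2 * n i) (2 ^ (u * ((P i).b * ((P i).La / 2))) *
      ∑ a ∈ range ((P i).La / 2 * (P i).Ns), zz (P i) (x i) (y i) (a / ((P i).La / 2))
        (a % ((P i).La / 2) + (P i).La / 2 * u) * (2 ^ (P i).b) ^ a) := fun u hu => by
    have hk : ∀ i a, a % ((P i).La / 2) + (P i).La / 2 * u < (P i).La := fun i a => by
      have := Nat.mod_lt a (h i).io_M.2
      have := (h i).io_M.1
      have := Nat.mul_le_mul_left ((P i).La / 2) (Nat.lt_succ_iff.1 hu)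
      omega
    refine Lin.ioCarry 14000 (by omega) (fun i => (h i).b_pos) r.b (hn.ioMul 2) (r.bM.ioMul u)
      (fun i a ha => (h i).zz_lt _ _ (Nat.div_lt_of_lt_mul ha) (hk i a))
      ((Lin.split 2 u hu h2 r.Ns).flat.congr fun i => tab_congr fun a _ => ?_)
    have e : a % ((P i).La / 2) + (P i).La / 2 * (u + 2 * (a / ((P i).La / 2))) =
        a % ((P i).La / 2) + (P i).La / 2 * u + (P i).La * (a / ((P i).La / 2)) := by
      rw [mul_add, ← mul_assoc, mul_two, (h i).io_M.1, add_assoc]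
    rw [e, (io_dm (hk i a) _).1, (io_dm (hk i a) _).2]
  refine ((h3 0 (by omega)).addB (h3 1 (by omega))).congr fun i => congrArg _ ?_
  have hlt : ∀ {v : ℕ}, v < 2 ^ n i → v < (2 ^ (P i).b) ^ ((P i).La / 2 * ((P i).Ns / 2)) :=
    fun hv => hv.trans_le (by
      rw [← pow_mul, ← mul_assoc]; exact Nat.pow_le_pow_right (by omega) (hx i).2.2)
  rw [(h i).zz_sum (hlt (hx i).1) (hlt (hx i).2.1), io_sum_mul, io_sum_mul, mul_sum, mul_sum,
    ← sum_add_distrib]
  refine sum_congr rfl fun m _ => ?_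
  conv_lhs => rw [← (h i).io_M.1, sum_range_add, (h i).io_M.1]
  rw [mul_sum, mul_sum]
  congr 1 <;> refine sum_congr rfl fun k hk => ?_ <;>
    rw [(io_dm (mem_range.1 hk) m).1, (io_dm (mem_range.1 hk) m).2]
  · simp
  · rw [one_mul, mul_one, pow_mul 2 (P i).b, add_comm ((P i).La / 2) k]
    ring

end

variable {ι : Type} {WS WC : ℕ} {J j : ι → ℕ} {s : ι → Prog} {P : ι → Par}
  (h : ∀ i, Good WS WC (J i) (j i) (P i)) {U : ι → ℝ} (hU : (pe s P h).Ok Par.N U)
include hU

theorem Op.input {x : ι → List Bool} (hx : Bd (fun i => ((x i).length : ℝ)) U) :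
    Op (pe s P h) U x (fun i => narr (P i) fun n k =>
      ((2 ^ (1000 * (P i).b) * Xd (P i) (lv (x i)) n k : ℕ) : Zq (P i).q)) 0 :=
  Op.lin hU.bdE (((hx.cmul 4).add ((pe s P h).hS.one.trans hU.bdE)).of_le fun i => by
    have := io_sz_lb (x i).length (lv (x i))
    rw [io_lb_lv] at this
    exact_mod_cast this) fun hP hx => (io_all h hU hP).input h hx

theorem Op.pointwise {T : ι → ℝ} (hm : ∀ i, MulT (s i) (6 * (P i).q * (P i).La) (T i))
    (X Y : ∀ i, ℕ → ℕ → Zq (P i).q) :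
    Op (pe s P h) U (fun i => (narr (P i) (X i), narr (P i) (Y i)))
      (fun i => narr (P i) fun n k => ∑ l ∈ Finset.range (k + 1), X i n l * Y i n (k - l))
      fun i => (P i).Ns * T i := by
  have hk : ∀ i (Z : ℕ → Zq (P i).q), kro (P i) Z < 2 ^ (6 * (P i).q * (P i).La) := fun i Z => by
    rw [pow_mul 2 (6 * (P i).q)]
    exact sum_lt_pow _ fun a _ => io_val_lt (by have := (P i).q_eq; have := (h i).b_pos; omega) _
  have h1 : Op (pe s P h) U (fun i => (narr (P i) (X i), narr (P i) (Y i)))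
      (fun i => tab (P i).Ns fun n => lb (6 * (P i).q * (P i).La)
        (kro (P i) (X i n) * kro (P i) (Y i n))) fun i => (P i).Ns * T i :=
    Op.cmp hU.bdE ((io_bd h hU X).szpair (io_bd h hU Y)) fun hP hx =>
      Cmp.ioMul (c := (pe s P h).ctx U fun i => (narr (P i) (X i), narr (P i) (Y i))) hm
        (fun i a => ⟨hk i _, hk i _⟩) ((io_all h hU hP).kro h hx.fst) ((io_all h hU hP).kro h hx.snd)
  exact h1.thenL hU.bdE fun hP hx => (io_all h hU hP).red h hx

theorem Op.output {n x y : ι → ℕ} (hn : Bd (fun i => (n i : ℝ)) U)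
    (hx : ∀ i, x i < 2 ^ n i ∧ y i < 2 ^ n i ∧ n i ≤ (P i).b * ((P i).La / 2) * ((P i).Ns / 2)) :
    Op (pe s P h) U (fun i => (List.replicate (n i) (), narr (P i) fun m k =>
      ((∑ m₁ ∈ Finset.range (m + 1), ∑ l ∈ Finset.range (k + 1),
        Xd (P i) (x i) m₁ l * Xd (P i) (y i) (m - m₁) (k - l) : ℕ) : Zq (P i).q)))
      (fun i => lb (2 * n i) (x i * y i)) 0 :=
  Op.lin hU.bdE (Bd.szpair (((hn.cmul 2).add ((pe s P h).hS.one.trans hU.bdE)).of_le fun i => by
    have := sz_list_le (l := List.replicate (n i) ()) (B := 1) fun a _ => (sz_unit a).le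
    rw [List.length_replicate] at this
    exact_mod_cast (by omega)) (io_bd h hU _)) fun hP hz => (io_all h hU hP).output h hx hz.fst hz.snd

end Vale.Agent.P338
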