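import Vale.Agent.P338.MathC

/-! Module D: the computed transforms give the exact convolution. -/

namespace Vale.Agent.P338.MD

open Function Matrix
open Vale.Agent.P344 (piT)

variable {d L : ℕ}

theorem fit_of {β : ℕ} {z : GI} (h : ‖tc z‖ < 2 ^ β) : Fit β z := by
  have h1 := (Complex.abs_re_le_norm (tc z)).trans_lt h
  have h2 := (Complex.abs_im_le_norm (tc z)).trans_lt h
  rw [tc, ← GaussianInt.intCast_re] at h1
  rw [tc, ← GaussianInt.intCast_im] at h2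
  exact ⟨by exact_mod_cast h1, by exact_mod_cast h2⟩

theorem rnd_eq {F : ℕ} (hF : 1 ≤ F) {z : GI} {m : ℕ} (h : ‖tc z - 2 ^ F * m‖ < 2 ^ (F - 1)) :
    rnd F z = (m : GI) := by
  have h' : ‖tc (z - 2 ^ F * m)‖ < 2 ^ (F - 1) := by simpa [tc, map_ofNat] using h
  obtain ⟨h1, h2⟩ := fit_of h'
  have e : (2 : GI) ^ F = ((2 ^ F : ℕ) : GI) := by push_cast; rfl
  rw [e, ← Nat.cast_mul] at h1 h2
  simp only [Zsqrtd.re_sub, Zsqrtd.im_sub, Zsqrtd.re_natCast, Zsqrtd.im_natCast, sub_zero,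
    abs_lt] at h1 h2
  push_cast at h1
  have h4 : (2 : ℤ) ^ F = 2 * 2 ^ (F - 1) := by
    rw [← pow_succ']; congr 1; omega
  have hp : (0 : ℤ) < 2 ^ F := by positivity
  ext
  · simp only [rnd, Zsqrtd.re_natCast]
    rw [Int.ediv_eq_iff_of_pos hp]
    constructor <;> nlinarith [h1.1, h1.2]
  · simp only [rnd, Zsqrtd.im_natCast]
    exact Int.ediv_eq_zero_of_lt (by linarith [h2.1]) (by linarith [h2.2])

theorem pw {t : ℝ} (ht : 2 ≤ t) {a b : ℕ} (h : a ≤ b) : t ^ a ≤ t ^ b :=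
  pow_le_pow_right₀ (by linarith) h

theorem pw2 {t : ℝ} (ht : 2 ≤ t) {a b : ℕ} (h : a + 1 ≤ b) : t ^ a + t ^ a ≤ t ^ b := by
  refine le_trans ?_ (pw ht h)
  rw [pow_succ', ← two_mul]
  exact mul_le_mul_of_nonneg_right ht (by positivity)

theorem pw3 {t x y : ℝ} (ht : 2 ≤ t) {a b c : ℕ} (hx : x ≤ t ^ a) (hy : y ≤ t ^ b)
    (h : a + 1 ≤ c) (h' : b + 1 ≤ c) : x + y ≤ t ^ c :=
  (add_le_add (hx.trans (pw ht (le_max_left a b))) (hy.trans (pw ht (le_max_right a b)))).trans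
    (pw2 ht (by omega))

theorem pwm {t x y : ℝ} (ht : 2 ≤ t) {a b c : ℕ} (hx : x ≤ t ^ a) (hy : y ≤ t ^ b) (hy0 : 0 ≤ y)
    (h : a + b ≤ c) : x * y ≤ t ^ c :=
  (mul_le_mul hx hy hy0 (by positivity)).trans ((pow_add t a b).symm.le.trans (pw ht h))

theorem pw4 {t : ℝ} (ht : 2 ≤ t) {a b c : ℕ} (h : 2 ≤ a) (h' : b + a + 1 ≤ c) :
    t ^ b * (t ^ a + 4) ≤ t ^ c :=
  pwm ht le_rfl (pw3 (b := 2) (c := a + 1) ht le_rfl (by nlinarith) le_rfl (by omega))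
    (by positivity) (by omega)

theorem nums (hd : 1 ≤ d) (hL : d ≤ L) {t : ℝ} (ht : t = 2 ^ (d * L)) : 2 ≤ t ∧
    ((2 : ℝ) ^ (L + 1) + 1) * (100 * ((3000 * (d * L) : ℕ) : ℝ) + 1000) * (2 ^ d * t ^ 2900) ≤
      2 ^ (3000 * (d * L)) ∧
    ((2 : ℝ) ^ (3000 * (d * L)) * 2 ^ (L + 1) + ((2 : ℝ) ^ (L + 1) + 1) *
      (100 * ((3000 * (d * L) : ℕ) : ℝ) + 1000)) * (2 ^ d * (2 ^ d * t ^ 2900)) <
      2 ^ (6000 * (d * L)) := by
  have hb : 1 ≤ d * L := Nat.mul_pos hd (by omega)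
  have hbL : L ≤ d * L := Nat.le_mul_of_pos_left _ hd
  have ht2 : 2 ≤ t := by
    rw [ht]; exact le_self_pow₀ one_le_two (by omega)
  have hp : ∀ a : ℕ, (2 : ℝ) ^ (a * (d * L)) = t ^ a := fun a => by rw [ht, ← pow_mul, mul_comm]
  have hL1 : (2 : ℝ) ^ (L + 1) ≤ t ^ 2 := by
    rw [← hp]; exact pow_le_pow_right₀ one_le_two (by omega)
  have hd1 : (2 : ℝ) ^ d ≤ t ^ 1 := by
    rw [← hp]; exact pow_le_pow_right₀ one_le_two (by omega)
  have h2 : ((d * L : ℕ) : ℝ) ≤ t := by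
    rw [ht]; exact_mod_cast (Nat.lt_two_pow_self).le
  have h3 : (1 : ℝ) ≤ ((d * L : ℕ) : ℝ) := by exact_mod_cast hb
  have h5 : 100 * ((3000 * (d * L) : ℕ) : ℝ) + 1000 ≤ t ^ 20 := by
    refine le_trans ?_ (pwm ht2 (pow_le_pow_left₀ zero_le_two ht2 19)
      (h2.trans (pow_one t).symm.le) (by positivity) le_rfl)
    rw [Nat.cast_mul 3000]
    generalize ((d * L : ℕ) : ℝ) = u at *
    push_cast
    linarith
  have hE := pwm (c := 23) ht2 (pw3 (c := 3) ht2 hL1 (pow_zero t).ge le_rfl (by norm_num)) h5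
    (by positivity) le_rfl
  have h6 := pwm (c := 2901) ht2 hd1 (le_refl (t ^ 2900)) (by positivity) le_rfl
  refine ⟨ht2, ?_, ?_⟩
  · rw [hp]
    exact pwm ht2 hE h6 (by positivity) (by norm_num)
  · rw [hp, hp]
    exact (pwm (c := 5905) ht2 (pw3 (c := 3003) ht2 (pwm (c := 3002) ht2 le_rfl hL1
      (by positivity) le_rfl) hE le_rfl (by norm_num))
      (pwm (c := 2902) ht2 hd1 h6 (by positivity) le_rfl) (by positivity) le_rfl).trans_lt
      (pow_lt_pow_right₀ (by linarith) (by norm_num))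

theorem pre_le {w Λ : ℕ} (hw : 0 < w) (hΛ : w * 2 ^ d ∣ Λ) {s : Fin d → ℕ} (hs : ∀ i, 0 < s i)
    (x : ℕ → (Fin d → ℕ) → GI) (z : ℕ → (Fin d → ℕ) → ℂ) {B e : ℝ}
    (hx : ∀ k < Λ, ∀ r ∈ Rs s, ‖tc (x k r)‖ ≤ B)
    (hz : ∀ k < Λ, ∀ r ∈ Rs s, ‖tc (x k r) - z k r‖ ≤ e) (hB0 : 0 ≤ B) (he0 : 0 ≤ e)
    {k : ℕ} (hk : k < Λ) (β : Fin d → Ax L) : ‖cv L (pre s w x k) β‖ ≤ B ∧
      ‖cv L (pre s w x k) β - preC L s w z k β‖ ≤ e := by
  by_cases h : ∀ i, ((β i).2 : ℕ) < s i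
  · have h1 : (fun i => if (β i).1 then (s i - (β i).2) % s i else ((β i).2 : ℕ)) ∈ Rs s := by
      refine mem_Rs.2 fun i => ?_
      split_ifs
      exacts [Nat.mod_lt _ (hs i), h i]
    have e1 : cv L (pre s w x k) β = tc (x (setcb w k fun i => !(β i).1)
        fun i => if (β i).1 then (s i - (β i).2) % s i else ((β i).2 : ℕ)) :=
      congrArg tc (if_pos h)
    rw [e1, preC, if_pos h]
    exact ⟨hx _ (setcb_lt hw hΛ hk _) _ h1, hz _ (setcb_lt hw hΛ hk _) _ h1⟩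
  · have e1 : cv L (pre s w x k) β = tc 0 := congrArg tc (if_neg h)
    rw [e1, preC, if_neg h]
    simp [hB0, he0]

theorem tr_main {D : FD} (hc : ConstSpec D.ev) (hF : FFTSpec D) (hd : 1 ≤ d) (hL : d ≤ L)
    {w Λ : ℕ} (hw : 0 < w) (hΛ : w * 2 ^ d ∣ Λ) {s : Fin d → ℕ} (hs : ∀ i, 0 < s i ∧ s i ≤ 2 ^ L)
    (inv : Bool) (x : ℕ → (Fin d → ℕ) → GI) (z : ℕ → (Fin d → ℕ) → ℂ) {t B e : ℝ}
    (ht : t = 2 ^ (d * L)) (hx : ∀ k < Λ, ∀ r ∈ Rs s, ‖tc (x k r)‖ ≤ B)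
    (hz : ∀ k < Λ, ∀ r ∈ Rs s, ‖tc (x k r) - z k r‖ ≤ e) (hB0 : 0 ≤ B) (he0 : 0 ≤ e)
    (hB : t ^ 110 * (B + 4) ≤ t ^ 2900) :
    D.Fits L s w Λ inv x ∧ ∀ k < Λ, ∀ r ∈ Rs s,
      ‖tc (D.tr L s w inv x k r)‖ ≤ t ^ 110 * (B + 4) ∧
      ‖tc (D.tr L s w inv x k r) - dft (if inv then -1 else 1) s (z k) r‖ ≤
        t ^ 110 * (e + 4) := by
  obtain ⟨f1, -, f3, -, f5, f6⟩ := hF L d inv (by omega)
  have hb : 1 ≤ 3000 * (d * L) := Nat.mul_pos (by norm_num) (Nat.mul_pos hd (by omega))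
  obtain ⟨ht2, hE, hE'⟩ := nums hd hL ht
  have hS : (2 : ℝ) ^ ((D.stg L d inv).map (eta L d)).sum ≤ t ^ 110 := by
    rw [ht, ← pow_mul]
    refine pow_le_pow_right₀ one_le_two ((eta_sum _).trans ?_)
    have h1 : (D.stg L d inv).length * d ≤ 90 * L * d := Nat.mul_le_mul_right _ (by omega)
    have h2 := Nat.mul_le_mul f3 (show L + 2 ≤ 3 * L by omega)
    nlinarith
  have hpre := fun k (hk : k < Λ) (β : Fin d → Ax L) =>
    pre_le hw hΛ (fun i => (hs i).1) x z hx hz hB0 he0 hk β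
  have h4 : (0 : ℝ) ≤ 4 := by norm_num
  generalize t ^ 110 = t1 at *
  generalize t ^ 2900 = t2 at *
  constructor
  · intro k hk l₁ l₂ g hl a ha
    have h1 : (2 : ℝ) ^ (l₁.map (eta L d)).sum * (B + 4) ≤ t2 := by
      refine le_trans (mul_le_mul_of_nonneg_right (le_trans ?_ hS) (add_nonneg hB0 h4)) hB
      refine pow_le_pow_right₀ one_le_two ?_
      rw [hl, List.map_append, List.sum_append]
      omega
    have h2 := fun α => (fold_err hc hd hs hb hE l₁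
      (fun g' h' => f5 g' (by rw [hl]; exact List.mem_append_left _ h')) (pre s w x k) _ B e
      (fun β => (hpre k hk β).1) (fun β => (hpre k hk β).2) h1 α).1
    exact fit_of ((arg_le (B := t2) hc (f5 g (by rw [hl]; simp)) hs (3000 * (d * L))
      (fun α => (le_add_of_nonneg_right h4).trans ((h2 α).trans h1))
      fun i => ((a i).1, ⟨(a i).2, ha i⟩)).trans_lt hE')
  · intro k hk r hr
    have hr := mem_Rs.1 hr
    have h1 := fold_err hc hd hs hb hE _ f5 (pre s w x k) _ B e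
      (fun β => (hpre k hk β).1) (fun β => (hpre k hk β).2)
      ((mul_le_mul_of_nonneg_right hS (add_nonneg hB0 h4)).trans hB)
      fun i => ((k / w).testBit i, ⟨r i, (hr i).trans_le (hs i).2⟩)
    have h2 : ((D.stg L d inv).map (PM D L s)).reverse.prod = _ :=
      piT_list (fun g i => stageM D.ds D.ms L i (s i) g) _
    rw [h2, exact_tr hs inv _ (fun i => f6 i (s i) i.2 (hs i).1 (hs i).2) w k z _
      (fun _ => rfl) hr] at h1
    exact ⟨(le_add_of_nonneg_right h4).trans (h1.1.trans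
        (mul_le_mul_of_nonneg_right hS (add_nonneg hB0 h4))),
      (le_add_of_nonneg_right h4).trans (h1.2.trans
        (mul_le_mul_of_nonneg_right hS (add_nonneg he0 h4)))⟩

theorem cnv_le {t : ℝ} (ht : 2 ≤ t) {k : ℕ} (hk : (k : ℝ) + 1 ≤ t) (x y : ℕ → GI) (p q : ℕ → ℂ)
    (hx : ∀ l ≤ k, ‖tc (x l)‖ ≤ t ^ 1112 ∧ ‖tc (x l) - p l‖ ≤ t ^ 112)
    (hy : ∀ l ≤ k, ‖tc (y l)‖ ≤ t ^ 1112 ∧ ‖tc (y l) - q l‖ ≤ t ^ 112) :
    ‖tc (∑ l ∈ Finset.range (k + 1), x l * y (k - l))‖ ≤ t ^ 2225 ∧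
    ‖tc (∑ l ∈ Finset.range (k + 1), x l * y (k - l)) -
      ∑ l ∈ Finset.range (k + 1), p l * q (k - l)‖ ≤ t ^ 1227 := by
  have h0 : ∀ (F : ℕ → ℂ) (a : ℕ), (∀ l ≤ k, ‖F l‖ ≤ t ^ a) →
      ‖∑ l ∈ Finset.range (k + 1), F l‖ ≤ t ^ (a + 1) := by
    intro F a h
    refine (norm_sum_le_of_le _ fun l hl => h l (by simpa [Nat.lt_succ_iff] using hl)).trans ?_
    rw [Finset.sum_const, Finset.card_range, nsmul_eq_mul, pow_succ']
    push_cast
    gcongr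
  simp only [tc, map_sum, map_mul, ← Finset.sum_sub_distrib]
  refine ⟨h0 _ 2224 fun l hl => ?_, h0 _ 1226 fun l hl => ?_⟩
  · rw [norm_mul]
    exact pwm ht (hx l hl).1 (hy _ (by omega)).1 (norm_nonneg _) le_rfl
  · obtain ⟨a1, a2⟩ := hx l hl
    obtain ⟨b1, b2⟩ := hy (k - l) (by omega)
    simp only [tc] at a1 a2 b1 b2
    generalize GaussianInt.toComplex (x l) = X at *
    generalize GaussianInt.toComplex (y (k - l)) = Y at *
    have b3 : ‖q (k - l)‖ ≤ t ^ 1113 :=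
      (norm_le_norm_add_norm_sub Y (q (k - l))).trans (pw3 ht b1 b2 le_rfl (by norm_num))
    rw [show X * Y - p l * q (k - l) = X * (Y - q (k - l)) + (X - p l) * q (k - l) by ring]
    refine (norm_add_le _ _).trans ?_
    rw [norm_mul, norm_mul]
    exact pw3 ht (pwm (c := 1225) ht a1 b2 (norm_nonneg _) (by norm_num))
      (pwm (c := 1225) ht a2 b3 (norm_nonneg _) le_rfl) le_rfl le_rfl

end Vale.Agent.P338.MD

namespace Vale.Agent.P338

open MD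

theorem math : MathStmt := by
  intro D hc hF d L w Λ s c X Y x y hd hL hw hΛ hΛ' hs hco hXY hz hxy
  have hs1 : ∀ i, 0 < s i ∧ s i ≤ 2 ^ L := fun i => ⟨(hs i).1, (hs i).2.1⟩
  have hs2 : ∀ i, 0 < s i ∧ Nat.Coprime (c i) (s i) := fun i => ⟨(hs i).1, (hs i).2.2⟩
  obtain ⟨t, ht⟩ : ∃ t : ℝ, t = 2 ^ (d * L) := ⟨_, rfl⟩
  have hb : 1 ≤ d * L := Nat.mul_pos hd (by omega)
  have ht2 : 2 ≤ t := by
    rw [ht]; exact le_self_pow₀ one_le_two (by omega)
  have hp : ∀ a : ℕ, (2 : ℝ) ^ (a * (d * L)) = t ^ a := fun a => by rw [ht, ← pow_mul, mul_comm]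
  have hin : ∀ (x : ℕ → (Fin d → ℕ) → GI) (X : ℕ → ℕ → ℕ), (∀ n k, X n k < 2 ^ (d * L)) →
      (∀ n < ∏ i, s i, ∀ k < Λ, x k (fun i => c i * n % s i) = 2 ^ (1000 * (d * L)) * X n k) →
      D.Fits L s w Λ false x ∧ ∀ k < Λ, ∀ r ∈ Rs s, ‖tc (D.tr L s w false x k r)‖ ≤ t ^ 1112 ∧
        ‖tc (D.tr L s w false x k r) - dft 1 s (fun u => tc (x k u)) r‖ ≤ t ^ 112 := by
    intro x X h1 h2
    have h3 := pw4 (a := 1001) (b := 110) (c := 1112) ht2 (by norm_num) le_rfl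
    obtain ⟨a1, a2⟩ := tr_main hc hF hd hL hw hΛ hs1 false x (fun k u => tc (x k u)) ht
      (B := t ^ 1001) (e := 0) (fun k hk r hr => by
        rw [← crt_image hs2 hco] at hr
        obtain ⟨n, hn, rfl⟩ := Finset.mem_image.1 hr
        rw [h2 n (Finset.mem_range.1 hn) k hk]
        have : (X n k : ℝ) ≤ t := by rw [ht]; exact_mod_cast (h1 n k).le
        simp only [tc, map_mul, map_pow, map_ofNat, map_natCast, norm_mul, norm_pow,
          Complex.norm_two, Complex.norm_natCast, hp]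
        exact pwm ht2 le_rfl (this.trans (pow_one t).ge) (Nat.cast_nonneg _) le_rfl)
      (fun k hk r hr => by simp) (by positivity) le_rfl (h3.trans (pw ht2 (by norm_num)))
    refine ⟨a1, fun k hk r hr => ⟨(a2 k hk r hr).1.trans h3, (a2 k hk r hr).2.trans ?_⟩⟩
    exact pwm (b := 2) ht2 le_rfl (by nlinarith) (by norm_num) le_rfl
  obtain ⟨a1, a2⟩ := hin x X (fun n k => (hXY n k).1) fun n hn k hk => (hxy n hn k hk).1
  obtain ⟨b1, b2⟩ := hin y Y (fun n k => (hXY n k).2) fun n hn k hk => (hxy n hn k hk).2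
  have hcv := fun k (hk : k < Λ) r (hr : r ∈ Rs s) => cnv_le ht2 (k := k) (by
      rw [ht]; exact_mod_cast (Nat.succ_le_of_lt hk).trans hΛ')
    (fun l => D.tr L s w false x l r) (fun l => D.tr L s w false y l r) _ _
    (fun l hl => a2 l (by omega) r hr) (fun l hl => b2 l (by omega) r hr)
  have h3 := pw4 (a := 2225) (b := 110) (c := 2336) ht2 (by norm_num) le_rfl
  have h4 := pw4 (a := 1227) (b := 110) (c := 1338) ht2 (by norm_num) le_rfl
  obtain ⟨c1, c2⟩ := tr_main hc hF hd hL hw hΛ hs1 true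
    (cnv (D.tr L s w false x) (D.tr L s w false y)) _ ht
    (fun k hk r hr => (hcv k hk r hr).1) (fun k hk r hr => (hcv k hk r hr).2)
    (by positivity) (by positivity) (h3.trans (pw ht2 (by norm_num)))
  refine ⟨a1, b1, c1, fun n hn k hk => ?_⟩
  obtain ⟨c3, c4⟩ := c2 k hk (fun i => c i * n % s i) (mem_Rs.2 fun i => Nat.mod_lt _ (hs i).1)
  have hN : ‖(∏ i, (s i : ℂ)) ^ 2‖ ≤ t ^ 2 := by
    rw [norm_pow]
    gcongr
    have : ∏ i, s i ≤ 2 ^ (d * L) := by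
      calc _ ≤ ∏ _i : Fin d, 2 ^ L := Finset.prod_le_prod' fun i _ => (hs i).2.1
        _ = _ := by simp [← pow_mul, mul_comm]
    rw [← Nat.cast_prod, Complex.norm_natCast, ht]
    exact_mod_cast this
  have e1 : ∀ z : GI, tc ((((∏ i, s i) ^ 2 : ℕ) : GI) * z) = (∏ i, (s i : ℂ)) ^ 2 * tc z := by
    intro z; simp [tc]
  constructor
  · refine fit_of ?_
    rw [e1, norm_mul, hp]
    exact (pwm (c := 2338) ht2 hN (c3.trans h3) (norm_nonneg _) le_rfl).trans_lt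
      (pow_lt_pow_right₀ (by linarith) (by norm_num))
  · refine rnd_eq (by omega) ?_
    have e2 := dft_conv (fun i => (hs i).1) (fun k u => tc (x k u)) (fun k u => tc (y k u)) k
      fun i => c i * n % s i
    rw [crt_conv hs2 hco (fun a b => 2 ^ (2000 * (d * L)) *
      ∑ l ∈ Finset.range (k + 1), (X a l : ℂ) * Y b (k - l)) _ ?_ ?_ hn, ← Finset.mul_sum] at e2
    · rw [e1]
      push_cast
      rw [← e2, ← mul_sub, norm_mul]
      refine (pwm (c := 1340) ht2 hN (c4.trans h4) (norm_nonneg _) le_rfl).trans_lt ?_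
      rw [← hp]
      exact pow_lt_pow_right₀ one_lt_two (by omega)
    · intro a ha b hb
      rw [Finset.mul_sum]
      refine Finset.sum_congr rfl fun l hl => ?_
      have hl := Finset.mem_range.1 hl
      rw [(hxy a ha l (by omega)).1, (hxy b hb (k - l) (by omega)).2,
        show 2000 * (d * L) = 1000 * (d * L) + 1000 * (d * L) by ring, pow_add]
      simp only [tc, map_mul, map_pow, map_ofNat, map_natCast]
      ring
    · rintro a b (h | h)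
      · simp [fun l => (hz a l h).1]
      · simp [fun l => (hz b l h).2]

end Vale.Agent.P338
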