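import Vale.Agent.P338.NetC1

/-! The butterfly network. -/

namespace Vale.Agent.P338

namespace Net

open Function Matrix

section
variable {R I : Type} [CommRing R] [Fintype I] [DecidableEq I] {h i : R} {x : I → R}

/-- the sign of a bit -/
def s2 (R : Type) [CommRing R] (b : ZMod 2) : R := if b = 0 then 1 else -1

theorem z2 (b : ZMod 2) : b = 0 ∨ b = 1 := by revert b; decide

theorem hom_s2 : Hom (s2 R) := ⟨by simp [s2], fun a b => by
  have : (1 + 1 : ZMod 2) = 0 := rfl
  rcases z2 a with rfl | rfl <;> rcases z2 b with rfl | rfl <;> simp [s2, this]⟩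

theorem hom_ip (hi : i * i = -1) : Hom fun a : ZMod 4 => i ^ a.val := ⟨by simp, fun a b => by
  have h4 : i ^ 4 = 1 := by linear_combination (i * i - 1) * hi
  rw [ZMod.val_add, ← pow_add, ← pow_eq_pow_mod _ h4]⟩

/-- the idempotent of a character -/
def idm (h : R) (x : I → R) (ξ : I → ZMod 2) : R := ∏ a, h * (1 + s2 R (ξ a) * x a)

theorem idm_sum (h2 : 2 * h = 1) : ∑ ξ, idm h x ξ = 1 := by
  have := Finset.prod_univ_sum (fun _ : I => (Finset.univ : Finset (ZMod 2)))
    fun a b => h * (1 + s2 R b * x a)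
  rw [Fintype.piFinset_univ] at this
  refine this.symm.trans (Finset.prod_eq_one fun a _ => ?_)
  rw [show (Finset.univ : Finset (ZMod 2)) = {0, 1} from rfl, Finset.sum_pair zero_ne_one]
  simp only [s2, if_true, one_ne_zero, if_false]
  linear_combination h2

omit [DecidableEq I] in
theorem idm_mul (h2 : 2 * h = 1) (hx : ∀ a, x a * x a = 1) (ξ η : I → ZMod 2) [Decidable (ξ = η)] :
    idm h x ξ * idm h x η = if ξ = η then idm h x ξ else 0 := by
  rw [idm, idm, ← Finset.prod_mul_distrib]
  split_ifs with e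
  · subst e
    refine Finset.prod_congr rfl fun a _ => ?_
    rcases z2 (ξ a) with e | e <;> simp only [e, s2, if_true, one_ne_zero, if_false]
    · linear_combination h * h * hx a + h * (1 + x a) * h2
    · linear_combination h * h * hx a + h * (1 - x a) * h2
  · obtain ⟨a, ha⟩ := Function.ne_iff.mp e
    refine Finset.prod_eq_zero (Finset.mem_univ a) ?_
    rcases z2 (ξ a) with e | e <;> rcases z2 (η a) with e' | e' <;>
      simp only [e, e', ne_eq, not_true, s2, if_true, one_ne_zero, if_false] at ha ⊢ <;>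
      linear_combination (-h * h) * hx a

/-- the monomial of a binary vector -/
def xv (x : I → R) (v : I → ZMod 2) : R := ∏ a, if v a = 0 then 1 else x a

omit [DecidableEq I] in
theorem xv_idm (hx : ∀ a, x a * x a = 1) (v ξ : I → ZMod 2) :
    xv x v * idm h x ξ = s2 R (v ⬝ᵥ ξ) * idm h x ξ := by
  rw [dotProduct, hom_s2.sum, xv, idm, ← Finset.prod_mul_distrib, ← Finset.prod_mul_distrib]
  refine Finset.prod_congr rfl fun a _ => ?_
  rcases z2 (v a) with e | e <;> rcases z2 (ξ a) with e' | e' <;>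
    simp only [e, e', s2, if_true, one_ne_zero, if_false, mul_zero, mul_one]
  · linear_combination h * hx a
  · linear_combination (-h) * hx a

/-- the multiplier of a form -/
def gam (h i : R) (x : I → R) (q : (I → ZMod 2) → ZMod 4) : R :=
  ∑ ξ, i ^ (q ξ).val * idm h x ξ

theorem hom_gam (h2 : 2 * h = 1) (hi : i * i = -1) (hx : ∀ a, x a * x a = 1) :
    Hom (gam h i x) := ⟨by simpa [gam] using idm_sum h2, fun a b => by
  simp only [gam, Finset.sum_mul_sum, mul_mul_mul_comm _ (idm h x _), idm_mul h2 hx,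
    Pi.add_apply, (hom_ip hi).add]
  simp⟩

theorem gam_lin (h2 : 2 * h = 1) (hx : ∀ a, x a * x a = 1) (v : I → ZMod 2) (c : ZMod 4)
    (α β : R) (h0 : α + β = 1) (h1 : α - β = i ^ c.val) :
    gam h i x (fun ξ => c * lf (v ⬝ᵥ ξ)) = α + β * xv x v := by
  rw [← mul_one (α + _), ← idm_sum (x := x) h2, Finset.mul_sum, gam]
  refine Finset.sum_congr rfl fun ξ _ => ?_
  rw [add_mul, mul_assoc, xv_idm hx]
  rcases z2 (v ⬝ᵥ ξ) with e | e <;> simp only [e, s2, lf, if_true, one_ne_zero, if_false]
  · rw [mul_zero, ZMod.val_zero, pow_zero]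
    linear_combination (-idm h x ξ) * h0
  · rw [mul_one, ← h1]
    ring

theorem gam_two (h2 : 2 * h = 1) (hi : i * i = -1) (hx : ∀ a, x a * x a = 1) (v : I → ZMod 2) :
    gam h i x (fun ξ => 2 * lf (v ⬝ᵥ ξ)) = xv x v := by
  rw [gam_lin h2 hx v 2 0 1 (by simp) (by
    rw [show (2 : ZMod 4).val = 2 from rfl]; linear_combination -hi)]
  simp

theorem gam_sg (h2 : 2 * h = 1) (hi : i * i = -1) (hx : ∀ a, x a * x a = 1) (v : I → ZMod 2)
    (b : Bool) : gam h i x (fun ξ => sg b * lf (v ⬝ᵥ ξ)) =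
      (if b then xv x v else 1) * (h * (1 + i) + h * (1 - i) * xv x v) := by
  have e := gam_lin (i := i) h2 hx v 1 (h * (1 + i)) (h * (1 - i)) (by linear_combination h2) (by
    rw [show (1 : ZMod 4).val = 1 from rfl]; linear_combination i * h2)
  cases b
  · simpa [sg] using e
  · rw [if_pos rfl, ← e, ← gam_two h2 hi hx, ← (hom_gam h2 hi hx).add]
    refine congrArg _ (funext fun ξ => ?_)
    rw [Pi.add_apply, ← add_mul]
    rfl

end

theorem prod_range_mul {R : Type} [CommMonoid R] (F : ℕ → R) (m κ : ℕ) :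
    ∏ n ∈ Finset.range (m * κ), F n = ∏ a ∈ Finset.range m, ∏ c ∈ Finset.range κ, F (a * κ + c) := by
  induction m with
  | zero => simp
  | succ m ih => rw [add_mul, one_mul, Finset.prod_range_add, ih, Finset.prod_range_succ]

theorem qf_one {I J : Type} [Fintype I] [DecidableEq I] [Fintype J] [DecidableEq J] (e : I ≃ J) :
    (fun ξ : J → ZMod 2 => qf (1 : Matrix I I (ZMod 4)) fun a => ξ (e a)) =
      ∑ a : J, fun ξ => sg false * lf (Pi.single a 1 ⬝ᵥ ξ) := by
  funext ξ
  have : ∀ a, lf a * lf a = lf a := by decide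
  simp only [qf, Fintype.sum_prod_type, Matrix.one_apply, ite_mul, one_mul, zero_mul,
    Finset.sum_ite_eq, Finset.mem_univ, if_true, this, Finset.sum_apply, sg, single_dotProduct]
  exact Fintype.sum_equiv e _ _ fun a => by simp

theorem model {R : Type} [CommRing R] {h i : R} (h2 : 2 * h = 1) (hi : i * i = -1)
    {y : (ℕ → ZMod 2) → R} (hy : Hom y) (p κ : ℕ) : ∃ g : QF → R, Hom g ∧
    (∀ v, g (fun ξ => 2 * lf (v ⬝ᵥ ξ)) = y (∑ c ∈ Finset.range κ, dir p κ v c)) ∧
    (∀ v b, g (fun ξ => sg b * lf (v ⬝ᵥ ξ)) =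
      (if b then y (∑ c ∈ Finset.range κ, dir p κ v c) else 1) *
        ∏ c ∈ Finset.range κ, (h * (1 + i) + h * (1 - i) * y (dir p κ v c))) ∧
    expC g 1 = ∏ c ∈ Finset.range (mm * κ),
      (h * (1 + i) + h * (1 - i) * y (Pi.single (p + c) 1)) := by
  let x : ℕ → Fin mm → R := fun c a => y (Pi.single (p + a * κ + c) 1)
  have hx : ∀ c a, x c a * x c a = 1 := fun c a => by
    rw [← hy.add, ← Pi.single_add, show (1 + 1 : ZMod 2) = 0 from rfl, Pi.single_zero, hy.zero]
  have hv : ∀ c v, xv (x c) v = y (dir p κ v c) := fun c v => by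
    rw [dir, hy.sum]
    refine Finset.prod_congr rfl fun a _ => ?_
    rcases z2 (v a) with e | e <;> simp [e, hy.zero, x]
  have hg : Hom fun q => ∏ c ∈ Finset.range κ, gam h i (x c) q :=
    ⟨Finset.prod_eq_one fun c _ => (hom_gam h2 hi (hx c)).zero, fun a b => by
      simp only [(hom_gam h2 hi (hx _)).add, Finset.prod_mul_distrib]⟩
  have h3 : ∀ v b, ∏ c ∈ Finset.range κ, gam h i (x c) (fun ξ => sg b * lf (v ⬝ᵥ ξ)) =
      (if b then y (∑ c ∈ Finset.range κ, dir p κ v c) else 1) *
        ∏ c ∈ Finset.range κ, (h * (1 + i) + h * (1 - i) * y (dir p κ v c)) := fun v b => by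
    simp only [gam_sg h2 hi (hx _), hv, Finset.prod_mul_distrib, hy.sum]
    cases b <;> simp
  refine ⟨_, hg, fun v => by simp only [gam_two h2 hi (hx _), hv, hy.sum], h3, ?_⟩
  rw [expC, qf_one, hg.sum, prod_range_mul, Finset.prod_range]
  refine Finset.prod_congr rfl fun a _ => ?_
  rw [h3, if_neg (by simp), one_mul]
  refine Finset.prod_congr rfl fun c _ => ?_
  rw [dir, Finset.sum_eq_single a (fun b _ hb => by simp [hb]) (by simp), Pi.single_eq_same,
    add_assoc]

end Net

open Net in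
theorem cNet : CNetStmt := by
  have hv : Fintype.card (Trip 41) = 10660 := by rw [card_Trip]; norm_num [Nat.choose]
  let ex : QF → AddMonoidAlgebra K2 QF := fun q => AddMonoidAlgebra.single q 1
  have he : Hom ex := ⟨rfl, fun a b => by
    simp only [ex]; rw [AddMonoidAlgebra.single_mul_single, mul_one]⟩
  have hh2 : 2 * algebraMap K2 (AddMonoidAlgebra K2 QF) hh = 1 := by
    have := congrArg (algebraMap K2 (AddMonoidAlgebra K2 QF)) two_hh
    rwa [map_mul, map_one, map_ofNat] at this
  obtain ⟨L, h1, h2, h3⟩ := finish (Fintype.equivFin (Wt (Trip 41) (Option (Fin 41))))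
    (swp _ _) _ (reachC _ he hh2)
  refine ⟨_, (Fintype.equivFin _).symm.trans ((swp _ _).trans (Fintype.equivFin _)),
    fun u => sW ((Fintype.equivFin _).symm u), fun u a => tW ((Fintype.equivFin _).symm u) (eC.symm a),
    L, ?_, h1.trans_lt ?_, h2, fun D V _ _ _ h i g2 gi X g0 ga p κ σ => ?_⟩
  · rw [card_Wt, hv]; norm_num
  · rw [card_Wt, hv]; norm_num [steps, icost, mm]
  let R := AddMonoidAlgebra D (ℕ → ZMod 2)
  let F : Multiplicative (ℕ → ZMod 2) →* Module.End D V :=
    ⟨⟨fun t => X t.toAdd, g0⟩, fun a b => ga _ _⟩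
  let φ : R →ₐ[D] Module.End D V := AddMonoidAlgebra.lift D _ _ F
  let y : (ℕ → ZMod 2) → R := fun t => AddMonoidAlgebra.single t 1
  have hy : Hom y := ⟨rfl, fun a b => by
    simp only [y]; rw [AddMonoidAlgebra.single_mul_single, mul_one]⟩
  have hF : ∀ t, φ (y t) = X t := fun t => by
    simp only [φ, y]; rw [AddMonoidAlgebra.lift_single, one_smul]; rfl
  have a2 : 2 * algebraMap D R h = 1 := by
    have := congrArg (algebraMap D R) g2
    rwa [map_mul, map_one, map_ofNat] at this
  have ai : algebraMap D R i * algebraMap D R i = -1 := by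
    rw [← map_mul, gi, map_neg, map_one]
  obtain ⟨g, m0, m1, m2, m3⟩ := model a2 ai hy p κ
  have hc : ∀ (τ : ℕ → ℕ → ZMod 2) (n : ℕ), φ (∏ c ∈ Finset.range n, (algebraMap D R h *
      (1 + algebraMap D R i) + algebraMap D R h * (1 - algebraMap D R i) * y (τ c))) =
      cpr h i X τ n := by
    intro τ n
    induction n with
    | zero => simp [cpr]
    | succ n ih =>
      rw [Finset.prod_range_succ, map_mul, ih, cpr, cpr, List.prod_range_succ]
      congr 1
      rw [← map_one (algebraMap D R), ← map_add, ← map_sub, ← map_mul, ← map_mul, map_add,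
        ← Algebra.smul_def, map_smul, hF, AlgHom.commutes, cop, Algebra.algebraMap_eq_smul_one]
  have u2 : IsUnit (Int.castRingHom R 2) := IsUnit.of_mul_eq_one _ (by simpa using a2)
  let f : K2 →+* R := IsLocalization.Away.lift (2 : ℤ) u2
  have hf : f hh = algebraMap D R h := by
    have := congrArg f two_hh
    rw [map_mul, map_one, map_ofNat] at this
    linear_combination algebraMap D R h * this - f hh * a2
  let ψ : AddMonoidAlgebra K2 QF →+* R := AddMonoidAlgebra.liftNCRingHom f
    ⟨⟨fun q => g q.toAdd, m0.zero⟩, fun a b => m0.add _ _⟩ fun _ _ => Commute.all _ _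
  have ψ1 : ∀ q, ψ (ex q) = g q := fun q =>
    (AddMonoidAlgebra.liftNC_single _ _ q 1).trans (by simp)
  have ψ2 : ψ (algebraMap K2 (AddMonoidAlgebra K2 QF) hh) = algebraMap D R h :=
    (AddMonoidAlgebra.liftNC_single _ _ 0 hh).trans (by simp [hf, m0.zero])
  rw [h3 D V ((φ : R →+* Module.End D V).comp ψ) _ _ (fun g v => ?_) (fun c v => ?_)]
  · funext u
    have : ψ (expC ex 1) = expC g 1 := ψ1 _
    simp only [RingHom.comp_apply, map_mul, ψ1, this, m1, m3, RingHom.coe_coe, hF, hc]
    split_ifs <;> simp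
  · simp only [RingHom.comp_apply, sysC, ψ1, m2, RingHom.coe_coe, map_mul, hc, stepOp]
    split_ifs <;> simp [hF]
  · rcases c with ⟨_ | _, _ | _⟩ <;> simp [sysC, cfC, ψ2, -AddMonoidAlgebra.coe_algebraMap]

end Vale.Agent.P338
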