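import Vale.Agent.P338.Lst

/-! The length of a list in linear time. -/

namespace Vale.Agent.P338
open Vale.Agent.Lib.H24.T (Enc enc sz sz_pair sz_bool)

theorem sz_units (k : ℕ) : sz (List.replicate k ()) = 2 * k + 1 := by
  induction k with
  | zero => rfl
  | succ k ih => simp [List.replicate_succ, ih]; omega

theorem flatMap_half (n : ℕ) :
    (List.range n).flatMap (fun j => cond (decide (j % 2 = 1)) [()] []) =
      List.replicate (n / 2) () := by
  induction n with
  | zero => rfl
  | succ n ih =>
    rw [List.range_succ, List.flatMap_append, ih]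
    by_cases h : n % 2 = 1
    · simp only [List.flatMap_singleton, h, decide_true, cond_true]
      rw [show (n + 1) / 2 = n / 2 + 1 by omega, List.replicate_succ']
    · simp only [List.flatMap_singleton, h, decide_false, cond_false, List.append_nil]
      rw [show (n + 1) / 2 = n / 2 by omega]

theorem Lin.halve {ι α : Type} [Enc α] {c : Ctx ι α} {n : ι → ℕ}
    (h : Lin c fun i => List.replicate (n i) ()) :
    Lin c fun i => (decide (n i % 2 = 1), List.replicate (n i / 2) ()) := by
  have := Lin.scan (N := n) (F := fun _ _ => ()) (fun _ j => decide (j % 2 = 1))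
    (fun _ j => _root_.cond (decide (j % 2 = 1)) [()] []) (fun _ _ => 1) (h.cst false)
    (h.congr fun i => (replicate_tab _ _).symm)
    ⟨5, fun q => ⟨by positivity, by
      have h2 := sz_bool (decide (q.1.2 % 2 = 1))
      simp only [sz_pair, Vale.Agent.Lib.H24.T.sz_unit]
      exact_mod_cast (by omega)⟩⟩
    (h.len.of_le fun i => by simp)
    fun h1 _ => ((h1.cond (h1.cst false) (h1.cst true)).pair
      (h1.cond (h1.cst [()]) (h1.cst []))).congr fun q => by
        by_cases hq : q.1.2 % 2 = 1
        · simp [hq, show ¬ (q.1.2 + 1) % 2 = 1 by omega]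
        · simp [hq, show (q.1.2 + 1) % 2 = 1 by omega]
  exact this.congr fun i => by rw [flatMap_half]

theorem len_units : Cmp (fun k : Prog × ℕ => k.1) (fun k => List.replicate k.2 ()) (fun k => k.2)
    (fun k => 4 * k.2 + 1) 0 := by
  refine Cmp.recur (fun k => k.2) (U := fun k => k.2 + 1)
    (V := fun k => if k.2 = 0 then 0 else 4 * (k.2 / 2 : ℕ) + 1) (fun k => ?_) (fun k => ?_) ?_ _
  · split_ifs with h
    · simp [h]
    · exact_mod_cast (by omega)
  · split_ifs <;> positivity
  set R := RI (fun k : Prog × ℕ => List.replicate k.2 ()) (fun k => k.2) (fun k => k.2)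
    fun k => 4 * k.2 + 1
  have hx := Lin.self (c := ⟨fun q : R => q.s, fun q => List.replicate q.k.2 (),
    fun q => q.k.2 + 1⟩) ⟨2, fun q => ⟨by positivity, by
      simp only [sz_units]; exact_mod_cast (by omega)⟩⟩
  refine Cmp.cases hx.isNode ?_ ?_
  · have hn : ∀ i : {i : R // (enc (List.replicate i.k.2 ())).isNode = true}, 0 < i.1.k.2 := by
      rintro ⟨i, hi⟩
      by_contra h
      rw [show i.k.2 = 0 by simpa using h] at hi
      exact absurd hi (by decide)
    have h2 := Lin.halve (c := ⟨_, _, _⟩) (Cmp.re hx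
      (Subtype.val : {i : R // (enc (List.replicate i.k.2 ())).isNode = true} → R))
    have h3 := RI.call (Subtype.val : {i : R // (enc (List.replicate i.k.2 ())).isNode = true} → R)
      (fun i => (i.1.k.1, i.1.k.2 / 2)) (fun i => by have := hn i; simp only; omega)
      h2.snd.bd ⟨5, fun i => ⟨by positivity, by
        have := Vale.Agent.Lib.H24.T.sz_nat_le (n := i.1.k.2 / 2) (k := i.1.k.2)
          ((Nat.div_le_self _ _).trans_lt Nat.lt_two_pow_self)
        have h5 : sz (i.1.k.2 / 2) ≤ 5 * (i.1.k.2 + 1) := by omega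
        simp only
        exact_mod_cast h5⟩⟩
    refine ((Cmp.pair h2.fst (Cmp.trans0' h2.snd h3)).of_enc (fun _ => rfl) fun i => ?_).monoV
      fun i => by simp [(hn i).ne']
    have e : i.1.k.2 = Nat.bit (decide (i.1.k.2 % 2 = 1)) (i.1.k.2 / 2) := by
      rw [Nat.bit_val]; by_cases h : i.1.k.2 % 2 = 1 <;> simp [h] <;> omega
    change enc (i.1.k.2).bits = _
    rw [e, Nat.bits_append_bit _ _ fun h => by have := hn i; simp; omega, ← e]
    rfl
  · have hn : ∀ i : {i : R // (enc (List.replicate i.k.2 ())).isNode = false}, i.1.k.2 = 0 := by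
      rintro ⟨i, hi⟩
      by_contra h
      obtain ⟨m, hm⟩ := Nat.exists_eq_succ_of_ne_zero h
      simp only at hm
      rw [hm] at hi
      exact absurd hi (by simp [List.replicate_succ, enc, Vale.Agent.Lib.H24.T.encList,
        Vale.Agent.Lib.H24.T.Tr.isNode])
    exact ((Lin.cst (c := ⟨_, _, _⟩) (Cmp.re hx Subtype.val) (0 : ℕ)).congr hn).monoV
      fun i => by simp [hn i]

/-- the length of a list in linear time -/
theorem Lin.length {ι α β : Type} [Enc α] [Enc β] {c : Ctx ι α} {l : ι → List β} (h : Lin c l) :
    Lin c fun i => (l i).length :=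
  (h.fill ()).app ((len_units.re fun i => (c.s i, (l i).length)).mono
    ((h.len.cmul 4).add h.one) fun _ => le_rfl)

end Vale.Agent.P338
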