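import Vale.Agent.P338.ParB
import Vale.Agent.P338.Len

/-! Module G: the choice of parameters. -/

namespace Vale.Agent.P338

open Vale.Agent.Lib.H24.T (Enc PT)

namespace ParG
variable (M E c WS WC : ℕ)

/-- unary size -/
def sU (n : ℕ) : List Unit := List.replicate n.bits.length ()
/-- unary `J` -/
def JU (n : ℕ) : List Unit := List.replicate ((List.range (sU n).length).filter fun i =>
  decide (pb E (sU n) (i + 1) ≤ (sU n).length)).length ()
/-- unary `j` -/
def jU (n : ℕ) : List Unit := mulU (List.replicate c ()) (JU E n)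
/-- unary `u` -/
def uU (n : ℕ) : List Unit := (sU n).take (M ^ (JU E n).length)
/-- unary `d` -/
def dU (n : ℕ) : List Unit := (sU n).take (M ^ (jU E c n).length)
/-- unary `g` -/
def gU (n : ℕ) : List Unit :=
  (sU n).take ((sU n).length / ((dU M E c n).length * (dU M E c n).length * (uU M E n).length) - 1)
/-- `2 ^ L` -/
def tt (n : ℕ) : ℕ := 2 ^ (mulU (dU M E c n) (mulU (gU M E c n) (uU M E n))).length
/-- the moduli -/
def sl (n : ℕ) : List ℕ := (List.range (dU M E c n).length).map fun i =>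
  (i + ((tt M E c n - 1) / (dU M E c n).length.factorial - (dU M E c n).length)) *
    (dU M E c n).length.factorial + 1
/-- all parameters but `B` -/
def par0 (x : ℕ × List Unit) : Par := ((uU M E x.1, gU M E c x.1, dU M E c x.1, x.2),
  (WC ^ (jU E c x.1).length * WS ^ (JU E x.1 ++ jU E c x.1).length, 0), sl M E c x.1)
/-- the parameters -/
def par (x : ℕ × List Unit) : Par := ((par0 M E c WS WC x).1, ((par0 M E c WS WC x).A,
  x.1 / ((par0 M E c WS WC x).b * ((par0 M E c WS WC x).Lp / 2) * ((par0 M E c WS WC x).Ns / 2)) + 1),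
  (par0 M E c WS WC x).2.2)

theorem pt_sU : PT sU := by unfold sU; fun_prop

theorem pt_JU : PT (JU E) := by
  have h := pt_sU
  unfold JU pb
  generalize sU = s at *
  fun_prop

theorem pt_jU : PT (jU E c) := by
  have h := pt_JU E
  unfold jU
  generalize JU E = s at *
  fun_prop

theorem pt_uU : PT (uU M E) := PTX.take (PTX.pow (PT.const M) (pt_JU E)) pt_sU

theorem pt_dU : PT (dU M E c) := PTX.take (PTX.pow (PT.const M) (pt_jU E c)) pt_sU

theorem pt_gU : PT (gU M E c) := by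
  have h := pt_sU
  have h1 := pt_uU M E
  have h2 := pt_dU M E c
  unfold gU
  generalize sU = s at *
  generalize uU M E = u at *
  generalize dU M E c = d at *
  fun_prop

theorem pt_tt : PT (tt M E c) :=
  PTX.pow (PT.const 2) (PT.mulU (pt_dU M E c) (PT.mulU (pt_gU M E c) (pt_uU M E)))

theorem pt_sl : PT (sl M E c) := by
  have h1 := pt_tt M E c
  have h2 := pt_dU M E c
  unfold sl
  generalize tt M E c = t at *
  generalize dU M E c = d at *
  fun_prop

theorem pt_par0 : PT (par0 M E c WS WC) := by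
  have h1 := pt_uU M E
  have h2 := pt_dU M E c
  have h3 := pt_gU M E c
  have h4 := pt_sl M E c
  have h5 := pt_JU E
  have h6 := pt_jU E c
  unfold par0
  generalize uU M E = u at *
  generalize dU M E c = d at *
  generalize gU M E c = g at *
  generalize sl M E c = s at *
  generalize jU E c = j at *
  generalize JU E = J at *
  fun_prop

theorem pt_par : PT (par M E c WS WC) := by
  have h := pt_par0 M E c WS WC
  unfold par
  generalize par0 M E c WS WC = p at *
  fun_prop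

theorem len_sU (n : ℕ) : (sU n).length = n.size := by simp [sU, Nat.size_eq_bits_len]

theorem filter_lt (N k : ℕ) :
    ((List.range N).filter fun i => decide (i < k)).length = min N k := by
  induction N with
  | zero => simp
  | succ N ih =>
    rw [List.range_succ, List.filter_append, List.length_append, ih]
    by_cases h : N < k <;> simp [h] <;> omega

theorem len_JU (hE : 1 < E) (n : ℕ) : (JU E n).length = Nat.log E n.size := by
  rw [JU, List.length_replicate, len_sU, List.filter_congr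
    (q := fun i => decide (i < Nat.log E n.size)), filter_lt,
    min_eq_right (Nat.log_le_self _ _)]
  intro i hi
  have hi' : i < n.size := by simpa using hi
  rw [pb_eq (by rw [len_sU]; omega), decide_eq_decide, Nat.lt_iff_add_one_le,
    Nat.le_log_iff_pow_le hE (by omega)]

theorem prod_ge {f : ℕ → ℕ} {d T y : ℕ} (h : ∀ i < d, T ≤ f i + y) (hT : 0 < T)
    (hy : 2 * d * y ≤ T) : T ^ d ≤ 2 * pw f d := by
  rcases Nat.eq_zero_or_pos d with rfl | hd
  · simp [pw]
  have h1 : y ≤ T := (Nat.le_mul_of_pos_left _ (by omega)).trans hy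
  have h2 : (T - y) ^ d ≤ pw f d := by
    rw [← pw_const]
    exact Finset.prod_le_prod' fun i hi => by have := h i (by simpa using hi); omega
  refine le_trans ?_ (Nat.mul_le_mul_left _ h2)
  have hT' : (0 : ℝ) < T := by exact_mod_cast hT
  have hy' : (2 : ℝ) * d * y ≤ T := by exact_mod_cast hy
  have h1' : (y : ℝ) / T ≤ 1 := (div_le_one hT').2 (by exact_mod_cast h1)
  have h3 := one_add_mul_le_pow (a := -((y : ℝ) / T)) (by linarith) d
  have h4 : (d : ℝ) * (y / T) ≤ 1 / 2 := by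
    rw [← mul_div_assoc, div_le_iff₀ hT']; linarith
  have h5 : ((T : ℝ) - y) ^ d = T ^ d * (1 + -((y : ℝ) / T)) ^ d := by
    rw [← mul_pow]; congr 1; field_simp; ring
  have h6 : (T : ℝ) ^ d ≤ 2 * (T - y) ^ d := by
    have : (0 : ℝ) < T ^ d := by positivity
    rw [h5]; nlinarith
  exact_mod_cast h6

theorem fact_le {d K : ℕ} (hd : 0 < d) (h : 8 * d ≤ 2 ^ K) :
    2 * d * ((d + 1) * d.factorial) ≤ 2 ^ (d * K) := by
  have a1 : 2 ≤ 2 ^ d := Nat.le_self_pow (by omega) _
  have a2 := Nat.lt_two_pow_self (n := d)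
  have a3 := Nat.factorial_le_pow d
  calc 2 * d * ((d + 1) * d.factorial) ≤ 2 ^ d * 2 ^ d * (2 ^ d * d ^ d) := by gcongr; omega
    _ = (8 * d) ^ d := by rw [show 8 * d = 2 * 2 * (2 * d) by ring]; simp only [mul_pow]
    _ ≤ (2 ^ K) ^ d := by gcongr
    _ = _ := by rw [← pow_mul, mul_comm]

/-- the shape of the parameters -/
structure Shape (M c WS WC J n : ℕ) (p : Par) : Prop where
  lu : p.u = M ^ J
  ld : p.d = M ^ (c * J)
  lg : p.g = n.size / (p.d * p.d * p.u) - 1
  lT : p.TU.length = 2 ^ p.L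
  lA : p.A = WC ^ (c * J) * WS ^ (J + c * J)
  ll : p.2.2.length = p.d
  ls : ∀ i < p.d, p.sf i = (i + ((2 ^ p.L - 1) / p.d.factorial - p.d)) * p.d.factorial + 1
  lB : p.B = n / (p.b * (p.Lp / 2) * (p.Ns / 2)) + 1

theorem tt_eq (x : ℕ × List Unit) : tt M E c x.1 = 2 ^ (par M E c WS WC x).L := rfl

theorem shape (hE : 1 < E) {n : ℕ} (h1 : M ^ Nat.log E n.size ≤ n.size)
    (h2 : M ^ (c * Nat.log E n.size) ≤ n.size) :
    Shape M c WS WC (Nat.log E n.size) n (par M E c WS WC (n, List.replicate (tt M E c n) ())) := by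
  have lJ := len_JU E hE n
  have lj : (jU E c n).length = c * Nat.log E n.size := by
    rw [jU, length_mulU, lJ, List.length_replicate]
  refine ⟨?_, ?_, ?_, ?_, ?_, length_tab _ _, fun i hi => ?_, rfl⟩
  · change (uU M E n).length = _
    rw [uU, List.length_take, lJ, len_sU, min_eq_left h1]
  · change (dU M E c n).length = _
    rw [dU, List.length_take, lj, len_sU, min_eq_left h2]
  · change (gU M E c n).length = _
    rw [gU, List.length_take, len_sU, min_eq_left ((Nat.sub_le _ _).trans (Nat.div_le_self _ _))]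
    rfl
  · rw [← tt_eq]
    exact List.length_replicate (n := tt M E c n)
  · change WC ^ (jU E c n).length * WS ^ (JU E n ++ jU E c n).length = _
    rw [List.length_append, lJ, lj]
  · rw [← tt_eq]
    exact getD_tab _ _ hi

theorem main {c U n WS WC J : ℕ} {p : Par} (hS : 0 < WS) (hC : 0 < WC) (hc : 5 ≤ c)
    (hU : ∀ u, U ≤ u → 2 * (mm ^ (2 * c + 2) * u ^ (2 * c + 2)) ≤ 2 ^ u) (h1 : 10 ^ 15 ≤ U)
    (h2 : mm ^ (2 * c + 2) ≤ U) (h3 : WC * c + WS * (1 + c) ≤ U)
    (hn : mm ^ (2 * c + 2) * U ^ (2 * c + 2) ≤ n.size)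
    (e1 : (mm ^ (2 * c + 2)) ^ J ≤ n.size) (e2 : n.size < (mm ^ (2 * c + 2)) ^ (J + 1))
    (hp : Shape mm c WS WC J n p) : Good WS WC J (c * J) p ∧ Hyp n p ∧ c * J ≤ p.u ^ 2 := by
  have hM : 1 < mm := by decide
  obtain ⟨lu, ld, lg, lT, lA, ll, ls, lB⟩ := hp
  generalize hm : mm = M at hU h2 hn e1 e2 hM lu ld
  have e3 : (M ^ (2 * c + 2)) ^ J = (M ^ J) ^ (2 * c + 2) := by rw [← pow_mul, ← pow_mul, mul_comm]
  have e4 : (M ^ J) ^ (2 * c + 2) = M ^ (c * J) * M ^ (c * J) * M ^ J * M ^ J := by ring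
  have e5 : 0 < M ^ J := by positivity
  have e6 : 0 < M ^ (c * J) := by positivity
  generalize M ^ (2 * c + 2) = E at *
  rw [e3, e4, ← lu, ← ld] at e1
  rw [pow_succ, e3, ← lu] at e2
  rw [← lu] at e5 e4
  rw [← ld] at e6 e4
  have f1 : U < p.u := by
    by_contra hu
    have := Nat.mul_le_mul_left E (Nat.pow_le_pow_left (not_lt.1 hu) (2 * c + 2))
    rw [mul_comm] at e2
    omega
  have f2 : 0 < p.d * p.d * p.u := by positivity
  have f3 : p.u ≤ n.size / (p.d * p.d * p.u) := (Nat.le_div_iff_mul_le f2).2 (by rw [mul_comm]; exact e1)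
  have f4 : p.g + 1 = n.size / (p.d * p.d * p.u) := by omega
  have f5 : J ≤ p.u := lu ▸ (Nat.lt_pow_self hM).le
  have f6 : 2 * n.size ≤ 2 ^ p.u := by
    have := hU _ f1.le
    rw [mul_comm] at e2
    omega
  have f7 : 8 * p.d ≤ 2 ^ p.K := by
    have a1 : 2 ^ p.u ≤ 2 ^ p.K := Nat.pow_le_pow_right (by omega)
      (p.K_eq ▸ Nat.le_mul_of_pos_left _ (by omega))
    have a2 : p.d * 1 * 1 * 8 ≤ p.d * p.d * p.u * p.u := by gcongr <;> omega
    omega
  have f8 := fact_le e6 f7
  rw [← p.L_eq] at f8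
  have f9 := Nat.factorial_pos p.d
  have f10 : p.d ≤ (2 ^ p.L - 1) / p.d.factorial := (Nat.le_div_iff_mul_le f9).2 (by
    have : 1 * ((p.d + 1) * p.d.factorial) ≤ 2 * p.d * ((p.d + 1) * p.d.factorial) := by
      gcongr; omega
    have : (p.d + 1) * p.d.factorial = p.d * p.d.factorial + p.d.factorial := by ring
    omega)
  have f11 := Nat.div_add_mod (2 ^ p.L - 1) p.d.factorial
  have f12 := Nat.mod_lt (2 ^ p.L - 1) f9
  have f13 := Nat.two_pow_pos p.L
  obtain ⟨i0, hi0⟩ := Nat.exists_eq_add_of_le f10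
  rw [hi0, Nat.add_sub_cancel_left] at ls
  rw [hi0] at f11
  have hs : ∀ i < p.d, 0 < p.sf i ∧ p.sf i ≤ 2 ^ p.L := fun i hi => by
    have : (i + i0) * p.d.factorial ≤ p.d.factorial * (p.d + i0) := by
      rw [mul_comm]; gcongr
    rw [ls i hi]; omega
  have H : Hyp n p := by
    refine ⟨?_, ?_, by omega, ?_, ?_, f6, ?_, ?_, ?_, ?_, lB, by omega⟩
    · rw [f4, sq]; exact Nat.mul_div_le _ _
    · rw [sq, show p.g + 2 = p.g + 1 + 1 from rfl, f4]; exact Nat.lt_mul_div_succ _ f2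
    · have a1 : n.size / (p.d * p.d * p.u) < p.u * E :=
        (Nat.div_lt_iff_lt_mul f2).2 (e2.trans_eq (by rw [e4]; ring))
      have a2 : p.u * E ≤ p.u * p.u := Nat.mul_le_mul_left _ (by omega)
      rw [sq]; omega
    · rw [ld, lu, ← pow_mul]
      exact Nat.pow_le_pow_right (by omega) (by rw [mul_comm]; gcongr)
    · rw [lA]; positivity
    · have a1 := Nat.lt_two_pow_self (n := WC)
      have a2 := Nat.lt_two_pow_self (n := WS)
      calc p.A ≤ (2 ^ WC) ^ (c * J) * (2 ^ WS) ^ (J + c * J) := by rw [lA]; gcongr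
        _ = 2 ^ ((WC * c + WS * (1 + c)) * J) := by ring
        _ ≤ _ := by gcongr <;> omega
    · rw [p.b_eq, mul_comm p.d, pow_mul]
      refine prod_ge (y := (p.d + 1) * p.d.factorial) (fun i hi => ?_) f13 f8
      have : i0 * p.d.factorial ≤ (i + i0) * p.d.factorial := by gcongr; omega
      rw [ls i hi, add_mul p.d]
      rw [mul_add, mul_comm _ p.d, mul_comm _ i0] at f11
      omega
    · rw [p.b_eq, mul_comm p.d, pow_mul, ← pw_const]
      exact Finset.prod_le_prod' (s := Finset.range p.d) fun i hi => (hs i (by simpa using hi)).2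
  refine ⟨⟨?_, ?_, by omega, lT, lA ▸ dvd_rfl, H.h7, ll, hs, ?_, H.La_le, H.qp_B⟩, H, ?_⟩
  · rw [hm, lu]
  · rw [hm, ld]
  · intro i hi i' hi' hne
    rw [ls i hi, ls i' hi']
    rcases lt_or_gt_of_ne hne with h | h
    · exact Nat.coprime_mul_succ (Nat.dvd_factorial (by omega) (by omega))
    · exact (Nat.coprime_mul_succ (Nat.dvd_factorial (by omega) (by omega))).symm
  · have : c ≤ WS * (1 + c) := by nlinarith
    rw [sq]; gcongr; omega

end ParG

open ParG in
theorem par_exists : ParStmt := by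
  intro WS WC γ hS hC hγ hγ'
  have hM : 1 < mm := by decide
  have hM' : (1 : ℝ) < mm := by exact_mod_cast hM
  have hρ : 1 < mm / γ := (one_lt_div (by linarith)).2 hγ'
  obtain ⟨c0, hc0⟩ := pow_unbounded_of_one_lt ((mm : ℝ) ^ 5) hρ
  obtain ⟨c, hc, hc1⟩ : ∃ c : ℕ, 5 ≤ c ∧ (mm : ℝ) ^ 5 * γ ^ c ≤ mm ^ c := by
    refine ⟨c0 + 5, by omega, ?_⟩
    have := hc0.le.trans (pow_le_pow_right₀ hρ.le (show c0 ≤ c0 + 5 by omega))
    rwa [div_pow, le_div_iff₀ (by positivity)] at this
  have hE : 1 < mm ^ (2 * c + 2) := Nat.one_lt_pow (by omega) hM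
  have hE' : (1 : ℝ) < (mm ^ (2 * c + 2) : ℕ) := by exact_mod_cast hE
  obtain ⟨U0, hU0⟩ : ∃ U0 : ℕ, ∀ u, U0 ≤ u → 2 * (mm ^ (2 * c + 2) * u ^ (2 * c + 2)) ≤ 2 ^ u := by
    have h := (tendsto_pow_const_div_const_pow_of_one_lt (2 * c + 2) (r := 2) (by norm_num)).eventually
      (gt_mem_nhds (show (0 : ℝ) < 1 / (2 * (mm ^ (2 * c + 2) : ℕ)) by positivity))
    obtain ⟨U0, h⟩ := Filter.eventually_atTop.1 h
    refine ⟨U0, fun u hu => ?_⟩
    have := h u hu
    rw [div_lt_div_iff₀ (by positivity) (by positivity), one_mul] at this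
    have h2 : u ^ (2 * c + 2) * (2 * mm ^ (2 * c + 2)) < 2 ^ u := by exact_mod_cast this
    linarith
  obtain ⟨U, hU, h1, h2, h3⟩ : ∃ U, U0 ≤ U ∧ 10 ^ 15 ≤ U ∧ mm ^ (2 * c + 2) ≤ U ∧
      WC * c + WS * (1 + c) ≤ U :=
    ⟨U0 + 10 ^ 15 + mm ^ (2 * c + 2) + (WC * c + WS * (1 + c)), by omega, by omega, by omega,
      by omega⟩
  have k0 := Real.logb_pos hE' hρ
  have k1 : Real.logb (mm ^ (2 * c + 2) : ℕ) (mm / γ) ≤ 1 / 2 := by
    rw [Real.logb_le_iff_le_rpow hE' (by linarith), ← Real.sqrt_eq_rpow]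
    refine Real.le_sqrt_of_sq_le ?_
    have : mm / γ ≤ mm := div_le_self (by linarith) hγ
    push_cast
    exact (pow_le_pow_left₀ (by linarith) this 2).trans (pow_le_pow_right₀ hM'.le (by omega))
  have k2 := Real.rpow_logb (by linarith) hE'.ne' (show 0 < mm / γ by linarith)
  generalize Real.logb (mm ^ (2 * c + 2) : ℕ) (mm / γ) = κ at k0 k1 k2
  refine ⟨par mm (mm ^ (2 * c + 2)) c WS WC, tt mm (mm ^ (2 * c + 2)) c,
    2 ^ (mm ^ (2 * c + 2) * U ^ (2 * c + 2)), κ, 12 * mm * (7001 * 72), pt_par _ _ _ _ _,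
    pt_tt _ _ _, k0, by linarith, fun n hn => ?_⟩
  have hn' := (Nat.lt_size.2 hn).le
  have hβ : n.size ≠ 0 := (lt_of_lt_of_le (Nat.mul_pos (by omega) (pow_pos (by omega) _)) hn').ne'
  have e1 := Nat.pow_log_le_self (mm ^ (2 * c + 2)) hβ
  have e2 := Nat.lt_pow_succ_log_self hE n.size
  have hp := shape mm (mm ^ (2 * c + 2)) c WS WC hE
    ((Nat.pow_le_pow_left (Nat.le_self_pow (by omega) _) _).trans e1)
    (le_trans (by rw [← pow_mul]; gcongr <;> omega) e1)
  obtain ⟨hG, H, hj⟩ := main hS hC hc (fun u hu => hU0 u (hU.trans hu)) h1 h2 h3 hn' e1 e2 hp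
  generalize Nat.log (mm ^ (2 * c + 2)) n.size = J at *
  refine ⟨(tt_eq _ _ _ WS WC (n, List.replicate (tt mm (mm ^ (2 * c + 2)) c n) ())) ▸ H.qp_n, J,
    c * J, fun p e => ?_⟩
  rw [← e] at hG H hj hp
  have hT := H.T_ge (J := J) k0 (by linarith) hγ hG.hu (by
    have a1 : (n.size : ℝ) ≤ ((mm ^ (2 * c + 2) : ℕ) : ℝ) ^ (J + 1) := by exact_mod_cast e2.le
    have a2 : (n.size : ℝ) ^ κ ≤ (mm / γ) ^ (J + 1) := by
      rw [← k2, Real.rpow_pow_comm (by positivity)]
      gcongr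
    rwa [div_pow, le_div_iff₀ (by positivity)] at a2)
  have hd : (p.u : ℝ) ^ 5 * γ ^ (c * J) ≤ p.d := by
    rw [hG.hu, hG.hd]
    push_cast
    rw [← pow_mul, mul_comm J, pow_mul, pow_mul, pow_mul, ← mul_pow]
    gcongr
  refine ⟨hG, H.cover, H.uT_le hγ hj hd hT, H.q_lt, H.qLa_lt, ?_⟩
  have := H.small1 k0 (by linarith) hγ hT
  have := H.small2 k1
  linarith

end Vale.Agent.P338
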