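import Vale.Agent.P338.SW1

/-! The fast exchange of two fields. -/

namespace Vale.Agent.P338

open Function
open Vale.Agent.Lib.H24.T (Enc PT sz sz_pair sz_nat_le sz_list_le sz_unit)

variable {ι π : Type} [Enc π]

theorem mm_pos : 0 < mm := by decide
theorem mm_ne : mm ≠ 1 := by decide
theorem mm_cast : (mm : ℝ) = 68921 := by simp [mm]

attribute [local irreducible] mm

theorem SE.naive (a : SE ι π 1) (hE : Bd (fun i => (a.R (a.P i)).size * ((a.N (a.P i) + 1) * a.E i)) a.U) :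
    a.Mf (a.gam 1) 0 := by
  intro F
  have pR := a.pR
  have pw := a.pw
  have hI : PT fun p => List.range (a.R p).bits.length := by fun_prop
  let U₁ : ι → ℝ := fun i => (a.N (a.P i) + 1) * a.E i
  have hU₁ : a.Ok a.N U₁ := ⟨a.hN.1, Bd.refl fun i => by have := a.E0 i; positivity⟩
  let a' := a.toAE.ext _ hI 0 U₁ hU₁
  have eP : ∀ q, (a'.P q).2 = q.1.2 := fun q => by
    have := q.2
    simp only [List.length_range] at this
    simp [a', AE.ext, Env.ext, this]
  let θ := fun i t (x : a.A i) => ((x.1, update x.2 1 (x.2 1 + ((x.2 0).val % 2 ^ t : ℕ))) : a.A i)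
  have := Op.loop (e := a.toEnv) (U := a.U) (V := 0) hI 0 (fun i t => a.arr
    (fun i j => F i (θ i t (a.dec i j))) i) (U₁ := fun i _ => U₁ i) (V₁ := fun _ _ => 0) ?_
    (Bd.sum_const (by simpa [Nat.size_eq_bits_len] using hE)) a.hN.bdE
    (a.bd fun i j => F i (θ i 0 (a.dec i j))) (fun _ => le_rfl) fun i => by simp
  · refine this.congr (fun i => ?_) fun i => ?_
    · simp [AE.arr, θ, Nat.mod_one]
    · simp only [AE.arr, List.length_range, Nat.size_eq_bits_len]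
      refine tab_congr fun j _ => ?_
      congr 2
      refine Prod.ext rfl (funext fun p => ?_)
      haveI : NeZero (a.R (a.P i)) := ⟨(a.R0 i).ne'⟩
      simp only [θ, SE.gam, Nat.mod_eq_of_lt ((ZMod.val_lt _).trans (Nat.lt_size_self _))]
      by_cases hp : p = 1 <;> simp [hp]
  let G := fun (q : Pos fun i => (List.range (a.R (a.P i)).bits.length).length) j =>
    F q.1.1 (θ q.1.1 q.1.2 (a.dec q.1.1 j))
  have h1 := (a.pwt 1).comp (g := fun q : π × ℕ => q.1) (by fun_prop)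
  refine Op.lin a'.hN.bdE (a'.bd G) fun hP hx => ?_
  have h2 := Lin.rot (e := a'.toEnv) hP a'.hN (a'.at G) h1 (X := fun p => a.R p.1) (by fun_prop)
    (fun q => ⟨a.wt0 1 _, a.R0 _⟩) (fun q => a.wtN (by omega) _) a'.N0
    (r := fun q => pb 2 (List.replicate (a.R q.1.1).bits.length ()) q.1.2) (by fun_prop)
    (fun _ _ _ _ => rfl) hx
  refine (Lin.sel (e := a'.toEnv) hP a'.hN
    (b := fun q => (dg (a.w q.1.1) (a.R q.1.1) q.2).testBit q.1.2) (by fun_prop) h2 hx).congr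
    fun q => tab_congr fun j _ => ?_
  obtain ⟨⟨i, t⟩, ht⟩ := q
  have e := eP ⟨(i, t), ht⟩
  have e1 : (a'.P ⟨(i, t), ht⟩).1 = a.P i := rfl
  simp only [List.length_range] at ht
  have e2 : ((a.dec i j).2 0).val = dg (a.w (a.P i)) (a.R (a.P i)) j := by
    simp [SE.dec, sdec, wt, dg]
  simp only [e, e1, G, a.dec_upd (show 1 < 2 * 1 by omega) i j (Nat.mod_lt _ (a.R0 i)),
    pb_eq (show t ≤ (List.replicate (a.R (a.P i)).bits.length ()).length by simpa using ht.le), θ,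
    update_of_ne (show 0 ≠ 1 by omega), update_self, update_idem, e2, Nat.mod_pow_succ,
    Nat.testBit_eq_decide_div_mod_eq]
  rcases Nat.mod_two_eq_zero_or_one (dg (a.w (a.P i)) (a.R (a.P i)) j / 2 ^ t) with h | h
  · simp only [h]; rfl
  · simp only [h, decide_true, cond_true]
    congr 4
    simp [SE.dec, sdec]; ring

theorem sdec_split {m w w' R W u j : ℕ} (hu : u < W) : sdec m (W * w) (W * w') R (u + W * j) =
    ((u + W * (sdec m w w' R j).1.1, (sdec m w w' R j).1.2), (sdec m w w' R j).2) := by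
  have e : ∀ x, (u + W * j) / (W * x) = j / x := fun x => by
    rw [← Nat.div_div_eq_div_mul, Nat.add_mul_div_left _ _ (by omega), Nat.div_eq_of_lt hu, zero_add]
  have e' : wt m (W * w) (W * w') R = fun p => W * wt m w w' R p := by
    funext p; unfold wt; split_ifs <;> rw [mul_assoc]
  simp only [sdec, dg, mul_assoc W, e, e', Nat.mul_div_mul_left _ _ (show 0 < W by omega)]
  congr 2
  rw [Nat.mod_mul, Nat.add_mul_mod_self_left, Nat.mod_eq_of_lt hu,
    Nat.add_mul_div_left _ _ (show 0 < W by omega), Nat.div_eq_of_lt hu, zero_add]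

theorem div_dvd {W x y z : ℕ} (hW : 0 < W) (h1 : W ∣ x) (h2 : x * z ∣ y) : x / W * z ∣ y / W := by
  obtain ⟨x, rfl⟩ := h1
  obtain ⟨k, rfl⟩ := h2
  rw [Nat.mul_div_cancel_left _ hW, mul_assoc, mul_assoc, Nat.mul_div_cancel_left _ hW, ← mul_assoc]
  exact Dvd.intro _ rfl

section
variable {W m : ℕ} (a : SE ι π m) (hW : 0 < W) (hd : ∀ i, W ∣ a.w (a.P i))
include hd

theorem SE.hd' (i : ι) : W ∣ a.w' (a.P i) := ((hd i).mul_right _).trans (a.h1 i)
theorem SE.hdN (i : ι) : W ∣ a.N (a.P i) := ((a.hd' hd i).mul_right _).trans (a.h2 i)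

/-- one wire -/
def SE.wire : SE ι π m where
  toEnv := a.toEnv
  U := a.U
  N := fun p => a.N p / W
  B := a.B
  l := a.l
  hA := a.hA
  hN := a.hN.of_le (by have := a.hN.1; fun_prop) 1 fun i => by simpa using Nat.div_le_self _ _
  N0 := fun i => Nat.div_pos (Nat.le_of_dvd (a.N0 i) (a.hdN hd i)) hW
  w := fun p => a.w p / W
  w' := fun p => a.w' p / W
  R := a.R
  pw := by have := a.pw; fun_prop
  pw' := by have := a.pw'; fun_prop
  pR := a.pR
  w0 := fun i => Nat.div_pos (Nat.le_of_dvd (a.w0 i) (hd i)) hW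
  odd := a.odd
  h1 := fun i => div_dvd hW (hd i) (a.h1 i)
  h2 := fun i => div_dvd hW (a.hd' hd i) (a.h2 i)

theorem SE.dec_wire (i : ι) {u : ℕ} (j : ℕ) (hu : u < W) : a.dec i (u + W * j) =
    ((u + W * ((a.wire hW hd).dec i j).1.1, ((a.wire hW hd).dec i j).1.2),
      ((a.wire hW hd).dec i j).2) := by
  have := sdec_split (m := m) (w := a.w (a.P i) / W) (w' := a.w' (a.P i) / W)
    (R := a.R (a.P i)) (j := j) hu
  rwa [Nat.mul_div_cancel' (hd i), Nat.mul_div_cancel' (a.hd' hd i)] at this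
end

/-- the action on data -/
noncomputable def SE.Gam {m : ℕ} (a : SE ι π m) (i : ι) (M : Matrix (Fin m) (Fin m) K2) :
    Module.End (ZMod 2) (a.A i → ℕ → ℕ → ZMod 2) :=
  LinearMap.funLeft (ZMod 2) (ℕ → ℕ → ZMod 2) (a.gam M i)

theorem SE.Gam_zero {m : ℕ} (a : SE ι π m) (i : ι) : a.Gam i 0 = 1 := by
  have : a.gam 0 i = id := funext fun x => by simp [SE.gam]
  simp only [SE.Gam, this]; rfl

theorem SE.Gam_add {m : ℕ} (a : SE ι π m) (i : ι) (A B : Matrix (Fin m) (Fin m) K2) :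
    a.Gam i (A + B) = a.Gam i A * a.Gam i B := by
  have : a.gam (A + B) i = a.gam B i ∘ a.gam A i := funext fun x => by
    simp only [SE.gam, comp, Pi.add_apply, fun t : Fin m => SE.sum_single_lo
      (M := ZMod (a.R (a.P i))) (p := t) (hp := Or.inl t.2), add_zero, Matrix.add_apply,
      map_add, add_mul, Finset.sum_add_distrib, Pi.single_add, add_assoc]
  simp only [SE.Gam, this]; rfl

/-- the array of a vector -/
def SE.ren {m : ℕ} (a : SE ι π m) (i : ι) (v : a.A i → ℕ → ℕ → ZMod 2) : List Atom :=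
  tab (a.N (a.P i)) fun j => atB (a.B i) (a.l i) fun k t => decide (v (a.dec i j) k t = 1)

theorem SE.bdr {m : ℕ} (a : SE ι π m) (v : ∀ i, a.A i → ℕ → ℕ → ZMod 2) :
    Bd (fun i => (sz (a.ren i (v i)) : ℝ)) a.U :=
  a.bd fun i j k t => decide (v i (a.dec i j) k t = 1)

theorem SE.gate {m : ℕ} (a : SE ι π m) (v v' : ∀ i, a.A i → ℕ → ℕ → ZMod 2) :
    Op a.toEnv a.U (fun i => (a.ren i (v i), a.ren i (v' i)))
      (fun i => a.ren i (v i + (1 : ZMod 2) • v' i)) 0 := by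
  refine Op.lin a.hN.bdE ((a.bdr v).szpair (a.bdr v')) fun _ hx => ?_
  have h1 := Lin.ztab (N := fun i => a.N (a.P i))
    (F := fun i j => atB (a.B i) (a.l i) fun k t => decide (v i (a.dec i j) k t = 1))
    (G := fun i j => atB (a.B i) (a.l i) fun k t => decide (v' i (a.dec i j) k t = 1))
    hx.fst hx.snd
  refine Lin.map0 (fun i j => atB (a.B i) (a.l i) fun k t =>
    decide ((v i + (1 : ZMod 2) • v' i) (a.dec i j) k t = 1)) h1 fun hy => ?_
  have h2 := Lin.xorA (B := fun q : Pos fun i => a.N (a.P i) => a.B q.1.1) (l := fun q => a.l q.1.1)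
    (v := fun q k t => decide (v q.1.1 (a.dec q.1.1 q.1.2) k t = 1))
    (v' := fun q k t => decide (v' q.1.1 (a.dec q.1.1 q.1.2) k t = 1)) hy.fst hy.snd
  refine h2.congr fun q => ?_
  have : ∀ x y : ZMod 2, decide (x + y = 1) = xor (decide (x = 1)) (decide (y = 1)) := by decide
  simp only [one_smul, Pi.add_apply, this]

theorem SE.run {W m : ℕ} (a : SE ι π m) {T : ι → ℝ} (hT : ∀ i, 0 ≤ T i)
    (hs : ∀ x y : π → ℕ, PT x → PT y →
      (∀ i, a.w (a.P i) ∣ x (a.P i) ∧ 0 < x (a.P i) ∧ x (a.P i) * a.R (a.P i) ∣ y (a.P i) ∧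
        y (a.P i) * a.R (a.P i) ∣ a.N (a.P i)) →
      a.Pm (fun i => swp (x (a.P i)) (a.R (a.P i)) (y (a.P i))) T)
    (L : List (Ins (Fin W) ((Fin m → K2) × (Fin m → K2)) Unit))
    (hL : ∀ I ∈ L, I.Ok fun g => (∀ a, GoodK (g.1 a)) ∧ ∀ a, GoodK (g.2 a))
    (S : ∀ i, Fin W → a.A i → ℕ → ℕ → ZMod 2) :
    Op a.toEnv a.U (fun i => List.ofFn fun u => a.ren i (S i u))
      (fun i => List.ofFn fun u => a.ren i (L.foldl (Ins.run
        (fun g => a.Gam i (Matrix.vecMulVec g.1 g.2)) fun _ => (1 : ZMod 2)) (S i) u))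
      fun i => L.countP Ins.isStep * T i := by
  have h0 : ∀ p p' : Fin m, a.Pm (fun i =>
      swp (wt m (a.w (a.P i)) (a.w' (a.P i)) (a.R (a.P i)) p) (a.R (a.P i))
        (wt m (a.w (a.P i)) (a.w' (a.P i)) (a.R (a.P i)) (m + p'))) T := fun p p' =>
    hs (fun x => wt m (a.w x) (a.w' x) (a.R x) p) (fun x => wt m (a.w x) (a.w' x) (a.R x) (m + p'))
      (a.pwt p) (a.pwt (m + p')) fun i =>
      ⟨by rw [wt, if_pos p.2]; exact Dvd.intro _ rfl, a.wt0 _ i,
        wt_dvd (a.h1 i) (by have := p.2; omega), a.wtN (by have := p'.2; omega) i⟩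
  have h2 := Op.net (D := fun _ => ZMod 2) (M := fun i => a.A i → ℕ → ℕ → ZMod 2) (C := Unit) a.ren
    (fun i (g : (Fin m → K2) × (Fin m → K2)) => a.Gam i (Matrix.vecMulVec g.1 g.2))
    (fun _ _ => 1) (fun g => (∀ a, GoodK (g.1 a)) ∧ ∀ a, GoodK (g.2 a)) a.hN.bdE a.bdr
    (fun g hg v => by
      have h1 := SE.step hT h0 hg.1 hg.2 fun i x k t => decide (v i x k t = 1)
      exact h1) (fun _ => a.gate) hT L hL S
  exact h2

theorem SE.net {W m : ℕ} {τ : Equiv.Perm (Fin W)}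
    {L : List (Ins (Fin W) ((Fin m → K2) × (Fin m → K2)) Unit)} (hW : 0 < W)
    (hL : ∀ I ∈ L, I.Ok fun g => (∀ a, GoodK (g.1 a)) ∧ ∀ a, GoodK (g.2 a))
    (hn : ∀ (V : Type) [AddCommGroup V] [Module (ZMod 2) V]
      (Γ : Matrix (Fin m) (Fin m) K2 → Module.End (ZMod 2) V),
      Γ 0 = 1 → (∀ A B, Γ (A + B) = Γ A * Γ B) → ∀ σ : Fin W → V,
      L.foldl (Ins.run (fun g => Γ (Matrix.vecMulVec g.1 g.2)) fun _ => (1 : ZMod 2)) σ =
        fun u => Γ 1 (σ (τ u)))
    (a : SE ι π m) (hd : ∀ i, W ∣ a.w (a.P i)) {T : ι → ℝ} (hT : ∀ i, 0 ≤ T i)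
    (hs : ∀ x y : π → ℕ, PT x → PT y →
      (∀ i, a.w (a.P i) / W ∣ x (a.P i) ∧ 0 < x (a.P i) ∧ x (a.P i) * a.R (a.P i) ∣ y (a.P i) ∧
        y (a.P i) * a.R (a.P i) ∣ a.N (a.P i) / W) →
      (a.wire hW hd).Pm (fun i => swp (x (a.P i)) (a.R (a.P i)) (y (a.P i))) T) :
    a.Mf (a.gam 1) fun i => L.countP Ins.isStep * T i := by
  intro F
  have key := (a.wire hW hd).run hT hs L hL fun i u x k t =>
    if F i ((u + W * x.1.1, x.1.2), x.2) k t then (1 : ZMod 2) else 0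
  have eN : ∀ i, W * (a.wire hW hd).N (a.P i) = a.N (a.P i) := fun i => Nat.mul_div_cancel' (a.hdN hd i)
  refine Op.thenL (e := a.toEnv) (Op.trans0' (Op.lin a.hN.bdE (a.bd _) fun hP hx =>
    Lin.ofFn (Cmp.bdx hx) fun u => ?_) key) a.hN.bdE fun hP hx => ?_
  · have h1 := Lin.split (F := fun i j => atB (a.B i) (a.l i) (F i (a.dec i j))) W u u.2
      (hx.congr fun i => by rw [eN]; rfl) (Lin.unitsP (e := a.toEnv) hP (a.wire hW hd).hN)
    refine h1.congr fun i => ?_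
    simp only [SE.ren, a.dec_wire hW hd i _ u.2]
    simp only [ite_eq_left_iff, Bool.not_eq_true, zero_ne_one, imp_false, Bool.not_eq_false,
      Bool.decide_eq_true]
    rfl
  · have h1 := Lin.join W
      (G := fun i u j => atB (a.B i) (a.l i) (F i (a.gam 1 i (a.dec i (u + W * j)))))
      (Lin.unitsP (e := a.toEnv) hP (a.wire hW hd).hN) fun u hu =>
        (hx.getFn (τ.symm ⟨u, hu⟩)).congr fun i => ?_
    · refine h1.congr fun i => ?_
      rw [AE.arr, ← eN]
      simp only [Nat.mod_add_div]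
    rw [hn _ _ ((a.wire hW hd).Gam_zero i) ((a.wire hW hd).Gam_add i)]
    simp only [SE.ren, SE.Gam, a.dec_wire hW hd i _ hu, Equiv.apply_symm_apply,
      LinearMap.funLeft_apply]
    simp only [ite_eq_left_iff, Bool.not_eq_true, zero_ne_one, imp_false, Bool.not_eq_false,
      Bool.decide_eq_true]
    rfl

/-- inputs of the exchange -/
structure SK (W : ℕ) where
  J : ℕ
  N : ℕ
  w : ℕ
  w' : ℕ
  Q : ℕ
  B : ℕ
  l : ℕ
  F : ℕ → ℕ → ℕ → Bool
  h : W ^ J ∣ w ∧ 0 < w ∧ w * Q ^ mm ^ J ∣ w' ∧ w' * Q ^ mm ^ J ∣ N ∧ 0 < N ∧ Q % 2 = 1 ∧ 3 ≤ Q ∧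
    qp N.size ≤ B

/-- parameters -/
def SK.P {W : ℕ} (k : SK W) : ℕ × ℕ × ℕ × ℕ × List Unit :=
  (k.N, k.w, k.w', k.Q, List.replicate (mm ^ k.J) ())

theorem SK.sz_le {W : ℕ} (k : SK W) : sz k.P ≤ (k.N.size + 2) ^ 5 := by
  obtain ⟨-, h1, h2, h3, h4, -, h5, -⟩ := k.h
  have a1 := Nat.le_of_dvd h4 h3
  have hX : 2 ^ mm ^ k.J ≤ k.Q ^ mm ^ k.J := Nat.pow_le_pow_left (by omega) _
  have hQ : k.Q ≤ k.Q ^ mm ^ k.J := Nat.le_self_pow (pow_pos mm_pos _).ne' _
  have h6 : 0 < k.w' := Nat.pos_of_ne_zero fun h => by rw [h] at h3; simp at h3; omega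
  have a2 := Nat.le_of_dvd h6 h2
  have a3 : k.w ≤ k.w * k.Q ^ mm ^ k.J := Nat.le_mul_of_pos_right _ (by omega)
  have a4 : k.w' ≤ k.w' * k.Q ^ mm ^ k.J := Nat.le_mul_of_pos_right _ (by omega)
  have a5 : k.Q ^ mm ^ k.J ≤ k.w' * k.Q ^ mm ^ k.J := Nat.le_mul_of_pos_left _ h6
  have hN := Nat.lt_size_self k.N
  have b1 := sz_nat_le hN
  have b2 := sz_nat_le (show k.w < _ from lt_of_le_of_lt (by omega) hN)
  have b3 := sz_nat_le (show k.w' < _ from lt_of_le_of_lt (by omega) hN)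
  have b4 := sz_nat_le (show k.Q < _ from lt_of_le_of_lt (by omega) hN)
  have b5 : mm ^ k.J < k.N.size := (Nat.pow_lt_pow_iff_right (a := 2) (by omega)).1 (by omega)
  have b6 := sz_list_le (l := List.replicate (mm ^ k.J) ()) (B := 1) fun a _ => (sz_unit a).le
  simp only [SK.P, sz_pair, List.length_replicate] at *
  have : 16 * (k.N.size + 2) ≤ (k.N.size + 2) ^ 5 := by
    rw [pow_succ]
    exact Nat.mul_le_mul_right _ (Nat.pow_le_pow_left (show 2 ≤ k.N.size + 2 by omega) 4)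
  have : 3 * (k.N.size + 2) ≤ 16 * (k.N.size + 2) := by omega
  have : 32 * (k.N.size + 2) ≤ (k.N.size + 2) ^ 5 := by
    rw [pow_succ]
    exact Nat.mul_le_mul_right _ ((show 32 ≤ 3 ^ 4 by norm_num).trans
      (Nat.pow_le_pow_left (show 3 ≤ k.N.size + 2 by omega) 4))
  omega

namespace SK
variable {W : ℕ}
/-- input -/
def x (k : SK W) : (ℕ × ℕ × ℕ × ℕ × List Unit) × List Atom :=
  (k.P, tab k.N fun j => atB k.B k.l (k.F j))
/-- output -/
def y (k : SK W) : List Atom :=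
  tab k.N fun j => atB k.B k.l (k.F (swp k.w (k.Q ^ mm ^ k.J) k.w' j))
/-- budget -/
noncomputable def U (k : SK W) : ℝ := k.Q.size * (k.N * (k.B * (k.l + 1)))
/-- time -/
noncomputable def t (γ : ℝ) (k : SK W) : ℝ := k.U * (2 * γ ^ k.J - 1)
/-- time of a call -/
noncomputable def t' (γ : ℝ) (k : SK W) : ℝ := k.U / W * (2 * γ ^ (k.J - 1) - 1)

theorem U0 (k : SK W) : 0 ≤ k.U := by unfold U; positivity

theorem t0 {γ : ℝ} (h : 1 ≤ γ) (k : SK W) : 0 ≤ k.t' γ :=
  mul_nonneg (by have := k.U0; positivity) (by linarith [one_le_pow₀ h (n := k.J - 1)])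

theorem bdU (k : ι → SK W) : Bd (fun i => ((k i).Q.size : ℝ) * (((k i).N + 1) *
    ((k i).B * ((k i).l + 1)))) fun i => (k i).U := ⟨2, fun i => ⟨U0 _, by
  have : (1 : ℝ) ≤ (k i).N := by exact_mod_cast (k i).h.2.2.2.2.1
  have := mul_le_mul_of_nonneg_left this (by positivity :
    (0 : ℝ) ≤ (k i).Q.size * ((k i).B * ((k i).l + 1)))
  simp only [U]; push_cast; linarith⟩⟩

/-- the environment -/
noncomputable def ae (s : ι → Prog) (k : ι → SK W) : AE ι (ℕ × ℕ × ℕ × ℕ × List Unit) where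
  s := s
  P := fun i => (k i).P
  E := fun i => (k i).B * ((k i).l + 1)
  hS := (small_qp (a := fun i => (k i).N.size) fun i => by
    have : (qp (k i).N.size : ℝ) ≤ (k i).B := by exact_mod_cast (k i).h.2.2.2.2.2.2.2
    nlinarith [(by positivity : (0 : ℝ) ≤ (k i).B), (by positivity : (0 : ℝ) ≤ (k i).l)]).poly 5
    fun i => (k i).sz_le
  U := fun i => (k i).U
  N := fun p => p.1
  B := fun i => (k i).B
  l := fun i => (k i).l
  hN := ⟨by fun_prop, (bdU k).of_le fun i => by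
    have : (1 : ℝ) ≤ (k i).Q.size := by
      exact_mod_cast Nat.size_pos.2 (by have := (k i).h.2.2.2.2.2.2.1; omega)
    exact le_mul_of_one_le_left (by positivity) this⟩
  hA := ⟨2, fun i => ⟨by positivity, by
    have : (1 : ℝ) ≤ (k i).B := by exact_mod_cast (qp_pos _).trans_le (k i).h.2.2.2.2.2.2.2
    push_cast
    nlinarith [(by positivity : (0 : ℝ) ≤ (k i).l)]⟩⟩
  N0 := fun i => (k i).h.2.2.2.2.1

theorem base (s : ι → Prog) (k : ι → SK W) (hJ : ∀ i, (k i).J = 0) :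
    (ae s k).Pm (fun i => swp (k i).w ((k i).Q ^ mm ^ (k i).J) (k i).w') 0 := by
  let a : SE _ _ 1 :=
    { toAE := ae s k, w := fun p => p.2.1, w' := fun p => p.2.2.1, R := fun p => p.2.2.2.1
      pw := by fun_prop, pw' := by fun_prop, pR := by fun_prop
      w0 := fun i => (k i).h.2.1, odd := fun i => (k i).h.2.2.2.2.2.1
      h1 := fun i => by have := (k i).h.2.2.1; rwa [hJ i] at this
      h2 := fun i => by have := (k i).h.2.2.2.1; rwa [hJ i] at this }
  simp only [hJ]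
  exact SE.swap_pm (a.naive (bdU k))

/-- the unary length for the calls -/
def k' (p : ℕ × ℕ × ℕ × ℕ × List Unit) : List Unit := p.2.2.2.2.take (p.2.2.2.2.length / mm)

theorem pk : PT k' := by unfold k'; fun_prop

theorem ek (k : SK W) (h : k.J ≠ 0) : k' k.P = List.replicate (mm ^ (k.J - 1)) () := by
  obtain ⟨J, hJ⟩ := Nat.exists_eq_succ_of_ne_zero h
  simp only [k', P, hJ, List.length_replicate, pow_succ, Nat.succ_sub_one,
    Nat.mul_div_cancel _ mm_pos, List.take_replicate,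
    min_eq_left (Nat.le_mul_of_pos_right _ mm_pos)]

theorem eR (k : SK W) (h : k.J ≠ 0) : (k.Q ^ (k' k.P).length) ^ mm = k.Q ^ mm ^ k.J := by
  obtain ⟨J, hJ⟩ := Nat.exists_eq_succ_of_ne_zero h
  rw [ek k h, hJ, List.length_replicate, ← pow_mul, Nat.succ_sub_one, pow_succ]

theorem hdw (k : SK W) (h : k.J ≠ 0) : W ^ (k.J - 1) * W ∣ k.w := by
  rw [← pow_succ, Nat.sub_add_cancel (by omega)]; exact k.h.1

/-- the environment of a step -/
noncomputable def se (s : ι → Prog) (k : ι → SK W) (hJ : ∀ i, (k i).J ≠ 0) :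
    SE ι (ℕ × ℕ × ℕ × ℕ × List Unit) mm where
  toAE := ae s k
  w := fun p => p.2.1
  w' := fun p => p.2.2.1
  R := fun p => p.2.2.2.1 ^ (k' p).length
  pw := by fun_prop
  pw' := by fun_prop
  pR := by have := pk; fun_prop
  w0 := fun i => (k i).h.2.1
  odd := fun i => Nat.odd_iff.1 (Nat.odd_iff.2 (k i).h.2.2.2.2.2.1).pow
  h1 := fun i => by have := (k i).h.2.2.1; rwa [← eR _ (hJ i)] at this
  h2 := fun i => by have := (k i).h.2.2.2.1; rwa [← eR _ (hJ i)] at this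

theorem call {γ : ℝ} (hW : 0 < W) (g : ι → RI x y J (t γ : SK W → ℝ)) (hJ : ∀ i, (g i).k.J ≠ 0)
    (z z' : ℕ × ℕ × ℕ × ℕ × List Unit → ℕ) (pz : PT z) (pz' : PT z')
    (hz : ∀ i, (g i).k.w / W ∣ z (g i).k.P ∧ 0 < z (g i).k.P ∧
      z (g i).k.P * (g i).k.Q ^ (k' (g i).k.P).length ∣ z' (g i).k.P ∧
      z' (g i).k.P * (g i).k.Q ^ (k' (g i).k.P).length ∣ (g i).k.N / W) :
    ((se (fun i => (g i).s) (fun i => (g i).k) hJ).wire hW
      fun i => (Dvd.intro_left _ rfl).trans (hdw _ (hJ i))).Pm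
      (fun i => swp (z (g i).k.P) ((g i).k.Q ^ (k' (g i).k.P).length) (z' (g i).k.P))
      fun i => (g i).C * (g i).k.t' γ := by
  intro G
  let a := (se (fun i => (g i).s) (fun i => (g i).k) hJ).wire hW
      fun i => (Dvd.intro_left _ rfl).trans (hdw _ (hJ i))
  let kk : ι → SK W := fun i => ⟨(g i).k.J - 1, (g i).k.N / W, z (g i).k.P, z' (g i).k.P, (g i).k.Q,
    (g i).k.B, (g i).k.l, G i, by
      obtain ⟨c1, c2, c3, c4⟩ := hz i
      rw [ek _ (hJ i), List.length_replicate] at c3 c4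
      exact ⟨((Nat.dvd_div_iff_mul_dvd ((Dvd.intro_left _ rfl).trans (hdw _ (hJ i)))).2
        (by rw [mul_comm]; exact hdw _ (hJ i))).trans c1, c2, c3, c4, a.N0 i,
        (g i).k.h.2.2.2.2.2.1, (g i).k.h.2.2.2.2.2.2.1,
        (qp_mono (Nat.size_le_size (Nat.div_le_self _ _))).trans (g i).k.h.2.2.2.2.2.2.2⟩⟩
  have pf : PT fun p : ℕ × ℕ × ℕ × ℕ × List Unit => (p.1 / W, z p, z' p, p.2.2.2.1, k' p) := by
    have := pk; fun_prop
  have ex : ∀ i, x (kk i) = (((a.P i).1 / W, z (a.P i), z' (a.P i), (a.P i).2.2.2.1, k' (a.P i)),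
      a.arr G i) := fun i => by
    have : k' (a.P i) = _ := ek _ (hJ i)
    rw [this]; rfl
  have ey : ∀ i, y (kk i) = a.arr (fun i j => G i (swp (z (g i).k.P)
      ((g i).k.Q ^ (k' (g i).k.P).length) (z' (g i).k.P) j)) i := fun i => by
    simp only [AE.arr, ek _ (hJ i), List.length_replicate]; rfl
  have h1 := RI.call g kk (fun i => by have := hJ i; simp only [kk]; omega) (U := a.U)
    (by simp only [ex]; exact Bd.szpair ((a.hS.pt pf).bd.trans a.hN.bdE) (a.bd G))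
    (by simp only [ey]; exact a.bd _)
  simp only [ex, ey] at h1
  refine Op.call pf a.hN.bdE (a.bd G) (h1.monoV fun i => le_of_eq ?_)
  have := (((Dvd.intro_left _ rfl).trans (hdw _ (hJ i))).mul_right _).trans
    (((g i).k.h.2.2.1.mul_right _).trans (g i).k.h.2.2.2.1)
  simp only [t, t', U, kk, Nat.cast_div this (by positivity : (W : ℝ) ≠ 0)]
  ring
end SK

theorem sw (h : SwapNetStmt) : ∃ (W : ℕ) (γ : ℝ), 0 < W ∧ 1 ≤ γ ∧ γ < mm ∧ SWSpec W γ := by
  obtain ⟨W, τ, L, hW, hc, hL, hn⟩ := h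
  have hW' : (1 : ℝ) ≤ W := by exact_mod_cast hW
  have hm := mm_cast
  set γ : ℝ := mm - 1 / W with hγ
  have g1 : 2 ≤ γ := by
    have : 1 / (W : ℝ) ≤ 1 := by rw [div_le_one] <;> linarith
    linarith
  have g0 : 1 ≤ γ := by linarith
  refine ⟨W, γ, hW, g0, by have : 0 < 1 / (W : ℝ) := by positivity
                           linarith, fun ι s J N w w' Q B l F hc' => ?_⟩
  refine (Cmp.recurG (x := SK.x) (y := SK.y) (τ := SK.t γ) SK.J (U := SK.U)
    (V := fun k => if k.J = 0 then 0 else (W * mm - 1) * k.t' γ) (fun k => ?_) (fun k => ?_) ?_ s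
    fun i => (⟨J i, N i, w i, w' i, Q i, B i, l i, F i, hc' i⟩ : SK W)).mono
    ⟨2, fun i => ⟨by positivity, ?_⟩⟩ fun _ => le_rfl
  · simp only [SK.t, SK.t']
    split_ifs with h0
    · simp [h0]; linarith
    · obtain ⟨J, hJ⟩ := Nat.exists_eq_succ_of_ne_zero h0
      have e : (W * mm - 1) * (k.U / W * (2 * γ ^ J - 1)) = k.U * (2 * (γ ^ J * γ) - γ) := by
        rw [hγ]; field_simp
      rw [hJ, Nat.succ_sub_one, e, pow_succ]
      nlinarith [k.U0]
  · split_ifs
    · rfl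
    · exact mul_nonneg (by nlinarith) (k.t0 g0)
  · let a := SK.ae (fun q : RI SK.x SK.y SK.J (SK.t γ : SK W → ℝ) => q.s) fun q => q.k
    have eJ : ∀ k : SK W, k.P.2.2.2.2.length = 1 ↔ k.J = 0 := fun k => by simp [SK.P, mm_ne]
    have : Op a.toEnv a.U (a.arr fun q => q.k.F)
        (a.arr fun q j => q.k.F (swp q.k.w (q.k.Q ^ mm ^ q.k.J) q.k.w' j))
        fun q => q.C * if q.k.J = 0 then 0 else (W * mm - 1) * q.k.t' γ := by
      refine Op.cases (b := fun p => decide (p.2.2.2.2.length = 1)) (by fun_prop) a.hN.bdE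
        (a.bd _) ?_ ?_
      · have hJ : ∀ q : {q // decide ((a.P q).2.2.2.2.length = 1) = true},
            q.1.k.J = 0 := fun q => (eJ _).1 (of_decide_eq_true q.2)
        have h1 := SK.base (ι := {q // decide ((a.P q).2.2.2.2.length = 1) = true})
          (fun q => q.1.s) (fun q => q.1.k) hJ fun q => q.1.k.F
        exact h1.monoV fun q => by simp [hJ q]
      · have hJ : ∀ q : {q // decide ((a.P q).2.2.2.2.length = 1) = false},
            q.1.k.J ≠ 0 := fun q h => absurd ((eJ _).2 h) (of_decide_eq_false q.2)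
        have h1 := SE.swap_pm (SE.net hW hL hn (SK.se
          (ι := {q // decide ((a.P q).2.2.2.2.length = 1) = false})
          (fun q => q.1.s) (fun q => q.1.k) hJ) _
          (fun q => mul_nonneg q.1.C0 (SK.t0 g0 q.1.k)) (SK.call hW Subtype.val hJ)) fun q => q.1.k.F
        refine (h1.monoV fun q => ?_).congr (fun _ => rfl) fun q => ?_
        · have h1 : (L.countP Ins.isStep : ℝ) + 1 ≤ W * mm := by exact_mod_cast hc
          have := mul_nonneg q.1.C0 (SK.t0 g0 q.1.k)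
          simp only [hJ q, if_false]
          nlinarith
        · simp only [AE.arr]
          rw [← SK.eR _ (hJ q)]; rfl
    exact Cmp.trans0 this (Lin.self (c := ⟨a.s, _, a.U⟩) (Cmp.bdy this)).snd
  · have := SK.U0 (⟨J i, N i, w i, w' i, Q i, B i, l i, F i, hc' i⟩ : SK W)
    simp only [SK.t, SK.U] at this ⊢
    push_cast; linarith

end Vale.Agent.P338
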