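import Vale.Agent.P338.Tr
import Vale.Agent.P338.SW
import Vale.Agent.P338.NetC
import Vale.Agent.P338.CN
import Vale.Agent.P338.Const
import Vale.Agent.P338.FFT
import Vale.Agent.P338.Math
import Vale.Agent.P338.Crt
import Vale.Agent.P338.IO
import Vale.Agent.P338.Par
import Vale.Agent.P338.Final

/-! The multiplication algorithm. -/

namespace Vale.Agent.P338

open Function
open Vale.Agent.Lib.H24.T (Enc enc PT sz sz_list_le sz_bool sz_pair sz_nat_le length_le_sz)

theorem rarr_eq (p : Par) (Y : ℕ → (Fin p.d → ℕ) → Zq p.q) :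
    rarr p Y = narr p fun n k => Y k fun i => dg (pw p.sf i) (p.sf i) n := by
  simp only [rarr, narr, dg, Nat.div_div_eq_div_mul]

theorem Xd_zero {p : Par} {x n m : ℕ} (hx : x < 2 ^ n) (h : n ≤ p.b * (p.La / 2) * (p.Ns / 2))
    (hm : p.Ns ≤ 2 * m) (k : ℕ) : Xd p x m k = 0 := by
  unfold Xd dg
  rw [Nat.div_eq_of_lt (a := x), Nat.zero_mod, ite_self]
  refine hx.trans_le (Nat.pow_le_pow_right (by omega) (h.trans ?_))
  rw [mul_assoc]
  exact Nat.mul_le_mul_left _ ((Nat.mul_le_mul_left _ (by omega)).trans (Nat.le_add_left _ _))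

theorem core {D : FD} (p1 : PT D.ev) (p2 : PT D.ds) (p3 : PT D.ms) (p4 : PT D.st)
    (hC : ConstSpec D.ev) (hD : FFTSpec D) {WS WC : ℕ} {γ : ℝ} (h1 : 1 ≤ γ) (hs : SWSpec WS γ)
    (hc : CNSpec WS WC γ) {ι : Type} (s : ι → Prog) (P : ι → Par) (J j : ι → ℕ)
    (h : ∀ i, Good WS WC (J i) (j i) (P i)) {U : ι → ℝ} (hU : Bd (fun i => uT γ (J i) (j i) (P i)) U)
    {n : ι → ℕ} (hn : Bd (fun i => (n i : ℝ)) U) {x y : ι → List Bool}
    (hx : ∀ i, (x i).length = n i ∧ (y i).length = n i ∧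
      n i ≤ (P i).b * ((P i).La / 2) * ((P i).Ns / 2)) {T T' : ι → ℝ}
    (hm : ∀ i, MulT (s i) (2 * (P i).q + 2) (T i))
    (hm' : ∀ i, MulT (s i) (6 * (P i).q * (P i).La) (T' i))
    (hb : Bd (fun i => (sz (x i, y i) : ℝ)) U) :
    Op (pe s P h) U (fun i => (x i, y i)) (fun i => lb (2 * n i) (lv (x i) * lv (y i))) fun i =>
      100 * ((P i).L + (P i).d + 1) * ((P i).N * ((P i).B * T i)) + (P i).Ns * T' i := by
  obtain ⟨c, ψ, hψ, hcrt⟩ := crt WS WC γ h1 hs
  obtain ⟨k1, k2⟩ := hcrt ι s P J j h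
  have ok := (ok_uT s h h1).mono hU
  let t := te s P h U ok
  let g := fun (x : ι → List Bool) i k (r : Fin (P i).d → ℕ) =>
    ((2 ^ (1000 * (P i).b) * Xd (P i) (lv (x i)) (ψ (P i) r) k : ℕ) : GI)
  have l1 : ∀ i, lv (x i) < 2 ^ n i := fun i => (hx i).1 ▸ io_lv_lt _
  have l2 : ∀ i, lv (y i) < 2 ^ n i := fun i => (hx i).2.1 ▸ io_lv_lt _
  have hM := fun i => math D hC hD (P i).d (P i).L ((P i).B * (P i).A) (P i).La (P i).sF
    (fun a => c (P i) a) (Xd (P i) (lv (x i))) (Xd (P i) (lv (y i))) (g x i) (g y i) (h i).d_pos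
    (h i).d_le (Nat.mul_pos (h i).B_pos (h i).hA0) ⟨2 ^ (P i).L, by
      rw [Par.La, Par.Lp, Par.w]; ring⟩ ((P i).b_eq ▸ (h i).hLa)
    (fun a => ⟨((h i).hs a a.2).1, ((h i).hs a a.2).2, (hψ _ _ _ (h i)).1 a a.2⟩)
    (fun a b e => (h i).hc a a.2 b b.2 fun e' => e (Fin.ext e'))
    (fun m k => (P i).b_eq ▸ ⟨Xd_lt _ _ _ _, Xd_lt _ _ _ _⟩)
    (fun m k e => ⟨Xd_zero (l1 i) (hx i).2.2 ((P i).Ns_eq ▸ e) k,
      Xd_zero (l2 i) (hx i).2.2 ((P i).Ns_eq ▸ e) k⟩) fun m hm k _ => by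
      have := (hψ _ _ _ (h i)).2 m ((P i).Ns_eq ▸ hm)
      simp only [g, Par.sF, this, ← Par.b_eq]
      push_cast
      exact ⟨rfl, rfl⟩
  have tr := fun inv => transform D p1 p2 p3 p4 hD WS WC γ h1 hs hc inv ι s P J j h T
  have fw : ∀ x : ι → List Bool, (∀ i, (x i).length = n i) →
      (∀ i, D.Fits (P i).L (P i).sF ((P i).B * (P i).A) (P i).La false (g x i)) → Op (pe s P h) U x
      (fun i => rarr (P i) fun k r =>
        gz _ (D.tr (P i).L (P i).sF ((P i).B * (P i).A) false (g x i) k r)) _ := fun x e hF =>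
    ((Op.input h ok (hn.of_le fun i => by rw [e])).trans0 ((k1 _).mono hU)).trans0'
      (((tr false (g x) hm hF).mono hU).congr (fun i => by simp only [g, map_natCast]) fun _ => rfl)
  have a1 := ((Op.lin ok.bdE hb fun _ hx => hx.fst).trans0'
    (fw x (fun i => (hx i).1) fun i => (hM i).1)).pair ((Op.lin ok.bdE hb fun _ hx => hx.snd).trans0'
    (fw y (fun i => (hx i).2.1) fun i => (hM i).2.1))
  simp only [rarr_eq] at a1
  have a2 := (a1.trans (Op.pointwise h ok hm' _ _)).trans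
    (((tr true _ hm fun i => (hM i).2.2.1).mono hU).congr (fun i => by
      simp only [rarr_eq, cnv, map_sum, map_mul]) fun _ => rfl)
  have ef : ∀ i, (mulU (List.replicate 2000 ()) (P i).bU).length = 2000 * ((P i).d * (P i).L) :=
    fun i => by rw [length_mulU, List.length_replicate, ← Par.b_eq]
  have hM' := fun i a (ha : a < (P i).Lp * (P i).Ns) k (hk : k < (P i).B) =>
    (hM i).2.2.2 (a / (P i).Lp) (by
      rw [← Par.Ns_eq, Nat.div_lt_iff_lt_mul (h i).Lp_pos, mul_comm]; exact ha)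
    (k + (P i).B * (a % (P i).Lp)) (by
      have := Nat.mod_lt a (h i).Lp_pos
      rw [Par.La]; nlinarith)
  have a3 := (a2.trans0 ((k2 _).mono hU)).trans (t.mr t.a0.hN hm
    (f := fun p => mulU (List.replicate 2000 ()) p.bU) (by fun_prop) (fun i => by
      have : 0 < (P i).b := (h i).b_pos
      change 1 ≤ (mulU _ (P i).bU).length ∧ (mulU _ (P i).bU).length + 2 ≤ (P i).q
      rw [ef, ← Par.b_eq, Par.q_eq]; omega)
    (a := fun x => ((x.1.Ns * x.1.Ns : ℕ), 0)) (by fun_prop) _ _ fun i a ha k hk => by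
      have a1 := (hM' i a ha k hk).1
      have a2 : (2 : ℤ) ^ (6000 * ((P i).d * (P i).L)) ≤ 2 ^ ((P i).q - 2) :=
        pow_le_pow_right₀ (by omega) (by
          have : 0 < (P i).b := (h i).b_pos
          rw [← Par.b_eq, Par.q_eq]; omega)
      refine ⟨?_, a1.1.trans_le a2, a1.2.trans_le a2⟩
      rw [map_mul, map_natCast, ← Par.Ns_eq, gz_apply, sq]
      simp only [Int.cast_natCast, Int.cast_zero, zero_mul, add_zero]
      rfl)
  have a4 := ((Op.lin ok.bdE hb fun _ hx' => (hx'.fst.fill ()).congr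
    (y' := fun i => List.replicate (n i) ()) fun i => by rw [(hx i).1]).pair a3).trans0
    ((Op.output h ok hn fun i => ⟨l1 i, l2 i, (hx i).2.2⟩).congr (fun i => Prod.ext rfl
      (tab_congr fun a ha => atm_congr fun k hk => by
        have := (hM' i a ha k hk).2
        rw [← ef] at this
        exact (congrArg (gz _) this).trans (map_natCast _ _))) fun _ => rfl)
  refine a4.monoV fun i => ?_
  obtain ⟨t1, ht, -⟩ := hm i _ _ (List.length_replicate (a := false))
    (List.length_replicate (a := false))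
  have b0 := (Nat.cast_nonneg t1).trans ht
  have b1 : (((P i).Lp * (P i).Ns : ℕ) : ℝ) ≤ (P i).N := by exact_mod_cast (h i).le_N
  have b2 := mul_le_mul_of_nonneg_right b1 (by positivity : 0 ≤ (P i).B * T i)
  have b3 : 0 ≤ ((P i).L + (P i).d : ℝ) * ((P i).N * ((P i).B * T i)) := by positivity
  have b4 : 0 ≤ ((P i).N * ((P i).B * T i)) := by positivity
  change (0 : ℝ) + (_ + ((P i).Lp * (P i).Ns : ℕ) * ((P i).B * T i)) ≤ _
  nlinarith

theorem lv_foldl (l : List Bool) : l.reverse.foldl (fun y b => b.toNat + 2 * y) 0 = lv l := by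
  induction l with
  | nil => rfl
  | cons b l ih => rw [List.reverse_cons, List.foldl_append, ih]; rfl

theorem pt_lv : PT lv := (Vale.Agent.Lib.H24.T.PT.foldl
    (h := fun (_ : List Bool) (y : ℕ) (b : Bool) => b.toNat + 2 * y) (l := fun l => l.reverse)
    (by fun_prop) (by fun_prop) (Vale.Agent.Lib.H24.T.PT.const 0) (fun l => 4 * l.length + 1)
    (by fun_prop) fun l i => sz_nat_le (by
      rw [← List.reverse_reverse (l.reverse.take i), lv_foldl]
      exact (io_lv_lt _).trans_le (Nat.pow_le_pow_right (by omega) (by simp)))).of_eq lv_foldl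

theorem le_tau {κ : ℝ} (h : κ < 1) (n : ℕ) : (n + 1 : ℝ) ≤ tau κ n := by
  have h1 : (1 : ℝ) ≤ Real.logb 2 (n + 2) := by
    rw [Real.le_logb_iff_rpow_le (by norm_num) (by positivity)]; simp
  exact le_mul_of_one_le_right (by positivity) (Real.one_le_rpow h1 (by linarith))

theorem sz_bits (l : List Bool) : sz l ≤ 4 * l.length + 1 := by
  have := sz_list_le (l := l) (B := 3) fun a _ => sz_bool a
  omega

theorem sz_fac {x y : List Bool} (e : x.length = y.length) : sz (x, y) ≤ 8 * (x.length + 1) := by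
  have := sz_bits x
  have := sz_bits y
  rw [sz_pair]; omega

theorem small_case {ι : Type} (s : ι → Prog) {U : ι → ℝ} {x y : ι → List Bool} {n₀ : ℕ}
    (h : ∀ i, (x i).length = (y i).length ∧ (x i).length ≤ n₀)
    (hb : Bd (fun i => (sz (x i, y i) : ℝ)) U) :
    Cmp s (fun i => (x i, y i)) (fun i => lb (2 * (x i).length) (lv (x i) * lv (y i))) U 0 := by
  have p5 := pt_lv
  have p6 : PT fun p : List Bool × List Bool =>
    (List.range (p.1 ++ p.1).length).map fun j => (lv p.1 * lv p.2).testBit j := by fun_prop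
  refine ((Cmp.id hb).pt p6 ((Small.const hb.sz1 (8 * (n₀ + 1))).of_le fun i => ?_)).congr
    (fun _ => rfl) fun q => by rw [lb, List.length_append, two_mul]
  have := sz_fac (h i).1
  have := (h i).2
  omega

theorem par_lin {ι : Type} (s : ι → Prog) {U : ι → ℝ} {x y : ι → List Bool}
    {par : ℕ × List Unit → Par} {tt : ℕ → ℕ} (q1 : PT par) (q2 : PT tt)
    (hq : ∀ i, qp ((x i).length.size + tt (x i).length) ≤ (x i).length)
    (hn : Bd (fun i => ((x i).length : ℝ)) U) (hb : Bd (fun i => (sz (x i, y i) : ℝ)) U) :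
    Lin ⟨s, fun i => (x i, y i), U⟩ fun i => par ((x i).length, List.replicate (tt (x i).length) ()) := by
  have s1 := (small_qp (E := fun i => (x i).length) fun i => by exact_mod_cast hq i).trans hn
  have l1 : Lin ⟨s, fun i => (x i, y i), U⟩ fun i => (x i).length :=
    (Lin.self (c := ⟨s, fun i => (x i, y i), U⟩) hb).fst.length
  have e : ∀ a b : ℕ, 4 * a + 1 ≤ (a + b + 2) ^ 2 ∧ 2 * b + 1 ≤ (a + b + 2) ^ 2 := fun a b => by
    constructor <;> nlinarith [Nat.zero_le (a * b)]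
  have s2 : Small (fun i => sz (x i).length) U := s1.poly 2 fun i =>
    (sz_nat_le (Nat.lt_size_self (x i).length)).trans (e _ _).1
  exact (l1.pair ((l1.pt q2 s2).units (s1.of_le fun _ => Nat.le_add_left _ _).bd)).pt q1
    (s2.pair (s1.poly 2 fun q => (sz_units _).trans_le (e _ _).2))

theorem isNode_drop (n₀ : ℕ) (l : List Bool) : (enc (l.drop n₀)).isNode = decide (n₀ < l.length) := by
  by_cases h : n₀ < l.length
  · rw [List.drop_eq_getElem_cons h, decide_eq_true h]; rfl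
  · rw [List.drop_of_length_le (not_lt.1 h), decide_eq_false h]; rfl

theorem big_case {D : FD} (p1 : PT D.ev) (p2 : PT D.ds) (p3 : PT D.ms) (p4 : PT D.st)
    (hC : ConstSpec D.ev) (hD : FFTSpec D) {WS WC : ℕ} {γ κ C : ℝ} (h1 : 1 ≤ γ) (hs : SWSpec WS γ)
    (hc : CNSpec WS WC γ) {ι : Type} (s : ι → Prog) (x y : ι → List Bool) (c : ι → ℝ)
    (h : ∀ i, 0 ≤ c i ∧ (x i).length = (y i).length ∧
      ∀ m < (x i).length, MulT (s i) m (c i * tau κ m)) {P : ι → Par} {J j : ι → ℕ}
    (hP : ∀ i, Good WS WC (J i) (j i) (P i) ∧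
      (x i).length ≤ (P i).b * ((P i).La / 2) * ((P i).Ns / 2) ∧
      uT γ (J i) (j i) (P i) ≤ C * tau κ (x i).length ∧ 2 * (P i).q + 2 < (x i).length ∧
      6 * (P i).q * (P i).La < (x i).length ∧
      100 * ((P i).L + (P i).d + 1) * ((P i).N * ((P i).B * tau κ (2 * (P i).q + 2))) +
        (P i).Ns * tau κ (6 * (P i).q * (P i).La) ≤ tau κ (x i).length / 2)
    (hn : Bd (fun i => ((x i).length : ℝ)) fun i => tau κ (x i).length / 2)
    (l1 : Lin ⟨s, fun i => (x i, y i), fun i => tau κ (x i).length / 2⟩ P) :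
    Cmp s (fun i => (x i, y i)) (fun i => lb (2 * (x i).length) (lv (x i) * lv (y i)))
      (fun i => tau κ (x i).length / 2) fun i => c i * (tau κ (x i).length / 2) := by
  have hb := Cmp.bdx l1
  have k1 : Bd (fun i => uT γ (J i) (j i) (P i)) fun i => tau κ (x i).length / 2 :=
    ⟨⌈2 * C⌉₊, fun i => ⟨hn.nonneg i, by
      have := mul_le_mul_of_nonneg_right (Nat.le_ceil (2 * C)) (hn.nonneg i)
      linarith [(hP i).2.2.1]⟩⟩
  have k2 := core p1 p2 p3 p4 hC hD h1 hs hc s P J j (fun i => (hP i).1) k1 hn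
    (fun i => ⟨rfl, (h i).2.1.symm, (hP i).2.1⟩) (fun i => (h i).2.2 _ (hP i).2.2.2.1)
    (fun i => (h i).2.2 _ (hP i).2.2.2.2.1) hb
  have k3 := Lin.op (c := ⟨_, _, _⟩) rfl l1 (Lin.self hb) k2
  refine k3.monoV fun i => ?_
  have := mul_le_mul_of_nonneg_left (hP i).2.2.2.2.2 (h i).1
  linarith

theorem alg_step : ∃ κ : ℝ, 0 < κ ∧ κ < 1 ∧ ∀ (ι : Type) (s : ι → Prog) (x y : ι → List Bool)
    (c : ι → ℝ), (∀ i, 0 ≤ c i ∧ (x i).length = (y i).length ∧
      ∀ m < (x i).length, MulT (s i) m (c i * tau κ m)) →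
    Cmp s (fun i => (x i, y i)) (fun i => lb (2 * (x i).length) (lv (x i) * lv (y i)))
      (fun i => tau κ (x i).length / 2) fun i => c i * (tau κ (x i).length / 2) := by
  obtain ⟨WS, γ₀, a1, a2, a3, a4⟩ := sw swapNet
  obtain ⟨WC, γ, b1, b2, b3, hc⟩ := cn cNet a2 a3 a4
  have h1 := a2.trans b2
  have hs := a4.mono (zero_le_one.trans a2) b2
  obtain ⟨D, p1, p2, p3, p4, hC, hD⟩ := exists_FD const_exists fft_exists
  obtain ⟨par, tt, n₀, κ, C, q1, q2, k0, k1, hp⟩ := par_exists WS WC γ a1 b1 h1 b3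
  refine ⟨κ, k0, k1, fun ι s x y c h => ?_⟩
  have hn : Bd (fun i => ((x i).length + 1 : ℝ)) fun i => tau κ (x i).length / 2 :=
    ⟨2, fun i => by
      have := le_tau k1 (x i).length
      exact ⟨by linarith [(by positivity : (0 : ℝ) ≤ (x i).length)], by push_cast; linarith⟩⟩
  have hn' := hn.of_le (f := fun i => (x i).length) fun i => by simp
  have hb : Bd (fun i => (sz (x i, y i) : ℝ)) fun i => tau κ (x i).length / 2 :=
    (hn.cmul 8).of_le fun i => by exact_mod_cast sz_fac (h i).2.1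
  have hx := Lin.self (c := ⟨s, fun i => (x i, y i), _⟩) hb
  have hd := (Lin.drop (r := fun _ => n₀) (l := x) (hx.cst _) hx.fst).isNode.congr
    (y' := fun i => decide (n₀ < (x i).length)) fun i => (isNode_drop n₀ (x i)).symm
  refine Cmp.cases hd ?_ ?_
  · have hp' := fun i : {i // decide (n₀ < (x i).length) = true} => hp _ (of_decide_eq_true i.2).le
    choose hq J j hP using hp'
    have k2 := par_lin (fun i : {i // decide (n₀ < (x i).length) = true} => s i)
      (x := fun i => x i) (y := fun i => y i) (U := fun i => tau κ (x i).length / 2) q1 q2 hq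
      (hn'.re Subtype.val) (hb.re Subtype.val)
    exact big_case p1 p2 p3 p4 hC hD h1 hs hc _ _ _ _ (fun i => h i.1) (fun i => hP i _ rfl)
      (hn'.re Subtype.val) k2
  · have k2 := small_case (n₀ := n₀) (fun i : {i // decide (n₀ < (x i).length) = false} => s i)
      (x := fun i => x i) (y := fun i => y i) (U := fun i => tau κ (x i).length / 2)
      (fun i => ⟨(h i.1).2.1, not_lt.1 (of_decide_eq_false i.2)⟩) (hb.re Subtype.val)
    exact k2.monoV fun i => mul_nonneg (h i.1).1 (hn.nonneg i.1)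

/-- pairs of factors -/
abbrev Fac : Type := {p : List Bool × List Bool // p.1.length = p.2.length}

theorem alg : AlgStmt := by
  obtain ⟨κ, k0, k1, h⟩ := alg_step
  obtain ⟨p, c, h⟩ := Cmp.recurG (ι := Prog × Fac) (x := fun k : Fac => (k.1.1, k.1.2))
    (y := fun k => lb (2 * k.1.1.length) (lv k.1.1 * lv k.1.2)) (fun k => k.1.1.length)
    (τ := fun k => tau κ k.1.1.length) (U := fun k => tau κ k.1.1.length / 2)
    (V := fun k => tau κ k.1.1.length / 2) (fun k => by linarith)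
    (fun k => by
      linarith [le_tau k1 k.1.1.length, (by positivity : (0 : ℝ) ≤ k.1.1.length)])
    (h _ _ _ _ _ fun q => ⟨q.C0, q.k.2, fun m hm x y e e' => by
      subst e
      exact q.h ⟨(x, y), e'.symm⟩ hm⟩) Prod.fst Prod.snd
  refine ⟨p, c, κ, k0, k1, fun s x y e => ?_⟩
  obtain ⟨-, -, -, t, ht, hr⟩ := h (s, ⟨(x, y), e⟩)
  exact ⟨t, by simpa only [tau, mul_assoc, Pi.zero_apply, add_zero] using ht, hr⟩

end Vale.Agent.P338
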