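import Mathlib

/-! Digits of array indices. -/

namespace Vale.Agent.P338

/-- the digit of weight `w` and range `X` -/
def dg (w X j : ℕ) : ℕ := j / w % X

/-- replace a digit -/
def upd (w X j v : ℕ) : ℕ := j % w + w * (v + X * (j / (w * X)))

/-- exchange two digits of range `X` -/
def swp (w X w' j : ℕ) : ℕ := upd w' X (upd w X j (dg w' X j)) (dg w X j)

variable {w X w' X' j v N : ℕ}

theorem dg_lt (h : 0 < X) : dg w X j < X := Nat.mod_lt _ h

theorem dg_eq (w X j : ℕ) : dg w X j = j % (w * X) / w := (Nat.mod_mul_right_div_self _ _ _).symm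

theorem upd_div_self (hw : 0 < w) : upd w X j v / w = v + X * (j / (w * X)) := by
  unfold upd
  rw [Nat.add_mul_div_left _ _ hw, Nat.div_eq_of_lt (Nat.mod_lt _ hw), zero_add]

theorem dg_upd_self (hw : 0 < w) (hv : v < X) : dg w X (upd w X j v) = v := by
  unfold dg
  rw [upd_div_self hw, Nat.add_mul_mod_self_left, Nat.mod_eq_of_lt hv]

theorem upd_div (hw : 0 < w) (hv : v < X) (h : w * X ∣ w') : upd w X j v / w' = j / w' := by
  obtain ⟨k, rfl⟩ := h
  have : upd w X j v / (w * X) = j / (w * X) := by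
    rw [← Nat.div_div_eq_div_mul, upd_div_self hw, Nat.add_mul_div_left _ _ (by omega),
      Nat.div_eq_of_lt hv, zero_add]
  rw [← Nat.div_div_eq_div_mul, this, Nat.div_div_eq_div_mul]

theorem upd_mod (h : w' ∣ w) : upd w X j v % w' = j % w' := by
  obtain ⟨k, rfl⟩ := h
  unfold upd
  rw [mul_assoc, Nat.add_mul_mod_self_left, Nat.mod_mul_right_mod]

theorem dg_upd_hi (hw : 0 < w) (hv : v < X) (h : w * X ∣ w') :
    dg w' X' (upd w X j v) = dg w' X' j := by unfold dg; rw [upd_div hw hv h]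

theorem dg_upd_lo (h : w' * X' ∣ w) : dg w' X' (upd w X j v) = dg w' X' j := by
  rw [dg_eq, dg_eq, upd_mod h]

theorem upd_lt (hw : 0 < w) (hv : v < X) (h : w * X ∣ N) (hj : j < N) : upd w X j v < N := by
  have := upd_div (j := j) hw hv h
  rw [Nat.div_eq_of_lt hj] at this
  exact (Nat.div_eq_zero_iff.1 this).resolve_left (by omega)

theorem upd_self (w X j : ℕ) : upd w X j (dg w X j) = j := by
  unfold upd dg
  rw [← Nat.div_div_eq_div_mul, Nat.mod_add_div, Nat.mod_add_div]

theorem dg_congr (h : w * X ∣ w') {j j' : ℕ} (e : j / (w * X) = j' / (w * X)) :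
    dg w' X' j = dg w' X' j' := by
  obtain ⟨k, rfl⟩ := h
  unfold dg
  rw [← Nat.div_div_eq_div_mul, e, Nat.div_div_eq_div_mul]

theorem dg_dg {a b : ℕ} (h : a * b ∣ X) : dg a b (dg w X j) = dg (w * a) b j := by
  rw [dg_eq a, dg, Nat.mod_mod_of_dvd _ h, ← dg_eq, dg, dg, Nat.div_div_eq_div_mul]

theorem dg_upd_in {a b : ℕ} (hw : 0 < w) (hv : v < X) (h : a * b ∣ X) :
    dg (w * a) b (upd w X j v) = dg a b v := by
  rw [← dg_dg h, dg_upd_self hw hv]

theorem sum_dg (w R j m : ℕ) :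
    ∑ k ∈ Finset.range m, dg (w * R ^ k) R j * R ^ k = dg w (R ^ m) j := by
  induction m with
  | zero => simp [dg, Nat.mod_one]
  | succ m ih =>
    rw [Finset.sum_range_succ, ih]
    unfold dg
    rw [Nat.mod_pow_succ, Nat.div_div_eq_div_mul, mul_comm (R ^ m)]

theorem sum_lt_pow {R : ℕ} {z : ℕ → ℕ} (m : ℕ) (h : ∀ k < m, z k < R) :
    ∑ k ∈ Finset.range m, z k * R ^ k < R ^ m := by
  induction m with
  | zero => simp
  | succ m ih =>
    have := ih fun k hk => h k (by omega)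
    have h2 : z m + 1 ≤ R := h m (by omega)
    rw [Finset.sum_range_succ, pow_succ]
    nlinarith [Nat.mul_le_mul_left (R ^ m) h2]

theorem dg_sum {R : ℕ} {z : ℕ → ℕ} (m : ℕ) (h : ∀ k < m, z k < R) {k : ℕ} (hk : k < m) :
    dg (R ^ k) R (∑ c ∈ Finset.range m, z c * R ^ c) = z k := by
  induction m with
  | zero => omega
  | succ m ih =>
    have hR : 0 < R := by have := h k hk; omega
    rw [Finset.sum_range_succ]
    rcases Nat.lt_succ_iff_lt_or_eq.1 hk with h1 | rfl
    · obtain ⟨t, rfl⟩ : ∃ t, m = k + 1 + t := ⟨m - (k + 1), by omega⟩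
      rw [dg_eq, show z (k + 1 + t) * R ^ (k + 1 + t) = R ^ k * R * (z (k + 1 + t) * R ^ t) by ring,
        Nat.add_mul_mod_self_left, ← dg_eq]
      exact ih (fun c hc => h c (by omega)) h1
    · unfold dg
      rw [Nat.add_mul_div_right _ _ (by positivity),
        Nat.div_eq_of_lt (sum_lt_pow k fun c hc => h c (by omega)), zero_add,
        Nat.mod_eq_of_lt (h k hk)]

theorem swp_lt (hw : 0 < w) (hX : 0 < X) (h : w * X ∣ w') (h' : w' * X ∣ N) (hj : j < N) :
    swp w X w' j < N := by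
  have hN : 0 < N := by omega
  have hw' : 0 < w' := Nat.pos_of_ne_zero fun h0 => by subst h0; simp at h'; omega
  exact upd_lt hw' (dg_lt hX) h' (upd_lt hw (dg_lt hX)
    (h.trans ((Dvd.intro _ rfl).trans h')) hj)

theorem pow_dvd {R w a b : ℕ} (h : a < b) : w * R ^ a * R ∣ w * R ^ b := by
  rw [mul_assoc, ← pow_succ]
  exact Nat.mul_dvd_mul_left _ (pow_dvd_pow _ h)

/-- weights of a mixed radix system -/
def pw (r : ℕ → ℕ) (p : ℕ) : ℕ := ∏ l ∈ Finset.range p, r l

theorem pw_succ (r : ℕ → ℕ) (p : ℕ) : pw r (p + 1) = pw r p * r p := Finset.prod_range_succ _ _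
theorem pw_const (X p : ℕ) : pw (fun _ => X) p = X ^ p := by simp [pw]
theorem pw_pos {r : ℕ → ℕ} {n : ℕ} (h : ∀ p < n, 0 < r p) : 0 < pw r n :=
  Finset.prod_pos fun p hp => h p (by simpa using hp)
theorem pw_dvd (r : ℕ → ℕ) (w : ℕ) {a b : ℕ} (h : a < b) : w * pw r a * r a ∣ w * pw r b := by
  rw [mul_assoc, ← pw_succ]
  exact Nat.mul_dvd_mul_left _ (Finset.prod_dvd_prod_of_subset _ _ _ (by simpa using h))

theorem sum_dg' (w : ℕ) (r : ℕ → ℕ) (j m : ℕ) :
    ∑ k ∈ Finset.range m, dg (w * pw r k) (r k) j * pw r k = dg w (pw r m) j := by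
  induction m with
  | zero => simp [dg, pw, Nat.mod_one]
  | succ m ih =>
    rw [Finset.sum_range_succ, ih, pw_succ]
    unfold dg
    rw [Nat.mod_mul, Nat.div_div_eq_div_mul, mul_comm (pw r m)]

theorem sum_lt_pw {r z : ℕ → ℕ} (m : ℕ) (h : ∀ k < m, z k < r k) :
    ∑ k ∈ Finset.range m, z k * pw r k < pw r m := by
  induction m with
  | zero => simp [pw]
  | succ m ih =>
    have := ih fun k hk => h k (by omega)
    have h2 : z m + 1 ≤ r m := h m (by omega)
    rw [Finset.sum_range_succ, pw_succ]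
    nlinarith [Nat.mul_le_mul_left (pw r m) h2]

theorem dg_sum' {r z : ℕ → ℕ} (m : ℕ) (h : ∀ k < m, z k < r k) {k : ℕ} (hk : k < m) :
    dg (pw r k) (r k) (∑ c ∈ Finset.range m, z c * pw r c) = z k := by
  induction m with
  | zero => omega
  | succ m ih =>
    rw [Finset.sum_range_succ]
    rcases Nat.lt_succ_iff_lt_or_eq.1 hk with h1 | rfl
    · obtain ⟨t, ht⟩ := pw_dvd r 1 h1
      rw [one_mul, one_mul] at ht
      rw [dg_eq, ht, mul_comm (z m), mul_assoc _ t, Nat.add_mul_mod_self_left, ← dg_eq]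
      exact ih (fun c hc => h c (by omega)) h1
    · unfold dg
      rw [Nat.add_mul_div_right _ _ (pw_pos fun p hp => by have := h p (by omega); omega),
        Nat.div_eq_of_lt (sum_lt_pw k fun c hc => h c (by omega)), zero_add,
        Nat.mod_eq_of_lt (h k hk)]

theorem sum_lex {r r' z z' : ℕ → ℕ} (m : ℕ) (h : ∀ k < m, z k < r k ∧ z' k < r k ∧ r k ≤ r' k)
    (hl : ∑ k ∈ Finset.range m, z k * pw r k < ∑ k ∈ Finset.range m, z' k * pw r k) :
    ∑ k ∈ Finset.range m, z k * pw r' k < ∑ k ∈ Finset.range m, z' k * pw r' k := by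
  induction m with
  | zero => simp at hl
  | succ m ih =>
    rw [Finset.sum_range_succ, Finset.sum_range_succ] at hl ⊢
    have a1 := sum_lt_pw (r := r') (z := z) m fun k hk => by have := h k (by omega); omega
    have a2 := sum_lt_pw (r := r) (z := z') m fun k hk => (h k (by omega)).2.1
    rcases lt_trichotomy (z m) (z' m) with h1 | h1 | h1
    · have := Nat.mul_le_mul_right (pw r' m) (Nat.succ_le_of_lt h1)
      rw [Nat.succ_mul] at this; omega
    · have := ih (fun k hk => h k (by omega)) (by rw [h1] at hl; omega)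
      rw [h1]; omega
    · have := Nat.mul_le_mul_right (pw r m) (Nat.succ_le_of_lt h1)
      rw [Nat.succ_mul] at this; omega

/-- change of radices above the weight `w` -/
def rrx (w : ℕ) (r r' : ℕ → ℕ) (n j : ℕ) : ℕ :=
  j % w + w * ∑ p ∈ Finset.range n, dg (w * pw r p) (r p) j * pw r' p

section
variable {r r' : ℕ → ℕ} {n : ℕ}

theorem rrx_mod : rrx w r r' n j % w = j % w := by simp [rrx]

theorem rrx_div (hw : 0 < w) :
    rrx w r r' n j / w = ∑ p ∈ Finset.range n, dg (w * pw r p) (r p) j * pw r' p := by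
  unfold rrx
  rw [Nat.add_mul_div_left _ _ hw, Nat.div_eq_of_lt (Nat.mod_lt _ hw), zero_add]

theorem rrx_lt (hw : 0 < w) (h : ∀ p < n, dg (w * pw r p) (r p) j < r' p) :
    rrx w r r' n j < w * pw r' n := by
  rw [mul_comm, ← Nat.div_lt_iff_lt_mul hw, rrx_div hw]
  exact sum_lt_pw n h

theorem dg_rrx (hw : 0 < w) (h : ∀ p < n, dg (w * pw r p) (r p) j < r' p) {p : ℕ} (hp : p < n) :
    dg (w * pw r' p) (r' p) (rrx w r r' n j) = dg (w * pw r p) (r p) j := by
  rw [← dg_sum' n h hp, ← rrx_div hw]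
  unfold dg
  rw [Nat.div_div_eq_div_mul]

theorem rrx_rrx (hw : 0 < w) (h : ∀ p < n, dg (w * pw r p) (r p) j < r' p)
    (hj : j < w * pw r n) : rrx w r' r n (rrx w r r' n j) = j := by
  have e : ∑ p ∈ Finset.range n, dg (w * pw r' p) (r' p) (rrx w r r' n j) * pw r p = j / w := by
    rw [Finset.sum_congr rfl fun p hp => by rw [dg_rrx hw h (Finset.mem_range.1 hp)], sum_dg', dg,
      Nat.mod_eq_of_lt (by rw [Nat.div_lt_iff_lt_mul hw, mul_comm]; exact hj)]
  rw [rrx, e, rrx_mod, Nat.mod_add_div]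

theorem filter_rrx (hw : 0 < w) (h : ∀ p < n, 0 < r p ∧ r p ≤ r' p) (c : ℕ → Bool)
    (hc : ∀ j, c j = true ↔ ∀ p < n, dg (w * pw r' p) (r' p) j < r p) :
    (List.range (w * pw r' n)).filter c = (List.range (w * pw r n)).map (rrx w r r' n) := by
  have hd : ∀ j, ∀ p < n, dg (w * pw r p) (r p) j < r' p := fun j p hp =>
    (dg_lt (h p hp).1).trans_le (h p hp).2
  refine List.Pairwise.eq_of_mem_iff (r := (· < ·)) (List.pairwise_lt_range.filter _) ?_ fun a => ?_
  · rw [List.pairwise_map]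
    refine List.pairwise_lt_range.imp_of_mem fun {a b} ha hb hab => ?_
    rw [List.mem_range, mul_comm, ← Nat.div_lt_iff_lt_mul hw] at ha hb
    rcases (Nat.div_le_div_right (c := w) hab.le).lt_or_eq with h1 | h1
    · refine Nat.lt_of_div_lt_div (c := w) ?_
      rw [rrx_div hw, rrx_div hw]
      refine sum_lex (r := r) n (fun k hk => ⟨dg_lt (h k hk).1, dg_lt (h k hk).1, (h k hk).2⟩) ?_
      rwa [sum_dg', sum_dg', dg, dg, Nat.mod_eq_of_lt ha, Nat.mod_eq_of_lt hb]
    · have e : ∀ p, dg (w * pw r p) (r p) a = dg (w * pw r p) (r p) b := fun p => by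
        unfold dg; rw [← Nat.div_div_eq_div_mul, h1, Nat.div_div_eq_div_mul]
      unfold rrx
      simp only [e]
      have := Nat.mod_add_div a w
      have := Nat.mod_add_div b w
      rw [h1] at *
      omega
  · simp only [List.mem_filter, List.mem_range, List.mem_map, hc]
    constructor
    · rintro ⟨h1, h2⟩
      exact ⟨_, rrx_lt hw h2, rrx_rrx hw h2 h1⟩
    · rintro ⟨b, -, rfl⟩
      exact ⟨rrx_lt hw (hd b), fun p hp => by rw [dg_rrx hw (hd b) hp]; exact dg_lt (h p hp).1⟩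
end

end Vale.Agent.P338
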