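import Vale.Agent.P338.Lst
import Vale.Agent.P338.Dig

/-! Linear passes over arrays of large atoms. -/

namespace Vale.Agent.P338

open Function
open Vale.Agent.Lib.H24.T (Enc enc code sz PT Pb sz_pair sz_cons sz_nil sz_pos sz_append
  sz_reverse length_le_sz sz_unit sz_bool sz_nat_mono)

variable {ι ι' : Type} {α β γ δ σ π : Type} [Enc α] [Enc β] [Enc γ] [Enc δ] [Enc σ] [Enc π]

@[fun_prop] theorem PT.dg {w X j : α → ℕ} (hw : PT w) (hX : PT X) (hj : PT j) :
    PT fun a => dg (w a) (X a) (j a) := by unfold P338.dg; fun_prop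

/-- bounded power -/
def pb (X : ℕ) (u : List Unit) (p : ℕ) : ℕ := X ^ (u.take p).length

theorem pb_eq {X p : ℕ} {u : List Unit} (h : p ≤ u.length) : pb X u p = X ^ p := by
  simp [pb, h]

@[fun_prop] theorem PT.pb {X p : α → ℕ} {u : α → List Unit} (hX : PT X) (hu : PT u) (hp : PT p) :
    PT fun a => pb (X a) (u a) (p a) := by unfold P338.pb; fun_prop

/-- parameters and the budget of one atom -/
structure Env (ι π : Type) [Enc π] where
  s : ι → Prog
  P : ι → π
  E : ι → ℝ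
  hS : Small (fun i => sz (P i)) E

/-- arrays of length `N` fit the budget `U` -/
def Env.Ok (e : Env ι π) (N : π → ℕ) (U : ι → ℝ) : Prop :=
  PT N ∧ Bd (fun i => (N (e.P i) + 1) * e.E i) U

/-- the atoms are within the atom budget -/
def Env.At (e : Env ι π) (F : ι → ℕ → α) : Prop :=
  Bd (fun q : ι × ℕ => (sz (F q.1 q.2) : ℝ)) fun q => e.E q.1

section
variable {e : Env ι π} {N : π → ℕ} {U : ι → ℝ} {c : Ctx ι α}

theorem Env.E0 (e : Env ι π) (i : ι) : 0 ≤ e.E i := e.hS.one.nonneg i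

theorem Env.Ok.bdE (h : e.Ok N U) : Bd e.E U := h.2.of_le fun i => by
  have := e.E0 i
  nlinarith [(by positivity : (0 : ℝ) ≤ N (e.P i))]

theorem Env.Ok.bdNE (h : e.Ok N U) : Bd (fun i => N (e.P i) * e.E i) U := h.2.of_le fun i => by
  have := e.E0 i
  nlinarith

theorem Env.Ok.bdN (h : e.Ok N U) : Bd (fun i => (N (e.P i) : ℝ)) U := by
  have := ((Bd.refl (U := fun i => (N (e.P i) : ℝ)) fun i => by positivity).mul e.hS.one
    fun i => zero_le_one).trans h.bdNE
  simpa using this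

theorem Env.Ok.of_le (h : e.Ok N U) {N' : π → ℕ} (h1 : PT N') (k : ℕ)
    (h2 : ∀ i, N' (e.P i) ≤ k * N (e.P i)) : e.Ok N' U :=
  ⟨h1, (h.2.cmul (k + 1)).of_le fun i => by
    have := e.E0 i
    have h3 : (N' (e.P i) : ℝ) ≤ k * N (e.P i) := by exact_mod_cast h2 i
    have h4 : (N' (e.P i) : ℝ) + 1 ≤ (k + 1) * (N (e.P i) + 1) := by
      nlinarith [(by positivity : (0 : ℝ) ≤ N (e.P i)), (by positivity : (0 : ℝ) ≤ k)]
    push_cast; nlinarith⟩

theorem Env.Ok.mono (h : e.Ok N U) {U' : ι → ℝ} (hU : Bd U U') : e.Ok N U' := ⟨h.1, h.2.trans hU⟩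

theorem Env.At.re {F : ι → ℕ → α} (h : e.At F) (g : ι → ℕ → ℕ) : e.At fun i j => F i (g i j) :=
  Bd.re h fun q : ι × ℕ => (q.1, g q.1 q.2)

theorem Env.At.pair {F : ι → ℕ → α} {G : ι → ℕ → β} (h : e.At F) (h' : e.At G) :
    e.At fun i j => (F i j, G i j) := Bd.szpair h h'

theorem Env.At.cond {F G : ι → ℕ → α} (h : e.At F) (h' : e.At G) (b : ι → ℕ → Bool) :
    e.At fun i j => cond (b i j) (F i j) (G i j) := (Bd.add h h').of_le fun q => by
  dsimp only
  cases b q.1 q.2 <;> simp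

theorem Env.Ok.sztab (h : e.Ok N U) {F : ι → ℕ → α} (hA : e.At F) :
    Bd (fun i => (sz (tab (N (e.P i)) (F i)) : ℝ)) U :=
  Bd.sztab (U' := fun i _ => e.E i) (Bd.re hA fun q : Pos _ => q.1) (Bd.sum_const h.bdNE)
    (e.hS.one.trans h.bdE)

theorem Lin.par (hP : Lin c e.P) (hE : Bd e.E c.U) {f : π → γ} (hf : PT f) :
    Lin c fun i => f (e.P i) := hP.pt hf (e.hS.trans hE)

theorem Lin.unitsP (hP : Lin c e.P) (hN : e.Ok N c.U) :
    Lin c fun i => List.replicate (N (e.P i)) () := (hP.par hN.bdE hN.1).units hN.bdN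

/-- the parameters of one element -/
def Env.el (e : Env ι π) (N : π → ℕ) (hN : PT N) : Env (Pos fun i => N (e.P i)) (π × ℕ) where
  s := fun q => e.s q.1.1
  P := fun q => (e.P q.1.1, q.1.2)
  E := fun q => e.E q.1.1
  hS := by
    have h1 := (e.hS.pt hN).re fun q : Pos fun i => N (e.P i) => q.1.1
    refine (e.hS.re fun q : Pos fun i => N (e.P i) => q.1.1).pair
      (((((h1.add h1).add h1).add h1).add (Small.const h1.one 1)).of_le fun q => ?_)
    have := sz_nat_mono q.2.le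
    dsimp only at this ⊢
    omega

theorem Cmp.flatMapI {F : ι → ℕ → β} {out : ι → ℕ → List γ} {V : ι → ℝ} {V' : ι → ℕ → ℝ}
    (hP : Lin c e.P) (hN : e.Ok N c.U) (hF : Lin c fun i => tab (N (e.P i)) (F i))
    (h : Cmp (fun q : Pos fun i => N (e.P i) => c.s q.1.1)
      (fun q => ((e.P q.1.1, q.1.2), F q.1.1 q.1.2))
      (fun q => out q.1.1 q.1.2) (fun q => e.E q.1.1) fun q => V' q.1.1 q.1.2)
    (hV0 : ∀ i, 0 ≤ V i) (hV : ∀ i, ∑ j ∈ Finset.range (N (e.P i)), V' i j ≤ V i) :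
    Cmp c.s c.x (fun i => (List.range (N (e.P i))).flatMap (out i)) c.U V := by
  have hx := Lin.self (c := c.el (fun i => N (e.P i)) (fun i j => ((e.P i, j), F i j))
    fun i _ => e.E i) h.bdx
  have h1 := Lin.par (e := e.el N hN.1) hx.fst (Bd.refl fun q => e.E0 _)
    (f := fun p => (p.1, p.2 + 1)) (by fun_prop)
  have h2 := Cmp.scanL (st := fun i j => (e.P i, j)) (U' := fun i _ => e.E i) (out := out) (V' := V')
    (hP.pair (hP.cst 0)) hF ((Cmp.pair h1 h).monoV
    (V' := fun q : Pos fun i => N (e.P i) => V' q.1.1 q.1.2) fun q => by simp)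
    (Bd.sum_const hN.bdNE) hV0 hV
  exact h2.trans0 (Lin.self (c := ⟨c.s, _, c.U⟩) h2.bdy).snd

theorem Cmp.mapI {F : ι → ℕ → β} {G : ι → ℕ → γ} {V : ι → ℝ} {V' : ι → ℕ → ℝ}
    (hP : Lin c e.P) (hN : e.Ok N c.U) (hF : Lin c fun i => tab (N (e.P i)) (F i))
    (h : Cmp (fun q : Pos fun i => N (e.P i) => c.s q.1.1)
      (fun q => ((e.P q.1.1, q.1.2), F q.1.1 q.1.2))
      (fun q => G q.1.1 q.1.2) (fun q => e.E q.1.1) fun q => V' q.1.1 q.1.2)
    (hV0 : ∀ i, 0 ≤ V i) (hV : ∀ i, ∑ j ∈ Finset.range (N (e.P i)), V' i j ≤ V i) :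
    Cmp c.s c.x (fun i => tab (N (e.P i)) (G i)) c.U V := by
  have hx := Lin.self (c := c.el (fun i => N (e.P i)) G fun i _ => e.E i) h.bdy
  exact (Cmp.flatMapI (out := fun i j => [G i j]) hP hN hF (h.trans0 (hx.cons (hx.cst []))) hV0
    hV).congr (fun _ => rfl) fun i => (flatMap_single _ _).symm

/-- the context of one atom -/
abbrev Env.cel (e : Env ι π) (c : Ctx ι α) (N : π → ℕ) (F : ι → ℕ → β) :
    Ctx (Pos fun i => N (e.P i)) ((π × ℕ) × β) :=
  c.el (fun i => N (e.P i)) (fun i j => ((e.P i, j), F i j)) fun i _ => e.E i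

theorem Env.cel_self (c : Ctx ι α) (hN : PT N) {F : ι → ℕ → β} (hA : e.At F) :
    Lin (e.cel c N F) (e.cel c N F).x :=
  Lin.self (Bd.szpair (e.el N hN).hS.bd (Bd.re hA fun q : Pos _ => q.1))

theorem Lin.flatMapI {F : ι → ℕ → β} (out : ι → ℕ → List γ) (hP : Lin c e.P) (hN : e.Ok N c.U)
    (hA : e.At F) (hF : Lin c fun i => tab (N (e.P i)) (F i))
    (h : Lin (e.cel c N F) (e.el N hN.1).P → Lin (e.cel c N F) (fun q => F q.1.1 q.1.2) →
      Lin (e.cel c N F) fun q => out q.1.1 q.1.2) :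
    Lin c fun i => (List.range (N (e.P i))).flatMap (out i) :=
  Cmp.flatMapI (V' := fun _ _ => 0) hP hN hF
    (h (e.cel_self c hN.1 hA).fst (e.cel_self c hN.1 hA).snd) (fun _ => le_rfl) fun i => by simp

theorem Lin.mapI {F : ι → ℕ → β} (G : ι → ℕ → γ) (hP : Lin c e.P) (hN : e.Ok N c.U)
    (hA : e.At F) (hF : Lin c fun i => tab (N (e.P i)) (F i))
    (h : Lin (e.cel c N F) (e.el N hN.1).P → Lin (e.cel c N F) (fun q => F q.1.1 q.1.2) →
      Lin (e.cel c N F) fun q => G q.1.1 q.1.2) :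
    Lin c fun i => tab (N (e.P i)) (G i) :=
  Cmp.mapI (V' := fun _ _ => 0) hP hN hF
    (h (e.cel_self c hN.1 hA).fst (e.cel_self c hN.1 hA).snd) (fun _ => le_rfl) fun i => by simp

theorem Lin.parI {F : ι → ℕ → β} {hN : PT N} (h : Lin (e.cel c N F) (e.el N hN).P)
    {f : π × ℕ → γ} (hf : PT f) : Lin (e.cel c N F) fun q => f (e.P q.1.1, q.1.2) :=
  Lin.par (e := e.el N hN) h (Bd.refl fun _ => e.E0 _) hf

theorem Lin.tabI (hP : Lin c e.P) (hN : e.Ok N c.U) {f : π × ℕ → γ} (hf : PT f) :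
    Lin c fun i => tab (N (e.P i)) fun j => f (e.P i, j) :=
  Lin.mapI (F := fun _ _ => ()) (fun i j => f (e.P i, j)) hP hN
    ((e.hS.one.re fun q : ι × ℕ => q.1).of_le fun q => by simp)
    ((hP.unitsP hN).congr fun i => (replicate_tab _ _).symm) fun h _ => h.parI hf

theorem Lin.sel {F G : ι → ℕ → β} (hP : Lin c e.P) (hN : e.Ok N c.U) {b : π × ℕ → Bool}
    (hb : PT b) (hF : Lin c fun i => tab (N (e.P i)) (F i))
    (hG : Lin c fun i => tab (N (e.P i)) (G i)) :
    Lin c fun i => tab (N (e.P i)) fun j => _root_.cond (b (e.P i, j)) (F i j) (G i j) :=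
  Lin.map0 (fun i j => _root_.cond (b (e.P i, j)) (F i j) (G i j))
    ((hP.tabI hN hb).ztab (hF.ztab hG)) fun h => h.fst.cond h.snd.fst h.snd.snd

theorem flatMap_filter {β : Type} (b : ℕ → Bool) (F : ℕ → β) (L : List ℕ) :
    L.flatMap (fun j => cond (b j) [F j] []) = (L.filter b).map F := by
  induction L with
  | nil => rfl
  | cons a L ih => cases h : b a <;> simp [h, ih]

theorem Lin.filter {F : ι → ℕ → β} (hP : Lin c e.P) (hN : e.Ok N c.U) {b : π × ℕ → Bool}
    (hb : PT b) (hF : Lin c fun i => tab (N (e.P i)) (F i)) :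
    Lin c fun i => ((List.range (N (e.P i))).filter fun j => b (e.P i, j)).map (F i) :=
  (Lin.flatMap0 (fun i j => _root_.cond (b (e.P i, j)) [F i j] [])
    ((hP.tabI hN hb).ztab hF) fun h => h.fst.cond (h.snd.cons (h.cst [])) (h.cst [])).congr
    fun i => (flatMap_filter _ _ _).symm

theorem merge_filter {β : Type} (b : ℕ → Bool) (G : ℕ → β) (z : β) (L : List ℕ) : ∀ n, L.length ≤ n →
    merge (L.map b) (List.replicate n z) ((L.filter b).map G) = L.map fun j => cond (b j) (G j) z := by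
  induction L with
  | nil => intro n _; simp [merge]
  | cons a L ih =>
    intro n hn
    obtain ⟨n, rfl⟩ : ∃ k, n = k + 1 := ⟨n - 1, by simp at hn; omega⟩
    cases h : b a
    · simp [h, merge, List.replicate_succ, ih n (by simpa using hn)]
    · simp only [List.map_cons, h, List.filter_cons_of_pos, merge, cond_true]
      rw [ih (n + 1) (by simp at hn; omega)]

theorem Lin.rep {z : ι → β} (hP : Lin c e.P) (hN : e.Ok N c.U) (hz : Lin c z)
    (hb : Bd (fun i => (sz (z i) : ℝ)) e.E) : Lin c fun i => List.replicate (N (e.P i)) (z i) :=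
  (Lin.map1 (F := fun _ _ => ()) (fun i _ => z i) (fun i _ => e.E i) hz
    ((hP.unitsP hN).congr fun i => (replicate_tab _ _).symm)
    (Bd.szpair (hb.re fun q : Pos _ => q.1.1) ((hb.sz1.re fun q : Pos _ => q.1.1).of_le
      fun q => by simp)) (Bd.sum_const hN.bdNE) fun h _ => h).congr fun i => replicate_tab _ _

theorem Lin.unfilter {G : ι → ℕ → β} {z : ι → β} (hP : Lin c e.P) (hN : e.Ok N c.U)
    {b : π × ℕ → Bool} (hb : PT b) (hz : Lin c z) (hbz : Bd (fun i => (sz (z i) : ℝ)) e.E)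
    (hF : Lin c fun i => ((List.range (N (e.P i))).filter fun j => b (e.P i, j)).map (G i)) :
    Lin c fun i => tab (N (e.P i)) fun j => _root_.cond (b (e.P i, j)) (G i j) (z i) :=
  ((hP.tabI hN hb).merge (hP.rep hN hz hbz) hF).congr fun i =>
    (merge_filter (fun j => b (e.P i, j)) (G i) (z i) (List.range (N (e.P i))) _ (by simp)).symm

/-- the padded index is the image of a compact index -/
def okB (w X : ℕ) (u : List Unit) (r : ℕ → ℕ) (j : ℕ) : Bool :=
  (List.range u.length).all fun p => decide (dg (w * pb X u p) X j < r p)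

theorem okB_iff {w X : ℕ} {u : List Unit} {r : ℕ → ℕ} {j : ℕ} :
    okB w X u r j = true ↔ ∀ p < u.length, dg (w * X ^ p) X j < r p := by
  simp only [okB, List.all_eq_true, List.mem_range, decide_eq_true_eq]
  exact forall₂_congr fun p hp => by rw [pb_eq hp.le]

theorem PT.okB {w X : π → ℕ} {u : π → List Unit} {r : π → ℕ → ℕ} (hw : PT w) (hX : PT X)
    (hu : PT u) (hr : PT fun q : π × ℕ => r q.1 q.2) :
    PT fun q : π × ℕ => okB (w q.1) (X q.1) (u q.1) (r q.1) q.2 := by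
  unfold P338.okB
  have : PT fun q : (π × ℕ) × ℕ => r q.1.1 q.2 :=
    hr.comp (g := fun q : (π × ℕ) × ℕ => (q.1.1, q.2)) (by fun_prop)
  fun_prop

section pad
variable {w X : π → ℕ} {u : π → List Unit} {r : π → ℕ → ℕ}

theorem Lin.unpad {F : ι → ℕ → β} (hP : Lin c e.P) (hN : e.Ok N c.U) (hw : PT w) (hX : PT X)
    (hu : PT u) (hr : PT fun q : π × ℕ => r q.1 q.2) (h0 : ∀ i, 0 < w (e.P i))
    (h1 : ∀ i, ∀ p < (u (e.P i)).length, 0 < r (e.P i) p ∧ r (e.P i) p ≤ X (e.P i))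
    (h2 : ∀ i, N (e.P i) = w (e.P i) * X (e.P i) ^ (u (e.P i)).length)
    (hF : Lin c fun i => tab (N (e.P i)) (F i)) :
    Lin c fun i => tab (w (e.P i) * pw (r (e.P i)) (u (e.P i)).length) fun j =>
      F i (rrx (w (e.P i)) (r (e.P i)) (fun _ => X (e.P i)) (u (e.P i)).length j) :=
  (hP.filter hN (PT.okB hw hX hu hr) hF).congr fun i => by
    rw [h2, ← pw_const, filter_rrx (r := r (e.P i)) (h0 i) (h1 i) _
      fun j => by simp only [pw_const]; exact okB_iff]
    simp [tab, Function.comp_def]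

theorem Lin.pad {F : ι → ℕ → β} {z : ι → β} (hP : Lin c e.P) (hN : e.Ok N c.U) (hw : PT w)
    (hX : PT X) (hu : PT u) (hr : PT fun q : π × ℕ => r q.1 q.2) (h0 : ∀ i, 0 < w (e.P i))
    (h1 : ∀ i, ∀ p < (u (e.P i)).length, 0 < r (e.P i) p ∧ r (e.P i) p ≤ X (e.P i))
    (h2 : ∀ i, N (e.P i) = w (e.P i) * X (e.P i) ^ (u (e.P i)).length)
    (hz : Lin c z) (hbz : Bd (fun i => (sz (z i) : ℝ)) e.E)
    (hF : Lin c fun i => tab (w (e.P i) * pw (r (e.P i)) (u (e.P i)).length) (F i)) :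
    Lin c fun i => tab (N (e.P i)) fun j =>
      _root_.cond (okB (w (e.P i)) (X (e.P i)) (u (e.P i)) (r (e.P i)) j)
        (F i (rrx (w (e.P i)) (fun _ => X (e.P i)) (r (e.P i)) (u (e.P i)).length j)) (z i) :=
  by
  refine Lin.unfilter (b := fun q => okB (w q.1) (X q.1) (u q.1) (r q.1) q.2) (G := fun i j =>
      F i (rrx (w (e.P i)) (fun _ => X (e.P i)) (r (e.P i)) (u (e.P i)).length j))
    hP hN (PT.okB hw hX hu hr) hz hbz (hF.congr fun i => ?_)
  rw [h2, ← pw_const, filter_rrx (r := r (e.P i)) (h0 i) (h1 i) _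
    fun j => by simp only [pw_const]; exact okB_iff, List.map_map]
  exact tab_congr fun j hj => congrArg (F i) (rrx_rrx (h0 i)
    (fun p hp => (dg_lt (h1 i p hp).1).trans_le (h1 i p hp).2) hj)
end pad

theorem Lin.digit {F : ι → ℕ → β} (hP : Lin c e.P) (hN : e.Ok N c.U) (hA : e.At F)
    {w X : π → ℕ} (hw : PT w) (hX : PT X) (h0 : ∀ i, 0 < w (e.P i) ∧ 0 < X (e.P i))
    (hd : ∀ i, w (e.P i) * X (e.P i) ∣ N (e.P i)) (hN0 : ∀ i, 0 < N (e.P i)) (φ : ι → ℕ → ℕ → ℕ)
    (h : ∀ (κ : Type) (g : κ → ι) (a : κ → ℕ) (c' : Ctx κ ((π × ℕ) × List β))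
      (H : κ → ℕ → List β), Lin c' (fun k => (e.P (g k), a k)) →
      Small (fun k => sz (e.P (g k), a k)) c'.U → Lin c' (fun k => tab (X (e.P (g k))) (H k)) →
      Lin c' fun k => tab (X (e.P (g k))) fun x => H k (φ (g k) (a k) x))
    (hF : Lin c fun i => tab (N (e.P i)) (F i)) :
    Lin c fun i => tab (N (e.P i)) fun j => F i (upd (w (e.P i)) (X (e.P i)) j
      (φ i (j / (w (e.P i) * X (e.P i))) (dg (w (e.P i)) (X (e.P i)) j))) := by
  have hB : ∀ i, (1 : ℝ) ≤ (w (e.P i) * X (e.P i) : ℕ) := fun i => by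
    exact_mod_cast Nat.mul_pos (h0 i).1 (h0 i).2
  have hEE : Bd e.E fun i => (w (e.P i) * X (e.P i) : ℕ) * e.E i :=
    Bd.le_right e.E0 fun i => by nlinarith [hB i, e.E0 i]
  let e' : Env ι π := ⟨e.s, e.P, fun i => (w (e.P i) * X (e.P i) : ℕ) * e.E i, e.hS.trans hEE⟩
  let A : π → ℕ := fun p => N p / (w p * X p)
  have hA1 : PT A := by have := hN.1; fun_prop
  have eN : ∀ i, w (e.P i) * X (e.P i) * A (e.P i) = N (e.P i) := fun i => Nat.mul_div_cancel' (hd i)
  have hle : ∀ i, w (e.P i) * X (e.P i) ≤ N (e.P i) := fun i => Nat.le_of_dvd (hN0 i) (hd i)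
  have hN' : e'.Ok A c.U := ⟨hA1, (hN.bdNE.cmul 2).of_le fun i => by
    have h1 : ((w (e.P i) * X (e.P i) * A (e.P i) : ℕ) : ℝ) = N (e.P i) := by rw [eN]
    have h2 : ((w (e.P i) * X (e.P i) : ℕ) : ℝ) ≤ N (e.P i) := by exact_mod_cast hle i
    have := e.E0 i
    simp only [e'] at *
    push_cast at *
    nlinarith⟩
  have h1 := Lin.chunk (fun i => Nat.mul_pos (h0 i).1 (h0 i).2) (Lin.unitsP (e := e') hP hN')
    (hP.unitsP (hN.of_le (N' := fun p => w p * X p) (by fun_prop) 1 fun i => by simpa using hle i))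
    (hF.congr fun i => by rw [eN])
  have hb : e'.At fun i a => tab (w (e.P i) * X (e.P i)) fun b =>
      F i (b + w (e.P i) * X (e.P i) * a) :=
    Bd.sztab (U' := fun (q : ι × ℕ) _ => e.E q.1) (Bd.re hA
      fun q : Pos fun q : ι × ℕ => w (e.P q.1) * X (e.P q.1) =>
        (q.1.1.1, q.1.2 + w (e.P q.1.1.1) * X (e.P q.1.1.1) * q.1.1.2))
      (Bd.sum_const (Bd.refl fun q => e'.E0 _)) ((e'.hS.one).re fun q : ι × ℕ => q.1)
  have h2 := Lin.mapI (e := e') (fun i a => tab (w (e.P i) * X (e.P i)) fun t =>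
    F i (t % w (e.P i) + w (e.P i) * φ i a (t / w (e.P i)) + w (e.P i) * X (e.P i) * a))
    hP hN' hb h1 fun hq hx => by
      have hr : ∀ {f : π → ℕ}, PT f → (∀ i, f (e.P i) ≤ w (e.P i) * X (e.P i)) →
          Lin (e'.cel c A fun i a => tab (w (e.P i) * X (e.P i)) fun b =>
            F i (b + w (e.P i) * X (e.P i) * a)) fun q => List.replicate (f (e.P q.1.1)) () :=
        fun {f} hf hf' => (hq.parI (f := fun p => f p.1) (by fun_prop)).units
          (hx.len.of_le fun q => by simpa using (by exact_mod_cast hf' q.1.1))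
      have h3 := Lin.chunk (fun q : Pos _ => (h0 q.1.1).1)
        (hr hX fun i => Nat.le_mul_of_pos_left _ (h0 i).1)
        (hr hw fun i => Nat.le_mul_of_pos_right _ (h0 i).2) hx
      exact (h _ (fun q : Pos fun i => A (e.P i) => q.1.1) (fun q => q.1.2) _ _ hq
        (e'.el A hA1).hS h3).flat
  refine h2.flat.congr fun i => ?_
  rw [eN]
  refine tab_congr fun j _ => congrArg (F i) ?_
  rw [upd, dg_eq, Nat.mod_mul_right_mod]; ring

theorem Lin.rotT {X r : ι → ℕ} {H : ι → ℕ → β} (h : Lin c fun i => tab (X i) (H i)) (hr : Lin c r)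
    (hle : ∀ i, r i ≤ X i) : Lin c fun i => tab (X i) fun x => H i ((x + r i) % X i) := by
  have h1 := hr.units (h.len.of_le fun i => by simpa using hle i)
  refine ((Lin.drop h1 h).append (Lin.take h1 h)).congr fun i => ?_
  have := hle i
  rw [drop_tab, take_tab, append_tab, min_eq_left this, Nat.sub_add_cancel this]
  refine tab_congr fun j hj => ?_
  split_ifs with h2
  · rw [Nat.mod_eq_of_lt (by omega), add_comm]
  · rw [Nat.mod_eq_sub_mod (by omega), Nat.mod_eq_of_lt (by omega)]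
    congr 1; omega

theorem Lin.negT {X : ι → ℕ} {H : ι → ℕ → β} (h : Lin c fun i => tab (X i) (H i)) :
    Lin c fun i => tab (X i) fun x => H i ((X i - x) % X i) := by
  have h1 : Lin c fun _ => List.replicate 1 () := h.cst _
  refine ((Lin.take h1 h).append (Lin.drop h1 h).reverse).congr fun i => ?_
  rw [drop_tab, take_tab, reverse_tab, append_tab, show min 1 (X i) + (X i - 1) = X i by omega]
  refine tab_congr fun j hj => ?_
  split_ifs with h2
  · rw [show j = 0 by omega]; simp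
  · rw [Nat.mod_eq_of_lt (by omega)]
    congr 1; omega

theorem Lin.split {M : ι → ℕ} {F : ι → ℕ → β} (W u : ℕ) (hu : u < W)
    (h : Lin c fun i => tab (W * M i) (F i)) (hM : Lin c fun i => List.replicate (M i) ()) :
    Lin c fun i => tab (M i) fun j => F i (u + W * j) :=
  Lin.map0 (fun i j => F i (u + W * j)) (Lin.chunk (B := fun _ => W) (fun _ => by omega) hM
    (h.cst _) h) fun hx => Lin.getFn (y := fun (q : Pos M) (v : Fin W) => F q.1.1 (v + W * q.1.2))
      (hx.congr fun q => ofFn_tab W fun b => F q.1.1 (b + W * q.1.2)) ⟨u, hu⟩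

theorem Lin.join {M : ι → ℕ} (W : ℕ) {G : ι → ℕ → ℕ → β}
    (hM : Lin c fun i => List.replicate (M i) ()) (h : ∀ u < W, Lin c fun i => tab (M i) (G i u)) :
    Lin c fun i => tab (W * M i) fun j => G i (j % W) (j / W) := by
  have : Lin c fun i => tab (M i) fun j => tab W fun u => G i u j := by
    induction W generalizing G with
    | zero => exact (hM.fillN []).congr fun i => (replicate_tab _ _).symm
    | succ W ih =>
      exact (Lin.map0 (fun i j => G i 0 j :: tab W fun u => G i (u + 1) j)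
        ((h 0 (by omega)).ztab (ih (G := fun i u => G i (u + 1)) fun u hu => h _ (by omega)))
        fun hx => hx.fst.cons hx.snd).congr fun i => tab_congr fun j _ => tab_succ' _ _
  exact Lin.flat (B := fun _ => W) (G := fun i j u => G i u j) this

theorem Lin.dblT {X : ι → ℕ} {H : ι → ℕ → β} (h : Lin c fun i => tab (X i) (H i)) :
    Lin c fun i => tab (X i) fun x => H i (2 * x % X i) := by
  have h1 : Lin c fun i => tab (2 * X i) fun x => H i (x % X i) := (h.append h).congr fun i => by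
    rw [append_tab, two_mul]
    refine tab_congr fun j hj => ?_
    split_ifs with h2
    · rw [Nat.mod_eq_of_lt h2]
    · rw [Nat.mod_eq_sub_mod (by omega), Nat.mod_eq_of_lt (by omega)]
  exact (Lin.split 2 0 (by omega) h1 h.ruler).congr fun i => by simp

/-- half modulo an odd number -/
def hlf (X x : ℕ) : ℕ := if x % 2 = 0 then x / 2 else (x + X) / 2

theorem Lin.halfT {X r : ι → ℕ} {H : ι → ℕ → β} (h : Lin c fun i => tab (X i) (H i))
    (hr : Lin c r) (he : ∀ i, X i + 1 = 2 * r i) :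
    Lin c fun i => tab (X i) fun x => H i (hlf (X i) x) := by
  have h1 := Lin.join 2 (G := fun i u x => if u = 0 then H i x else H i ((x + r i) % X i)) h.ruler
    fun u hu => by
      by_cases h0 : u = 0
      · simpa only [h0, if_true] using h
      · simpa only [h0, if_false] using h.rotT hr fun i => by have := he i; omega
  refine (Lin.take h.ruler h1).congr fun i => ?_
  rw [take_tab, min_eq_left (by omega)]
  refine tab_congr fun j hj => ?_
  have := he i
  unfold hlf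
  split_ifs with h2
  · rfl
  · rw [Nat.mod_eq_of_lt (by omega)]
    congr 1; omega

section
variable {F : ι → ℕ → β} {w X : π → ℕ}

theorem Lin.rot (hP : Lin c e.P) (hN : e.Ok N c.U) (hA : e.At F) (hw : PT w) (hX : PT X)
    (h0 : ∀ i, 0 < w (e.P i) ∧ 0 < X (e.P i)) (hd : ∀ i, w (e.P i) * X (e.P i) ∣ N (e.P i))
    (hN0 : ∀ i, 0 < N (e.P i)) {r : π × ℕ → ℕ} (hr : PT r)
    (hi : ∀ i j j', j / (w (e.P i) * X (e.P i)) = j' / (w (e.P i) * X (e.P i)) →
      r (e.P i, j) = r (e.P i, j')) (hF : Lin c fun i => tab (N (e.P i)) (F i)) :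
    Lin c fun i => tab (N (e.P i)) fun j => F i (upd (w (e.P i)) (X (e.P i)) j
      ((dg (w (e.P i)) (X (e.P i)) j + r (e.P i, j)) % X (e.P i))) :=
  by
  have h1 : PT fun p : π × ℕ => r (p.1, p.2 * (w p.1 * X p.1)) % X p.1 := by fun_prop
  refine (hP.digit hN hA hw hX h0 hd hN0
    (fun i a x => (x + r (e.P i, a * (w (e.P i) * X (e.P i))) % X (e.P i)) % X (e.P i))
    (fun _ g a _ _ hq hs hH => ?_) hF).congr fun i => tab_congr fun j _ => ?_
  · have h2 := hq.pt h1 hs
    have h3 := Lin.rotT hH h2 fun k => (Nat.mod_lt _ (h0 (g k)).2).le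
    exact h3
  · rw [Nat.add_mod_mod, hi i j (j / (w (e.P i) * X (e.P i)) * (w (e.P i) * X (e.P i)))]
    rw [Nat.mul_div_cancel _ (Nat.mul_pos (h0 i).1 (h0 i).2)]

theorem Lin.neg (hP : Lin c e.P) (hN : e.Ok N c.U) (hA : e.At F) (hw : PT w) (hX : PT X)
    (h0 : ∀ i, 0 < w (e.P i) ∧ 0 < X (e.P i)) (hd : ∀ i, w (e.P i) * X (e.P i) ∣ N (e.P i))
    (hN0 : ∀ i, 0 < N (e.P i)) (hF : Lin c fun i => tab (N (e.P i)) (F i)) :
    Lin c fun i => tab (N (e.P i)) fun j => F i (upd (w (e.P i)) (X (e.P i)) j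
      ((X (e.P i) - dg (w (e.P i)) (X (e.P i)) j) % X (e.P i))) :=
  hP.digit hN hA hw hX h0 hd hN0 (fun i _ x => (X (e.P i) - x) % X (e.P i))
    (fun _ _ _ _ _ _ _ hH => hH.negT) hF

theorem Lin.dbl (hP : Lin c e.P) (hN : e.Ok N c.U) (hA : e.At F) (hw : PT w) (hX : PT X)
    (h0 : ∀ i, 0 < w (e.P i) ∧ 0 < X (e.P i)) (hd : ∀ i, w (e.P i) * X (e.P i) ∣ N (e.P i))
    (hN0 : ∀ i, 0 < N (e.P i)) (hF : Lin c fun i => tab (N (e.P i)) (F i)) :
    Lin c fun i => tab (N (e.P i)) fun j => F i (upd (w (e.P i)) (X (e.P i)) j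
      (2 * dg (w (e.P i)) (X (e.P i)) j % X (e.P i))) :=
  hP.digit hN hA hw hX h0 hd hN0 (fun i _ x => 2 * x % X (e.P i))
    (fun _ _ _ _ _ _ _ hH => hH.dblT) hF

theorem Lin.half (hP : Lin c e.P) (hN : e.Ok N c.U) (hA : e.At F) (hw : PT w) (hX : PT X)
    (h0 : ∀ i, 0 < w (e.P i) ∧ X (e.P i) % 2 = 1) (hd : ∀ i, w (e.P i) * X (e.P i) ∣ N (e.P i))
    (hN0 : ∀ i, 0 < N (e.P i)) (hF : Lin c fun i => tab (N (e.P i)) (F i)) :
    Lin c fun i => tab (N (e.P i)) fun j => F i (upd (w (e.P i)) (X (e.P i)) j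
      (hlf (X (e.P i)) (dg (w (e.P i)) (X (e.P i)) j))) :=
  hP.digit hN hA hw hX (fun i => ⟨(h0 i).1, by have := (h0 i).2; omega⟩) hd hN0
    (fun i _ x => hlf (X (e.P i)) x)
    (fun _ g _ _ _ hq hs hH => hH.halfT (hq.pt (f := fun p => (X p.1 + 1) / 2) (by fun_prop) hs)
      fun k => by have := (h0 (g k)).2; dsimp only; omega) hF
end

end

end Vale.Agent.P338
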