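import Vale.Agent.P338.Swp

/-! Module J, part 1: parameters and cellwise moves. -/

namespace Vale.Agent.P338

open Function
open Vale.Agent.Lib.H24.T (Enc sz PT sz_pair sz_list_le sz_nat_le sz_unit)

/-- parameters `((u, g, D, k, q), (w, ρ, p))` -/
abbrev CP : Type :=
  (List Unit × List Unit × List Unit × List Unit × List Unit) × (ℕ × ℕ × ℕ)

namespace CP
variable (P : CP)
/-- unary `u` -/
def uU : List Unit := P.1.1
/-- unary `g` -/
def gU : List Unit := P.1.2.1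
/-- unary `D` -/
def DU : List Unit := P.1.2.2.1
/-- unary `k` -/
def kU : List Unit := P.1.2.2.2.1
/-- unary `q` -/
def qU : List Unit := P.1.2.2.2.2
/-- weight of the lowest cell -/
def w : ℕ := P.2.1
/-- the bit -/
def ρ : ℕ := P.2.2.1
/-- the first cell -/
def p : ℕ := P.2.2.2
/-- unary `K` -/
def KU : List Unit := mulU P.gU P.uU
/-- digits per cell -/
abbrev u : ℕ := P.uU.length
/-- bits per digit -/
abbrev g : ℕ := P.gU.length
/-- number of cells -/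
abbrev D : ℕ := P.DU.length
/-- cells per group -/
abbrev k : ℕ := P.kU.length
/-- bits per cell -/
abbrev K : ℕ := P.KU.length
/-- range of a digit -/
def Q : ℕ := 2 ^ P.g + 1
/-- range of a cell -/
def R : ℕ := P.Q ^ P.u
/-- number of atoms -/
def N : ℕ := P.w * P.R ^ P.D
/-- the address of an index -/
def dec (j : ℕ) : CA' := cdec P.w P.R j
/-- a cell of an index -/
def cell (j r : ℕ) : ℕ := dg (P.w * pb P.R P.DU r) P.R j

theorem K_eq : P.K = P.g * P.u := length_mulU _ _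
theorem R_ge : 2 ^ P.K ≤ P.R := by
  rw [P.K_eq, pow_mul]; exact Nat.pow_le_pow_left (Nat.le_succ _) _
theorem R_pos : 0 < P.R := (Nat.two_pow_pos _).trans_le P.R_ge
theorem cell_eq {j r : ℕ} (h : r ≤ P.D) : P.cell j r = (P.dec j).2 r := by
  rw [cell, pb_eq h]; rfl
theorem dec_lt (j r : ℕ) : (P.dec j).2 r < P.R := dg_lt P.R_pos
theorem R_ge' (hu : 0 < P.u) : 2 ^ P.K + 2 ^ (P.K - P.g) ≤ P.R := by
  obtain ⟨n, hn⟩ : ∃ n, P.u = n + 1 := ⟨P.u - 1, by omega⟩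
  rw [P.K_eq, R, Q, hn, mul_add, mul_one, Nat.add_sub_cancel, pow_succ, pow_add, pow_mul]
  have := Nat.pow_le_pow_left (Nat.le_succ (2 ^ P.g)) n
  nlinarith [Nat.two_pow_pos P.g]

variable {α : Type} [Enc α] {f : α → CP} (h : PT f)
include h
@[fun_prop] theorem pt_uU : PT fun a => (f a).uU := by unfold uU; fun_prop
@[fun_prop] theorem pt_gU : PT fun a => (f a).gU := by unfold gU; fun_prop
@[fun_prop] theorem pt_DU : PT fun a => (f a).DU := by unfold DU; fun_prop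
@[fun_prop] theorem pt_kU : PT fun a => (f a).kU := by unfold kU; fun_prop
@[fun_prop] theorem pt_qU : PT fun a => (f a).qU := by unfold qU; fun_prop
@[fun_prop] theorem pt_w : PT fun a => (f a).w := by unfold w; fun_prop
@[fun_prop] theorem pt_ρ : PT fun a => (f a).ρ := by unfold ρ; fun_prop
@[fun_prop] theorem pt_p : PT fun a => (f a).p := by unfold p; fun_prop
@[fun_prop] theorem pt_KU : PT fun a => (f a).KU := by unfold KU; fun_prop
@[fun_prop] theorem pt_Q : PT fun a => (f a).Q := by unfold Q; fun_prop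
@[fun_prop] theorem pt_R : PT fun a => (f a).R := by unfold R; fun_prop
@[fun_prop] theorem pt_N : PT fun a => (f a).N := by unfold N; fun_prop
@[fun_prop] theorem pt_cell {j r : α → ℕ} (hj : PT j) (hr : PT r) :
    PT fun a => (f a).cell (j a) (r a) := by unfold cell; fun_prop
end CP

/-- admissible parameters -/
structure CG (P : CP) (q B : ℕ) : Prop where
  w0 : 0 < P.w
  g1 : 1 ≤ P.g
  u0 : 0 < P.u
  q1 : 1 ≤ q
  hq : P.qU.length = q
  k0 : 0 < P.k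
  hp : P.k ≤ P.p
  hD : P.p + P.k ≤ P.D
  hρ : P.ρ < P.K
  hB : qp (P.N.size + q) ≤ B

namespace CG
variable {P : CP} {q B : ℕ} (h : CG P q B)
include h
theorem N0 : 0 < P.N := Nat.mul_pos h.w0 (pow_pos P.R_pos _)
theorem B0 : 0 < B := (qp_pos _).trans_le h.hB
theorem sz_le : sz P ≤ (P.N.size + q + 2) ^ 4 := by
  have hu : ∀ l : List Unit, sz l ≤ 2 * l.length + 1 := fun l => by
    have := sz_list_le (l := l) (B := 1) fun a _ => (sz_unit a).le
    omega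
  have a1 := hu P.uU
  have a2 := hu P.gU
  have a3 := hu P.DU
  have a4 := hu P.kU
  have a5 := hu P.qU
  have hD0 : 0 < P.D := by have := h.hD; have := h.k0; omega
  have hK : 0 < P.K := by have := h.hρ; omega
  have hRN : P.R ^ P.D ≤ P.N := Nat.le_mul_of_pos_left _ h.w0
  have b0 : (2 ^ P.K) ^ P.D < 2 ^ P.N.size :=
    ((Nat.pow_le_pow_left P.R_ge _).trans hRN).trans_lt (Nat.lt_size_self _)
  rw [← pow_mul, Nat.pow_lt_pow_iff_right (by omega)] at b0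
  have b1 : P.K ≤ P.N.size := (Nat.le_mul_of_pos_right _ hD0).trans b0.le
  have b2 : P.D ≤ P.N.size := (Nat.le_mul_of_pos_left _ hK).trans b0.le
  have b3 := Nat.lt_two_pow_self (n := P.N.size)
  have a6 : sz P.w ≤ 4 * P.N.size + 1 := sz_nat_le
    ((Nat.le_mul_of_pos_right _ (pow_pos P.R_pos P.D)).trans_lt (Nat.lt_size_self _))
  have a7 : sz P.ρ ≤ 4 * P.N.size + 1 := sz_nat_le (by have := h.hρ; omega)
  have a8 : sz P.p ≤ 4 * P.N.size + 1 := sz_nat_le (by have := h.hD; omega)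
  have a9 : P.u ≤ P.K := P.K_eq ▸ Nat.le_mul_of_pos_left _ h.g1
  have a10 : P.g ≤ P.K := P.K_eq ▸ Nat.le_mul_of_pos_right _ h.u0
  have e : sz P = sz P.uU + sz P.gU + sz P.DU + sz P.kU + sz P.qU + sz P.w + sz P.ρ + sz P.p + 7 := by
    obtain ⟨⟨a, b, c, d, e⟩, x, y, z⟩ := P
    simp only [sz_pair, CP.uU, CP.gU, CP.DU, CP.kU, CP.qU, CP.w, CP.ρ, CP.p]; omega
  have := h.hq
  have := h.hD
  have := h.q1
  have c1 : sz P ≤ 27 * (P.N.size + q + 2) := by
    simp only [CP.u, CP.g, CP.D, CP.k, CP.K] at *; omega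
  have c2 : 3 ^ 3 ≤ (P.N.size + q + 2) ^ 3 := Nat.pow_le_pow_left (by omega) _
  rw [pow_succ]
  exact c1.trans (Nat.mul_le_mul_right _ c2)
end CG

/-- a family of arrays of cells -/
structure CE (ι : Type) where
  s : ι → Prog
  P : ι → CP
  q : ι → ℕ
  B : ι → ℕ
  U : ι → ℝ
  h : ∀ i, CG (P i) (q i) (B i)
  hU : Bd (fun i => (P i).N * (B i * (q i + 1))) U

variable {ι : Type}

theorem CE.small (e : CE ι) :
    Small (fun i => (e.P i).N.size + e.q i) fun i => e.B i * (e.q i + 1) :=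
  small_qp fun i => by
    have h1 : (qp ((e.P i).N.size + e.q i) : ℝ) ≤ e.B i := by exact_mod_cast (e.h i).hB
    nlinarith [(by positivity : (0 : ℝ) ≤ e.B i), (by positivity : (0 : ℝ) ≤ e.q i)]

/-- the environment of a family -/
abbrev CE.env (e : CE ι) : Env ι CP where
  s := e.s
  P := e.P
  E := fun i => e.B i * (e.q i + 1)
  hS := e.small.poly 4 fun i => (e.h i).sz_le

theorem CE.ok (e : CE ι) : e.env.Ok CP.N e.U :=
  ⟨by fun_prop, (e.hU.cmul 2).of_le fun i => by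
    have h1 : (1 : ℝ) ≤ (e.P i).N := by exact_mod_cast (e.h i).N0
    have h2 : (0 : ℝ) ≤ e.B i * (e.q i + 1) := by positivity
    push_cast; nlinarith⟩

/-- the array environment of a family -/
abbrev CE.ae (e : CE ι) : AE ι CP where
  toEnv := e.env
  U := e.U
  N := CP.N
  B := e.B
  l := fun i => 2 * e.q i + 2
  hN := e.ok
  hA := ⟨4, fun i => ⟨by positivity, by
    have h1 : (1 : ℝ) ≤ e.B i := by exact_mod_cast (e.h i).B0
    push_cast
    nlinarith [(by positivity : (0 : ℝ) ≤ e.q i)]⟩⟩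
  N0 := fun i => (e.h i).N0

theorem cdec_upd {w R k j : ℕ} (hw : 0 < w) {z : ℕ → ℕ} (hz : ∀ c < k, z c < R) :
    cdec w R (upd w (R ^ k) j (∑ c ∈ Finset.range k, z c * R ^ c)) =
      (j % w, fun c => if c < k then z c else (cdec w R j).2 c) := by
  refine Prod.ext (upd_mod dvd_rfl) (funext fun c => ?_)
  have hv := sum_lt_pow k hz
  dsimp only [cdec]
  split_ifs with h
  · rw [dg_upd_in hw hv (by rw [← pow_succ]; exact pow_dvd_pow _ h), dg_sum k hz h]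
  · exact dg_upd_hi hw hv (Nat.mul_dvd_mul_left _ (pow_dvd_pow _ (not_lt.1 h)))

theorem CE.win (e : CE ι) {r : CP × ℕ → ℕ} (hr : PT r)
    (hi : ∀ i j j', (∀ c, (e.P i).k ≤ c → ((e.P i).dec j).2 c = ((e.P i).dec j').2 c) →
      r (e.P i, j) = r (e.P i, j'))
    (cn : ι → CA' → Prop) (z : ι → CA' → ℕ → ℕ)
    (hz : ∀ i j, cn i ((e.P i).dec j) → (∀ c < (e.P i).k, z i ((e.P i).dec j) c < (e.P i).R) ∧
      (dg (e.P i).w ((e.P i).R ^ (e.P i).k) j + r (e.P i, j)) % (e.P i).R ^ (e.P i).k =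
        ∑ c ∈ Finset.range (e.P i).k, z i ((e.P i).dec j) c * (e.P i).R ^ c) :
    e.ae.Mv (fun i => (e.P i).dec) cn
      (fun i x => (x.1, fun c => if c < (e.P i).k then z i x c else x.2 c)) 0 := by
  refine ⟨fun i j => upd (e.P i).w ((e.P i).R ^ (e.P i).k) j
    ((dg (e.P i).w ((e.P i).R ^ (e.P i).k) j + r (e.P i, j)) % (e.P i).R ^ (e.P i).k),
    AE.Pm.lin fun G hP hx => ?_, fun i j hj => ?_⟩
  · exact Lin.rot (e := e.env) (w := CP.w) (X := fun P => P.R ^ P.k) hP e.ok (e.ae.at G)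
      (by fun_prop) (by fun_prop) (fun i => ⟨(e.h i).w0, pow_pos (e.P i).R_pos _⟩)
      (fun i => Nat.mul_dvd_mul_left _ (pow_dvd_pow _ (by have := (e.h i).hD; dsimp only; omega)))
      (fun i => (e.h i).N0) hr (fun i j j' h => hi i j j' fun c hc =>
        dg_congr (Nat.mul_dvd_mul_left _ (pow_dvd_pow _ hc)) h) hx
  · obtain ⟨h1, h2⟩ := hz i j hj
    dsimp only
    rw [h2]
    exact cdec_upd (e.h i).w0 h1

theorem cdec_swp {w R k y j : ℕ} (hw : 0 < w) (hR : 0 < R) (hy : k ≤ y) :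
    cdec w R (swp w (R ^ k) (w * R ^ y) j) = (j % w, fun c => if c < k then (cdec w R j).2 (y + c)
      else if y ≤ c ∧ c < y + k then (cdec w R j).2 (c - y) else (cdec w R j).2 c) := by
  have hX : 0 < R ^ k := by positivity
  have hd : ∀ {a b : ℕ}, a < b → R ^ a * R ∣ R ^ b := fun h => by
    rw [← pow_succ]; exact pow_dvd_pow _ h
  refine Prod.ext ?_ (funext fun c => ?_)
  · dsimp only [cdec, swp]
    rw [upd_mod (Dvd.intro _ rfl), upd_mod dvd_rfl]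
  dsimp only [cdec, swp]
  split_ifs with h1 h2
  · rw [dg_upd_lo (pow_dvd (by omega)), dg_upd_in hw (dg_lt hX) (hd h1), dg_dg (hd h1), mul_assoc,
      ← pow_add]
  · obtain ⟨t, rfl⟩ : ∃ t, c = y + t := ⟨c - y, by omega⟩
    have ht : t < k := by omega
    rw [pow_add, ← mul_assoc, dg_upd_in (by positivity) (dg_lt hX) (hd ht), dg_dg (hd ht),
      Nat.add_sub_cancel_left]
  · rcases lt_or_ge c y with h3 | h3
    · rw [dg_upd_lo (pow_dvd h3),
        dg_upd_hi hw (dg_lt hX) (Nat.mul_dvd_mul_left _ (pow_dvd_pow _ (by omega)))]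
    · rw [dg_upd_hi (by positivity) (dg_lt hX) (by
          rw [mul_assoc, ← pow_add]; exact Nat.mul_dvd_mul_left _ (pow_dvd_pow _ (by omega))),
        dg_upd_hi hw (dg_lt hX) (Nat.mul_dvd_mul_left _ (pow_dvd_pow _ (by omega)))]

/-- the control bit -/
def bb (μ : Bool) (y' ρ : ℕ) (x : ℕ → ℕ) (c : ℕ) : Bool := μ || (x (y' + c)).testBit ρ

/-- a cellwise map on the window and one group -/
def cw (k y : ℕ) (b : (ℕ → ℕ) → ℕ → Bool) (f : Bool → ℕ → ℕ → ℕ × ℕ) (x : CA') : CA' :=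
  (x.1, fun r => if r < k then (f (b x.2 r) (x.2 r) (x.2 (y + r))).1
    else if y ≤ r ∧ r < y + k then (f (b x.2 (r - y)) (x.2 (r - y)) (x.2 r)).2 else x.2 r)

section
variable {k y y' ρ r : ℕ} {μ : Bool} {b : (ℕ → ℕ) → ℕ → Bool} {f : Bool → ℕ → ℕ → ℕ × ℕ} {x : CA'}

theorem cw_lo (h : r < k) : (cw k y b f x).2 r = (f (b x.2 r) (x.2 r) (x.2 (y + r))).1 := if_pos h

theorem cw_hi (hy : k ≤ y) (h : r < k) :
    (cw k y b f x).2 (y + r) = (f (b x.2 r) (x.2 r) (x.2 (y + r))).2 := by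
  dsimp only [cw]
  rw [if_neg (by omega), if_pos (by omega), Nat.add_sub_cancel_left]

theorem bb_cw (hy : k ≤ y') (hd : μ = true ∨ y' + k ≤ y ∨ y + k ≤ y') (h : r < k) :
    bb μ y' ρ (cw k y b f x).2 r = bb μ y' ρ x.2 r := by
  rcases hd with rfl | hd
  · rfl
  · dsimp only [bb, cw]
    rw [if_neg (by omega), if_neg (by omega)]
end

/-- the groups involved in a cellwise map -/
structure Site (e : CE ι) where
  μ : Bool
  y : CP → ℕ
  y' : CP → ℕ
  hy : PT y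
  hy' : PT y'
  h : ∀ i, (e.P i).k ≤ y (e.P i) ∧ y (e.P i) + (e.P i).k ≤ (e.P i).D ∧ (e.P i).k ≤ y' (e.P i) ∧
    y' (e.P i) + (e.P i).k ≤ (e.P i).D ∧ (μ = true ∨ y' (e.P i) + (e.P i).k ≤ y (e.P i) ∨
      y (e.P i) + (e.P i).k ≤ y' (e.P i))

namespace Site
variable {e : CE ι} (t : Site e)

/-- the control bits -/
def b (i : ι) : (ℕ → ℕ) → ℕ → Bool := bb t.μ (t.y' (e.P i)) (e.P i).ρ

/-- the cellwise map `f` can be applied where `c` holds -/
def CW (c : ι → Bool → ℕ → ℕ → Prop) (f : ι → Bool → ℕ → ℕ → ℕ × ℕ) : Prop :=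
  e.ae.Mv (fun i => (e.P i).dec)
    (fun i x => ∀ r < (e.P i).k, c i (t.b i x.2 r) (x.2 r) (x.2 (t.y (e.P i) + r)))
    (fun i => cw (e.P i).k (t.y (e.P i)) (t.b i) (f i)) 0

variable {t} {c c₁ c₂ : ι → Bool → ℕ → ℕ → Prop} {f f₁ f₂ : ι → Bool → ℕ → ℕ → ℕ × ℕ}

theorem b_cw {i : ι} {g : Bool → ℕ → ℕ → ℕ × ℕ} {x : CA'} {r : ℕ} (h : r < (e.P i).k) :
    t.b i (cw (e.P i).k (t.y (e.P i)) (t.b i) g x).2 r = t.b i x.2 r :=
  bb_cw (t.h i).2.2.1 (t.h i).2.2.2.2 h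

theorem CW.mono (h : t.CW c₁ f₁) (hc : ∀ i b z y, c i b z y → c₁ i b z y ∧ f i b z y = f₁ i b z y) :
    t.CW c f := by
  refine AE.Mv.mono h (fun i x hx => ⟨fun r hr => (hc _ _ _ _ (hx r hr)).1, ?_⟩) fun _ => le_rfl
  refine Prod.ext rfl (funext fun r => ?_)
  dsimp only [cw]
  split_ifs with h1 h2
  · rw [(hc _ _ _ _ (hx r h1)).2]
  · have := (hc _ _ _ _ (hx (r - t.y (e.P i)) (by omega))).2
    rw [Nat.add_sub_cancel' h2.1] at this
    rw [this]
  · rfl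

theorem CW.comp (h₂ : t.CW c₂ f₂) (h₁ : t.CW c₁ f₁) :
    t.CW (fun i b z y => c₂ i b z y ∧ c₁ i b (f₂ i b z y).1 (f₂ i b z y).2)
      fun i b z y => f₁ i b (f₂ i b z y).1 (f₂ i b z y).2 := by
  refine (AE.Mv.comp0 h₁ h₂ fun i x hx => ⟨fun r hr => (hx r hr).1, fun r hr => ?_⟩).mono
    (fun i x hx => ⟨hx, ?_⟩) fun _ => le_rfl
  · rw [b_cw hr, cw_lo hr, cw_hi (t.h i).1 hr]
    exact (hx r hr).2
  · refine Prod.ext rfl (funext fun r => ?_)
    by_cases h1 : r < (e.P i).k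
    · rw [cw_lo h1, cw_lo h1, b_cw h1, cw_lo h1, cw_hi (t.h i).1 h1]
    by_cases h2 : t.y (e.P i) ≤ r ∧ r < t.y (e.P i) + (e.P i).k
    · obtain ⟨n, rfl⟩ : ∃ n, r = t.y (e.P i) + n := ⟨r - t.y (e.P i), by omega⟩
      have h3 : n < (e.P i).k := by omega
      rw [cw_hi (t.h i).1 h3, cw_hi (t.h i).1 h3, b_cw h3, cw_lo h3, cw_hi (t.h i).1 h3]
    · simp only [cw, if_neg h1, if_neg h2]

/-- the amount of a rotation -/
def amt (t : Site e) (E : CP → Bool → ℕ → ℕ) (a : CP × ℕ) : ℕ :=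
  ((List.range a.1.kU.length).map fun c => E a.1 (t.μ || (a.1.cell a.2 (t.y' a.1 + c)).testBit a.1.ρ)
    (a.1.cell a.2 (t.y a.1 + c)) * pb a.1.R a.1.kU c).sum

theorem pt_amt (t : Site e) {E : CP → Bool → ℕ → ℕ}
    (hE : PT fun a : CP × Bool × ℕ => E a.1 a.2.1 a.2.2) : PT (t.amt E) := by
  have h1 := t.hy
  have h2 := t.hy'
  have h3 : PT fun a : (CP × ℕ) × ℕ => E a.1.1
      (t.μ || (a.1.1.cell a.1.2 (t.y' a.1.1 + a.2)).testBit a.1.1.ρ)
      (a.1.1.cell a.1.2 (t.y a.1.1 + a.2)) :=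
    hE.comp (g := fun a : (CP × ℕ) × ℕ => (a.1.1,
      (t.μ || (a.1.1.cell a.1.2 (t.y' a.1.1 + a.2)).testBit a.1.1.ρ),
      a.1.1.cell a.1.2 (t.y a.1.1 + a.2))) (by fun_prop)
  unfold amt
  exact PTX.sum (PT.map (by fun_prop) (h3.mul (by fun_prop)))

theorem amt_eq (t : Site e) (E : CP → Bool → ℕ → ℕ) (i : ι) (j : ℕ) :
    t.amt E (e.P i, j) = ∑ c ∈ Finset.range (e.P i).k, E (e.P i) (t.b i ((e.P i).dec j).2 c)
      (((e.P i).dec j).2 (t.y (e.P i) + c)) * (e.P i).R ^ c := by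
  obtain ⟨-, h1, -, h2, -⟩ := t.h i
  refine Finset.sum_congr (s₁ := Finset.range (e.P i).k) rfl fun c hc => ?_
  rw [Finset.mem_range] at hc
  dsimp only
  rw [pb_eq hc.le, CP.cell_eq _ (by omega), CP.cell_eq _ (by omega)]
  rfl

theorem amt_hi (t : Site e) (E : CP → Bool → ℕ → ℕ) (i : ι) (j j' : ℕ)
    (h : ∀ c, (e.P i).k ≤ c → ((e.P i).dec j).2 c = ((e.P i).dec j').2 c) :
    t.amt E (e.P i, j) = t.amt E (e.P i, j') := by
  obtain ⟨h1, -, h2, -⟩ := t.h i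
  rw [amt_eq, amt_eq]
  refine Finset.sum_congr rfl fun c _ => ?_
  rw [b, bb, bb, h _ (by omega), h (t.y (e.P i) + c) (by omega)]

theorem cw_win {i : ι} {g : Bool → ℕ → ℕ → ℕ} (x : CA') :
    cw (e.P i).k (t.y (e.P i)) (t.b i) (fun b z y => (g b z y, y)) x = (x.1, fun c =>
      if c < (e.P i).k then g (t.b i x.2 c) (x.2 c) (x.2 (t.y (e.P i) + c)) else x.2 c) := by
  refine Prod.ext rfl (funext fun r => ?_)
  simp only [cw, ite_self]

theorem CW.add (t : Site e) {E : CP → Bool → ℕ → ℕ}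
    (hE : PT fun a : CP × Bool × ℕ => E a.1 a.2.1 a.2.2) :
    t.CW (fun i b z y => z + E (e.P i) b y < (e.P i).R) fun i b z y => (z + E (e.P i) b y, y) := by
  refine (e.win (t.pt_amt hE) (t.amt_hi E) _
    (fun i x c => x.2 c + E (e.P i) (t.b i x.2 c) (x.2 (t.y (e.P i) + c))) fun i j hj => ⟨hj, ?_⟩).mono
    (fun i x hx => ⟨hx, cw_win x⟩) fun _ => le_rfl
  rw [amt_eq, ← sum_dg, ← Finset.sum_add_distrib, ← Nat.mod_eq_of_lt (sum_lt_pow _ hj)]
  simp only [add_mul]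
  rfl

theorem CW.sub (t : Site e) {E : CP → Bool → ℕ → ℕ}
    (hE : PT fun a : CP × Bool × ℕ => E a.1 a.2.1 a.2.2) :
    t.CW (fun i b z y => E (e.P i) b y ≤ z) fun i b z y => (z - E (e.P i) b y, y) := by
  have h0 := t.pt_amt hE
  refine (e.win (r := fun a => a.1.R ^ a.1.k - t.amt E a) (by fun_prop)
    (fun i j j' h => by rw [t.amt_hi E i j j' h]) _
    (fun i x c => x.2 c - E (e.P i) (t.b i x.2 c) (x.2 (t.y (e.P i) + c))) fun i j hj => ?_).mono
    (fun i x hx => ⟨hx, cw_win x⟩) fun _ => le_rfl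
  have h1 : ∀ c < (e.P i).k, ((e.P i).dec j).2 c - E (e.P i) (t.b i ((e.P i).dec j).2 c)
      (((e.P i).dec j).2 (t.y (e.P i) + c)) < (e.P i).R :=
    fun c _ => (Nat.sub_le _ _).trans_lt ((e.P i).dec_lt j c)
  refine ⟨h1, ?_⟩
  have h2 := sum_lt_pow _ h1
  have h3 := dg_lt (w := (e.P i).w) (j := j) (pow_pos (e.P i).R_pos (e.P i).k)
  have h4 : dg (e.P i).w ((e.P i).R ^ (e.P i).k) j = t.amt E (e.P i, j) +
      ∑ c ∈ Finset.range (e.P i).k, (((e.P i).dec j).2 c - E (e.P i) (t.b i ((e.P i).dec j).2 c)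
      (((e.P i).dec j).2 (t.y (e.P i) + c))) * (e.P i).R ^ c := by
    rw [amt_eq, ← sum_dg, ← Finset.sum_add_distrib]
    refine Finset.sum_congr rfl fun c hc => ?_
    rw [← add_mul, Nat.add_sub_cancel' (hj c (Finset.mem_range.1 hc))]
    rfl
  dsimp only
  rw [Nat.mod_eq_sub_mod (by omega), Nat.mod_eq_of_lt (by omega)]
  omega

end Site

/-- exchanges of groups are available -/
def CE.Sw (e : CE ι) (W : ℕ) (γ : ℝ) (J : ι → ℕ) : Prop :=
  (∀ i, (e.P i).u * (e.P i).k = mm ^ J i ∧ W ^ J i ∣ (e.P i).w ∧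
    (e.P i).ρ + 1 + 2 * (e.P i).g ≤ (e.P i).K) ∧
  Bd (fun i => ((e.P i).g + 2) * γ ^ J i * ((e.P i).N * (e.B i * (e.q i + 1)))) e.U

theorem Site.CW.swap {e : CE ι} (t : Site e) {W : ℕ} {γ : ℝ} (hs : SWSpec W γ) (h0 : 0 ≤ γ)
    {J : ι → ℕ} (h : e.Sw W γ J) : t.CW (fun _ _ _ _ => True) fun _ _ z y => (y, z) := by
  have hy := t.hy
  have e1 : ∀ i, (e.P i).Q ^ mm ^ J i = (e.P i).R ^ (e.P i).k := fun i => by
    rw [← (h.1 i).1, pow_mul]; rfl
  have e2 : ∀ i, pb (e.P i).R (e.P i).DU (t.y (e.P i)) = (e.P i).R ^ t.y (e.P i) := fun i =>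
    pb_eq ((Nat.le_add_right _ _).trans (t.h i).2.1)
  refine ⟨_, AE.Pm.swap hs e.ae J (w := CP.w) (w' := fun P => P.w * pb P.R P.DU (t.y P))
    (Q := CP.Q) (k := fun P => mulU P.uU P.kU) (by fun_prop) (by fun_prop) (by fun_prop)
    (by fun_prop) (fun i => ?_) ((h.2.cmul 3).of_le fun i => ?_), fun i j _ => ?_⟩
  · dsimp only
    have h1 : 2 ^ 1 ≤ 2 ^ (e.P i).g := Nat.pow_le_pow_right (by omega) (e.h i).g1
    have h2 : 2 ^ 1 ∣ 2 ^ (e.P i).g := pow_dvd_pow _ (e.h i).g1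
    rw [e1, e2, length_mulU]
    refine ⟨(h.1 i).1, (h.1 i).2.1, (e.h i).w0, Nat.mul_dvd_mul_left _ (pow_dvd_pow _ (t.h i).1), ?_,
      by unfold CP.Q; omega, by unfold CP.Q; omega, (qp_mono (by omega)).trans (e.h i).hB⟩
    rw [mul_assoc, ← pow_add]
    exact Nat.mul_dvd_mul_left _ (pow_dvd_pow _ (t.h i).2.1)
  · have h1 : (e.P i).Q.size ≤ (e.P i).g + 2 := Nat.size_le.2 (by
      have := Nat.two_pow_pos (e.P i).g
      unfold CP.Q; rw [pow_add]; omega)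
    have h2 : ((e.P i).Q.size : ℝ) ≤ (e.P i).g + 2 := by exact_mod_cast h1
    dsimp only
    push_cast
    calc _ ≤ ((e.P i).g + 2) * γ ^ J i * ((e.P i).N * (e.B i * (3 * (e.q i + 1)))) := by
          gcongr; linarith [(by positivity : (0 : ℝ) ≤ e.q i)]
      _ = _ := by ring
  · dsimp only
    rw [e1, e2]
    exact cdec_swp (e.h i).w0 (e.P i).R_pos (t.h i).1

theorem xor_two_pow (ρ : ℕ) : ∀ y : ℕ,
    (y ^^^ 2 ^ ρ) + 2 * 2 ^ ρ * (y.testBit ρ).toNat = y + 2 ^ ρ := by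
  induction ρ with
  | zero =>
    intro y
    have h1 : (y ^^^ 2 ^ 0) / 2 = y / 2 := by rw [Nat.xor_div_two]; simp
    have h2 := Nat.xor_mod_two_eq_one (a := y) (b := 2 ^ 0)
    rw [Nat.testBit_zero]
    rw [pow_zero] at *
    generalize y ^^^ 1 = x at *
    by_cases h : y % 2 = 1 <;> simp only [h, decide_true, decide_false, Bool.toNat_true,
      Bool.toNat_false] <;> omega
  | succ ρ ih =>
    intro y
    have h1 : (y ^^^ 2 ^ (ρ + 1)) / 2 = y / 2 ^^^ 2 ^ ρ := by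
      rw [Nat.xor_div_two, pow_succ, Nat.mul_div_cancel _ (by omega)]
    have h2 := Nat.xor_mod_two_eq_one (a := y) (b := 2 ^ (ρ + 1))
    have h3 := ih (y / 2)
    rw [Nat.testBit_add_one]
    generalize ((y / 2).testBit ρ) = b at *
    rw [pow_succ] at *
    cases b <;> simp only [Bool.toNat_true, Bool.toNat_false] at * <;> omega

theorem testBit_shift (y ρ m : ℕ) : (y + (2 ^ ρ + 2 * 2 ^ ρ * m)).testBit ρ = !y.testBit ρ := by
  rw [Nat.testBit_eq_decide_div_mod_eq, Nat.testBit_eq_decide_div_mod_eq,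
    show y + (2 ^ ρ + 2 * 2 ^ ρ * m) = y + 2 ^ ρ * (1 + 2 * m) by ring,
    Nat.add_mul_div_left _ _ (by positivity)]
  by_cases h : y / 2 ^ ρ % 2 = 1 <;> simp [h] <;> omega

theorem Site.CW.xor {e : CE ι} (t : Site e) {W : ℕ} {γ : ℝ} (hs : SWSpec W γ) (h0 : 0 ≤ γ)
    {J : ι → ℕ} (h : e.Sw W γ J) :
    t.CW (fun i _ z y => z < 2 ^ (e.P i).K ∧ y < 2 ^ (e.P i).K)
      fun i b z y => (z, y ^^^ b.toNat * 2 ^ (e.P i).ρ) := by
  have s := Site.CW.swap t hs h0 h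
  let T : CP → ℕ := fun P => pb 2 P.KU P.ρ
  let H : CP → ℕ := fun P => pb 2 P.KU (P.K - P.g)
  have a1 := Site.CW.add t (E := fun P b Y => cond b (T P + 2 * T P * (Y / H P)) 0) (by fun_prop)
  have a2 := Site.CW.add t (E := fun P b Y => cond (b && !Y.testBit P.ρ) (H P) 0) (by fun_prop)
  have a3 := Site.CW.sub t (E := fun P b Y => cond b (2 * T P * (Y / H P)) 0) (by fun_prop)
  have a4 := Site.CW.sub t (E := fun P b Y => cond (b && !Y.testBit P.ρ) (H P) 0) (by fun_prop)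
  refine (((((((s.comp a1).comp s).comp a2).comp s).comp a3).comp s).comp a4).mono
    fun i b z y ⟨hz, hy⟩ => ?_
  have eT : T (e.P i) = 2 ^ (e.P i).ρ := pb_eq (e.h i).hρ.le
  have eH : H (e.P i) = 2 ^ ((e.P i).K - (e.P i).g) := pb_eq (Nat.sub_le _ _)
  have hR := (e.P i).R_ge' (e.h i).u0
  have hK := (h.1 i).2.2
  simp only [eT, eH]
  generalize (e.P i).K = K at *
  generalize (e.P i).g = g at *
  generalize (e.P i).ρ = ρ at *
  generalize (e.P i).R = R at *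
  have p1 : 0 < 2 ^ (K - g) := by positivity
  cases b
  · simp; omega
  have h1 : z / 2 ^ (K - g) < 2 ^ g := by
    rw [Nat.div_lt_iff_lt_mul p1, ← pow_add]; rwa [show g + (K - g) = K by omega]
  have h2 : 2 * 2 ^ ρ * 2 ^ g ≤ 2 ^ (K - g) := by
    rw [← pow_succ', ← pow_add]; exact Nat.pow_le_pow_right (by omega) (by omega)
  have h3 : 2 * 2 ^ ρ * (z / 2 ^ (K - g) + 1) ≤ 2 * 2 ^ ρ * 2 ^ g := Nat.mul_le_mul_left _ h1
  have h4 := xor_two_pow ρ y
  have h5 : (y ^^^ 2 ^ ρ).testBit ρ = !y.testBit ρ := by simp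
  simp only [cond_true, Bool.true_and, testBit_shift, Bool.not_not, Bool.toNat_true, one_mul,
    true_and, and_true]
  cases hb : y.testBit ρ
  · simp only [hb, Bool.toNat_false, mul_zero, add_zero, cond_false] at *
    have h6 : y + (2 ^ ρ + 2 * 2 ^ ρ * (z / 2 ^ (K - g))) - 2 * 2 ^ ρ * (z / 2 ^ (K - g)) =
        y ^^^ 2 ^ ρ := by omega
    rw [h6, h5]
    simp; rw [mul_add] at h3; omega
  · simp only [hb, Bool.toNat_true, mul_one, cond_true, Nat.add_div_right _ p1] at *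
    have h6 : y + (2 ^ ρ + 2 * 2 ^ ρ * (z / 2 ^ (K - g))) - 2 * 2 ^ ρ * (z / 2 ^ (K - g) + 1) =
        y ^^^ 2 ^ ρ := by rw [mul_add]; omega
    rw [h6, h5]
    simp; rw [mul_add] at *; omega

end Vale.Agent.P338
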