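import Vale.Agent.P338.Prims
import Vale.Agent.Lib.H24.PTNum

/-! A cost calculus for families of computations. -/

namespace Vale.Agent.P338

open Function
open Vale.Agent.Lib.H24.T (Enc enc code sz code_pair code_cons code_nil code_bool PT Pb sz_pair
  sz_cons sz_nil sz_pos sz_append sz_reverse length_le_sz)

variable {ι ι' : Type}

/-- `f = O(U)` -/
def Bd (f U : ι → ℝ) : Prop := ∃ c : ℕ, ∀ i, 0 ≤ U i ∧ f i ≤ c * U i

theorem Bd.nonneg {f U : ι → ℝ} (h : Bd f U) (i : ι) : 0 ≤ U i := h.choose_spec i |>.1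

theorem Bd.refl {U : ι → ℝ} (h : ∀ i, 0 ≤ U i) : Bd U U := ⟨1, fun i => ⟨h i, by simp⟩⟩

theorem Bd.of_le {f g U : ι → ℝ} (h : Bd g U) (hle : ∀ i, f i ≤ g i) : Bd f U := by
  obtain ⟨c, h⟩ := h
  exact ⟨c, fun i => ⟨(h i).1, (hle i).trans (h i).2⟩⟩

theorem Bd.add {f g U : ι → ℝ} (h : Bd f U) (h' : Bd g U) : Bd (fun i => f i + g i) U := by
  obtain ⟨c, h⟩ := h
  obtain ⟨c', h'⟩ := h'
  refine ⟨c + c', fun i => ⟨(h i).1, ?_⟩⟩
  have := (h i).2
  have := (h' i).2
  push_cast; linarith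

theorem Bd.cmul {f U : ι → ℝ} (k : ℕ) (h : Bd f U) : Bd (fun i => k * f i) U := by
  obtain ⟨c, h⟩ := h
  refine ⟨k * c, fun i => ⟨(h i).1, ?_⟩⟩
  have := mul_le_mul_of_nonneg_left (h i).2 (Nat.cast_nonneg (α := ℝ) k)
  push_cast; linarith

theorem Bd.trans {f g U : ι → ℝ} (h : Bd f g) (h' : Bd g U) : Bd f U := by
  obtain ⟨c, h⟩ := h
  exact (h'.cmul c).of_le fun i => (h i).2

theorem Bd.mul {f g U U' : ι → ℝ} (h : Bd f U) (h' : Bd g U') (hg : ∀ i, 0 ≤ g i) :
    Bd (fun i => f i * g i) (fun i => U i * U' i) := by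
  obtain ⟨c, h⟩ := h
  obtain ⟨c', h'⟩ := h'
  refine ⟨c * c', fun i => ⟨mul_nonneg (h i).1 (h' i).1, ?_⟩⟩
  have h1 := mul_le_mul (h i).2 (h' i).2 (hg i) (mul_nonneg (Nat.cast_nonneg c) (h i).1)
  push_cast; linarith

theorem Bd.re {f U : ι → ℝ} (h : Bd f U) (g : ι' → ι) : Bd (fun i => f (g i)) (fun i => U (g i)) := by
  obtain ⟨c, h⟩ := h
  exact ⟨c, fun i => h (g i)⟩

theorem Bd.le_right {U U' : ι → ℝ} (h0 : ∀ i, 0 ≤ U i) (h : ∀ i, U i ≤ U' i) : Bd U U' :=
  ⟨1, fun i => ⟨(h0 i).trans (h i), by simpa using h i⟩⟩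

theorem Bd.const {U : ι → ℝ} (h : Bd (fun _ => 1) U) (k : ℕ) : Bd (fun _ => (k : ℝ)) U :=
  (h.cmul k).of_le fun i => by simp

/-- `a` is smaller than `U` by more than any polynomial -/
def Small (a : ι → ℕ) (U : ι → ℝ) : Prop := ∀ k : ℕ, Bd (fun i => ((a i : ℝ) + 2) ^ k) U

theorem Small.trans {a : ι → ℕ} {U U' : ι → ℝ} (h : Small a U) (h' : Bd U U') : Small a U' :=
  fun k => (h k).trans h'

theorem Small.re {a : ι → ℕ} {U : ι → ℝ} (h : Small a U) (g : ι' → ι) :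
    Small (fun i => a (g i)) (fun i => U (g i)) := fun k => (h k).re g

theorem Small.poly {a b : ι → ℕ} {U : ι → ℝ} (h : Small a U) (j : ℕ)
    (hb : ∀ i, b i ≤ (a i + 2) ^ j) : Small b U := fun k => (h ((j + 2) * k)).of_le fun i => by
  rw [pow_mul]
  refine pow_le_pow_left₀ (by positivity) ?_ k
  have h1 : (b i : ℝ) ≤ (a i + 2) ^ j := by exact_mod_cast hb i
  have h2 : (1 : ℝ) ≤ (a i + 2) ^ j := one_le_pow₀ (by linarith [Nat.cast_nonneg (α := ℝ) (a i)])
  have h3 : (4 : ℝ) ≤ (a i + 2) ^ 2 := by nlinarith [Nat.cast_nonneg (α := ℝ) (a i)]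
  rw [pow_add]
  nlinarith

theorem Small.of_le {a b : ι → ℕ} {U : ι → ℝ} (h : Small a U) (hb : ∀ i, b i ≤ a i) : Small b U :=
  h.poly 1 fun i => by have := hb i; rw [pow_one]; omega

theorem Small.add {a b : ι → ℕ} {U : ι → ℝ} (h : Small a U) (h' : Small b U) :
    Small (fun i => a i + b i) U := fun k => ((h (2 * k)).add (h' (2 * k))).of_le fun i => by
  have ha := Nat.cast_nonneg (α := ℝ) (a i)
  have hb := Nat.cast_nonneg (α := ℝ) (b i)
  simp only [pow_mul]
  push_cast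
  rcases le_total (a i : ℝ) (b i) with h1 | h1
  · have : ((a i : ℝ) + b i + 2) ^ k ≤ ((b i + 2) ^ 2) ^ k :=
      pow_le_pow_left₀ (by positivity) (by nlinarith) k
    have : (0 : ℝ) ≤ ((a i + 2) ^ 2) ^ k := by positivity
    linarith
  · have : ((a i : ℝ) + b i + 2) ^ k ≤ ((a i + 2) ^ 2) ^ k :=
      pow_le_pow_left₀ (by positivity) (by nlinarith) k
    have : (0 : ℝ) ≤ ((b i + 2) ^ 2) ^ k := by positivity
    linarith

theorem Small.bd {a : ι → ℕ} {U : ι → ℝ} (h : Small a U) : Bd (fun i => (a i : ℝ)) U :=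
  (h 1).of_le fun i => by simp

theorem Small.one {a : ι → ℕ} {U : ι → ℝ} (h : Small a U) : Bd (fun _ => 1) U :=
  (h 0).of_le fun i => by simp

theorem Small.const {U : ι → ℝ} (h : Bd (fun _ => 1) U) (n : ℕ) : Small (fun _ => n) U :=
  fun k => (h.const ((n + 2) ^ k)).of_le fun i => by simp

variable {α β γ δ σ : Type} [Enc α] [Enc β] [Enc γ] [Enc δ] [Enc σ]

theorem Small.pt {a : ι → α} {U : ι → ℝ} (h : Small (fun i => sz (a i)) U) {f : α → β}
    (hf : PT f) : Small (fun i => sz (f (a i))) U := by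
  obtain ⟨k, hk⟩ := Pb.sz hf
  exact h.poly k fun i => hk _

theorem Small.pair {a : ι → α} {b : ι → β} {U : ι → ℝ} (h : Small (fun i => sz (a i)) U)
    (h' : Small (fun i => sz (b i)) U) : Small (fun i => sz (a i, b i)) U :=
  ((h.add h').add (Small.const h.one 1)).of_le fun i => by simp

/-- One program maps `x i` to `y i` in time `O(U i) + V i`, where `s i` answers the calls. -/
def Cmp (s : ι → Prog) (x : ι → α) (y : ι → β) (U V : ι → ℝ) : Prop :=
  ∃ (p : Prog) (c : ℕ), ∀ i, 0 ≤ U i ∧ 0 ≤ V i ∧ (sz (x i) + sz (y i) + 1 : ℝ) ≤ c * U i ∧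
    ∃ t : ℕ, (t : ℝ) ≤ c * U i + V i ∧ Run (s i) p (code (x i)) (code (y i)) t

section
variable {s : ι → Prog} {x : ι → α} {y : ι → β} {z : ι → γ} {U U' V V' : ι → ℝ}

theorem Cmp.mk' (p : Prog) (f : ι → ℝ) (hf : Bd f U) (hx : Bd (fun i => (sz (x i) : ℝ)) U)
    (hy : Bd (fun i => (sz (y i) : ℝ)) U) (h1 : Bd (fun _ => 1) U) (hV : ∀ i, 0 ≤ V i)
    (h : ∀ i, ∃ t : ℕ, (t : ℝ) ≤ f i + V i ∧ Run (s i) p (code (x i)) (code (y i)) t) :
    Cmp s x y U V := by
  obtain ⟨c, hc⟩ := (hx.add hy).add h1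
  obtain ⟨c', hc'⟩ := hf
  refine ⟨p, c + c', fun i => ?_⟩
  obtain ⟨t, ht, hr⟩ := h i
  have h0 := (hc i).1
  have h2 := (hc i).2
  have h3 := (hc' i).2
  have h4 : (0 : ℝ) ≤ c * U i := by positivity
  have h5 : (0 : ℝ) ≤ c' * U i := by positivity
  refine ⟨h0, hV i, by push_cast; linarith, t, by push_cast; linarith, hr⟩

theorem Cmp.bdx (h : Cmp s x y U V) : Bd (fun i => (sz (x i) : ℝ)) U := by
  obtain ⟨p, c, h⟩ := h
  exact ⟨c, fun i => ⟨(h i).1, by linarith [(h i).2.2.1, (by positivity : (0 : ℝ) ≤ sz (y i))]⟩⟩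

theorem Cmp.bdy (h : Cmp s x y U V) : Bd (fun i => (sz (y i) : ℝ)) U := by
  obtain ⟨p, c, h⟩ := h
  exact ⟨c, fun i => ⟨(h i).1, by linarith [(h i).2.2.1, (by positivity : (0 : ℝ) ≤ sz (x i))]⟩⟩

theorem Cmp.bd1 (h : Cmp s x y U V) : Bd (fun _ => 1) U := by
  obtain ⟨p, c, h⟩ := h
  exact ⟨c, fun i => ⟨(h i).1, by linarith [(h i).2.2.1, (by positivity : (0 : ℝ) ≤ sz (x i)),
    (by positivity : (0 : ℝ) ≤ sz (y i))]⟩⟩

theorem Cmp.V0 (h : Cmp s x y U V) (i : ι) : 0 ≤ V i := by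
  obtain ⟨p, c, h⟩ := h
  exact (h i).2.1

theorem Cmp.out (h : Cmp s x y U V) : ∃ (p : Prog) (f : ι → ℝ), Bd f U ∧
    ∀ i, ∃ t : ℕ, (t : ℝ) ≤ f i + V i ∧ Run (s i) p (code (x i)) (code (y i)) t := by
  obtain ⟨p, c, h⟩ := h
  exact ⟨p, fun i => c * U i, ⟨c, fun i => ⟨(h i).1, le_rfl⟩⟩, fun i => (h i).2.2.2⟩

theorem Cmp.mono (h : Cmp s x y U V) (hU : Bd U U') (hV : ∀ i, V i ≤ V' i) : Cmp s x y U' V' := by
  obtain ⟨p, f, hf, hr⟩ := h.out
  refine Cmp.mk' p f (hf.trans hU) (h.bdx.trans hU) (h.bdy.trans hU) (h.bd1.trans hU)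
    (fun i => (h.V0 i).trans (hV i)) fun i => ?_
  obtain ⟨t, ht, hr⟩ := hr i
  exact ⟨t, by linarith [hV i], hr⟩

theorem Cmp.monoV (h : Cmp s x y U V) (hV : ∀ i, V i ≤ V' i) : Cmp s x y U V' :=
  h.mono (Bd.refl h.bd1.nonneg) hV

theorem Cmp.absorb (h : Cmp s x y U V) (hV : Bd V U) : Cmp s x y U 0 := by
  obtain ⟨p, f, hf, hr⟩ := h.out
  refine Cmp.mk' p _ (hf.add hV) h.bdx h.bdy h.bd1 (fun i => le_rfl) fun i => ?_
  obtain ⟨t, ht, hr⟩ := hr i
  exact ⟨t, by simpa using ht, hr⟩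

theorem Cmp.re (h : Cmp s x y U V) (g : ι' → ι) :
    Cmp (fun i => s (g i)) (fun i => x (g i)) (fun i => y (g i)) (fun i => U (g i))
      (fun i => V (g i)) := by
  obtain ⟨p, c, h⟩ := h
  exact ⟨p, c, fun i => h (g i)⟩

theorem Cmp.of_enc {x' : ι → γ} {y' : ι → δ} (h : Cmp s x y U V) (hx : ∀ i, enc (x' i) = enc (x i))
    (hy : ∀ i, enc (y' i) = enc (y i)) : Cmp s x' y' U V := by
  obtain ⟨p, c, h⟩ := h
  refine ⟨p, c, fun i => ?_⟩
  have := h i
  unfold sz code at this ⊢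
  rwa [hx, hy]

theorem Cmp.congr {x' : ι → α} {y' : ι → β} (h : Cmp s x y U V) (hx : ∀ i, x' i = x i)
    (hy : ∀ i, y' i = y i) : Cmp s x' y' U V :=
  h.of_enc (fun i => by rw [hx]) fun i => by rw [hy]

theorem Cmp.trans (h : Cmp s x y U V) (h' : Cmp s y z U V') :
    Cmp s x z U (fun i => V i + V' i) := by
  obtain ⟨p, f, hf, hr⟩ := h.out
  obtain ⟨q, g, hg, hr'⟩ := h'.out
  refine Cmp.mk' (.seq p q) _ (hf.add hg) h.bdx h'.bdy h.bd1
    (fun i => add_nonneg (h.V0 i) (h'.V0 i)) fun i => ?_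
  obtain ⟨t, ht, hr⟩ := hr i
  obtain ⟨t', ht', hr'⟩ := hr' i
  exact ⟨t + t', by push_cast; linarith, hr.comp hr'⟩

theorem Cmp.trans0 (h : Cmp s x y U V) (h' : Cmp s y z U 0) : Cmp s x z U V :=
  (h.trans h').monoV fun i => by simp

theorem Cmp.trans0' (h : Cmp s x y U 0) (h' : Cmp s y z U V) : Cmp s x z U V :=
  (h.trans h').monoV fun i => by simp

theorem Cmp.pair (h : Cmp s x y U V) (h' : Cmp s x z U V') :
    Cmp s x (fun i => (y i, z i)) U (fun i => V i + V' i) := by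
  obtain ⟨p, f, hf, hr⟩ := h.out
  obtain ⟨q, g, hg, hr'⟩ := h'.out
  refine Cmp.mk' (pairP p q) _ (((((hf.add hg).add (h.bdx.cmul 3)).add (h.bdy.cmul 2)).add
    (h'.bdy.cmul 2)).add (h.bd1.const 7)) h.bdx (((h.bdy.add h'.bdy).add h.bd1).of_le
      fun i => by simp) h.bd1 (fun i => add_nonneg (h.V0 i) (h'.V0 i)) fun i => ?_
  obtain ⟨t, ht, hr⟩ := hr i
  obtain ⟨t', ht', hr'⟩ := hr' i
  exact ⟨t + t' + 3 * sz (x i) + 2 * sz (y i) + 2 * sz (z i) + 7, by push_cast; linarith,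
    hr.pair hr'⟩

theorem Cmp.id (hx : Bd (fun i => (sz (x i) : ℝ)) U) : Cmp s x x U 0 :=
  Cmp.mk' .skip _ hx hx hx (hx.of_le fun i => by exact_mod_cast sz_pos _) (fun _ => le_rfl)
    fun i => ⟨0, by simp, Tri.skip⟩

/-- a closed program with a linear time bound -/
theorem Cmp.prim (p : Prog) (k : ℕ) (hx : Bd (fun i => (sz (x i) : ℝ)) U)
    (h : ∀ i, Run (s i) p (code (x i)) (code (y i)) (k * (sz (x i) + 1))) : Cmp s x y U 0 := by
  have h1 : Bd (fun _ => 1) U := hx.of_le fun i => by exact_mod_cast sz_pos _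
  have ht := (hx.add h1).cmul k
  refine Cmp.mk' p _ ht hx ((hx.add ((ht.add h1).cmul p.size)).of_le fun i => ?_) h1
    (fun _ => le_rfl) fun i => ⟨_, by simp, h i⟩
  exact_mod_cast (h i).length

theorem Cmp.pt {f : β → γ} (h : Cmp s x y U V) (hf : PT f) (hs : Small (fun i => sz (y i)) U) :
    Cmp s x (fun i => f (y i)) U V := by
  have h2 := (hs.pt hf).bd
  obtain ⟨p, t, ⟨k, hk⟩, hp⟩ := hf
  refine h.trans0 (Cmp.mk' (emb p) _ (hs k) h.bdy h2 h.bd1 (fun _ => le_rfl) fun i =>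
    ⟨t (y i), ?_, Run.emb (hp _)⟩)
  simp only [Pi.zero_apply, add_zero]
  exact_mod_cast hk _

theorem Cmp.call {T : ι → ℝ} (hx : Bd (fun i => (sz (x i) : ℝ)) U)
    (hy : Bd (fun i => (sz (y i) : ℝ)) U)
    (h : ∀ i, ∃ t : ℕ, (t : ℝ) ≤ T i ∧ Run (s i) (s i) (code (x i)) (code (y i)) t) :
    Cmp s x y U T := by
  have h1 : Bd (fun _ => 1) U := hx.of_le fun i => by exact_mod_cast sz_pos _
  refine Cmp.mk' (.call 0) _ ((hx.add hy).add h1) hx hy h1 (fun i => ?_) fun i => ?_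
  · obtain ⟨t, ht, -⟩ := h i
    exact (Nat.cast_nonneg t).trans ht
  · obtain ⟨t, ht, hr⟩ := h i
    exact ⟨_, by simp only [len_code]; push_cast; linarith, hr.call⟩

theorem Cmp.fix {T : ι → ℝ} (p : Prog) (hx : Bd (fun i => (sz (x i) : ℝ)) U)
    (hy : Bd (fun i => (sz (y i) : ℝ)) U) (hT : Bd T U)
    (h : ∀ i, ∃ t : ℕ, (t : ℝ) ≤ T i ∧ Run p p (code (x i)) (code (y i)) t) :
    Cmp s x y U 0 := by
  have h1 : Bd (fun _ => 1) U := hx.of_le fun i => by exact_mod_cast sz_pos _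
  refine Cmp.mk' (.fix 0 p) _ (((hx.add hy).add h1).add hT) hx hy h1 (fun i => le_rfl) fun i => ?_
  obtain ⟨t, ht, hr⟩ := h i
  exact ⟨_, by simp only [len_code, Pi.zero_apply]; push_cast; linarith, hr.fix⟩

theorem Cmp.cases {b : ι → Bool} (hb : Cmp s x b U 0)
    (h1 : Cmp (fun i : {i // b i = true} => s i) (fun i => x i) (fun i => y i) (fun i => U i)
      fun i => V i)
    (h2 : Cmp (fun i : {i // b i = false} => s i) (fun i => x i) (fun i => y i) (fun i => U i)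
      fun i => V i) : Cmp s x y U V := by
  obtain ⟨p0, c0, h0⟩ := hb.pair (Cmp.id hb.bdx)
  obtain ⟨p, c, h1⟩ := h1
  obtain ⟨q, c', h2⟩ := h2
  refine ⟨.seq p0 (.seq (.pop 0) (bcase 0 p q)), c0 + c + c', fun i => ?_⟩
  obtain ⟨a0, -, a1, t0, a2, a3⟩ := h0 i
  have e0 : (0 : ℝ) ≤ c0 * U i := by positivity
  have e1 : (0 : ℝ) ≤ c * U i := by positivity
  have e2 : (0 : ℝ) ≤ c' * U i := by positivity
  simp only [Pi.zero_apply, add_zero] at a2
  cases hi : b i
  · obtain ⟨-, b1, b2, t, b3, b4⟩ := h2 ⟨i, hi⟩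
    simp only [hi] at a3 b1 b2 b3 b4
    exact ⟨a0, b1, by push_cast; linarith, t0 + t, by push_cast; linarith,
      a3.comp (Run.condF b4)⟩
  · obtain ⟨-, b1, b2, t, b3, b4⟩ := h1 ⟨i, hi⟩
    simp only [hi] at a3 b1 b2 b3 b4
    exact ⟨a0, b1, by push_cast; linarith, t0 + t, by push_cast; linarith,
      a3.comp (Run.condT b4)⟩

end

/-- arrays -/
def tab {α : Type} (N : ℕ) (F : ℕ → α) : List α := (List.range N).map F

/-- positions in a family of arrays -/
abbrev Pos (N : ι → ℕ) : Type := {p : ι × ℕ // p.2 < N p.1}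

theorem Cmp.scan {s : ι → Prog} {N : ι → ℕ} {st : ι → ℕ → σ} {F : ι → ℕ → α}
    {out : ι → ℕ → List β} {U V : ι → ℝ} {U' V' : ι → ℕ → ℝ}
    (h : Cmp (fun q : Pos N => s q.1.1) (fun q => (st q.1.1 q.1.2, F q.1.1 q.1.2))
      (fun q => (st q.1.1 (q.1.2 + 1), out q.1.1 q.1.2)) (fun q => U' q.1.1 q.1.2)
      fun q => V' q.1.1 q.1.2)
    (hU : Bd (fun i => ∑ j ∈ Finset.range (N i), U' i j) U)
    (h0 : Bd (fun i => (sz (st i 0) : ℝ)) U) (hV0 : ∀ i, 0 ≤ V i)
    (hV : ∀ i, ∑ j ∈ Finset.range (N i), V' i j ≤ V i) :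
    Cmp s (fun i => (st i 0, tab (N i) (F i)))
      (fun i => (st i (N i), (List.range (N i)).flatMap (out i))) U V := by
  classical
  obtain ⟨p, c, h⟩ := h
  have h1 : Bd (fun _ => 1) U := h0.of_le fun i => by exact_mod_cast sz_pos _
  have hc : ∀ i n, n ≤ N i → ((∑ j ∈ Finset.range n, (sz (st i j, F i j) +
      sz (st i (j + 1), out i j)) : ℕ) : ℝ) ≤ c * ∑ j ∈ Finset.range n, U' i j := by
    intro i n hn
    rw [Finset.mul_sum]
    push_cast
    refine Finset.sum_le_sum fun j hj => ?_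
    have := (h ⟨(i, j), by simp at hj ⊢; omega⟩).2.2.1
    simp only at this
    linarith
  have a1 : ∀ i n, sz (tab n (F i)) + sz (st i n) + sz ((List.range n).flatMap (out i)) ≤
      ∑ j ∈ Finset.range n, (sz (st i j, F i j) + sz (st i (j + 1), out i j)) +
        sz (st i 0) + 2 := by
    intro i n
    induction n with
    | zero => simp [tab]; omega
    | succ n ih =>
      have := sz_append (tab n (F i)) [F i n]
      have := sz_append ((List.range n).flatMap (out i)) (out i n)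
      simp only [tab, List.range_succ, List.map_append, List.flatMap_append, List.flatMap_cons,
        List.flatMap_nil, List.append_nil, Finset.sum_range_succ, sz_pair, List.map_cons,
        List.map_nil, sz_cons, sz_nil] at *
      omega
  have hB := ((hU.cmul c).add (h0.cmul 2)).add (h1.const 3)
  refine Cmp.mk' (scanP p) _ (((hU.cmul (5 * c)).add (h0.cmul 4)).add (h1.const 8))
    (hB.of_le fun i => ?_) (hB.of_le fun i => ?_) h1 hV0 fun i => ?_
  · have := hc i _ le_rfl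
    have h2 : ((sz (st i 0, tab (N i) (F i)) : ℕ) : ℝ) ≤ ((∑ j ∈ Finset.range (N i),
        (sz (st i j, F i j) + sz (st i (j + 1), out i j)) + 2 * sz (st i 0) + 3 : ℕ) : ℝ) := by
      have := a1 i (N i)
      exact_mod_cast (by simp only [sz_pair] at *; omega)
    push_cast at *
    linarith
  · have := hc i _ le_rfl
    have h2 : ((sz (st i (N i), (List.range (N i)).flatMap (out i)) : ℕ) : ℝ) ≤
        ((∑ j ∈ Finset.range (N i),
        (sz (st i j, F i j) + sz (st i (j + 1), out i j)) + 2 * sz (st i 0) + 3 : ℕ) : ℝ) := by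
      have := a1 i (N i)
      exact_mod_cast (by simp only [sz_pair] at *; omega)
    push_cast at *
    linarith
  · have ht : ∀ j, ∃ t : ℕ, j < N i → (t : ℝ) ≤ c * U' i j + V' i j ∧
        Run (s i) p (code (st i j, F i j)) (code (st i (j + 1), out i j)) t := by
      intro j
      by_cases hj : j < N i
      · obtain ⟨t, ht⟩ := (h ⟨(i, j), hj⟩).2.2.2
        exact ⟨t, fun _ => ht⟩
      · exact ⟨0, fun h => absurd h hj⟩
    choose t ht using ht
    refine ⟨_, ?_, Run.scan (N i) (st i) (F i) (out i) t fun j hj => (ht j hj).2⟩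
    have h2 := hc i _ le_rfl
    have h3 : ∑ j ∈ Finset.range (N i), (t j : ℝ) ≤
        c * ∑ j ∈ Finset.range (N i), U' i j + ∑ j ∈ Finset.range (N i), V' i j := by
      rw [Finset.mul_sum, ← Finset.sum_add_distrib]
      exact Finset.sum_le_sum fun j hj => (ht j (by simpa using hj)).1
    have h4 := hV i
    rw [Finset.sum_add_distrib, ← Finset.mul_sum]
    push_cast at *
    linarith

/-- Input family and budget. -/
structure Ctx (ι α : Type) where
  s : ι → Prog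
  x : ι → α
  U : ι → ℝ

/-- `y` is computed from the input within the budget. -/
@[fun_prop] def Lin (c : Ctx ι α) (y : ι → β) : Prop := Cmp c.s c.x y c.U 0

section
variable {c : Ctx ι α}

theorem Lin.bd {y : ι → β} (h : Lin c y) : Bd (fun i => (sz (y i) : ℝ)) c.U := Cmp.bdy h
theorem Lin.one {y : ι → β} (h : Lin c y) : Bd (fun _ => 1) c.U := Cmp.bd1 h

theorem Lin.len {y : ι → List β} (h : Lin c y) : Bd (fun i => ((y i).length : ℝ)) c.U :=
  h.bd.of_le fun i => by exact_mod_cast length_le_sz _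

theorem Lin.app {y : ι → β} {z : ι → γ} (h : Lin c y) (h' : Cmp c.s y z c.U 0) : Lin c z :=
  Cmp.trans0 h h'

theorem Lin.prim {y : ι → β} {z : ι → γ} (h : Lin c y) (p : Prog) (k : ℕ)
    (hp : ∀ i, Run (c.s i) p (code (y i)) (code (z i)) (k * (sz (y i) + 1))) : Lin c z :=
  h.app (Cmp.prim p k h.bd hp)

theorem Lin.congr {y y' : ι → β} (h : Lin c y) (e : ∀ i, y' i = y i) : Lin c y' :=
  Cmp.congr h (fun _ => rfl) e

theorem Lin.of_enc {y : ι → β} {y' : ι → γ} (h : Lin c y) (e : ∀ i, enc (y' i) = enc (y i)) :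
    Lin c y' := Cmp.of_enc h (fun _ => rfl) e

theorem Lin.pt {y : ι → β} {f : β → γ} (h : Lin c y) (hf : PT f)
    (hs : Small (fun i => sz (y i)) c.U) : Lin c (fun i => f (y i)) := Cmp.pt h hf hs

@[fun_prop] theorem Lin.pair {y : ι → β} {z : ι → γ} (h : Lin c y) (h' : Lin c z) :
    Lin c (fun i => (y i, z i)) := (Cmp.pair h h').monoV fun i => by simp

theorem Lin.left {y : ι → β} (h : Lin c y) : Lin c (fun i => (enc (y i)).left) :=
  h.prim (emb Vale.Agent.Lib.H24.T.leftP) 2 fun i =>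
    (Run.emb (Vale.Agent.Lib.H24.T.Run.left (enc (y i)))).mono (by unfold sz code; omega)

theorem Lin.right {y : ι → β} (h : Lin c y) : Lin c (fun i => (enc (y i)).right) :=
  h.prim (emb Vale.Agent.Lib.H24.T.rightP) 2 fun i =>
    (Run.emb (Vale.Agent.Lib.H24.T.Run.right (enc (y i)))).mono (by unfold sz code; omega)

@[fun_prop] theorem Lin.fst {y : ι → β × γ} (h : Lin c y) : Lin c (fun i => (y i).1) :=
  h.left.of_enc fun _ => rfl

@[fun_prop] theorem Lin.snd {y : ι → β × γ} (h : Lin c y) : Lin c (fun i => (y i).2) :=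
  h.right.of_enc fun _ => rfl

@[fun_prop] theorem Lin.cons {y : ι → β} {z : ι → List β} (h : Lin c y) (h' : Lin c z) :
    Lin c (fun i => y i :: z i) := (h.pair h').of_enc fun _ => rfl

@[fun_prop] theorem Lin.tail {y : ι → List β} (h : Lin c y) : Lin c (fun i => (y i).tail) :=
  h.right.of_enc fun i => by cases y i <;> rfl

theorem Lin.head {y : ι → β} {z : ι → List β} (h : Lin c (fun i => y i :: z i)) : Lin c y :=
  h.left.of_enc fun _ => rfl

theorem Lin.const (hx : Bd (fun i => (sz (c.x i) : ℝ)) c.U) (b : β) : Lin c (fun _ => b) :=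
  Cmp.prim (emb _) 1 hx fun i =>
    (Run.emb (Vale.Agent.Lib.H24.T.Run.const (code b) (code (c.x i)))).mono (by simp [len_code])

theorem Lin.cst {y : ι → γ} (h : Lin c y) (b : β) : Lin c (fun _ => b) := Lin.const (Cmp.bdx h) b

theorem Lin.isNode {y : ι → β} (h : Lin c y) : Lin c (fun i => (enc (y i)).isNode) :=
  h.prim (emb Vale.Agent.Lib.H24.T.isNodeP) 1 fun i => by
    rw [code_bool]
    exact (Run.emb (Vale.Agent.Lib.H24.T.Run.isNode (enc (y i)))).mono (by unfold sz code; omega)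

@[fun_prop] theorem Lin.cond {b : ι → Bool} {y z : ι → β} (hb : Lin c b) (h : Lin c y)
    (h' : Lin c z) : Lin c (fun i => cond (b i) (y i) (z i)) :=
  Cmp.cases hb ((Cmp.re h Subtype.val).congr (fun _ => rfl) fun i => by simp [i.2])
    ((Cmp.re h' Subtype.val).congr (fun _ => rfl) fun i => by simp [i.2])

@[fun_prop] theorem Lin.append {y z : ι → List β} (h : Lin c y) (h' : Lin c z) :
    Lin c (fun i => y i ++ z i) :=
  (h.pair h').prim appendP 2 fun i => (Run.append _ _).mono (by simp; omega)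

@[fun_prop] theorem Lin.reverse {y : ι → List β} (h : Lin c y) : Lin c (fun i => (y i).reverse) :=
  h.prim reverseP 5 fun i => (Run.reverse _).mono (by omega)

@[fun_prop] theorem Lin.zip {y : ι → List β} {z : ι → List γ} (h : Lin c y) (h' : Lin c z) :
    Lin c (fun i => (y i).zip (z i)) :=
  (h.pair h').prim zipP 8 fun i => (Run.zip _ _).mono (by simp; omega)

@[fun_prop] theorem Lin.merge {b : ι → List Bool} {y z : ι → List β} (hb : Lin c b) (h : Lin c y)
    (h' : Lin c z) : Lin c (fun i => merge (b i) (y i) (z i)) :=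
  (hb.pair (h.pair h')).prim mergeP 6 fun i => (Run.merge _ _ _).mono (by simp; omega)

theorem Lin.group {y : ι → List ((Bool × Bool) × β)} {L : ι → List (List β)} (h : Lin c y)
    (e : ∀ i, rawG (y i) = body (L i)) : Lin c L :=
  h.prim groupP 5 fun i => (Run.group _ _ (e i)).mono (by
    have h1 := len_body (L i)
    have h2 : ∀ l : List ((Bool × Bool) × β), (rawG l).length ≤ sz l := by
      intro l
      induction l with
      | nil => simp [rawG]
      | cons a l ih =>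
        obtain ⟨⟨b1, b2⟩, a⟩ := a
        have := sz_pos b1
        have := sz_pos b2
        simp only [rawG, List.flatMap_cons, List.length_append, sz_cons, sz_pair,
          List.length_cons, len_code] at ih ⊢
        split_ifs <;> simp only [List.length_cons, List.length_nil] <;> omega
    have := h2 (y i)
    rw [e i] at this
    omega)

end

end Vale.Agent.P338
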