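import Vale.Agent.P338.SM
import Vale.Agent.P338.Spec

/-! Compilation of stack programs with recursion to Turing machines. -/

namespace Vale.Agent.P338.CA

open Function
open Vale.Agent.Lib.H24.T (W W0 W1 W2 W3 uW0 uW1 uW2 uW3 scons code code_pair code_cons code_nil
  code_bool serB)

/-- Control points reachable while running `p` with continuation `k`. -/
def pts : Prog → List Prog → List (List Prog)
  | .seq p q, k => (.seq p q :: k) :: (pts p (q :: k) ++ pts q k)
  | .ifv f p q, k => (.ifv f p q :: k) :: (pts p k ++ pts q k)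
  | .whilePop x b, k => (.whilePop x b :: k) :: pts b (.whilePop x b :: k)
  | p, k => [p :: k]

lemma head_mem_pts (p : Prog) (k : List Prog) : p :: k ∈ pts p k := by
  cases p <;> simp [pts]

/-- Bodies of nested recursions. -/
def bd : Prog → List Prog
  | .seq p q => bd p ++ bd q
  | .ifv _ p q => bd p ++ bd q
  | .whilePop _ b => bd b
  | .fix _ b => b :: bd b
  | _ => []

lemma bd_trans {p b c : Prog} (h : b ∈ bd p) (h' : c ∈ bd b) : c ∈ bd p := by
  induction p with
  | seq p q ih1 ih2 =>
    simp only [bd, List.mem_append] at h ⊢; exact h.imp ih1 ih2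
  | ifv f p q ih1 ih2 =>
    simp only [bd, List.mem_append] at h ⊢; exact h.imp ih1 ih2
  | whilePop x p ih => exact ih h
  | fix x p ih =>
    simp only [bd, List.mem_cons] at h ⊢
    rcases h with rfl | h
    · exact Or.inr h'
    · exact Or.inr (ih h)
  | _ => simp [bd] at h

/-- A measure bounding the number of nodes and all stack indices. -/
def ms : Prog → ℕ
  | .skip => 1
  | .push x _ => x + 1
  | .pushv x _ => x + 1
  | .pop x => x + 1
  | .popv x => x + 1
  | .seq p q => ms p + ms q + 1
  | .ifv _ p q => ms p + ms q + 1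
  | .whilePop x b => x + ms b + 1
  | .call x => x + 1
  | .fix x b => x + ms b + 1

lemma ms_bd {p b : Prog} (h : b ∈ bd p) : ms b ≤ ms p := by
  induction p with
  | seq p q ih1 ih2 =>
    simp only [bd, List.mem_append, ms] at h ⊢
    rcases h with h | h
    · have := ih1 h; omega
    · have := ih2 h; omega
  | ifv f p q ih1 ih2 =>
    simp only [bd, List.mem_append, ms] at h ⊢
    rcases h with h | h
    · have := ih1 h; omega
    · have := ih2 h; omega
  | whilePop x p ih => have := ih h; simp only [ms]; omega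
  | fix x p ih =>
    simp only [bd, List.mem_cons, ms] at h ⊢
    rcases h with rfl | h
    · omega
    · have := ih h; omega
  | _ => simp [bd] at h

/-- All control points of a program. -/
def allPts (P : Prog) : List (Prog × List Prog) :=
  (P :: bd P).flatMap fun s => ([] :: pts s []).map fun c => (s, c)

/-- The finite type of control points. -/
abbrev Pt (P : Prog) : Type := {c : Prog × List Prog // c ∈ allPts P}

instance (P : Prog) : Finite (Pt P) := (List.finite_toSet (allPts P)).to_subtype

open scoped Classical in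
/-- Retraction onto the control points. -/
noncomputable def rt (P : Prog) (c : Prog × List Prog) : Pt P :=
  if h : c ∈ allPts P then ⟨c, h⟩ else ⟨(P, []), by simp [allPts]⟩

lemma rt_val {P : Prog} {c : Prog × List Prog} (h : c ∈ allPts P) : (rt P c).1 = c := by
  rw [rt, dif_pos h]

/-- Modes of the machine. -/
inductive Mode : Type
  | in1 | in2 | main | c1 | c2 | r1 | r2 | outp | done
  deriving DecidableEq

instance : Finite Mode := Finite.of_surjective
  (fun n : Fin 9 => [Mode.in1, .in2, .main, .c1, .c2, .r1, .r2, .outp, .done].get n) (by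
    intro m
    cases m
    exacts [⟨0, rfl⟩, ⟨1, rfl⟩, ⟨2, rfl⟩, ⟨3, rfl⟩, ⟨4, rfl⟩, ⟨5, rfl⟩, ⟨6, rfl⟩, ⟨7, rfl⟩, ⟨8, rfl⟩])

/-- The alphabet. -/
abbrev Sy (P : Prog) : Type := Bool ⊕ Option (Pt P)

/-- The states. -/
abbrev St (P : Prog) : Type := Pt P × Option Bool × Mode

/-- The bit of a symbol. -/
def bt {P : Prog} : Option (Sy P) → Option Bool
  | some (.inl b) => some b
  | _ => none

/-- The label of a symbol. -/
def lbl {P : Prog} : Option (Sy P) → Option (Pt P)
  | some (.inr (some f)) => some f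
  | _ => none

/-- Act on one stack. -/
def on1 {Γ : Type} (x : ℕ) (a : Act Γ) : ℕ → Act Γ := update (fun _ => .keep) x a

/-- Move a bit. -/
def on2 {P : Prog} (x y : ℕ) (b : Bool) : ℕ → Act (Sy P) := update (on1 x .pop) y (.push (.inl b))

/-- Pop unless the frame is empty. -/
def pp {Γ : Type} : Option Bool → Act Γ
  | none => .keep
  | some _ => .pop

/-- Target stack and body of a call. -/
def tgt (s : Prog) : List Prog → ℕ × Prog
  | .call x :: _ => (x, s)
  | .fix x b :: _ => (x, b)
  | _ => (0, s)

/-- Transitions in the main mode. -/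
noncomputable def δmain (P : Prog) (f : Pt P) (v : Option Bool) (t : ℕ → Option (Sy P))
    (s : Prog) : List Prog → St P × (ℕ → Act (Sy P))
  | [] => ((f, v, if (lbl (t 1)).isSome then .r1 else .outp), fun _ => .keep)
  | .skip :: k => ((rt P (s, k), v, .main), fun _ => .keep)
  | .push x γ :: k => ((rt P (s, k), v, .main), on1 (x + 2) (.push (.inl γ)))
  | .pushv x d :: k => ((rt P (s, k), v, .main), on1 (x + 2) (.push (.inl (v.getD d))))
  | .pop x :: k => ((rt P (s, k), v, .main), on1 (x + 2) (pp (bt (t (x + 2)))))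
  | .popv x :: k => ((rt P (s, k), bt (t (x + 2)), .main), on1 (x + 2) (pp (bt (t (x + 2)))))
  | .seq p q :: k => ((rt P (s, p :: q :: k), v, .main), fun _ => .keep)
  | .ifv g p q :: k => ((rt P (s, (if g v then p else q) :: k), v, .main), fun _ => .keep)
  | .whilePop x b :: k =>
      ((rt P (s, if (bt (t (x + 2))).isSome then b :: .whilePop x b :: k else k),
        bt (t (x + 2)), .main), on1 (x + 2) (pp (bt (t (x + 2)))))
  | .call _ :: _ => ((f, v, .c1), fun _ => .keep)
  | .fix _ _ :: _ => ((f, v, .c1), fun _ => .keep)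

/-- A moving loop. -/
def mvδ {P : Prog} (q q' : St P) (x y : ℕ) (a : ℕ → Act (Sy P)) :
    Option Bool → St P × Bool × Option (Sy P) × (ℕ → Act (Sy P))
  | some b => (q, false, none, on2 x y b)
  | none => (q', false, none, a)

/-- An input loop. -/
def inδ {P : Prog} (q q' : St P) (y : ℕ) :
    Option Bool → St P × Bool × Option (Sy P) × (ℕ → Act (Sy P))
  | some b => (q, true, none, on1 y (.push (.inl b)))
  | none => (q', true, none, fun _ => .keep)

/-- The output loop. -/
def outδ {P : Prog} (q q' : St P) :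
    Option Bool → St P × Bool × Option (Sy P) × (ℕ → Act (Sy P))
  | some b => (q, false, some (.inl b), on1 3 .pop)
  | none => (q', false, none, fun _ => .keep)

/-- The stack machine of a program. -/
noncomputable def mach (P : Prog) : SM (St P) (Sy P) where
  n := ms P + 4 + 2
  halt q := decide (q.2.2 = .done)
  δ q a t := match q.2.2 with
    | .in1 => inδ q (q.1, none, .in2) 3 (bt a)
    | .in2 => inδ q (q.1, none, .main) 4 (bt a)
    | .main => ((δmain P q.1 q.2.1 t q.1.1.1 q.1.1.2).1, false, none,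
        (δmain P q.1 q.2.1 t q.1.1.1 q.1.1.2).2)
    | .c1 => mvδ q (q.1, none, .c2) ((tgt q.1.1.1 q.1.1.2).1 + 2) 0
        (update (update (fun _ => .push (.inr none)) 0 .keep) 1 (.push (.inr (some q.1))))
        (bt (t ((tgt q.1.1.1 q.1.1.2).1 + 2)))
    | .c2 => mvδ q (rt P ((tgt q.1.1.1 q.1.1.2).2, [(tgt q.1.1.1 q.1.1.2).2]), none, .main) 0 2
        (fun _ => .keep) (bt (t 0))
    | .r1 => mvδ q ((lbl (t 1)).getD q.1, none, .r2) 2 0 (update (fun _ => .pop) 0 .keep) (bt (t 2))
    | .r2 => mvδ q (rt P (q.1.1.1, q.1.1.2.tail), none, .main) 0 ((tgt q.1.1.1 q.1.1.2).1 + 2)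
        (fun _ => .keep) (bt (t 0))
    | .outp => outδ q (q.1, none, .done) (bt (t 3))
    | .done => (q, false, none, fun _ => .keep)

/-- The stacks of the machine. -/
def mkS (P : Prog) (T : List Bool) (R₀ : List (Sy P)) (S : ℕ → List Bool) (R : ℕ → List (Sy P)) :
    ℕ → List (Sy P)
  | 0 => T.map .inl
  | 1 => R₀
  | j + 2 => if j < ms P + 4 then (S j).map .inl ++ R j else []

/-- Reachability within a number of steps. -/
def Reach (P : Prog) (N : ℕ) (c c' : Cf (St P) (Sy P)) : Prop :=
  ∃ m ≤ N, (mach P).step^[m] c = c'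

variable {P : Prog}

lemma Reach.refl (c : Cf (St P) (Sy P)) : Reach P 0 c c := ⟨0, le_rfl, rfl⟩

lemma Reach.trans {a b : ℕ} {c c' c'' : Cf (St P) (Sy P)} (h : Reach P a c c')
    (h' : Reach P b c' c'') : Reach P (a + b) c c'' := by
  obtain ⟨m, h1, h2⟩ := h
  obtain ⟨m', h3, h4⟩ := h'
  exact ⟨m' + m, by omega, by rw [iterate_add_apply, h2, h4]⟩

lemma Reach.mono {a b : ℕ} {c c' : Cf (St P) (Sy P)} (h : Reach P a c c') (hab : a ≤ b) :
    Reach P b c c' := by
  obtain ⟨m, h1, h2⟩ := h
  exact ⟨m, h1.trans hab, h2⟩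

/-- The tops seen by the machine. -/
def tops (P : Prog) (st : ℕ → List (Sy P)) : ℕ → Option (Sy P) :=
  fun j => if j < ms P + 4 + 2 then (st j).head? else none

lemma reach_one {q q' : St P} {i i' o o' : List (Sy P)} {st st' : ℕ → List (Sy P)} {adv : Bool}
    {e : Option (Sy P)} {a : ℕ → Act (Sy P)} (hq : q.2.2 ≠ .done)
    (h : (mach P).δ q i.head? (tops P st) = (q', adv, e, a))
    (hi : (if adv then i.tail else i) = i') (ho : o ++ e.toList = o')
    (hs : ∀ j, (if j < ms P + 4 + 2 then (a j).run (st j) else st j) = st' j) :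
    Reach P 1 ⟨q, i, o, st⟩ ⟨q', i', o', st'⟩ := by
  refine ⟨1, le_rfl, ?_⟩
  rw [iterate_one, SM.step, if_neg (by simpa [mach] using hq)]
  have : (mach P).δ q i.head? (fun j => if j < (mach P).n then (st j).head? else none) =
    (q', adv, e, a) := h
  simp only [this, hi, ho]
  congr 1
  exact funext hs

/-- The bases of the frames carry no bit on top. -/
def Base (R : ℕ → List (Sy P)) : Prop := ∀ j, bt (R j).head? = none

lemma bt_top {T R₀ S} {R : ℕ → List (Sy P)} (hR : Base R) {x : ℕ} (hx : x < ms P + 4) :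
    bt (tops P (mkS P T R₀ S R) (x + 2)) = (S x).head? := by
  rw [tops, if_pos (by omega), mkS, if_pos hx]
  cases S x with
  | nil => exact hR x
  | cons b l => rfl

lemma bt_top0 {T R₀ S} {R : ℕ → List (Sy P)} : bt (tops P (mkS P T R₀ S R) 0) = T.head? := by
  cases T <;> rfl

lemma keep_all (st : ℕ → List (Sy P)) (j : ℕ) :
    (if j < ms P + 4 + 2 then Act.keep.run (st j) else st j) = st j := by simp [Act.run]

lemma on1_mkS {T R₀ S} {R : ℕ → List (Sy P)} {x : ℕ} (hx : x < ms P + 4) {a : Act (Sy P)}
    {l : List Bool} (h : a.run ((S x).map .inl ++ R x) = l.map .inl ++ R x) (j : ℕ) :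
    (if j < ms P + 4 + 2 then (on1 (x + 2) a j).run (mkS P T R₀ S R j) else mkS P T R₀ S R j) =
      mkS P T R₀ (update S x l) R j := by
  by_cases hj : j = x + 2
  · subst hj
    rw [if_pos (by omega), on1, update_self, mkS, mkS, if_pos hx, if_pos hx, update_self, h]
  · rw [on1, update_of_ne hj, keep_all]
    match j with
    | 0 => rfl
    | 1 => rfl
    | j + 2 => rw [mkS, mkS, update_of_ne (by omega)]

lemma pp_run (l : List Bool) (R : List (Sy P)) :
    (pp l.head?).run (l.map .inl ++ R) = l.tail.map .inl ++ R := by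
  cases l <;> rfl

lemma to0 {q q' : St P} {i o R₀} {R : ℕ → List (Sy P)} (hR : Base R) {x : ℕ} (hx : x < ms P + 4)
    (hq : q.2.2 ≠ .done) {a : ℕ → Act (Sy P)} {st' : List Bool → ℕ → List (Sy P)}
    (S : ℕ → List Bool)
    (h : ∀ T l, (mach P).δ q i.head? (tops P (mkS P T R₀ (update S x l) R)) =
      mvδ q q' (x + 2) 0 a (bt (tops P (mkS P T R₀ (update S x l) R) (x + 2))))
    (hs : ∀ T j, (if j < ms P + 4 + 2 then (a j).run (mkS P T R₀ (update S x []) R j)
      else mkS P T R₀ (update S x []) R j) = st' T j) (l : List Bool) : ∀ T,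
    Reach P (l.length + 1) ⟨q, i, o, mkS P T R₀ (update S x l) R⟩
      ⟨q', i, o, st' (l.reverse ++ T)⟩ := by
  induction l with
  | nil =>
    intro T
    refine reach_one hq (adv := false) (e := none) (a := a) ((h T []).trans ?_) rfl (by simp) (hs T)
    rw [bt_top hR hx, update_self]; rfl
  | cons b l ih =>
    intro T
    have : Reach P 1 ⟨q, i, o, mkS P T R₀ (update S x (b :: l)) R⟩
        ⟨q, i, o, mkS P (b :: T) R₀ (update S x l) R⟩ := by
      refine reach_one hq (e := none) (a := on2 (x + 2) 0 b) (adv := false)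
        ((h T _).trans ?_) rfl (by simp) fun j => ?_
      · rw [bt_top hR hx, update_self]; rfl
      · by_cases hj : j = 0
        · subst hj; rfl
        · rw [on2, update_of_ne hj, on1_mkS hx (l := l) (by simp [Act.run]), update_idem]
          match j, hj with
          | 1, _ => rfl
          | j + 2, _ => rfl
    have h' := this.trans (ih (b :: T))
    simp only [List.reverse_cons, List.append_assoc, List.singleton_append, List.length_cons]
    exact h'.mono (by omega)

lemma from0 {q q' : St P} {i o R₀} {R : ℕ → List (Sy P)} {x : ℕ} (hx : x < ms P + 4)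
    (hq : q.2.2 ≠ .done) (h : ∀ t, (mach P).δ q i.head? t =
      mvδ q q' 0 (x + 2) (fun _ => .keep) (bt (t 0))) (S : ℕ → List Bool) (T : List Bool) :
    ∀ l, Reach P (T.length + 1) ⟨q, i, o, mkS P T R₀ (update S x l) R⟩
      ⟨q', i, o, mkS P [] R₀ (update S x (T.reverse ++ l)) R⟩ := by
  induction T with
  | nil =>
    intro l
    exact reach_one hq ((h _).trans rfl) rfl (by simp) (keep_all _)
  | cons b T ih =>
    intro l
    have : Reach P 1 ⟨q, i, o, mkS P (b :: T) R₀ (update S x l) R⟩
        ⟨q, i, o, mkS P T R₀ (update S x (b :: l)) R⟩ := by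
      refine reach_one hq (e := none) (a := on2 0 (x + 2) b) (adv := false)
        ((h _).trans rfl) rfl (by simp) fun j => ?_
      by_cases hj : j = x + 2
      · subst hj
        rw [if_pos (by omega), on2, update_self, mkS, mkS, if_pos hx, if_pos hx, update_self,
          update_self]; rfl
      · rw [on2, update_of_ne hj]
        match j, hj with
        | 0, _ => rfl
        | 1, _ => rfl
        | j + 2, hj =>
          rw [on1, update_of_ne (by omega), keep_all, mkS, mkS, update_of_ne (by omega),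
            update_of_ne (by omega)]
    have h' := this.trans (ih (b :: l))
    simp only [List.reverse_cons, List.append_assoc, List.singleton_append, List.length_cons]
    exact h'.mono (by omega)

/-- The control points needed to run `p` with continuation `k`. -/
def Ok (P s p : Prog) (k : List Prog) : Prop :=
  s ∈ P :: bd P ∧ (∀ c ∈ pts p k, (s, c) ∈ allPts P) ∧ (s, k) ∈ allPts P ∧
    (∀ b ∈ bd p, b ∈ bd P) ∧ ms p ≤ ms P

lemma ok_root {s : Prog} (h : s ∈ P :: bd P) : Ok P s s [] := by
  refine ⟨h, fun c hc => ?_, ?_, fun b hb => ?_, ?_⟩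
  · exact List.mem_flatMap.2 ⟨s, h, List.mem_map.2 ⟨c, List.mem_cons_of_mem _ hc, rfl⟩⟩
  · exact List.mem_flatMap.2 ⟨s, h, List.mem_map.2 ⟨[], by simp, rfl⟩⟩
  · rcases List.mem_cons.1 h with rfl | h
    · exact hb
    · exact bd_trans h hb
  · rcases List.mem_cons.1 h with rfl | h
    · rfl
    · exact ms_bd h

lemma main_one {s : Prog} {c : List Prog} (hc : (s, c) ∈ allPts P) {v : Option Bool} {q' : St P}
    {i o : List (Sy P)} {st st' : ℕ → List (Sy P)} {a : ℕ → Act (Sy P)}
    (h : δmain P (rt P (s, c)) v (tops P st) s c = (q', a))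
    (hs : ∀ j, (if j < ms P + 4 + 2 then (a j).run (st j) else st j) = st' j) :
    Reach P 1 ⟨(rt P (s, c), v, .main), i, o, st⟩ ⟨q', i, o, st'⟩ := by
  refine reach_one (adv := false) (e := none) (a := a) (by simp) ?_ rfl (by simp) hs
  simp only [mach, rt_val hc, h]

lemma W_eq (a : List Bool) : W a [] [] [] = update (fun _ => []) 0 a := by
  funext j
  match j with
  | 0 => rfl
  | 1 => rfl
  | 2 => rfl
  | 3 => rfl
  | j + 4 => rfl

lemma call_sim {s b : Prog} {c : List Prog} {x : ℕ} (hc : (s, c) ∈ allPts P)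
    (ht : tgt s c = (x, b)) (hx : x < ms P + 4) (hb : b ∈ P :: bd P) {v v' : Option Bool}
    {i o R₀ : List (Sy P)} {R : ℕ → List (Sy P)} (hR : Base R) {S : ℕ → List Bool} {y : List Bool}
    {N : ℕ} (h : ∀ R₀ R, Base R →
      Reach P N ⟨(rt P (b, [b]), none, .main), i, o, mkS P [] R₀ (W (S x) [] [] []) R⟩
        ⟨(rt P (b, []), v', .main), i, o, mkS P [] R₀ (W y [] [] []) R⟩) :
    Reach P (N + 2 * (S x).length + 2 * y.length + 5)
      ⟨(rt P (s, c), v, .c1), i, o, mkS P [] R₀ S R⟩
      ⟨(rt P (s, c.tail), none, .main), i, o, mkS P [] R₀ (update S x y) R⟩ := by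
  let R' : ℕ → List (Sy P) := fun j => .inr none :: ((update S x [] j).map .inl ++ R j)
  let R₁ : List (Sy P) := .inr (some (rt P (s, c))) :: R₀
  have hR' : Base R' := fun _ => rfl
  have h1 := to0 (q := (rt P (s, c), v, .c1)) (q' := (rt P (s, c), none, .c2)) (i := i) (o := o)
    (R₀ := R₀) hR hx (by simp) (st' := fun T => mkS P T R₁ (fun _ => []) R')
    (a := update (update (fun _ => .push (.inr none)) 0 .keep) 1
      (.push (.inr (some (rt P (s, c)))))) S
    (fun T l => by simp only [mach, rt_val hc, ht]) (by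
      intro T j
      match j with
      | 0 => rfl
      | 1 => rfl
      | j + 2 =>
        rw [update_of_ne (by omega), update_of_ne (by omega), mkS, mkS]
        by_cases hj : j < ms P + 4
        · rw [if_pos (by omega), if_pos hj, if_pos hj]; rfl
        · rw [if_neg (by omega), if_neg hj, if_neg hj]) (S x) []
  have h2 := from0 (q := (rt P (s, c), none, .c2)) (q' := (rt P (b, [b]), none, .main)) (i := i)
    (o := o) (R₀ := R₁) (R := R') (x := 0) (by omega) (by simp)
    (fun t => by simp only [mach, rt_val hc, ht]) (fun _ => []) (S x).reverse []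
  have h3 := h R₁ R' hR'
  have h4 : Reach P 1 ⟨(rt P (b, []), v', .main), i, o, mkS P [] R₁ (W y [] [] []) R'⟩
      ⟨(rt P (b, []), v', .r1), i, o, mkS P [] R₁ (W y [] [] []) R'⟩ :=
    main_one (ok_root hb).2.2.1 rfl (keep_all _)
  have h5 := to0 (q := (rt P (b, []), v', .r1)) (q' := (rt P (s, c), none, .r2)) (i := i) (o := o)
    (R₀ := R₁) hR' (x := 0) (by omega) (by simp) (st' := fun T => mkS P T R₀ (update S x []) R)
    (a := update (fun _ => .pop) 0 .keep) (fun _ => []) (fun T l => rfl) (by
      intro T j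
      match j with
      | 0 => rfl
      | 1 => rfl
      | j + 2 =>
        rw [update_of_ne (by omega), mkS, mkS, update_eq_self]
        by_cases hj : j < ms P + 4
        · rw [if_pos (by omega), if_pos hj, if_pos hj]; rfl
        · rw [if_neg (by omega), if_neg hj, if_neg hj]) y []
  have h6 := from0 (q := (rt P (s, c), none, .r2)) (q' := (rt P (s, c.tail), none, .main)) (i := i)
    (o := o) (R₀ := R₀) (R := R) hx (by simp)
    (fun t => by simp only [mach, rt_val hc, ht]) S y.reverse []
  simp only [update_eq_self, List.append_nil, List.reverse_reverse, List.length_reverse,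
    ← W_eq] at h1 h2 h5 h6
  exact (((((h1.trans h2).trans h3).trans h4).trans h5).trans h6).mono (by omega)

theorem exec_sim {s p : Prog} {v v' : Option Bool} {S S' : ℕ → List Bool} {t : ℕ}
    (h : Exec s p v S t v' S') (i o : List (Sy P)) : ∀ (k : List Prog) (R₀ : List (Sy P))
    (R : ℕ → List (Sy P)), Ok P s p k → Base R →
    Reach P (ms p + (ms P + 6) * t) ⟨(rt P (s, p :: k), v, .main), i, o, mkS P [] R₀ S R⟩
      ⟨(rt P (s, k), v', .main), i, o, mkS P [] R₀ S' R⟩ := by
  induction h with
  | skip =>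
    intro k R₀ R hk hR
    exact main_one (hk.2.1 _ (head_mem_pts _ _)) rfl (keep_all _)
  | push =>
    intro k R₀ R hk hR
    have := hk.2.2.2.2; simp only [ms] at this ⊢
    exact (main_one (hk.2.1 _ (head_mem_pts _ _)) rfl (on1_mkS (by omega) rfl)).mono (by omega)
  | pushv =>
    intro k R₀ R hk hR
    have := hk.2.2.2.2; simp only [ms] at this ⊢
    exact (main_one (hk.2.1 _ (head_mem_pts _ _)) rfl (on1_mkS (by omega) rfl)).mono (by omega)
  | @pop s x v S =>
    intro k R₀ R hk hR
    have := hk.2.2.2.2; simp only [ms] at this ⊢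
    refine (main_one (hk.2.1 _ (head_mem_pts _ _)) (a := on1 (x + 2) (pp (S x).head?)) ?_
      (on1_mkS (by omega) (pp_run _ _))).mono (by omega)
    rw [δmain, bt_top hR (by omega)]
  | @popv s x v S =>
    intro k R₀ R hk hR
    have := hk.2.2.2.2; simp only [ms] at this ⊢
    refine (main_one (hk.2.1 _ (head_mem_pts _ _)) (a := on1 (x + 2) (pp (S x).head?)) ?_
      (on1_mkS (by omega) (pp_run _ _))).mono (by omega)
    rw [δmain, bt_top hR (by omega)]
  | @seq s p q v S t v1 S1 t' v2 S2 _ _ ih1 ih2 =>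
    intro k R₀ R hk hR
    obtain ⟨a1, a2, a3, a4, a5⟩ := hk
    simp only [pts, bd, ms, List.mem_cons, List.mem_append] at a2 a4 a5 ⊢
    have b1 := ih1 (q :: k) R₀ R ⟨a1, fun c hc => a2 c (Or.inr (Or.inl hc)),
      a2 _ (Or.inr (Or.inr (head_mem_pts _ _))), fun b hb => a4 b (Or.inl hb), by omega⟩ hR
    have b2 := ih2 k R₀ R ⟨a1, fun c hc => a2 c (Or.inr (Or.inr hc)), a3,
      fun b hb => a4 b (Or.inr hb), by omega⟩ hR
    exact (((main_one (a2 _ (Or.inl rfl)) rfl (keep_all _)).trans b1).trans b2).mono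
      (by rw [mul_add]; omega)
  | @ifT s f p q v S t v' S' hf _ ih =>
    intro k R₀ R hk hR
    obtain ⟨a1, a2, a3, a4, a5⟩ := hk
    simp only [pts, bd, ms, List.mem_cons, List.mem_append] at a2 a4 a5 ⊢
    have b1 := ih k R₀ R ⟨a1, fun c hc => a2 c (Or.inr (Or.inl hc)), a3,
      fun b hb => a4 b (Or.inl hb), by omega⟩ hR
    exact ((main_one (a2 _ (Or.inl rfl)) (by rw [δmain, if_pos hf]) (keep_all _)).trans b1).mono
      (by omega)
  | @ifF s f p q v S t v' S' hf _ ih =>
    intro k R₀ R hk hR
    obtain ⟨a1, a2, a3, a4, a5⟩ := hk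
    simp only [pts, bd, ms, List.mem_cons, List.mem_append] at a2 a4 a5 ⊢
    have b1 := ih k R₀ R ⟨a1, fun c hc => a2 c (Or.inr (Or.inr hc)), a3,
      fun b hb => a4 b (Or.inr hb), by omega⟩ hR
    exact ((main_one (a2 _ (Or.inl rfl)) (by rw [δmain, if_neg (by simp [hf])])
      (keep_all _)).trans b1).mono (by omega)
  | @whileNil s x p v S hx =>
    intro k R₀ R hk hR
    have := hk.2.2.2.2; simp only [ms] at this ⊢
    refine (main_one (hk.2.1 _ (head_mem_pts _ _)) (a := on1 (x + 2) .keep) ?_ fun j => ?_).mono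
      (by omega)
    · rw [δmain, bt_top hR (by omega), hx]; rfl
    · rw [on1_mkS (l := S x) (by omega) rfl, update_eq_self]
  | @whileCons s x p v S γ l t v1 S1 t' v2 S2 hx _ _ ih1 ih2 =>
    intro k R₀ R hk hR
    have b2 := ih2 k R₀ R hk hR
    obtain ⟨a1, a2, a3, a4, a5⟩ := hk
    simp only [pts, bd, ms, List.mem_cons] at a2 a4 a5 b2 ⊢
    have b1 := ih1 (.whilePop x p :: k) R₀ R ⟨a1, fun c hc => a2 c (Or.inr hc),
      a2 _ (Or.inl rfl), a4, by omega⟩ hR
    refine (((main_one (a2 _ (Or.inl rfl)) (a := on1 (x + 2) .pop) ?_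
      (on1_mkS (by omega) (by rw [hx]; rfl))).trans b1).trans b2).mono (by
        rw [mul_add, mul_add]; omega)
    rw [δmain, bt_top hR (by omega), hx]; rfl
  | @call s x v S t v' y _ ih =>
    intro k R₀ R hk hR
    have a5 := hk.2.2.2.2
    have a6 := (ok_root hk.1).2.2.2.2
    simp only [ms] at a5 ⊢
    have hc := hk.2.1 _ (head_mem_pts _ _)
    refine ((main_one hc rfl (keep_all _)).trans (call_sim hc rfl (by omega) hk.1 hR
      fun R₀ R hR => ih [] R₀ R (ok_root hk.1) hR)).mono ?_
    nlinarith
  | @fix s x b v S t v' y _ ih =>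
    intro k R₀ R hk hR
    have a5 := hk.2.2.2.2
    have hb : b ∈ P :: bd P := List.mem_cons_of_mem _ (hk.2.2.2.1 b (by simp [bd]))
    simp only [ms] at a5 ⊢
    have hc := hk.2.1 _ (head_mem_pts _ _)
    refine ((main_one hc rfl (keep_all _)).trans (call_sim hc rfl (by omega) hb hR
      fun R₀ R hR => ih [] R₀ R (ok_root hb) hR)).mono ?_
    nlinarith

lemma in_loop {q q' : St P} {o : List (Sy P)} {x : ℕ} (hx : x < ms P + 4) (hq : q.2.2 ≠ .done)
    (h : ∀ a t, (mach P).δ q a t = inδ q q' (x + 2) (bt a)) (S : ℕ → List Bool)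
    (i : List (Sy P)) (hi : bt i.head? = none) (w : List Bool) : ∀ l,
    Reach P (w.length + 1) ⟨q, w.map .inl ++ i, o, mkS P [] [] (update S x l) fun _ => []⟩
      ⟨q', i.tail, o, mkS P [] [] (update S x (w.reverse ++ l)) fun _ => []⟩ := by
  induction w with
  | nil =>
    intro l
    refine reach_one hq (adv := true) (e := none) (a := fun _ => .keep) ((h _ _).trans ?_) rfl
      (by simp) (keep_all _)
    rw [List.map_nil, List.nil_append, hi]; rfl
  | cons b w ih =>
    intro l
    have : Reach P 1 ⟨q, (b :: w).map .inl ++ i, o, mkS P [] [] (update S x l) fun _ => []⟩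
        ⟨q, w.map .inl ++ i, o, mkS P [] [] (update S x (b :: l)) fun _ => []⟩ := by
      refine reach_one hq (adv := true) (e := none) ((h _ _).trans rfl) rfl (by simp) fun j => ?_
      rw [on1_mkS hx (l := b :: l) (by simp [Act.run]), update_idem]
    have h' := this.trans (ih (b :: l))
    simp only [List.reverse_cons, List.append_assoc, List.singleton_append, List.length_cons]
    exact h'.mono (by omega)

lemma out_loop (f : Pt P) (v : Option Bool) (S : ℕ → List Bool) (w : List Bool) :
    ∀ o : List (Sy P), ∃ st, Reach P (w.length + 1)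
      ⟨(f, v, .outp), [], o, mkS P [] [] (update S 1 w) fun _ => []⟩
      ⟨(f, none, .done), [], o ++ w.map .inl, st⟩ := by
  have hB : Base (P := P) fun _ => [] := fun _ => rfl
  induction w with
  | nil =>
    intro o
    refine ⟨_, reach_one (by simp) (adv := false) (e := none) (a := fun _ => .keep) ?_ rfl
      (by simp) (keep_all _)⟩
    simp only [mach]
    rw [bt_top hB (x := 1) (by omega)]; rfl
  | cons b w ih =>
    intro o
    obtain ⟨st, h⟩ := ih (o ++ [.inl b])
    have : Reach P 1 ⟨(f, v, .outp), [], o, mkS P [] [] (update S 1 (b :: w)) fun _ => []⟩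
        ⟨(f, v, .outp), [], o ++ [.inl b], mkS P [] [] (update S 1 w) fun _ => []⟩ := by
      refine reach_one (by simp) (adv := false) (e := some (.inl b)) (a := on1 3 .pop) ?_ rfl rfl
        fun j => ?_
      · simp only [mach]
        rw [bt_top hB (x := 1) (by omega)]; rfl
      · rw [on1_mkS (x := 1) (by omega) (l := w) (by simp [Act.run]), update_idem]
    refine ⟨st, ?_⟩
    simpa [add_comm] using this.trans h

/-- Raw compilation: the factors are on stacks one and two, the output is on stack one. -/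
theorem core (P : Prog) : ∃ (M : TM) (C : ℕ), ∀ (x y out : List Bool) (t : ℕ) (v : Option Bool),
    Exec P P none (W [] x.reverse y.reverse []) t v (W [] out [] []) →
    ∃ t', t' ≤ C * (t + x.length + y.length + out.length + 1) ∧ M.HaltsIn x y t' ∧
      (M.step^[t'] (M.init x y)).tape M.out = M.word (out.map M.bit) := by
  refine ⟨(mach P).tm (.inl false) (.inl true) (.inr none) (by simp) (rt P (P, [P]), none, .in1),
    2 * (ms P + 6), fun x y out t v h => ?_⟩
  have hB : Base (P := P) fun _ => [] := fun _ => rfl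
  have h1 := in_loop (q := (rt P (P, [P]), none, .in1)) (q' := (rt P (P, [P]), none, .in2))
    (o := []) (x := 1) (by omega) (by simp) (fun _ _ => rfl) (W [] [] [] [])
    (.inr none :: y.map .inl) rfl x []
  have h2 := in_loop (q := (rt P (P, [P]), none, .in2)) (q' := (rt P (P, [P]), none, .main))
    (o := []) (x := 2) (by omega) (by simp) (fun _ _ => rfl) (W [] x.reverse [] []) [] rfl y []
  have h3 := exec_sim h [] [] [] [] (fun _ => []) (ok_root (by simp)) hB
  have h4 : Reach P 1 ⟨(rt P (P, []), v, .main), [], [], mkS P [] [] (W [] out [] []) fun _ => []⟩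
      ⟨(rt P (P, []), v, .outp), [], [], mkS P [] [] (W [] out [] []) fun _ => []⟩ :=
    main_one (ok_root (by simp)).2.2.1 rfl (keep_all _)
  obtain ⟨st, h5⟩ := out_loop (rt P (P, [])) v (W [] [] [] []) out []
  simp only [uW1, uW2, List.append_nil, List.tail_cons, List.tail_nil] at h1 h2 h5
  obtain ⟨m, hm, h6⟩ := (((h1.trans h2).trans h3).trans h4).trans h5
  have e : (fun b : Bool => cond b (Sum.inl true : Sy P) (.inl false)) = Sum.inl := by
    funext b; cases b <;> rfl
  have e2 : mkS P [] [] (W [] [] [] []) (fun _ => []) = fun _ => [] := by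
    funext j
    match j with
    | 0 => rfl
    | 1 => rfl
    | j + 2 => rw [mkS, W_eq, update_eq_self]; simp
  rw [e2] at h6
  exact ⟨2 * m, by nlinarith, SM.tm_run x y out (c := ⟨(rt P (P, []), none, .done), [],
    [] ++ out.map .inl, st⟩) (by rw [e]; exact h6) rfl (by rw [e]; rfl)⟩

end Vale.Agent.P338.CA
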