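import Mathlib

/-! The machine model for P338: deterministic multitape Turing machines that multiply. -/

namespace Vale.Agent.P338

/-- A deterministic multitape Turing machine: finite state set `Q`, finite alphabet `Γ` with four
distinct symbols blank, zero, one and separator, and `k + 1` one-way infinite tapes with one head
each.  Tape `0` holds the input, `out` is the designated output tape. -/
structure TM where
  k : ℕ
  Q : Type
  Γ : Type
  finQ : Finite Q
  finΓ : Finite Γ
  blank : Γ
  zero : Γ
  one : Γ
  sep : Γ
  distinct : [blank, zero, one, sep].Nodup
  out : Fin (k + 1)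
  start : Q
  halt : Q → Bool
  δ : Q → (Fin (k + 1) → Γ) → Q × (Fin (k + 1) → Γ × SignType)

/-- A configuration: state, head positions, tape contents. -/
structure TM.Cfg (M : TM) where
  q : M.Q
  pos : Fin (M.k + 1) → ℕ
  tape : Fin (M.k + 1) → ℕ → M.Γ

/-- A head moves by at most one cell; a left move on the leftmost cell leaves it there. -/
def move (h : ℕ) (d : SignType) : ℕ :=
  match d with
  | SignType.neg => h - 1
  | SignType.zero => h
  | SignType.pos => h + 1

/-- One step: read the scanned symbols, write, move the heads, change state.
A halted configuration does not change. -/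
def TM.step (M : TM) (c : M.Cfg) : M.Cfg :=
  if M.halt c.q then c else
    { q := (M.δ c.q (fun j => c.tape j (c.pos j))).1
      pos := fun j => move (c.pos j) ((M.δ c.q (fun j => c.tape j (c.pos j))).2 j).2
      tape := fun j =>
        Function.update (c.tape j) (c.pos j) ((M.δ c.q (fun j => c.tape j (c.pos j))).2 j).1 }

/-- A tape holding the word `w` from the leftmost cell on, blank elsewhere. -/
def TM.word (M : TM) (w : List M.Γ) : ℕ → M.Γ := fun z => w.getD z M.blank

/-- The tape symbol of a bit. -/
def TM.bit (M : TM) (b : Bool) : M.Γ := if b then M.one else M.zero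

/-- The start configuration on input `x # y`. -/
def TM.init (M : TM) (x y : List Bool) : M.Cfg where
  q := M.start
  pos := fun _ => 0
  tape := fun j => if j = 0 then M.word (x.map M.bit ++ M.sep :: y.map M.bit) else M.word []

/-- The value of a binary string, leftmost bit most significant. -/
def val (x : List Bool) : ℕ := x.foldl (fun a b => 2 * a + b.toNat) 0

/-- The binary representation of `z`, padded on the left to length `k`. -/
def bin (k z : ℕ) : List Bool := (List.range k).reverse.map fun j => z.testBit j

/-- On input `x # y` the machine has halted after `t` steps. -/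
def TM.HaltsIn (M : TM) (x y : List Bool) (t : ℕ) : Prop :=
  M.halt (M.step^[t] (M.init x y)).q = true

/-- The machine multiplies. -/
def TM.Multiplies (M : TM) : Prop :=
  ∀ n : ℕ, 1 ≤ n → ∀ x y : List Bool, x.length = n → y.length = n → ∃ t, M.HaltsIn x y t ∧
    (M.step^[t] (M.init x y)).tape M.out = M.word ((bin (2 * n) (val x * val y)).map M.bit)

/-- The running time on input `x # y`. -/
noncomputable def TM.time (M : TM) (x y : List Bool) : ℕ := sInf {t | M.HaltsIn x y t}

/-- The worst-case running time over inputs with two `n`-bit factors. -/
noncomputable def TM.T (M : TM) (n : ℕ) : ℕ :=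
  sSup {t | ∃ x y : List Bool, x.length = n ∧ y.length = n ∧ t = M.time x y}

end Vale.Agent.P338
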