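import Vale.Agent.P338.Spec

/-! The radix two Fourier network and the chirp decomposition on one axis. -/

namespace Vale.Agent.P338.FF

open Complex Finset Matrix

/-- `e^{2 π i z}` -/
noncomputable def E (z : ℂ) : ℂ := exp (2 * Real.pi * I * z)

lemma E_add (a b : ℂ) : E (a + b) = E a * E b := by rw [E, mul_add, exp_add]; rfl
lemma E_int (n : ℤ) : E n = 1 := by rw [E, mul_comm, exp_int_mul_two_pi_mul_I]
@[simp] lemma E_zero : E 0 = 1 := by simp [E]
lemma E_congr {a b : ℂ} (n : ℤ) (h : a = b + n) : E a = E b := by rw [h, E_add, E_int, mul_one]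
lemma E_quarter : E (1 / 4) = I := by
  rw [E, show 2 * Real.pi * I * (1 / 4) = Real.pi / 2 * I by ring, exp_pi_div_two_mul_I]
lemma E_half : E (1 / 2) = -1 := by
  rw [show (1 / 2 : ℂ) = 1 / 4 + 1 / 4 by ring, E_add, E_quarter, I_mul_I]
lemma E_nat_mul (k : ℕ) (z : ℂ) : E (k * z) = E z ^ k := by
  rw [E, E, ← exp_nat_mul]; congr 1; ring

lemma E_sum {s : ℕ} (hs : 0 < s) (n : ℤ) (hn : |n| < s) :
    ∑ k ∈ range s, E (k * (n / s)) = if n = 0 then (s : ℂ) else 0 := by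
  have h0 : (s : ℂ) ≠ 0 := by exact_mod_cast hs.ne'
  split_ifs with h
  · simp [h]
  simp only [E_nat_mul]
  rw [geom_sum_eq, ← E_nat_mul, mul_div_cancel₀ _ h0, E_int, sub_self, zero_div]
  intro h1
  obtain ⟨m, hm⟩ := exp_eq_one_iff.1 h1
  rw [mul_comm, mul_left_inj' two_pi_I_ne_zero, div_eq_iff h0] at hm
  exact h (Int.eq_zero_of_abs_lt_dvd ⟨m, by rw [mul_comm]; exact_mod_cast hm⟩ hn)

/-- square matrices on one copy -/
abbrev R (L : ℕ) : Type := Matrix (Fin (2 ^ L)) (Fin (2 ^ L)) ℂ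

variable {L : ℕ}

/-- the butterfly -/
noncomputable def Cm (L l : ℕ) : R L := fun a b =>
  if (b : ℕ) = a then (1 + I) / 2 else if (b : ℕ) = (a : ℕ) ^^^ 2 ^ l then (1 - I) / 2 else 0

/-- flipping a bit -/
def xf {l : ℕ} (hl : l < L) (j : Fin (2 ^ L)) : Fin (2 ^ L) :=
  ⟨j ^^^ 2 ^ l, Nat.xor_lt_two_pow j.2 (Nat.pow_lt_pow_right (by omega) hl)⟩

lemma xb (j l : ℕ) : (j ^^^ 2 ^ l) % 2 ^ l = j % 2 ^ l ∧ ∃ y,
    (j / 2 ^ l = 2 * y ∧ (j ^^^ 2 ^ l) / 2 ^ l = 2 * y + 1) ∨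
    (j / 2 ^ l = 2 * y + 1 ∧ (j ^^^ 2 ^ l) / 2 ^ l = 2 * y) := by
  rw [Nat.xor_mod_two_pow, Nat.xor_div_two_pow, Nat.div_self (by positivity)]
  refine ⟨by simp, j / 2 ^ l / 2, ?_⟩
  rcases Nat.even_or_odd (j / 2 ^ l) with h | h
  · rw [Nat.xor_one_of_even h]; have := Nat.even_iff.1 h; omega
  · rw [Nat.xor_one_of_odd h]; have := Nat.odd_iff.1 h; omega

lemma xf_ne {l : ℕ} (j : ℕ) : j ^^^ 2 ^ l ≠ j := fun h => by
  obtain ⟨-, y, h1⟩ := xb j l
  rw [h] at h1; omega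

lemma mul_Cm {l : ℕ} (hl : l < L) (M : R L) (h j : Fin (2 ^ L)) :
    (M * Cm L l) h j = M h j * ((1 + I) / 2) + M h (xf hl j) * ((1 - I) / 2) := by
  have : ∀ k, Cm L l k j = (if k = j then (1 + I) / 2 else 0) +
      if k = xf hl j then (1 - I) / 2 else 0 := fun k => by
    have e : (j : ℕ) = k ^^^ 2 ^ l ↔ k = xf hl j :=
      ⟨fun h => Fin.ext (by simp [xf, h]), fun h => by simp [xf, h]⟩
    by_cases h1 : k = j
    · subst h1
      rw [Cm, if_pos rfl, if_pos rfl, if_neg fun h => xf_ne _ (e.2 h).symm, add_zero]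
    · rw [Cm, if_neg fun h => h1 (Fin.ext h.symm), if_neg h1, zero_add, if_congr e rfl rfl]
  simp [mul_apply, this, mul_add, sum_add_distrib]

/-- diagonal entries of a layer -/
noncomputable def d0 (l : ℕ) (u w : ℤ) (j : ℕ) : ℂ :=
  E ((u + (j / 2 ^ l % 2 : ℕ)) / 4 + w * (j / 2 ^ l % 2 : ℕ) * (j % 2 ^ l : ℕ) / (2 * 2 ^ l))

/-- a layer -/
noncomputable def Lay (L : ℕ) (w1 u2 w2 : ℤ) (l : ℕ) : R L :=
  diagonal (fun j : Fin (2 ^ L) => d0 l u2 w2 j) * Cm L l *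
    diagonal fun j : Fin (2 ^ L) => d0 l 0 w1 j

lemma d0_even {l y j : ℕ} (h : j / 2 ^ l = 2 * y) (u w : ℤ) : d0 l u w j = E (u / 4) := by
  simp [d0, h]

lemma d0_odd {l y j : ℕ} (h : j / 2 ^ l = 2 * y + 1) (u w : ℤ) :
    d0 l u w j = E (u / 4) * I * E (w * ((j % 2 ^ l : ℕ) / (2 * 2 ^ l))) := by
  rw [d0, h, ← E_quarter, ← E_add, ← E_add, show (2 * y + 1) % 2 = 1 by omega]
  congr 1; push_cast; ring

lemma E_neg_quarter : E ((-1 : ℤ) / 4) = -I := by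
  rw [E_congr (b := 1 / 2 + 1 / 4) (-1) (by push_cast; ring), E_add, E_half, E_quarter]; ring

lemma Lay_inv {l : ℕ} (hl : l < L) : Lay L (-1) (-1) 0 l * Lay L 0 0 1 l = 1 := by
  have hz : ∀ j, d0 l 0 (-1) j * d0 l 0 1 j = d0 l 0 0 j * d0 l 0 0 j := fun j => by
    simp only [d0, ← E_add]; congr 1; push_cast; ring
  rw [Lay, Lay, Matrix.mul_assoc, ← Matrix.mul_assoc (diagonal _) (_ * _), ← Matrix.mul_assoc
    (diagonal _) (diagonal _), diagonal_mul_diagonal, ← Matrix.mul_assoc, ← Matrix.mul_assoc]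
  ext h j
  rw [mul_diagonal, mul_Cm hl, mul_diagonal, mul_diagonal, diagonal_mul, diagonal_mul, hz, hz,
    one_apply, Cm, Cm]
  have e1 : (xf hl j : ℕ) = j ^^^ 2 ^ l := rfl
  have e2 : ∀ a b : ℕ, a ^^^ 2 ^ l = b ^^^ 2 ^ l ↔ a = b := fun a b => by simp
  rw [e1]
  obtain ⟨-, y, hy⟩ := xb j l
  have := I_sq
  by_cases h1 : h = j
  · subst h1
    rw [if_pos rfl, if_neg (xf_ne _), if_pos rfl, if_pos rfl]
    rcases hy with ⟨a, b⟩ | ⟨a, b⟩
    · simp only [d0_even a, d0_odd b, E_neg_quarter, Int.cast_zero, zero_mul, zero_div, E_zero]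
      grind
    · simp only [d0_even b, d0_odd a, E_neg_quarter, Int.cast_zero, zero_mul, zero_div, E_zero]
      grind
  · rw [if_neg fun h => h1 (Fin.ext h.symm), if_neg h1, if_congr (e2 _ _) rfl rfl,
      if_neg (c := (j : ℕ) = h) fun h => h1 (Fin.ext h.symm)]
    by_cases h2 : (j : ℕ) = h ^^^ 2 ^ l
    · rw [if_pos h2, if_pos (by simp [h2])]
      rcases hy with ⟨a, b⟩ | ⟨a, b⟩
      · simp only [d0_even a, d0_odd b, Int.cast_zero, zero_mul, zero_div, E_zero]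
        grind
      · simp only [d0_even b, d0_odd a, Int.cast_zero, zero_mul, zero_div, E_zero]
        grind
    · rw [if_neg h2, if_neg fun h => h2 (by simp [← h])]; simp

/-- the reversed binary fraction -/
noncomputable def ρ (n h : ℕ) : ℂ := ∑ t ∈ range n, (h / 2 ^ t % 2 : ℕ) / (2 * 2 ^ t)

/-- bit reversal -/
def ν (n T h : ℕ) : ℤ := ∑ t ∈ range n, (h / 2 ^ t % 2 * (T / (2 * 2 ^ t)) : ℕ)

lemma ν_eq (n h : ℕ) : (ν n (2 ^ n) h : ℂ) = 2 ^ n * ρ n h := by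
  rw [ν, ρ, mul_sum, Int.cast_sum]
  refine sum_congr rfl fun t ht => ?_
  rw [Int.cast_natCast, Nat.cast_mul, Nat.cast_div (by
    rw [← pow_succ']; exact pow_dvd_pow _ (mem_range.1 ht)) (by simp)]
  push_cast; ring

/-- the kernel of the network on the low `n` bits -/
noncomputable def Mk (L n : ℕ) : R L := fun h j =>
  if (h : ℕ) / 2 ^ n = j / 2 ^ n then ((1 + I) / 2) ^ n * E (((j : ℕ) % 2 ^ n : ℕ) * ρ n h) else 0

lemma Mk_zero : Mk L 0 = 1 := by
  ext h j; simp [Mk, ρ, one_apply, Fin.ext_iff]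

lemma Mk_succ {n : ℕ} (hn : n < L) : Mk L (n + 1) = Mk L n * Lay L 0 0 1 n := by
  rw [Lay, ← Matrix.mul_assoc, ← Matrix.mul_assoc]
  ext h j
  have e1 : (xf hn j : ℕ) = j ^^^ 2 ^ n := rfl
  obtain ⟨hr, y, hy⟩ := xb j n
  have hd : ∀ a : ℕ, a / 2 ^ (n + 1) = a / 2 ^ n / 2 := fun a => by
    rw [Nat.div_div_eq_div_mul, pow_succ]
  have e2 : E (2 ^ n * ρ n h) = 1 := by rw [← ν_eq, E_int]
  have e3 : E (2 ^ n * (1 / (2 * 2 ^ n))) = -1 := by rw [← E_half]; congr 1; field_simp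
  rw [mul_diagonal, mul_Cm hn, mul_diagonal, mul_diagonal, Mk, Mk, Mk, e1, hr, hd, hd,
    Nat.mod_pow_succ, ρ, sum_range_succ, ← ρ]
  generalize (h : ℕ) / 2 ^ n = X
  have := I_sq
  rcases hy with ⟨a, b⟩ | ⟨a, b⟩
  · rw [d0_even a, d0_even a, d0_odd b, hr, a, b]
    by_cases h1 : X = 2 * y
    · rw [if_pos h1, if_pos (by omega), if_neg (by omega), h1]
      simp [pow_succ]; ring
    by_cases h2 : X = 2 * y + 1
    · rw [if_pos h2, if_pos (by omega), if_neg h1, h2, show (2 * y + 1) % 2 = 1 by omega]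
      simp [pow_succ, mul_add, E_add, div_eq_mul_inv]; grind
    · rw [if_neg h1, if_neg h2, if_neg (by omega)]; simp
  · rw [d0_even b, d0_odd a, d0_odd a, a, b, show (2 * y + 1) % 2 = 1 by omega]
    by_cases h1 : X = 2 * y
    · rw [if_pos h1, if_pos (by omega), if_neg (by omega), h1]
      simp [pow_succ, add_mul, E_add, e2]; grind
    by_cases h2 : X = 2 * y + 1
    · rw [if_pos h2, if_pos (by omega), if_neg h1, h2, show (2 * y + 1) % 2 = 1 by omega]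
      simp only [Nat.cast_add, Nat.cast_one, mul_one, Nat.cast_pow, Nat.cast_ofNat, mul_add, add_mul,
        E_add, e2, e3]
      simp [pow_succ, div_eq_mul_inv]; grind
    · rw [if_neg h1, if_neg h2, if_neg (by omega)]; simp

lemma Mk_circ (c : Fin (2 ^ L) → ℂ) :
    diagonal (fun h : Fin (2 ^ L) => ∑ m, c m * E ((m : ℕ) * ρ L h)) * Mk L L =
      Mk L L * circulant c := by
  ext h j
  rw [diagonal_mul, mul_apply, sum_mul, eq_comm, ← Equiv.sum_comp (Equiv.addRight j)]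
  refine sum_congr rfl fun m _ => ?_
  have h0 : ∀ a : Fin (2 ^ L), (a : ℕ) / 2 ^ L = 0 := fun a => Nat.div_eq_of_lt a.2
  simp only [Mk, h0, if_true, circulant_apply, Equiv.coe_addRight, add_sub_cancel_right,
    Nat.mod_eq_of_lt (Fin.is_lt _)]
  rw [E_congr (a := ((m + j : Fin (2 ^ L)) : ℕ) * _) (b := m * ρ L h + j * ρ L h)
    (-((m + j) / 2 ^ L : ℕ) * ν L (2 ^ L) h), E_add]
  · ring
  · have := congrArg (Nat.cast : ℕ → ℂ) (Nat.mod_add_div (m + j) (2 ^ L))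
    rw [Fin.val_add, Int.cast_mul, ν_eq, Int.cast_neg, Int.cast_natCast]
    simp only [Nat.cast_add, Nat.cast_mul, Nat.cast_pow, Nat.cast_ofNat] at this
    linear_combination ρ L h * this

/-- the Fourier matrix of order `s` -/
noncomputable def Fm (L s : ℕ) (σ : ℤ) : R L := fun j k =>
  if (j : ℕ) < s ∧ (k : ℕ) < s then E (σ * (j : ℕ) * (k : ℕ) / s) else 0

/-- the projection -/
noncomputable def Pm (L s : ℕ) : R L := diagonal fun j => if (j : ℕ) < s then 1 else 0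

lemma Pm_Fm (s : ℕ) (σ : ℤ) : Pm L s * Fm L s σ = Fm L s σ := by
  ext j k; rw [Pm, diagonal_mul, Fm]; split_ifs <;> simp_all

lemma Fm_Pm (s : ℕ) (σ : ℤ) : Fm L s σ * Pm L s = Fm L s σ := by
  ext j k; rw [Pm, mul_diagonal, Fm]; split_ifs <;> simp_all

lemma Pm_Pm (s : ℕ) : Pm L s * Pm L s = Pm L s := by
  rw [Pm, diagonal_mul_diagonal]; congr 1; funext j; split_ifs <;> simp

lemma Fm_Fm {s : ℕ} (h0 : 0 < s) (hs : s ≤ 2 ^ L) {σ : ℤ} (hσ : |σ| = 1) :
    Fm L s σ * Fm L s (-σ) = (s : ℂ) • Pm L s := by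
  ext j k
  rw [mul_apply, Matrix.smul_apply, Pm, diagonal_apply, smul_eq_mul]
  by_cases h : (j : ℕ) < s ∧ (k : ℕ) < s
  · have : ∀ m : Fin (2 ^ L), Fm L s σ j m * Fm L s (-σ) m k =
        if (m : ℕ) < s then E ((m : ℕ) * ((σ * (j - k) : ℤ) / s)) else 0 := fun m => by
      simp only [Fm, h.1, h.2, true_and, and_true]
      split_ifs
      · rw [← E_add]; congr 1; push_cast; ring
      · simp
    rw [sum_congr rfl fun m _ => this m,
      Fin.sum_univ_eq_sum_range (fun m => if m < s then E (m * ((σ * (j - k) : ℤ) / s)) else 0),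
      ← sum_filter, show {m ∈ range (2 ^ L) | m < s} = range s by ext; simp; omega,
      E_sum h0 _ (by rw [abs_mul, hσ, one_mul, abs_lt]; omega), if_pos h.1]
    have : σ ≠ 0 := by rintro rfl; simp at hσ
    simp [this, sub_eq_zero, Fin.ext_iff]
  · rw [sum_eq_zero fun m _ => by simp only [Fm]; split_ifs <;> simp_all]
    split_ifs with h1 h2
    exacts [(h ⟨h2, h1 ▸ h2⟩).elim, by simp, by simp]

/-- chirp with projection -/
noncomputable def dq (L s : ℕ) (a e : ℤ) : R L := diagonal fun j =>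
  (if (j : ℕ) < s then 1 else 0) * E (a * (j : ℕ) ^ 2 / (2 * s) + e * (j : ℕ) / (2 * 2 ^ L))

lemma dq_dq (s : ℕ) (a e : ℤ) : dq L s a (-e) * dq L s (-a) e = Pm L s := by
  rw [dq, dq, diagonal_mul_diagonal, Pm]; congr 1; funext j
  rw [mul_mul_mul_comm, ← E_add]
  push_cast; ring_nf; simp

lemma Pm_dq (s : ℕ) (a e : ℤ) : Pm L s * dq L s a e = dq L s a e := by
  rw [dq, Pm, diagonal_mul_diagonal]; congr 1; funext j; split_ifs <;> simp

lemma dq_Pm (s : ℕ) (a e : ℤ) : dq L s a e * Pm L s = dq L s a e := by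
  rw [dq, Pm, diagonal_mul_diagonal]; congr 1; funext j; split_ifs <;> simp

/-- the twisted chirp -/
noncomputable def fq (L s : ℕ) (σ e : ℤ) (m : ℂ) : ℂ :=
  E (e * m / (2 * 2 ^ L) - σ * m ^ 2 / (2 * s))

/-- one half of the Fourier matrix -/
noncomputable def Am (L s : ℕ) (σ e : ℤ) (z : ℂ) : R L :=
  dq L s σ (-e) * circulant (fun m : Fin (2 ^ L) =>
    z * (fq L s σ e (m : ℕ) + fq L s σ e ((m : ℕ) - 2 ^ L))) * dq L s σ e

lemma Am_add {s : ℕ} (h0 : 0 < s) (σ : ℤ) (z : ℂ) :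
    Am L s σ 1 z + Am L s σ 0 z = (2 * z) • Fm L s σ := by
  ext j k
  have hs : (s : ℂ) ≠ 0 := by exact_mod_cast h0.ne'
  simp only [Am, dq, Matrix.add_apply, mul_diagonal, diagonal_mul, circulant_apply,
    Matrix.smul_apply, Fm, smul_eq_mul]
  by_cases h : (j : ℕ) < s ∧ (k : ℕ) < s
  swap
  · rw [if_neg h]; split_ifs <;> simp_all
  have key : ∀ (e : ℤ) (m : ℂ), E (σ * (j : ℕ) ^ 2 / (2 * s) + (-e : ℤ) * (j : ℕ) / (2 * 2 ^ L)) *
      fq L s σ e m * E (σ * (k : ℕ) ^ 2 / (2 * s) + e * (k : ℕ) / (2 * 2 ^ L)) =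
      E (σ * ((j : ℕ) ^ 2 + (k : ℕ) ^ 2 - m ^ 2) / (2 * s)) *
        E (e * ((m - ((j : ℕ) - (k : ℕ))) / (2 * 2 ^ L))) := fun e m => by
    rw [fq, ← E_add, ← E_add, ← E_add]; congr 1; push_cast; ring
  have k2 : E (σ * ((j : ℕ) ^ 2 + (k : ℕ) ^ 2 - ((j : ℕ) - (k : ℕ)) ^ 2) / (2 * s)) =
      E (σ * (j : ℕ) * (k : ℕ) / s) := by congr 1; field_simp; ring
  have k3 : E (2 ^ L / (2 * 2 ^ L)) = -1 := by rw [← E_half]; congr 1; field_simp
  have k4 : E (-2 ^ L / (2 * 2 ^ L)) = -1 := by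
    rw [← E_half]; refine E_congr (-1) ?_; push_cast; field_simp; ring
  have hm := congrArg (Int.cast : ℤ → ℂ) (Fin.coe_int_sub_eq_ite j k)
  simp only [h.1, h.2, if_true, and_self, one_mul, mul_add, add_mul, mul_left_comm _ z, mul_assoc z,
    key]
  split_ifs at hm <;> push_cast at hm <;> rw [hm]
  · simp only [sub_self, sub_sub_cancel_left, k2, Int.cast_one, one_mul, Int.cast_zero, zero_mul,
      k4, zero_div, E_zero]
    ring
  · simp only [sub_self, add_sub_cancel_left, add_sub_cancel_right, k2, Int.cast_one, one_mul,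
      Int.cast_zero, zero_mul, k3, zero_div, E_zero]
    ring

end Vale.Agent.P338.FF
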