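import Vale.Agent.P338.Cmp
import Vale.Agent.P338.PTX

/-! Linear passes over lists. -/

namespace Vale.Agent.P338

open Function
open Vale.Agent.Lib.H24.T (Enc enc code sz PT Pb sz_pair sz_cons sz_nil sz_pos sz_append
  sz_reverse length_le_sz sz_unit sz_bool bval bval_bits)

section tab
variable {α β : Type}

@[simp] theorem length_tab (N : ℕ) (F : ℕ → α) : (tab N F).length = N := by simp [tab]
@[simp] theorem getElem_tab {N : ℕ} {F : ℕ → α} {j : ℕ} (h : j < (tab N F).length) :
    (tab N F)[j] = F j := by simp [tab]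
@[simp] theorem tab_zero (F : ℕ → α) : tab 0 F = [] := rfl
theorem tab_congr {N : ℕ} {F G : ℕ → α} (h : ∀ j < N, F j = G j) : tab N F = tab N G :=
  List.map_congr_left fun j hj => h j (by simpa using hj)
@[simp] theorem map_tab (N : ℕ) (F : ℕ → α) (g : α → β) :
    (tab N F).map g = tab N fun j => g (F j) := by simp [tab, Function.comp_def]
theorem tab_succ (N : ℕ) (F : ℕ → α) : tab (N + 1) F = tab N F ++ [F N] := by
  simp [tab, List.range_succ]
theorem tab_succ' (N : ℕ) (F : ℕ → α) : tab (N + 1) F = F 0 :: tab N fun j => F (j + 1) := by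
  simp [tab, List.range_succ_eq_map, Function.comp_def]
theorem zip_tab (N M : ℕ) (F : ℕ → α) (G : ℕ → β) :
    (tab N F).zip (tab M G) = tab (min N M) fun j => (F j, G j) :=
  List.ext_getElem (by simp) fun j h1 h2 => by simp
theorem take_tab (r N : ℕ) (F : ℕ → α) : (tab N F).take r = tab (min r N) F :=
  List.ext_getElem (by simp) fun j h1 h2 => by simp
theorem drop_tab (r N : ℕ) (F : ℕ → α) : (tab N F).drop r = tab (N - r) fun j => F (r + j) :=
  List.ext_getElem (by simp) fun j h1 h2 => by simp
theorem reverse_tab (N : ℕ) (F : ℕ → α) : (tab N F).reverse = tab N fun j => F (N - 1 - j) :=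
  List.ext_getElem (by simp) fun j h1 h2 => by simp
theorem append_tab (N M : ℕ) (F G : ℕ → α) :
    tab N F ++ tab M G = tab (N + M) fun j => if j < N then F j else G (j - N) :=
  List.ext_getElem (by simp) fun j h1 h2 => by
    simp only [List.getElem_append, length_tab, getElem_tab]; split_ifs <;> rfl
theorem replicate_tab (N : ℕ) (a : α) : List.replicate N a = tab N fun _ => a :=
  List.ext_getElem (by simp) fun j h1 h2 => by simp
theorem eq_tab (l : List α) (d : α) : l = tab l.length fun j => l.getD j d :=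
  List.ext_getElem (by simp) fun j h1 h2 => by simp [List.getElem?_eq_getElem h1]
theorem getD_tab {N j : ℕ} (F : ℕ → α) (d : α) (h : j < N) : (tab N F).getD j d = F j := by
  rw [List.getD_eq_getElem _ _ (by simpa using h), getElem_tab]
theorem flatMap_single (N : ℕ) (F : ℕ → α) : (List.range N).flatMap (fun j => [F j]) = tab N F := by
  simp [tab, List.map_eq_flatMap]
theorem flatMap_tab (A B : ℕ) (G : ℕ → ℕ → α) :
    (List.range A).flatMap (fun a => tab B (G a)) = tab (B * A) fun j => G (j / B) (j % B) := by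
  induction A with
  | zero => simp
  | succ A ih =>
    rw [List.range_succ, List.flatMap_append, ih, List.flatMap_singleton, append_tab, Nat.mul_succ]
    refine tab_congr fun j hj => ?_
    split_ifs with h
    · rfl
    · have hB : 0 < B := by
        rcases B with _ | B
        · simp at hj
        · omega
      obtain ⟨k, rfl⟩ : ∃ k, j = k + B * A := ⟨j - B * A, by omega⟩
      have hk : k < B := by omega
      rw [Nat.add_mul_div_left _ _ hB, Nat.add_mul_mod_self_left, Nat.div_eq_of_lt hk,
        Nat.mod_eq_of_lt hk]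
      simp
theorem ofFn_tab (N : ℕ) (F : ℕ → α) : (List.ofFn fun i : Fin N => F i) = tab N F :=
  List.ext_getElem (by simp) fun j h1 h2 => by simp

theorem sz_tab [Enc α] (N : ℕ) (F : ℕ → α) :
    sz (tab N F) = ∑ j ∈ Finset.range N, (sz (F j) + 1) + 1 := by
  induction N with
  | zero => simp
  | succ N ih =>
    have := sz_append (tab N F) [F N]
    rw [tab_succ, Finset.sum_range_succ]
    simp at this; omega
end tab

variable {ι ι' : Type} {α β γ δ σ π : Type} [Enc α] [Enc β] [Enc γ] [Enc δ] [Enc σ] [Enc π]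

theorem Bd.sum_const {N : ι → ℕ} {E U : ι → ℝ} (h : Bd (fun i => N i * E i) U) :
    Bd (fun i => ∑ _j ∈ Finset.range (N i), E i) U := h.of_le fun i => by simp

theorem Bd.sum_le {N : ι → ℕ} {f : ι → ℕ → ℝ} {U' : ι → ℕ → ℝ} {U : ι → ℝ}
    (h : Bd (fun q : Pos N => f q.1.1 q.1.2) fun q => U' q.1.1 q.1.2)
    (hU : Bd (fun i => ∑ j ∈ Finset.range (N i), U' i j) U) :
    Bd (fun i => ∑ j ∈ Finset.range (N i), f i j) U := by
  obtain ⟨c, h⟩ := h
  refine (hU.cmul c).of_le fun i => ?_
  rw [Finset.mul_sum]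
  exact Finset.sum_le_sum fun j hj => (h ⟨(i, j), by simpa using hj⟩).2

theorem Bd.szpair {x : ι → α} {y : ι → β} {U : ι → ℝ} (h : Bd (fun i => (sz (x i) : ℝ)) U)
    (h' : Bd (fun i => (sz (y i) : ℝ)) U) : Bd (fun i => (sz (x i, y i) : ℝ)) U :=
  ((h.add h').add h).of_le fun i => by
    have : (1 : ℝ) ≤ sz (x i) := by exact_mod_cast sz_pos _
    rw [sz_pair]; push_cast; linarith

theorem Bd.sz1 {x : ι → α} {U : ι → ℝ} (h : Bd (fun i => (sz (x i) : ℝ)) U) : Bd (fun _ => 1) U :=
  h.of_le fun i => by exact_mod_cast sz_pos _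

theorem Bd.sztab {N : ι → ℕ} {F : ι → ℕ → α} {U' : ι → ℕ → ℝ} {U : ι → ℝ}
    (h : Bd (fun q : Pos N => (sz (F q.1.1 q.1.2) : ℝ)) fun q => U' q.1.1 q.1.2)
    (hU : Bd (fun i => ∑ j ∈ Finset.range (N i), U' i j) U) (h1 : Bd (fun _ => 1) U) :
    Bd (fun i => (sz (tab (N i) (F i)) : ℝ)) U :=
  ((Bd.sum_le (f := fun i j => sz (F i j) + 1) (h.add h.sz1) hU).add h1).of_le fun i => by
    rw [sz_tab]; push_cast; rfl

theorem Lin.self {c : Ctx ι α} (h : Bd (fun i => (sz (c.x i) : ℝ)) c.U) : Lin c c.x := Cmp.id h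

/-- the context of one element -/
abbrev Ctx.el (c : Ctx ι α) (N : ι → ℕ) (x : ι → ℕ → β) (U : ι → ℕ → ℝ) : Ctx (Pos N) β :=
  ⟨fun q => c.s q.1.1, fun q => x q.1.1 q.1.2, fun q => U q.1.1 q.1.2⟩

section
variable {c : Ctx ι α} {N : ι → ℕ}

theorem Cmp.scanL {st : ι → ℕ → σ} {F : ι → ℕ → β} {out : ι → ℕ → List γ} {V : ι → ℝ}
    {U' V' : ι → ℕ → ℝ} (h0 : Lin c fun i => st i 0) (hF : Lin c fun i => tab (N i) (F i))
    (h : Cmp (fun q : Pos N => c.s q.1.1) (fun q => (st q.1.1 q.1.2, F q.1.1 q.1.2))
      (fun q => (st q.1.1 (q.1.2 + 1), out q.1.1 q.1.2)) (fun q => U' q.1.1 q.1.2)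
      fun q => V' q.1.1 q.1.2)
    (hU : Bd (fun i => ∑ j ∈ Finset.range (N i), U' i j) c.U) (hV0 : ∀ i, 0 ≤ V i)
    (hV : ∀ i, ∑ j ∈ Finset.range (N i), V' i j ≤ V i) :
    Cmp c.s c.x (fun i => (st i (N i), (List.range (N i)).flatMap (out i))) c.U V :=
  Cmp.trans0' (h0.pair hF) (Cmp.scan h hU h0.bd hV0 hV)

theorem Lin.scan {F : ι → ℕ → β} (st : ι → ℕ → σ) (out : ι → ℕ → List γ)
    (U' : ι → ℕ → ℝ) (h0 : Lin c fun i => st i 0) (hF : Lin c fun i => tab (N i) (F i))
    (hb : Bd (fun q : Pos N => (sz (st q.1.1 q.1.2, F q.1.1 q.1.2) : ℝ)) fun q => U' q.1.1 q.1.2)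
    (hU : Bd (fun i => ∑ j ∈ Finset.range (N i), U' i j) c.U)
    (h : Lin (c.el N (fun i j => (st i j, F i j)) U') (fun q => st q.1.1 q.1.2) →
      Lin (c.el N (fun i j => (st i j, F i j)) U') (fun q => F q.1.1 q.1.2) →
      Lin (c.el N (fun i j => (st i j, F i j)) U')
        fun q => (st q.1.1 (q.1.2 + 1), out q.1.1 q.1.2)) :
    Lin c fun i => (st i (N i), (List.range (N i)).flatMap (out i)) := by
  have hx := Lin.self (c := c.el N (fun i j => (st i j, F i j)) U') hb
  exact Cmp.scanL (V' := fun _ _ => 0) h0 hF (h hx.fst hx.snd) hU (fun _ => le_rfl) fun i => by simp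

theorem Cmp.flatMapV {P : ι → π} {F : ι → ℕ → β} {out : ι → ℕ → List γ} {V : ι → ℝ}
    {U' V' : ι → ℕ → ℝ} (hP : Lin c P) (hF : Lin c fun i => tab (N i) (F i))
    (h : Cmp (fun q : Pos N => c.s q.1.1) (fun q => (P q.1.1, F q.1.1 q.1.2))
      (fun q => out q.1.1 q.1.2) (fun q => U' q.1.1 q.1.2) fun q => V' q.1.1 q.1.2)
    (hU : Bd (fun i => ∑ j ∈ Finset.range (N i), U' i j) c.U) (hV0 : ∀ i, 0 ≤ V i)
    (hV : ∀ i, ∑ j ∈ Finset.range (N i), V' i j ≤ V i) :
    Cmp c.s c.x (fun i => (List.range (N i)).flatMap (out i)) c.U V := by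
  have hx := Lin.self (c := c.el N (fun i j => (P i, F i j)) U') h.bdx
  have h2 := Cmp.scanL (st := fun i _ => P i) hP hF ((Cmp.pair hx.fst h).monoV
    (V' := fun q => V' q.1.1 q.1.2) fun q => by simp) hU hV0 hV
  exact h2.trans0 (Lin.self (c := ⟨c.s, _, c.U⟩) h2.bdy).snd

theorem Cmp.mapV {P : ι → π} {F : ι → ℕ → β} {G : ι → ℕ → γ} {V : ι → ℝ}
    {U' V' : ι → ℕ → ℝ} (hP : Lin c P) (hF : Lin c fun i => tab (N i) (F i))
    (h : Cmp (fun q : Pos N => c.s q.1.1) (fun q => (P q.1.1, F q.1.1 q.1.2))
      (fun q => G q.1.1 q.1.2) (fun q => U' q.1.1 q.1.2) fun q => V' q.1.1 q.1.2)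
    (hU : Bd (fun i => ∑ j ∈ Finset.range (N i), U' i j) c.U) (hV0 : ∀ i, 0 ≤ V i)
    (hV : ∀ i, ∑ j ∈ Finset.range (N i), V' i j ≤ V i) :
    Cmp c.s c.x (fun i => tab (N i) (G i)) c.U V := by
  have hx := Lin.self (c := c.el N G U') h.bdy
  exact (Cmp.flatMapV (out := fun i j => [G i j]) hP hF (h.trans0 (hx.cons (hx.cst []))) hU hV0
    hV).congr (fun _ => rfl) fun i => (flatMap_single _ _).symm

theorem Lin.flatMap1 {P : ι → π} {F : ι → ℕ → β} (out : ι → ℕ → List γ) (U' : ι → ℕ → ℝ)
    (hP : Lin c P) (hF : Lin c fun i => tab (N i) (F i))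
    (hb : Bd (fun q : Pos N => (sz (P q.1.1, F q.1.1 q.1.2) : ℝ)) fun q => U' q.1.1 q.1.2)
    (hU : Bd (fun i => ∑ j ∈ Finset.range (N i), U' i j) c.U)
    (h : Lin (c.el N (fun i j => (P i, F i j)) U') (fun q => P q.1.1) →
      Lin (c.el N (fun i j => (P i, F i j)) U') (fun q => F q.1.1 q.1.2) →
      Lin (c.el N (fun i j => (P i, F i j)) U') fun q => out q.1.1 q.1.2) :
    Lin c fun i => (List.range (N i)).flatMap (out i) := by
  have hx := Lin.self (c := c.el N (fun i j => (P i, F i j)) U') hb
  exact Cmp.flatMapV (V' := fun _ _ => 0) hP hF (h hx.fst hx.snd) hU (fun _ => le_rfl)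
    fun i => by simp

theorem Lin.map1 {P : ι → π} {F : ι → ℕ → β} (G : ι → ℕ → γ) (U' : ι → ℕ → ℝ)
    (hP : Lin c P) (hF : Lin c fun i => tab (N i) (F i))
    (hb : Bd (fun q : Pos N => (sz (P q.1.1, F q.1.1 q.1.2) : ℝ)) fun q => U' q.1.1 q.1.2)
    (hU : Bd (fun i => ∑ j ∈ Finset.range (N i), U' i j) c.U)
    (h : Lin (c.el N (fun i j => (P i, F i j)) U') (fun q => P q.1.1) →
      Lin (c.el N (fun i j => (P i, F i j)) U') (fun q => F q.1.1 q.1.2) →
      Lin (c.el N (fun i j => (P i, F i j)) U') fun q => G q.1.1 q.1.2) :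
    Lin c fun i => tab (N i) (G i) := by
  have hx := Lin.self (c := c.el N (fun i j => (P i, F i j)) U') hb
  exact Cmp.mapV (V' := fun _ _ => 0) hP hF (h hx.fst hx.snd) hU (fun _ => le_rfl)
    fun i => by simp

theorem Lin.flatMap0 {F : ι → ℕ → β} (out : ι → ℕ → List γ)
    (hF : Lin c fun i => tab (N i) (F i))
    (h : Lin (c.el N (fun i j => ((), F i j)) fun i j => sz (F i j)) (fun q => F q.1.1 q.1.2) →
      Lin (c.el N (fun i j => ((), F i j)) fun i j => sz (F i j)) fun q => out q.1.1 q.1.2) :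
    Lin c fun i => (List.range (N i)).flatMap (out i) := by
  refine Lin.flatMap1 (P := fun _ => ()) out (fun i j => sz (F i j)) (hF.cst ()) hF
    ⟨3, fun q => ⟨by positivity, ?_⟩⟩ (hF.bd.of_le fun i => ?_) fun _ => h
  · have : (1 : ℝ) ≤ sz (F q.1.1 q.1.2) := by exact_mod_cast sz_pos _
    simp; linarith
  · rw [sz_tab]; push_cast
    have := Finset.sum_le_sum (s := Finset.range (N i)) (f := fun j => (sz (F i j) : ℝ))
      (g := fun j => sz (F i j) + 1) fun j _ => by linarith
    linarith

theorem Lin.map0 {F : ι → ℕ → β} (G : ι → ℕ → γ) (hF : Lin c fun i => tab (N i) (F i))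
    (h : Lin (c.el N (fun i j => ((), F i j)) fun i j => sz (F i j)) (fun q => F q.1.1 q.1.2) →
      Lin (c.el N (fun i j => ((), F i j)) fun i j => sz (F i j)) fun q => G q.1.1 q.1.2) :
    Lin c fun i => tab (N i) (G i) :=
  (Lin.flatMap0 (fun i j => [G i j]) hF fun hx => (h hx).cons (hx.cst [])).congr
    fun i => (flatMap_single _ _).symm

/-- replace all entries by a constant -/
theorem Lin.fill {l : ι → List β} (h : Lin c l) (b : γ) :
    Lin c fun i => List.replicate (l i).length b := by
  rcases isEmpty_or_nonempty β with hβ | ⟨⟨d⟩⟩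
  · exact (h.cst []).congr fun i => by
      cases hl : l i with
      | nil => rfl
      | cons a _ => exact hβ.elim a
  · exact (Lin.map0 (fun _ _ => b) (h.congr fun i => (eq_tab (l i) d).symm) fun hx => hx.cst b).congr
      fun i => replicate_tab _ _

theorem Lin.ruler {F : ι → ℕ → β} (h : Lin c fun i => tab (N i) (F i)) :
    Lin c fun i => List.replicate (N i) () := (h.fill ()).congr fun i => by simp

theorem Lin.fillN (h : Lin c fun i => List.replicate (N i) ()) (b : γ) :
    Lin c fun i => List.replicate (N i) b := (h.fill b).congr fun i => by simp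

theorem Lin.ztab {F : ι → ℕ → β} {G : ι → ℕ → γ} (hF : Lin c fun i => tab (N i) (F i))
    (hG : Lin c fun i => tab (N i) (G i)) : Lin c fun i => tab (N i) fun j => (F i j, G i j) :=
  (hF.zip hG).congr fun i => by rw [zip_tab, min_self]

theorem Lin.flat {A B : ι → ℕ} {G : ι → ℕ → ℕ → β}
    (h : Lin c fun i => tab (A i) fun a => tab (B i) (G i a)) :
    Lin c fun i => tab (B i * A i) fun j => G i (j / B i) (j % B i) :=
  (Lin.flatMap0 (fun i a => tab (B i) (G i a)) h fun hx => hx).congr
    fun i => (flatMap_tab _ _ _).symm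

theorem Lin.flatten {l : ι → List (List β)} (h : Lin c l) : Lin c fun i => (l i).flatten :=
  (Lin.flatMap0 (fun i j => (l i).getD j []) (h.congr fun i => (eq_tab (l i) []).symm)
    fun hx => hx).congr fun i => by
    conv_lhs => rw [eq_tab (l i) []]
    simp [tab, List.flatMap]

theorem Lin.take {r : ι → ℕ} {l : ι → List β} (hr : Lin c fun i => List.replicate (r i) ())
    (h : Lin c l) : Lin c fun i => (l i).take (r i) := by
  rcases isEmpty_or_nonempty β with hβ | ⟨⟨d⟩⟩
  · exact h.congr fun i => by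
      cases hl : l i with
      | nil => simp
      | cons a _ => exact hβ.elim a
  · have h1 := (hr.zip h).congr (y' := fun i => tab (min (r i) (l i).length)
      fun j => ((), (l i).getD j d)) fun i => by
        rw [replicate_tab]; conv_rhs => rw [eq_tab (l i) d, zip_tab]
    exact (Lin.map0 (fun i j => (l i).getD j d) h1 fun hx => hx.snd).congr fun i => by
      conv_lhs => rw [eq_tab (l i) d, take_tab]

theorem flatMap_drop {β : Type} (r N : ℕ) (F : ℕ → β) :
    (List.range N).flatMap (fun j => cond (decide (j < r)) [] [F j]) = (tab N F).drop r := by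
  induction N with
  | zero => simp
  | succ N ih =>
    rw [List.range_succ, List.flatMap_append, ih, tab_succ, List.drop_append]
    by_cases h : N < r
    · simp [h]; omega
    · simp [h, show r - N = 0 by omega]

theorem Lin.drop {r : ι → ℕ} {l : ι → List β} (hr : Lin c fun i => List.replicate (r i) ())
    (h : Lin c l) : Lin c fun i => (l i).drop (r i) := by
  rcases isEmpty_or_nonempty β with hβ | ⟨⟨d⟩⟩
  · exact h.congr fun i => by
      cases hl : l i with
      | nil => simp
      | cons a _ => exact hβ.elim a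
  · have h1 := (((hr.fillN true).append (h.fill false)).zip h).congr
      (y' := fun i => tab (l i).length fun j => (decide (j < r i), (l i).getD j d)) fun i => by
        rw [replicate_tab, replicate_tab, append_tab]
        conv_rhs => rw [eq_tab (l i) d, zip_tab]
        simp
    exact (Lin.flatMap0 (fun i j => _root_.cond (decide (j < r i)) [] [(l i).getD j d]) h1
      fun hx => hx.fst.cond (hx.cst []) (hx.snd.cons (hx.cst []))).congr fun i => by
        rw [flatMap_drop, ← eq_tab]

theorem Lin.units {n : ι → ℕ} (h : Lin c n) (hb : Bd (fun i => (n i : ℝ)) c.U) :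
    Lin c fun i => List.replicate (n i) () := by
  let L := fun i => (n i).bits.reverse
  let v := fun i j => bval ((L i).take j) 0
  have hL : Lin c L := Lin.reverse (h.of_enc fun _ => rfl)
  have hv : ∀ i j, j < (L i).length → v i (j + 1) = 2 * v i j + ((L i).getD j false).toNat := by
    intro i j hj
    simp only [v, bval, List.take_add_one, List.foldl_append, List.getElem?_eq_getElem hj,
      List.getD_eq_getElem _ _ hj, Option.toList_some, List.foldl_cons, List.foldl_nil,
      Nat.bit_val]
  have hs : ∀ i k, k ≤ (L i).length → ∑ j ∈ Finset.range k, v i (j + 1) ≤ 2 * v i k := by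
    intro i k
    induction k with
    | zero => simp
    | succ k ih =>
      intro hk
      have := ih (by omega)
      have := hv i k hk
      rw [Finset.sum_range_succ]; omega
  have he : ∀ i, v i (L i).length = n i := fun i => by simp only [v, List.take_length, L, bval_bits]
  have hu : ∀ k : ℕ, sz (List.replicate k ()) = 2 * k + 1 := by
    intro k; induction k with
    | zero => rfl
    | succ k ih => simp [List.replicate_succ, ih]; omega
  have := Lin.scan (fun i j => List.replicate (v i j) ()) (fun _ _ => ([] : List Unit))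
    (fun i j => v i (j + 1) + 1) (hL.cst []) (hL.congr fun i => (eq_tab (L i) false).symm)
    ⟨5, fun q => ⟨by positivity, by
      have h1 := hv _ _ q.2
      have h2 := sz_bool ((L q.1.1).getD q.1.2 false)
      simp only [sz_pair, hu]
      exact_mod_cast (by omega)⟩⟩
    (((hb.cmul 2).add hL.len).of_le fun i => by
      have := hs i _ le_rfl
      rw [he] at this
      rw [Finset.sum_add_distrib]
      simp only [Finset.sum_const, Finset.card_range, nsmul_eq_mul, mul_one]
      have : ((∑ j ∈ Finset.range (L i).length, v i (j + 1) : ℕ) : ℝ) ≤ (2 * n i : ℕ) := by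
        exact_mod_cast this
      push_cast at this ⊢
      linarith)
    fun h1 h2 => (((h2.cond (h1.cst [()]) (h1.cst [])).append (h1.append h1)).pair
      (h1.cst [])).congr fun q => by
        rw [hv _ _ q.2]
        cases (L q.1.1).getD q.1.2 false <;>
          simp only [Bool.toNat_true, Bool.toNat_false, add_zero, List.replicate_succ, two_mul,
            List.replicate_add, cond_true, cond_false, List.nil_append, List.cons_append]
  exact this.fst.congr fun i => by simp only [he]

theorem rawG_block (n : ℕ) : ∀ (f : Bool) (G : ℕ → β),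
    rawG (tab (n + 1) fun b => ((f && decide (b = 0), decide (b = n)), G b)) =
      (if f then [true] else []) ++ (body (tab (n + 1) G) ++ [false]) := by
  induction n with
  | zero => intro f G; simp [tab, rawG, body]
  | succ n ih =>
    intro f G
    have := ih false fun b => G (b + 1)
    rw [tab_succ', tab_succ' (n + 1) G, body_cons]
    simp only [rawG, List.flatMap_cons] at this ⊢
    simp only [Bool.false_and, Nat.add_right_cancel_iff, Nat.add_eq_zero_iff, one_ne_zero,
      and_false, decide_false, Bool.and_false] at this ⊢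
    rw [this]
    simp

theorem Lin.chunk {A B : ι → ℕ} {F : ι → ℕ → β} (hB : ∀ i, 0 < B i)
    (ha : Lin c fun i => List.replicate (A i) ()) (hb : Lin c fun i => List.replicate (B i) ())
    (h : Lin c fun i => tab (B i * A i) (F i)) :
    Lin c fun i => tab (A i) fun a => tab (B i) fun b => F i (b + B i * a) := by
  have h1 := (hb.cst true).cons (hb.fillN false)
  have h2 : Lin c fun i => tab (B i) fun b => (decide (b = 0), decide (b = B i - 1)) :=
    (h1.zip (Lin.take hb h1).reverse).congr fun i => by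
      have e : true :: List.replicate (B i) false = tab (B i + 1) fun b => decide (b = 0) := by
        rw [tab_succ', replicate_tab]; simp
      rw [e, take_tab, reverse_tab, zip_tab]
      have := hB i
      simp only [le_add_iff_nonneg_right, zero_le, inf_of_le_left, inf_of_le_right]
      exact tab_congr fun j hj => by simp; omega
  have h3 := Lin.flatMap1 (F := fun _ _ => ()) (N := A)
    (fun i _ => tab (B i) fun b => (decide (b = 0), decide (b = B i - 1)))
    (fun i _ => B i) h2 (ha.congr fun i => (replicate_tab _ _).symm)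
    ⟨11, fun q => ⟨by positivity, by
      have h0 := hB q.1.1
      have := Vale.Agent.Lib.H24.T.sz_list_le (B := 7)
        (l := tab (B q.1.1) fun b => (decide (b = 0), decide (b = B q.1.1 - 1))) fun a _ => by
          have := sz_bool a.1
          have := sz_bool a.2
          rw [Vale.Agent.Lib.H24.T.sz_pair']; omega
      simp only [sz_pair, sz_unit]
      rw [length_tab] at this
      exact_mod_cast (by omega)⟩⟩
    (h.len.of_le fun i => by simp [mul_comm]) fun a _ => a
  refine (h3.zip h).group fun i => ?_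
  rw [flatMap_tab, zip_tab, min_self]
  have e := flatMap_tab (A i) (B i) fun a b =>
    ((decide (b = 0), decide (b = B i - 1)), F i (b + B i * a))
  simp only [Nat.mod_add_div] at e
  rw [← e]
  obtain ⟨n, hn⟩ : ∃ n, B i = n + 1 := ⟨B i - 1, by have := hB i; omega⟩
  simp only [rawG, body, tab, List.flatMap_assoc, List.flatMap_map]
  refine List.flatMap_congr fun a _ => ?_
  have := rawG_block n true fun b => F i (b + B i * a)
  simp only [rawG, tab, List.flatMap_map, Bool.true_and, if_true, ← code_eq_body] at this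
  simp only [hn, Nat.add_sub_cancel] at this ⊢
  exact this

theorem Lin.ofFn {w : ℕ} {y : ι → Fin w → β} (h0 : Bd (fun i => (sz (c.x i) : ℝ)) c.U)
    (h : ∀ u, Lin c fun i => y i u) : Lin c fun i => List.ofFn (y i) := by
  induction w with
  | zero => exact (Lin.const h0 []).congr fun i => by simp
  | succ w ih => exact ((h 0).cons (ih fun u => h u.succ)).congr fun i => List.ofFn_succ

theorem Lin.getFn {w : ℕ} {y : ι → Fin w → β} (h : Lin c fun i => List.ofFn (y i)) (u : Fin w) :
    Lin c fun i => y i u := by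
  induction w with
  | zero => exact u.elim0
  | succ w ih =>
    have h1 := h.congr (y' := fun i => y i 0 :: List.ofFn fun u : Fin w => y i u.succ)
      fun i => List.ofFn_succ.symm
    refine Fin.cases h1.head (fun u => ih (y := fun i u => y i u.succ) h1.tail u) u

end

/-- the hypothesis of a recursion -/
structure RI {κ : Type} (x : κ → α) (y : κ → β) (μ : κ → ℕ) (τ : κ → ℝ) where
  s : Prog
  C : ℝ
  k : κ
  C0 : 0 ≤ C
  h : ∀ k', μ k' < μ k → ∃ t : ℕ, (t : ℝ) ≤ C * τ k' ∧ Run s s (code (x k')) (code (y k')) t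

theorem RI.call {κ : Type} {x : κ → α} {y : κ → β} {μ : κ → ℕ} {τ : κ → ℝ}
    (g : ι → RI x y μ τ) (k : ι → κ) (hk : ∀ i, μ (k i) < μ (g i).k) {U : ι → ℝ}
    (hx : Bd (fun i => (sz (x (k i)) : ℝ)) U) (hy : Bd (fun i => (sz (y (k i)) : ℝ)) U) :
    Cmp (fun i => (g i).s) (fun i => x (k i)) (fun i => y (k i)) U fun i => (g i).C * τ (k i) :=
  Cmp.call hx hy fun i => (g i).h _ (hk i)

theorem Cmp.recurG {κ : Type} {x : κ → α} {y : κ → β} (μ : κ → ℕ) {τ U V : κ → ℝ}
    (hτ : ∀ k, U k + V k ≤ τ k) (hV : ∀ k, 0 ≤ V k)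
    (step : Cmp (fun q : RI x y μ τ => q.s) (fun q => x q.k) (fun q => y q.k) (fun q => U q.k)
      fun q => q.C * V q.k) (s : ι → Prog) (g : ι → κ) :
    Cmp s (fun i => x (g i)) (fun i => y (g i)) (fun i => τ (g i)) 0 := by
  obtain ⟨p, c, h⟩ := step
  have key : ∀ n k, μ k = n → ∃ t : ℕ, (t : ℝ) ≤ c * τ k ∧ Run p p (code (x k)) (code (y k)) t := by
    intro n
    induction n using Nat.strong_induction_on with
    | _ n ih =>
      intro k hk
      obtain ⟨-, -, -, t, ht, hr⟩ := h ⟨p, c, k, by positivity, fun k' h' => ih _ (hk ▸ h') k' rfl⟩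
      refine ⟨t, ht.trans ?_, hr⟩
      have := mul_le_mul_of_nonneg_left (hτ k) (by positivity : (0 : ℝ) ≤ c)
      simp only; linarith
  have hb : Bd (fun k => (sz (x k) + sz (y k) + 1 : ℝ)) τ := ⟨c, fun k => by
    obtain ⟨a, -, b, -⟩ := h ⟨p, c, k, by positivity, fun k' _ => key _ k' rfl⟩
    have := mul_le_mul_of_nonneg_left (hτ k) (by positivity : (0 : ℝ) ≤ c)
    have := hτ k
    have := hV k
    have : 0 ≤ c * V k := by positivity
    simp only at a b
    constructor <;> linarith⟩
  have hx : Bd (fun k => (sz (x k) : ℝ)) τ :=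
    hb.of_le fun k => by linarith [(by positivity : (0 : ℝ) ≤ sz (y k))]
  have hy : Bd (fun k => (sz (y k) : ℝ)) τ :=
    hb.of_le fun k => by linarith [(by positivity : (0 : ℝ) ≤ sz (x k))]
  exact Cmp.fix p (hx.re g) (hy.re g) (((Bd.refl hb.nonneg).cmul c).re g) fun i => key _ (g i) rfl

theorem Cmp.recur {κ : Type} {x : κ → α} {y : κ → β} (μ : κ → ℕ) {τ U V : κ → ℝ}
    (hτ : ∀ k, U k + V k ≤ τ k) (hV : ∀ k, 0 ≤ V k)
    (step : Cmp (fun q : RI x y μ τ => q.s) (fun q => x q.k) (fun q => y q.k) (fun q => U q.k)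
      fun q => q.C * V q.k) (s : κ → Prog) : Cmp s x y τ 0 :=
  Cmp.recurG μ hτ hV step s fun k => k

end Vale.Agent.P338
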