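import Vale.Agent.P338.Spec2

/-! One rounded stage against the exact tensor product of the axis matrices. -/

namespace Vale.Agent.P338.MD

open Function Matrix
open Vale.Agent.P344 (piT piT_mul prod_ite_eq_pi)

variable {d L : ℕ}

/-- the complex value of a Gaussian integer -/
noncomputable abbrev tc (z : GI) : ℂ := GaussianInt.toComplex z

/-- valid addresses -/
def co (α : Fin d → Ax L) : MA d := fun i => ((α i).1, ((α i).2 : ℕ))

/-- the complex vector on valid addresses -/
noncomputable def cv (L : ℕ) (x : MA d → GI) : (Fin d → Ax L) → ℂ := fun α => tc (x (co α))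

theorem piT_one {ι : Type} [Fintype ι] [DecidableEq ι] {X : ι → Type} [∀ j, DecidableEq (X j)] :
    piT (fun j => (1 : Matrix (X j) (X j) ℂ)) = 1 := by
  ext a b
  simp only [piT, Matrix.one_apply]
  split_ifs with h
  · subst h; simp
  · obtain ⟨j, hj⟩ := Function.ne_iff.mp h
    exact Finset.prod_eq_zero (Finset.mem_univ j) (if_neg hj)

theorem piT_mul' (M N : Fin d → Matrix (Ax L) (Ax L) ℂ) :
    piT M * piT N = piT fun j => M j * N j := by
  ext o i
  simp only [piT, Matrix.mul_apply, Finset.prod_univ_sum, Fintype.piFinset_univ,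
    Finset.prod_mul_distrib]

theorem piT_list {G : Type} (M : G → Fin d → Matrix (Ax L) (Ax L) ℂ) (l : List G) :
    (l.map fun g => piT (M g)).reverse.prod = piT fun j => (l.map fun g => M g j).reverse.prod := by
  induction l with
  | nil => simp [piT_one]
  | cons g l ih =>
    simp only [List.map_cons, List.reverse_cons, List.prod_append, List.prod_cons, List.prod_nil,
      mul_one]
    rw [ih, piT_mul']

theorem piT_axis (i : Fin d) (A : Matrix (Ax L) (Ax L) ℂ) (v : (Fin d → Ax L) → ℂ)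
    (α : Fin d → Ax L) :
    (piT fun j => if j = i then A else 1).mulVec v α = ∑ t, A (α i) t * v (update α i t) := by
  have h : ∀ β : Fin d → Ax L, (piT fun j => if j = i then A else 1) α β =
      ∑ t, if β = update α i t then A (α i) t else 0 := by
    intro β
    rw [Finset.sum_eq_single (β i)]
    · simp only [piT]
      rw [← Finset.mul_prod_erase _ _ (Finset.mem_univ i), if_pos rfl]
      split_ifs with h
      · rw [Finset.prod_eq_one, mul_one]
        intro j hj
        have hj' := Finset.ne_of_mem_erase hj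
        rw [if_neg hj', h, update_of_ne hj', Matrix.one_apply_eq]
      · obtain ⟨j, hj⟩ := Function.ne_iff.mp h
        have hji : j ≠ i := by
          rintro rfl
          simp at hj
        rw [update_of_ne hji] at hj
        rw [Finset.prod_eq_zero (i := j) (Finset.mem_erase.2 ⟨hji, Finset.mem_univ _⟩), mul_zero]
        rw [if_neg hji, Matrix.one_apply_ne (Ne.symm hj)]
    · intro t _ ht
      rw [if_neg]
      rintro rfl
      simp at ht
    · simp
  simp only [Matrix.mulVec, dotProduct, h, Finset.sum_mul]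
  rw [Finset.sum_comm]
  refine Finset.sum_congr rfl fun t _ => ?_
  simp

theorem mulVec_le {X : Type} [Fintype X] (M : Matrix X X ℂ) (v : X → ℂ) (a : X) {B c : ℝ}
    (hv : ∀ b, ‖v b‖ ≤ B) (hM : ∑ b, ‖M a b‖ ≤ c) (hB : 0 ≤ B) : ‖M.mulVec v a‖ ≤ c * B := by
  calc ‖M.mulVec v a‖ ≤ ∑ b, ‖M a b * v b‖ := norm_sum_le _ _
    _ ≤ ∑ b, ‖M a b‖ * B := Finset.sum_le_sum fun b _ => by
        rw [norm_mul]; exact mul_le_mul_of_nonneg_left (hv b) (norm_nonneg _)
    _ ≤ c * B := by rw [← Finset.sum_mul]; exact mul_le_mul_of_nonneg_right hM hB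

theorem xor_lt {l : ℕ} (hl : l < L) (a : Fin (2 ^ L)) : (a : ℕ) ^^^ 2 ^ l < 2 ^ L :=
  Nat.xor_lt_two_pow a.2 (Nat.pow_lt_pow_right (by norm_num) hl)

theorem xor_ne (a l : ℕ) : a ^^^ 2 ^ l ≠ a := by
  intro h
  have : (a ^^^ 2 ^ l).testBit l = a.testBit l := by rw [h]
  simp at this

theorem bitC_sum {l : ℕ} (hl : l < L) (a : Ax L) (F : Ax L → ℂ) :
    ∑ t, bitC L l a t * F t =
      (1 + Complex.I) / 2 * F a + (1 - Complex.I) / 2 * F (a.1, ⟨_, xor_lt hl a.2⟩) := by
  have hne : a ≠ (a.1, ⟨_, xor_lt hl a.2⟩) := fun h => by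
    have := congrArg (fun t : Ax L => (t.2 : ℕ)) h
    exact xor_ne _ _ this.symm
  rw [Finset.sum_eq_add a (a.1, ⟨_, xor_lt hl a.2⟩) hne]
  · simp [bitC]
  · intro t _ ht
    have : bitC L l a t = 0 := by
      simp only [bitC]
      split_ifs with h1 h2 h3
      · exact absurd (Prod.ext h1.symm (Fin.ext h2)) ht.1
      · exact (ht.2 (Prod.ext h1.symm (Fin.ext h3))).elim
      · rfl
      · rfl
    rw [this, zero_mul]
  · simp
  · simp

theorem bitC_row {l : ℕ} (hl : l < L) (a : Ax L) : ∑ t, ‖bitC L l a t‖ ≤ 2 := by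
  have hne : a ≠ (a.1, ⟨_, xor_lt hl a.2⟩) := fun h => by
    have := congrArg (fun t : Ax L => (t.2 : ℕ)) h
    exact xor_ne _ _ this.symm
  have h1 : ‖(1 + Complex.I) / 2‖ ≤ 1 := by
    rw [norm_div, div_le_one (by simp)]
    exact (norm_add_le _ _).trans (by simp; norm_num)
  have h2 : ‖(1 - Complex.I) / 2‖ ≤ 1 := by
    rw [norm_div, div_le_one (by simp)]
    exact (norm_sub_le _ _).trans (by simp; norm_num)
  rw [Finset.sum_eq_add a (a.1, ⟨_, xor_lt hl a.2⟩) hne]
  · simp only [bitC, xor_ne, if_true, if_false]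
    linarith
  · intro t _ ht
    have : bitC L l a t = 0 := by
      simp only [bitC]
      split_ifs with h1 h2 h3
      · exact absurd (Prod.ext h1.symm (Fin.ext h2)) ht.1
      · exact (ht.2 (Prod.ext h1.symm (Fin.ext h3))).elim
      · rfl
      · rfl
    rw [this, norm_zero]
  · simp
  · simp

theorem co_update (α : Fin d → Ax L) (i : Fin d) (t : Ax L) :
    co (update α i t) = update (co α) i (t.1, (t.2 : ℕ)) := by
  funext j
  by_cases h : j = i
  · subst h; simp [co]
  · simp [co, update_of_ne h]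

theorem cv_bfl {l : ℕ} (hl : l < L) (x : MA d → GI) (i : Fin d) :
    cv L (bfl l x i) = (piT fun j => if j = i then (2 : ℂ) • bitC L l else 1).mulVec (cv L x) := by
  funext α
  rw [piT_axis]
  simp only [Matrix.smul_apply, smul_eq_mul, mul_assoc]
  rw [← Finset.mul_sum, bitC_sum hl (α i) fun t => cv L x (update α i t)]
  simp only [cv, bfl, tc, map_add, map_mul, update_eq_self, co_update, xr]
  simp only [GaussianInt.toComplex_def', co]
  push_cast
  ring

theorem cv_foldl {l : ℕ} (hl : l < L) (li : List (Fin d)) (x : MA d → GI) :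
    cv L (li.foldl (bfl l) x) = ((li.map fun i => piT fun j =>
      if j = i then (2 : ℂ) • bitC L l else 1).reverse.prod).mulVec (cv L x) := by
  induction li generalizing x with
  | nil => simp
  | cons i li ih =>
    simp only [List.foldl_cons, List.map_cons, List.reverse_cons, List.prod_append, List.prod_cons,
      List.prod_nil, mul_one]
    rw [ih, cv_bfl hl, Matrix.mulVec_mulVec]

theorem prod_single {M : Type} [Monoid M] (A : M) (j : Fin d) (li : List (Fin d)) (h : li.Nodup) :
    (li.map fun i => if j = i then A else 1).reverse.prod = if j ∈ li then A else 1 := by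
  induction li with
  | nil => simp
  | cons i li ih =>
    rw [List.nodup_cons] at h
    simp only [List.map_cons, List.reverse_cons, List.prod_append, List.prod_cons, List.prod_nil,
      mul_one, ih h.2, List.mem_cons]
    by_cases hj : j = i
    · subst hj; simp [h.1]
    · simp [hj]

theorem cv_all {l : ℕ} (hl : l < L) (x : MA d → GI) (α : Fin d → Ax L) :
    cv L ((List.finRange d).foldl (bfl l) x) α =
      2 ^ d * (piT fun _ : Fin d => bitC L l).mulVec (cv L x) α := by
  rw [cv_foldl hl, piT_list (fun i j => if j = i then (2 : ℂ) • bitC L l else 1)]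
  simp only [prod_single _ _ _ (List.nodup_finRange d), List.mem_finRange, if_true]
  simp only [Matrix.mulVec, dotProduct, piT, Matrix.smul_apply, smul_eq_mul,
    Finset.prod_mul_distrib, Finset.mul_sum]
  simp [mul_assoc]

theorem piT_row (M : Fin d → Matrix (Ax L) (Ax L) ℂ) (α : Fin d → Ax L) :
    ∑ β, ‖piT M α β‖ = ∏ j, ∑ t, ‖M j (α j) t‖ := by
  simp only [piT, norm_prod, Finset.prod_univ_sum, Fintype.piFinset_univ]

theorem eph_norm (q : ℤ × ℕ) : ‖eph q‖ = 1 := by
  have : (2 * Real.pi * Complex.I * (q.1 / q.2) : ℂ) = ((2 * Real.pi * (q.1 / q.2) : ℝ) : ℂ) *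
      Complex.I := by push_cast; ring
  rw [eph, this, Complex.norm_exp_ofReal_mul_I]

theorem val_norm (c : CSpec) (h1 : 0 < c.1.2) (h2 : c.1.1.natAbs ≤ 1) :
    ‖c.val‖ ≤ c.2.length := by
  have h3 : ‖(c.2.map eph).sum‖ ≤ c.2.length := by
    induction c.2 with
    | nil => simp
    | cons q l ih =>
      simp only [List.map_cons, List.sum_cons, List.length_cons]
      refine (norm_add_le _ _).trans ?_
      rw [eph_norm]; push_cast; linarith
  have h4 : ‖(c.1.1 / c.1.2 : ℂ)‖ ≤ 1 := by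
    rw [norm_div, Complex.norm_intCast, Complex.norm_natCast, div_le_one (by exact_mod_cast h1)]
    have : |c.1.1| ≤ 1 := by rw [Int.abs_eq_natAbs]; exact_mod_cast h2
    have h5 : (|c.1.1| : ℝ) ≤ 1 := by exact_mod_cast this
    have h6 : (1 : ℝ) ≤ c.1.2 := by exact_mod_cast h1
    linarith
  rw [CSpec.val, norm_mul]
  calc _ ≤ 1 * (c.2.length : ℝ) := mul_le_mul h4 h3 (norm_nonneg _) zero_le_one
    _ = _ := one_mul _

theorem dsp_val (e : Fin d → (ℤ × ℕ) × (ℤ × ℕ)) (h : ∀ i, 0 < (e i).2.2) :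
    (dsp (List.ofFn e)).val = ∏ i, CSpec.val ((e i).1, [(e i).2]) := by
  simp only [dsp, CSpec.val, List.map_ofFn, List.prod_ofFn, List.sum_ofFn, List.map_cons,
    List.map_nil, List.sum_cons, List.sum_nil, add_zero, Function.comp_def, eph,
    Finset.prod_mul_distrib, Finset.prod_div_distrib, ← Complex.exp_sum]
  push_cast
  congr 2
  rw [← Finset.mul_sum, Finset.sum_div]
  congr 1
  refine Finset.sum_congr rfl fun i _ => ?_
  have hd : (e i).2.2 ∣ ∏ j, (e j).2.2 := Finset.dvd_prod_of_mem _ (Finset.mem_univ i)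
  have h0 : ((e i).2.2 : ℂ) ≠ 0 := by exact_mod_cast (h i).ne'
  have h1 : (∏ j, ((e j).2.2 : ℂ)) ≠ 0 :=
    Finset.prod_ne_zero_iff.2 fun j _ => by exact_mod_cast (h j).ne'
  have h2 : ((((∏ j, (e j).2.2) / (e i).2.2 : ℕ) : ℤ) : ℂ) = (∏ j, ((e j).2.2 : ℂ)) / (e i).2.2 := by
    rw [Int.cast_natCast, Nat.cast_div hd h0]; push_cast; rfl
  push_cast at h2
  rw [h2]
  field_simp

theorem rnd_err (F : ℕ) (hF : 1 ≤ F) (z : GI) : ‖tc (rnd F z) - tc z / 2 ^ F‖ ≤ 1 := by
  have key : ∀ a : ℤ, |(((a + 2 ^ (F - 1)) / 2 ^ F : ℤ) : ℝ) - a / 2 ^ F| ≤ 1 / 2 := by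
    intro a
    have hp : (0 : ℤ) < 2 ^ F := by positivity
    have h1 := Int.mul_ediv_add_emod (a + 2 ^ (F - 1)) (2 ^ F)
    have h2 := Int.emod_nonneg (a + 2 ^ (F - 1)) hp.ne'
    have h3 := Int.emod_lt_of_pos (a + 2 ^ (F - 1)) hp
    have h4 : (2 : ℝ) ^ F = 2 * 2 ^ (F - 1) := by
      rw [← pow_succ']; congr 1; omega
    generalize (a + 2 ^ (F - 1)) / 2 ^ F = q at *
    generalize (a + 2 ^ (F - 1)) % 2 ^ F = m at *
    have h1' : (2 : ℝ) ^ F * q + m = a + 2 ^ (F - 1) := by exact_mod_cast h1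
    have h2' : (0 : ℝ) ≤ m := by exact_mod_cast h2
    have h3' : (m : ℝ) < 2 ^ F := by exact_mod_cast h3
    have hq : (0 : ℝ) < 2 ^ F := by positivity
    have : (q : ℝ) - a / 2 ^ F = (2 ^ (F - 1) - m) / 2 ^ F := by
      field_simp; linarith
    rw [this, abs_div, abs_of_pos hq, div_le_iff₀ hq, abs_le]
    constructor <;> linarith
  have h : tc (rnd F z) - tc z / 2 ^ F =
      (((((z.re + 2 ^ (F - 1)) / 2 ^ F : ℤ) : ℝ) - z.re / 2 ^ F : ℝ) : ℂ) +
      (((((z.im + 2 ^ (F - 1)) / 2 ^ F : ℤ) : ℝ) - z.im / 2 ^ F : ℝ) : ℂ) * Complex.I := by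
    simp only [tc, rnd, GaussianInt.toComplex_def]
    push_cast
    ring
  rw [h]
  refine (norm_add_le _ _).trans ?_
  rw [norm_mul, Complex.norm_I, mul_one, Complex.norm_real, Complex.norm_real, Real.norm_eq_abs,
    Real.norm_eq_abs]
  linarith [key z.re, key z.im]

end Vale.Agent.P338.MD
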