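import Vale.Agent.P338.MathA

/-! Error propagation along the list of stages. -/

namespace Vale.Agent.P338.MD

open Function Matrix
open Vale.Agent.P344 (piT)

variable {d L : ℕ}

/-- admissible stages -/
def Good (D : FD) (L d : ℕ) (g : Stage) : Prop :=
  g.1 ≤ 3 ∧ (g.1 = 1 → g.2.1 < L) ∧ (2 ≤ g.1 → g.2.1 < d) ∧
      ∀ (s : ℕ) (c : Bool) (j : ℕ), 0 < s → s ≤ 2 ^ L → j < 2 ^ L →
        0 < (D.ds (2 ^ L, s, g.2.2, c, j)).1.2 ∧ 0 < (D.ds (2 ^ L, s, g.2.2, c, j)).2.2 ∧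
        ((D.ds (2 ^ L, s, g.2.2, c, j)).1.1.natAbs ≤ 1) ∧
        0 < (D.ms (List.replicate (2 ^ L) (), 2 ^ L, s, g.2.2, j)).1.2 ∧
        (∀ q ∈ (D.ms (List.replicate (2 ^ L) (), 2 ^ L, s, g.2.2, j)).2, 0 < q.2) ∧
        (D.ms (List.replicate (2 ^ L) (), 2 ^ L, s, g.2.2, j)).1.1.natAbs ≤ 1 ∧
        (D.ms (List.replicate (2 ^ L) (), 2 ^ L, s, g.2.2, j)).2.length ≤ 2 ^ (L + 1)

/-- the exact stage -/
noncomputable def PM (D : FD) (L : ℕ) (s : Fin d → ℕ) (g : Stage) :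
    Matrix (Fin d → Ax L) (Fin d → Ax L) ℂ := piT fun i => stageM D.ds D.ms L i (s i) g

/-- the constant at an address -/
def csa (D : FD) (s : Fin d → ℕ) (g : Stage) (α : Fin d → Ax L) : CSpec :=
  D.cs (List.replicate (2 ^ L) ()) g (List.ofFn fun i => (s i, co α i))

/-- the vector that is multiplied by the constant -/
noncomputable def Qv (g : Stage) (v : (Fin d → Ax L) → ℂ) (α : Fin d → Ax L) : ℂ :=
  if g.1 ≤ 1 then (piT fun _ : Fin d => if g.1 = 1 then bitC L g.2.1 else 1).mulVec v α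
  else if h : g.2.1 < d then v (update α ⟨g.2.1, h⟩ (!(α ⟨g.2.1, h⟩).1, (α ⟨g.2.1, h⟩).2)) else 0

variable {D : FD} {s : Fin d → ℕ} {g : Stage}

theorem csa_low (h : g.1 ≤ 1) (α : Fin d → Ax L) :
    csa D s g α = dsp (List.ofFn fun i => D.ds (2 ^ L, s i, g.2.2, (α i).1, (α i).2)) := by
  simp [csa, FD.cs, h, List.map_ofFn, Function.comp_def, co]

theorem csa_high (h : ¬ g.1 ≤ 1) (hi : g.2.1 < d) (α : Fin d → Ax L) :
    csa D s g α = D.ms (List.replicate (2 ^ L) (), 2 ^ L, s ⟨g.2.1, hi⟩, g.2.2,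
      (α ⟨g.2.1, hi⟩).2) := by
  simp [csa, FD.cs, h, co, List.getD_eq_getElem?_getD, hi]

theorem csa_ok (hg : Good D L d g) (hs : ∀ i, 0 < s i ∧ s i ≤ 2 ^ L) (α : Fin d → Ax L) :
    0 < (csa D s g α).1.2 ∧ (∀ q ∈ (csa D s g α).2, 0 < q.2) ∧ (csa D s g α).1.1.natAbs ≤ 1 ∧
      (csa D s g α).2.length ≤ if g.1 ≤ 1 then 1 else 2 ^ (L + 1) := by
  by_cases h : g.1 ≤ 1
  · have hh := fun i => hg.2.2.2 (s i) (α i).1 (α i).2 (hs i).1 (hs i).2 (α i).2.2
    rw [csa_low h, if_pos h]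
    simp only [dsp, List.map_ofFn, List.prod_ofFn, Function.comp_def, List.mem_singleton,
      forall_eq, List.length_singleton, le_refl, and_true]
    refine ⟨Finset.prod_pos fun i _ => (hh i).1, Finset.prod_pos fun i _ => (hh i).2.1, ?_⟩
    rw [← Int.natAbsHom_apply, map_prod]
    exact Finset.prod_le_one' fun i _ => (hh i).2.2.1
  · have hi := hg.2.2.1 (by omega)
    have hh := hg.2.2.2 (s ⟨_, hi⟩) false (α ⟨_, hi⟩).2 (hs _).1 (hs _).2 (α _).2.2
    rw [csa_high h hi, if_neg h]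
    exact hh.2.2.2

theorem PM_low (hg : Good D L d g) (hs : ∀ i, 0 < s i ∧ s i ≤ 2 ^ L) (h : g.1 ≤ 1)
    (v : (Fin d → Ax L) → ℂ) (α : Fin d → Ax L) :
    (PM D L s g).mulVec v α = (csa D s g α).val * Qv g v α := by
  have hh := fun i => hg.2.2.2 (s i) (α i).1 (α i).2 (hs i).1 (hs i).2 (α i).2.2
  rw [csa_low h, dsp_val _ fun i => (hh i).2.1]
  simp only [PM, Qv, stageM, if_pos h, Matrix.mulVec, dotProduct, piT, Matrix.diagonal_mul,
    Finset.prod_mul_distrib, Finset.mul_sum, mul_assoc]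

theorem PM_high (h : ¬ g.1 ≤ 1) (hi : g.2.1 < d) (v : (Fin d → Ax L) → ℂ) (α : Fin d → Ax L) :
    (PM D L s g).mulVec v α = v α + if (α ⟨g.2.1, hi⟩).1 = decide (g.1 = 3) then
      (csa D s g α).val * Qv g v α else 0 := by
  have : PM D L s g = piT fun j : Fin d => if j = ⟨g.2.1, hi⟩ then
      stageM D.ds D.ms L g.2.1 (s ⟨g.2.1, hi⟩) g else 1 := by
    unfold PM
    congr 1
    funext j
    split_ifs with hj
    · subst hj; rfl
    · simp only [stageM, if_neg h]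
      rw [if_neg]
      intro h'
      exact hj (Fin.ext h'.symm)
  rw [this, piT_axis, csa_high h hi]
  simp only [stageM, if_neg h, if_true, Matrix.add_apply, Matrix.of_apply, add_mul,
    Finset.sum_add_distrib, Qv, dif_pos hi]
  congr 1
  · rw [Finset.sum_eq_single (α ⟨g.2.1, hi⟩)]
    · simp
    · intro t _ ht
      rw [Matrix.one_apply_ne (Ne.symm ht), zero_mul]
    · simp
  · rw [Finset.sum_eq_single (!(α ⟨g.2.1, hi⟩).1, (α ⟨g.2.1, hi⟩).2)]
    · simp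
    · intro t _ ht
      rw [if_neg, zero_mul]
      rintro ⟨_, h2, h3⟩
      exact ht (Prod.ext h2 h3.symm)
    · simp

theorem cv_opd (hg : Good D L d g) (x : MA d → GI) (α : Fin d → Ax L) :
    tc (opd g x (co α)) = 2 ^ d * Qv g (cv L x) α := by
  unfold opd Qv
  by_cases h0 : g.1 = 0
  · simp [h0, piT_one, cv, map_ofNat]
  · by_cases h1 : g.1 = 1
    · rw [if_neg h0, if_pos h1, if_pos h1.le]
      simp only [if_pos h1]
      exact cv_all (hg.2.1 h1) x α
    · have h : ¬ g.1 ≤ 1 := by omega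
      have hi := hg.2.2.1 (by omega)
      rw [if_neg h0, if_neg h1, if_neg h, dif_pos hi, dif_pos hi]
      simp [cv, co_update, fl, co, map_ofNat]

theorem Qv_le (hg : Good D L d g) {v : (Fin d → Ax L) → ℂ} {B : ℝ} (hv : ∀ β, ‖v β‖ ≤ B)
    (α : Fin d → Ax L) : ‖Qv g v α‖ ≤ (if g.1 ≤ 1 then 2 ^ d else 1) * B := by
  have hB : 0 ≤ B := (norm_nonneg _).trans (hv α)
  unfold Qv
  split_ifs with h h1 h2
  · refine mulVec_le _ _ _ hv ?_ hB
    rw [piT_row]
    calc _ ≤ ∏ _j : Fin d, (2 : ℝ) := Finset.prod_le_prod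
          (fun j _ => Finset.sum_nonneg fun _ _ => norm_nonneg _) fun j _ => bitC_row (hg.2.1 h1) _
      _ = _ := by simp
  · rw [piT_one, Matrix.one_mulVec]
    exact (hv α).trans (le_mul_of_one_le_left hB (one_le_pow₀ one_le_two))
  · rw [one_mul]; exact hv _
  · simpa using hB

/-- the growth exponent of a stage -/
def eta (L d : ℕ) (g : Stage) : ℕ := if g.1 ≤ 1 then d else L + 2

theorem val_le (hg : Good D L d g) (hs : ∀ i, 0 < s i ∧ s i ≤ 2 ^ L) (α : Fin d → Ax L) :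
    ‖(csa D s g α).val‖ ≤ if g.1 ≤ 1 then 1 else 2 ^ (L + 1) := by
  obtain ⟨h1, _, h3, h4⟩ := csa_ok hg hs α
  refine (val_norm _ h1 h3).trans ?_
  split_ifs at h4 ⊢ <;> exact_mod_cast h4

theorem PM_le (hg : Good D L d g) (hs : ∀ i, 0 < s i ∧ s i ≤ 2 ^ L) {v : (Fin d → Ax L) → ℂ}
    {B : ℝ} (hv : ∀ β, ‖v β‖ ≤ B) (α : Fin d → Ax L) :
    ‖(PM D L s g).mulVec v α‖ ≤ 2 ^ eta L d g * B := by
  have hB : 0 ≤ B := (norm_nonneg _).trans (hv α)
  have h1 := val_le hg hs α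
  have h2 := Qv_le hg hv α
  have h3 : ‖(csa D s g α).val * Qv g v α‖ ≤ _ :=
    (norm_mul _ _).le.trans (mul_le_mul h1 h2 (norm_nonneg _) ((norm_nonneg _).trans h1))
  by_cases h : g.1 ≤ 1
  · rw [PM_low hg hs h]
    simpa [eta, h] using h3
  · rw [PM_high h (hg.2.2.1 (by omega))]
    simp only [if_neg h, one_mul, eta] at h3 ⊢
    have h4 : B ≤ 2 ^ (L + 1) * B := le_mul_of_one_le_left hB (one_le_pow₀ one_le_two)
    refine (norm_add_le _ _).trans ?_
    rw [pow_succ (2 : ℝ) (L + 1)]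
    split_ifs
    · linarith [hv α]
    · rw [norm_zero]; linarith [hv α]

theorem cz_err (hc : ConstSpec D.ev) (hg : Good D L d g) (hs : ∀ i, 0 < s i ∧ s i ≤ 2 ^ L) (f : ℕ)
    (α : Fin d → Ax L) : ‖tc (D.cz L f s g (co α)) - 2 ^ f * (csa D s g α).val‖ ≤
      (2 ^ (L + 1) + 1) * (100 * f + 1000) := by
  obtain ⟨h1, h2, h3, h4⟩ := csa_ok hg hs α
  have h := hc (List.replicate f ()) _ h1 h2
  rw [List.length_replicate] at h
  refine le_trans (le_of_eq ?_) (h.trans ?_)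
  · simp only [FD.cz, tc, GaussianInt.toComplex_def', csa]
  · have h5 : ((csa D s g α).2.length : ℝ) ≤ 2 ^ (L + 1) := by
      have : (csa D s g α).2.length ≤ 2 ^ (L + 1) :=
        h4.trans (by split_ifs; exacts [Nat.one_le_two_pow, le_rfl])
      exact_mod_cast this
    have h6 : |((csa D s g α).1.1 : ℝ)| ≤ 1 := by
      have : |(csa D s g α).1.1| ≤ 1 := by rw [Int.abs_eq_natAbs]; exact_mod_cast h3
      exact_mod_cast this
    have h7 := mul_le_mul h6 h5 (Nat.cast_nonneg _) zero_le_one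
    gcongr
    linarith

theorem rnd_arg (hc : ConstSpec D.ev) (hg : Good D L d g) (hs : ∀ i, 0 < s i ∧ s i ≤ 2 ^ L)
    {f : ℕ} (hf : 1 ≤ f) {x : MA d → GI} {B : ℝ} (hx : ∀ β, ‖cv L x β‖ ≤ B)
    (hB : (2 ^ (L + 1) + 1) * (100 * f + 1000) * (2 ^ d * B) ≤ 2 ^ f) (α : Fin d → Ax L) :
    ‖tc (rnd (f + d) (D.arg L f s x g (co α))) - (csa D s g α).val * Qv g (cv L x) α‖ ≤ 2 := by
  have hB0 : 0 ≤ B := (norm_nonneg _).trans (hx α)
  have h1 := rnd_err (f + d) (by omega) (D.arg L f s x g (co α))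
  have h2 := cz_err hc hg hs f α
  have h3 : ‖Qv g (cv L x) α‖ ≤ 2 ^ d * B := (Qv_le hg hx α).trans (by
    split_ifs
    · exact le_rfl
    · exact mul_le_mul_of_nonneg_right (one_le_pow₀ one_le_two) hB0)
  have h4 : tc (D.arg L f s x g (co α)) / 2 ^ (f + d) - (csa D s g α).val * Qv g (cv L x) α =
      (tc (D.cz L f s g (co α)) - 2 ^ f * (csa D s g α).val) * Qv g (cv L x) α / 2 ^ f := by
    rw [FD.arg, tc, map_mul, show GaussianInt.toComplex (opd g x (co α)) = _ from cv_opd hg x α,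
      pow_add]
    field_simp
  have h5 : ‖tc (D.arg L f s x g (co α)) / 2 ^ (f + d) - (csa D s g α).val * Qv g (cv L x) α‖
      ≤ 1 := by
    rw [h4, norm_div, norm_mul, norm_pow, Complex.norm_two, div_le_one (by positivity)]
    exact (mul_le_mul h2 h3 (norm_nonneg _) (by positivity)).trans hB
  calc _ ≤ _ := norm_sub_le_norm_sub_add_norm_sub _ (tc (D.arg L f s x g (co α)) / 2 ^ (f + d)) _
    _ ≤ 2 := by linarith

theorem stZ_err (hc : ConstSpec D.ev) (hg : Good D L d g) (hs : ∀ i, 0 < s i ∧ s i ≤ 2 ^ L)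
    {f : ℕ} (hf : 1 ≤ f) {x : MA d → GI} {B : ℝ} (hx : ∀ β, ‖cv L x β‖ ≤ B)
    (hB : (2 ^ (L + 1) + 1) * (100 * f + 1000) * (2 ^ d * B) ≤ 2 ^ f) (α : Fin d → Ax L) :
    ‖cv L (D.stZ L f s x g) α - (PM D L s g).mulVec (cv L x) α‖ ≤ 2 := by
  have h1 := rnd_arg hc hg hs hf hx hB α
  by_cases h : g.1 ≤ 1
  · rw [PM_low hg hs h]
    simpa only [cv, FD.stZ, if_pos h] using h1
  · have hi := hg.2.2.1 (by omega)
    rw [PM_high h hi]
    simp only [cv, FD.stZ, if_neg h, dif_pos hi]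
    have : (co α ⟨g.2.1, hi⟩).1 = (α ⟨g.2.1, hi⟩).1 := rfl
    rw [this]
    split_ifs
    · rw [tc, map_add, add_sub_add_left_eq_sub]
      exact h1
    · simp

theorem arg_le (hc : ConstSpec D.ev) (hg : Good D L d g) (hs : ∀ i, 0 < s i ∧ s i ≤ 2 ^ L)
    (f : ℕ) {x : MA d → GI} {B : ℝ} (hx : ∀ β, ‖cv L x β‖ ≤ B) (α : Fin d → Ax L) :
    ‖tc (D.arg L f s x g (co α))‖ ≤
      (2 ^ f * 2 ^ (L + 1) + (2 ^ (L + 1) + 1) * (100 * f + 1000)) * (2 ^ d * (2 ^ d * B)) := by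
  have hB0 : 0 ≤ B := (norm_nonneg _).trans (hx α)
  have h2 := cz_err hc hg hs f α
  have h3 : ‖Qv g (cv L x) α‖ ≤ 2 ^ d * B := (Qv_le hg hx α).trans (by
    split_ifs
    · exact le_rfl
    · exact mul_le_mul_of_nonneg_right (one_le_pow₀ one_le_two) hB0)
  have h4 : ‖(csa D s g α).val‖ ≤ 2 ^ (L + 1) := (val_le hg hs α).trans (by
    split_ifs
    · exact one_le_pow₀ one_le_two
    · exact le_rfl)
  rw [FD.arg, tc, map_mul, show GaussianInt.toComplex (opd g x (co α)) = _ from cv_opd hg x α,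
    norm_mul, norm_mul, norm_pow, Complex.norm_two]
  refine mul_le_mul ?_ (by gcongr) (by positivity) (by positivity)
  have h5 : ‖(2 : ℂ) ^ f * (csa D s g α).val‖ ≤ 2 ^ f * 2 ^ (L + 1) := by
    rw [norm_mul, norm_pow, Complex.norm_two]; gcongr
  calc _ ≤ _ := norm_le_norm_add_norm_sub' _ (2 ^ f * (csa D s g α).val)
    _ ≤ _ := add_le_add h5 h2

theorem fold_err (hc : ConstSpec D.ev) (hd : 1 ≤ d) (hs : ∀ i, 0 < s i ∧ s i ≤ 2 ^ L)
    {f : ℕ} (hf : 1 ≤ f) {Bm : ℝ}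
    (hB : (2 ^ (L + 1) + 1) * (100 * f + 1000) * (2 ^ d * Bm) ≤ 2 ^ f) (l : List Stage)
    (hl : ∀ g ∈ l, Good D L d g) (x : MA d → GI) (y : (Fin d → Ax L) → ℂ) (B e : ℝ)
    (hx : ∀ β, ‖cv L x β‖ ≤ B) (hy : ∀ β, ‖cv L x β - y β‖ ≤ e)
    (hm : 2 ^ (l.map (eta L d)).sum * (B + 4) ≤ Bm) (α : Fin d → Ax L) :
    ‖cv L (l.foldl (D.stZ L f s) x) α‖ + 4 ≤ 2 ^ (l.map (eta L d)).sum * (B + 4) ∧
    ‖cv L (l.foldl (D.stZ L f s) x) α - ((l.map (PM D L s)).reverse.prod).mulVec y α‖ + 4 ≤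
      2 ^ (l.map (eta L d)).sum * (e + 4) := by
  induction l generalizing x y B e with
  | nil => simpa using ⟨hx α, hy α⟩
  | cons g l ih =>
    have hg := hl g List.mem_cons_self
    have hB0 : 0 ≤ B := (norm_nonneg _).trans (hx α)
    simp only [List.map_cons, List.sum_cons, pow_add, List.foldl_cons, List.reverse_cons,
      List.prod_append, List.prod_cons, List.prod_nil, mul_one] at hm ⊢
    have h2 : (2 : ℝ) ≤ 2 ^ eta L d g := by
      have : 1 ≤ eta L d g := by unfold eta; split_ifs <;> omega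
      calc (2 : ℝ) = 2 ^ 1 := (pow_one _).symm
        _ ≤ _ := pow_le_pow_right₀ one_le_two this
    have h1 : (1 : ℝ) ≤ 2 ^ (l.map (eta L d)).sum := one_le_pow₀ one_le_two
    have hBm : B ≤ Bm := by
      refine le_trans ?_ hm
      have : (1 : ℝ) ≤ 2 ^ eta L d g * 2 ^ (l.map (eta L d)).sum := by nlinarith
      nlinarith
    have hst := stZ_err hc hg hs hf hx (le_trans (by gcongr) hB)
    have := ih (fun g' h' => hl g' (List.mem_cons_of_mem _ h')) (D.stZ L f s x g)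
      ((PM D L s g).mulVec y) (2 ^ eta L d g * (B + 4) - 4) (2 ^ eta L d g * (e + 4) - 4)
      (fun β => by
        have := norm_le_norm_add_norm_sub' (cv L (D.stZ L f s x g) β)
          ((PM D L s g).mulVec (cv L x) β)
        linarith [PM_le hg hs hx β, hst β])
      (fun β => by
        have h3 := norm_sub_le_norm_sub_add_norm_sub (cv L (D.stZ L f s x g) β)
          ((PM D L s g).mulVec (cv L x) β) ((PM D L s g).mulVec y β)
        have h4 := PM_le (v := cv L x - y) hg hs hy β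
        rw [Matrix.mulVec_sub, Pi.sub_apply] at h4
        linarith [hst β])
      (by linarith)
    rw [Matrix.mulVec_mulVec] at this
    constructor <;> linarith [this.1, this.2]

theorem eta_sum (l : List Stage) :
    (l.map (eta L d)).sum ≤ l.length * d + l.countP (fun g => 2 ≤ g.1) * (L + 2) := by
  induction l with
  | nil => simp
  | cons g l ih =>
    simp only [List.map_cons, List.sum_cons, List.length_cons, List.countP_cons, eta]
    by_cases h : g.1 ≤ 1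
    · rw [if_pos h, if_neg (by simpa using h)]; nlinarith
    · rw [if_neg h, if_pos (by simp; omega)]; nlinarith

end Vale.Agent.P338.MD
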