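import Vale.Agent.P338.MathB

/-! The exact transform, the Chinese remainder map and the convolution theorem. -/

namespace Vale.Agent.P338.MD

open Function Matrix
open Vale.Agent.P344 (piT)

variable {d L : ℕ}

theorem dv {a b c : ℤ} (h : a ∣ b) (e : b = c) : a ∣ c := e ▸ h

theorem eph_add (a b : ℤ) (s : ℕ) : eph (a + b, s) = eph (a, s) * eph (b, s) := by
  simp only [eph, ← Complex.exp_add]
  congr 1
  push_cast
  ring

theorem eph_one {a : ℤ} {s : ℕ} (hs : 0 < s) : eph (a, s) = 1 ↔ (s : ℤ) ∣ a := by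
  have h0 : (s : ℂ) ≠ 0 := by exact_mod_cast hs.ne'
  have h1 : (2 * Real.pi * Complex.I : ℂ) ≠ 0 := Complex.two_pi_I_ne_zero
  simp only [eph, Complex.exp_eq_one_iff]
  constructor
  · rintro ⟨n, hn⟩
    refine ⟨n, ?_⟩
    have : (a : ℂ) = s * n := by
      have h2 : (a : ℂ) / s = n := mul_left_cancel₀ h1 (by rw [hn]; ring)
      rw [← h2]; field_simp
    exact_mod_cast this
  · rintro ⟨n, rfl⟩
    refine ⟨n, ?_⟩
    push_cast
    field_simp

theorem eph_congr {a b : ℤ} {s : ℕ} (hs : 0 < s) (h : (s : ℤ) ∣ a - b) :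
    eph (a, s) = eph (b, s) := by
  rw [show a = (a - b) + b by ring, eph_add, (eph_one hs).2 h, one_mul]

theorem eph_pow (a : ℤ) (s j : ℕ) : eph (a * j, s) = eph (a, s) ^ j := by
  simp only [eph, ← Complex.exp_nat_mul]
  congr 1
  push_cast
  ring

theorem eph_sum (a : ℤ) {s : ℕ} (hs : 0 < s) :
    ∑ j ∈ Finset.range s, eph (a * j, s) = if (s : ℤ) ∣ a then (s : ℂ) else 0 := by
  simp only [eph_pow]
  split_ifs with h
  · simp [(eph_one hs).2 h]
  · have h1 : eph (a, s) ≠ 1 := fun h' => h ((eph_one hs).1 h')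
    rw [geom_sum_eq h1, ← eph_pow, (eph_one hs).2 (Dvd.intro_left _ rfl), sub_self, zero_div]

/-- the box of residues -/
def Rs (s : Fin d → ℕ) : Finset (Fin d → ℕ) := Fintype.piFinset fun i => Finset.range (s i)

theorem mem_Rs {s r : Fin d → ℕ} : r ∈ Rs s ↔ ∀ i, r i < s i := by simp [Rs]

/-- the normalized Fourier transform -/
noncomputable def dft (σ : ℤ) (s : Fin d → ℕ) (z : (Fin d → ℕ) → ℂ) (r : Fin d → ℕ) : ℂ :=
  (∏ i, (1 / s i : ℂ)) * ∑ u ∈ Rs s, z u * ∏ i, eph (σ * (r i * u i : ℤ), s i)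

/-- the exact input vector -/
noncomputable def preC (L : ℕ) (s : Fin d → ℕ) (w : ℕ) (z : ℕ → (Fin d → ℕ) → ℂ) (k : ℕ) :
    (Fin d → Ax L) → ℂ := fun β =>
  if ∀ i, ((β i).2 : ℕ) < s i then z (setcb w k fun i => !(β i).1)
    (fun i => if (β i).1 then (s i - (β i).2) % s i else (β i).2) else 0

theorem bits_sum (m d : ℕ) : ∑ i : Fin d, (m.testBit i).toNat * 2 ^ (i : ℕ) = m % 2 ^ d := by
  induction d with
  | zero => simp [Nat.mod_one]
  | succ d ih =>
    rw [Fin.sum_univ_castSucc]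
    simp only [Fin.val_castSucc, Fin.val_last]
    rw [ih, Nat.mod_pow_succ, Nat.toNat_testBit, mul_comm]

theorem setcb_self (w k : ℕ) : setcb (d := d) w k (fun i => (k / w).testBit i) = k := by
  rw [setcb, bits_sum, ← Nat.div_div_eq_div_mul, Nat.mod_add_div, Nat.mod_add_div]

theorem bits_lt (β : Fin d → Bool) : ∑ i : Fin d, (β i).toNat * 2 ^ (i : ℕ) < 2 ^ d := by
  induction d with
  | zero => simp
  | succ d ih =>
    rw [Fin.sum_univ_castSucc]
    have h1 := ih fun i => β i.castSucc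
    have h2 : (β (Fin.last d)).toNat * 2 ^ d ≤ 1 * 2 ^ d :=
      Nat.mul_le_mul_right _ (Bool.toNat_le _)
    simp only [Fin.val_castSucc, Fin.val_last] at h1 ⊢
    rw [pow_succ]
    omega

theorem setcb_lt {w k Λ : ℕ} (hw : 0 < w) (h : w * 2 ^ d ∣ Λ) (hk : k < Λ) (β : Fin d → Bool) :
    setcb w k β < Λ := by
  obtain ⟨q, rfl⟩ := h
  have h1 : k / (w * 2 ^ d) < q := Nat.div_lt_of_lt_mul hk
  have h2 := bits_lt β
  have h3 := Nat.mod_lt k hw
  unfold setcb
  generalize ∑ i : Fin d, (β i).toNat * 2 ^ (i : ℕ) = a at *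
  generalize k / (w * 2 ^ d) = b at *
  have h4 : a + 2 ^ d * b + 1 ≤ 2 ^ d * q := by nlinarith
  nlinarith

theorem ng_ng {s j : ℕ} (h : j < s) : (s - (s - j) % s) % s = j := by
  rcases Nat.eq_zero_or_pos j with rfl | hj
  · simp
  · rw [Nat.mod_eq_of_lt (by omega : s - j < s), Nat.mod_eq_of_lt (by omega)]
    omega

theorem ng_dvd {s j : ℕ} (h : j < s) : (s : ℤ) ∣ ((s - j) % s : ℕ) + (j : ℤ) := by
  rcases Nat.eq_zero_or_pos j with rfl | hj
  · simp
  · rw [Nat.mod_eq_of_lt (by omega : s - j < s), Nat.cast_sub h.le]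
    simp

theorem exact_tr {s : Fin d → ℕ} (hs : ∀ i, 0 < s i ∧ s i ≤ 2 ^ L) (inv : Bool)
    (M : Fin d → Matrix (Ax L) (Ax L) ℂ)
    (hM : ∀ i (a b : Ax L), (b.2 : ℕ) < s i → M i a b =
      if (a.2 : ℕ) < s i ∧ b.1 = !a.1 then (1 / s i : ℂ) *
        eph ((if a.1 = inv then -1 else 1) * ((a.2 : ℕ) * (b.2 : ℕ) : ℤ), s i) else 0)
    (w k : ℕ) (z : ℕ → (Fin d → ℕ) → ℂ) (α : Fin d → Ax L)
    (h1 : ∀ i, (α i).1 = (k / w).testBit i) (h2 : ∀ i, ((α i).2 : ℕ) < s i) :
    (piT M).mulVec (preC L s w z k) α =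
      dft (if inv then -1 else 1) s (z k) fun i => (α i).2 := by
  classical
  have hp : 0 < 2 ^ L := Nat.two_pow_pos L
  rw [dft, Finset.mul_sum, Matrix.mulVec, dotProduct,
    ← Finset.sum_subset (Finset.subset_univ (Finset.univ.filter fun β : Fin d → Ax L =>
      ∀ i, (β i).1 = (!(α i).1) ∧ ((β i).2 : ℕ) < s i))]
  · refine Finset.sum_nbij' (fun β i => if (β i).1 then (s i - (β i).2) % s i else (β i).2)
      (fun u i => (!(α i).1, ⟨(if !(α i).1 then (s i - u i) % s i else u i) % 2 ^ L,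
        Nat.mod_lt _ hp⟩)) ?_ ?_ ?_ ?_ ?_
    · intro β hβ
      have hβ := (Finset.mem_filter.1 hβ).2
      refine mem_Rs.2 fun i => ?_
      split_ifs
      exacts [Nat.mod_lt _ (hs i).1, (hβ i).2]
    · intro u hu
      have hu := mem_Rs.1 hu
      refine Finset.mem_filter.2 ⟨Finset.mem_univ _, fun i => ⟨rfl, ?_⟩⟩
      refine lt_of_le_of_lt (Nat.mod_le _ _) ?_
      split_ifs
      exacts [Nat.mod_lt _ (hs i).1, hu i]
    · intro β hβ
      have hβ := (Finset.mem_filter.1 hβ).2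
      funext i
      refine Prod.ext (hβ i).1.symm (Fin.ext ?_)
      simp only [← (hβ i).1]
      split_ifs
      · rw [ng_ng (hβ i).2, Nat.mod_eq_of_lt (β i).2.2]
      · rw [Nat.mod_eq_of_lt (β i).2.2]
    · intro u hu
      have hu := mem_Rs.1 hu
      funext i
      simp only
      split_ifs
      · rw [Nat.mod_eq_of_lt ((Nat.mod_lt _ (hs i).1).trans_le (hs i).2), ng_ng (hu i)]
      · rw [Nat.mod_eq_of_lt ((hu i).trans_le (hs i).2)]
    · intro β hβ
      have hβ := (Finset.mem_filter.1 hβ).2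
      have e1 : (fun i => !(β i).1) = fun i : Fin d => (k / w).testBit i := by
        funext i; rw [(hβ i).1, Bool.not_not, h1]
      simp only [preC, if_pos fun i => (hβ i).2, e1, setcb_self, piT]
      rw [mul_left_comm, mul_comm, ← Finset.prod_mul_distrib]
      congr 1
      refine Finset.prod_congr rfl fun i _ => ?_
      rw [hM i _ _ (hβ i).2, if_pos ⟨h2 i, (hβ i).1⟩]
      congr 1
      refine eph_congr (hs i).1 ?_
      have h3 := (ng_dvd (hβ i).2).mul_left ((α i).2 : ℕ)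
      rw [(hβ i).1]
      cases inv <;> cases (α i).1 <;> simp only [Bool.not_true, Bool.not_false, if_true,
        Bool.false_eq_true, Bool.true_eq_false, if_false, sub_self, dvd_zero]
      · exact dv h3.neg_right (by ring)
      · exact dv h3 (by ring)
  · intro β _ hβ
    simp only [Finset.mem_filter, Finset.mem_univ, true_and, not_forall] at hβ
    obtain ⟨i, hi⟩ := hβ
    by_cases h : ∀ i, ((β i).2 : ℕ) < s i
    · rw [piT, Finset.prod_eq_zero (Finset.mem_univ i), zero_mul]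
      rw [hM i _ _ (h i), if_neg fun h' => hi ⟨h'.2, h i⟩]
    · simp [preC, h]

theorem dft_conv {s : Fin d → ℕ} (hs : ∀ i, 0 < s i) (x y : ℕ → (Fin d → ℕ) → ℂ) (k : ℕ)
    (r : Fin d → ℕ) :
    (∏ i, (s i : ℂ)) ^ 2 * dft (-1) s (fun u => ∑ l ∈ Finset.range (k + 1),
      dft 1 s (x l) u * dft 1 s (y (k - l)) u) r =
    ∑ u ∈ Rs s, ∑ v ∈ Rs s, if ∀ i, (s i : ℤ) ∣ u i + v i - r i then
      ∑ l ∈ Finset.range (k + 1), x l u * y (k - l) v else 0 := by
  have h0 : (∏ i, (s i : ℂ)) ≠ 0 :=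
    Finset.prod_ne_zero_iff.2 fun j _ => by exact_mod_cast (hs j).ne'
  have h1 : ∏ i, (1 / s i : ℂ) = (∏ i, (s i : ℂ))⁻¹ := by simp
  have h2 : ∀ u v : Fin d → ℕ, ∑ t ∈ Rs s, (∏ i, eph (1 * (t i * u i : ℤ), s i)) *
      (∏ i, eph (1 * (t i * v i : ℤ), s i)) * ∏ i, eph (-1 * (r i * t i : ℤ), s i) =
      if ∀ i, (s i : ℤ) ∣ u i + v i - r i then ∏ i, (s i : ℂ) else 0 := by
    intro u v
    simp only [← Finset.prod_mul_distrib, ← eph_add]
    have : ∀ (i : Fin d) (j : ℕ), 1 * (j * u i : ℤ) + 1 * (j * v i : ℤ) + -1 * (r i * j : ℤ) =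
        ((u i : ℤ) + v i - r i) * j := fun i j => by ring
    simp only [this]
    rw [Rs, ← Finset.prod_univ_sum (fun i => Finset.range (s i))
      fun i j => eph (((u i : ℤ) + v i - r i) * j, s i)]
    simp only [eph_sum _ (hs _)]
    split_ifs with h
    · simp [h]
    · obtain ⟨i, hi⟩ := not_forall.1 h
      exact Finset.prod_eq_zero (Finset.mem_univ i) (if_neg hi)
  simp only [dft, h1]
  generalize (∏ i, (s i : ℂ)) = N at *
  have h3 : ∀ u v : Fin d → ℕ, (if ∀ i, (s i : ℤ) ∣ u i + v i - r i then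
      ∑ l ∈ Finset.range (k + 1), x l u * y (k - l) v else 0) =
      ∑ t ∈ Rs s, ∑ l ∈ Finset.range (k + 1), N⁻¹ * (x l u * y (k - l) v) *
        ((∏ i, eph (1 * (t i * u i : ℤ), s i)) *
      (∏ i, eph (1 * (t i * v i : ℤ), s i)) * ∏ i, eph (-1 * (r i * t i : ℤ), s i)) := by
    intro u v
    simp only [← Finset.sum_mul, ← Finset.mul_sum, h2]
    split_ifs
    · field_simp
    · simp
  simp only [h3]
  rw [Finset.sum_congr rfl fun u _ => Finset.sum_comm, Finset.sum_comm, Finset.mul_sum,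
    Finset.mul_sum]
  refine Finset.sum_congr rfl fun t _ => ?_
  rw [Finset.sum_congr rfl fun u _ => Finset.sum_comm, Finset.sum_comm, Finset.sum_mul,
    Finset.mul_sum, Finset.mul_sum]
  refine Finset.sum_congr rfl fun l _ => ?_
  rw [mul_mul_mul_comm, Finset.sum_mul_sum, Finset.mul_sum, Finset.sum_mul, Finset.mul_sum,
    Finset.mul_sum]
  refine Finset.sum_congr rfl fun u _ => ?_
  rw [Finset.mul_sum, Finset.sum_mul, Finset.mul_sum, Finset.mul_sum]
  refine Finset.sum_congr rfl fun v _ => ?_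
  field_simp

section
variable {s c : Fin d → ℕ} (hs : ∀ i, 0 < s i ∧ Nat.Coprime (c i) (s i))
  (hc : ∀ i j, i ≠ j → Nat.Coprime (s i) (s j))
include hs hc

theorem crt_dvd (m : ℤ) : (∀ i, (s i : ℤ) ∣ c i * m) ↔ ((∏ i, s i : ℕ) : ℤ) ∣ m := by
  push_cast
  constructor
  · intro h
    refine Fintype.prod_dvd_of_coprime (fun i j hij => Nat.isCoprime_iff_coprime.2 (hc i j hij))
      fun i => ?_
    exact (Nat.isCoprime_iff_coprime.2 (hs i).2.symm).dvd_of_dvd_mul_left (h i)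
  · intro h i
    exact ((Finset.dvd_prod_of_mem _ (Finset.mem_univ i)).trans h).mul_left _

theorem crt_inj : Set.InjOn (fun n i => c i * n % s i) (Finset.range (∏ i, s i) : Set ℕ) := by
  intro a ha b hb h
  have h1 := (crt_dvd hs hc ((b : ℤ) - a)).1 fun i => by
    have := (Nat.modEq_iff_dvd.1 (congrFun h i))
    rw [mul_sub]
    exact_mod_cast this
  simp only [Finset.coe_range, Set.mem_Iio] at ha hb
  exact Nat.ModEq.eq_of_lt_of_lt (Nat.modEq_iff_dvd.2 h1) ha hb

theorem crt_image : (Finset.range (∏ i, s i)).image (fun n i => c i * n % s i) = Rs s := by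
  refine Finset.eq_of_subset_of_card_le (fun u hu => ?_) ?_
  · obtain ⟨n, _, rfl⟩ := Finset.mem_image.1 hu
    exact mem_Rs.2 fun i => Nat.mod_lt _ (hs i).1
  · rw [Finset.card_image_of_injOn (crt_inj hs hc)]
    simp [Rs]

theorem crt_conv (F : ℕ → ℕ → ℂ) (G : (Fin d → ℕ) → (Fin d → ℕ) → ℂ)
    (hG : ∀ a < ∏ i, s i, ∀ b < ∏ i, s i,
      G (fun i => c i * a % s i) (fun i => c i * b % s i) = F a b)
    (hF : ∀ a b, ∏ i, s i ≤ 2 * a ∨ ∏ i, s i ≤ 2 * b → F a b = 0) {n : ℕ} (hn : n < ∏ i, s i) :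
    (∑ u ∈ Rs s, ∑ v ∈ Rs s, if ∀ i, (s i : ℤ) ∣ u i + v i - (c i * n % s i : ℕ) then G u v
      else 0) = ∑ a ∈ Finset.range (n + 1), F a (n - a) := by
  have key : ∀ a b : ℕ, (∀ i, (s i : ℤ) ∣ (c i * a % s i : ℕ) + (c i * b % s i : ℕ) -
      (c i * n % s i : ℕ)) ↔ ((∏ i, s i : ℕ) : ℤ) ∣ a + b - n := by
    intro a b
    rw [← crt_dvd hs hc]
    refine forall_congr' fun i => ?_
    have h : ∀ t : ℕ, (s i : ℤ) ∣ (c i * t : ℤ) - (c i * t % s i : ℕ) := fun t => by
      exact_mod_cast Nat.modEq_iff_dvd.1 (Nat.mod_modEq (c i * t) (s i))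
    have h' := ((h a).add (h b)).sub (h n)
    constructor
    · intro h1; exact dv (h1.add h') (by ring)
    · intro h1; exact dv (h1.sub h') (by ring)
  rw [← crt_image hs hc]
  simp only [Finset.sum_image (crt_inj hs hc), key]
  generalize ∏ i, s i = N at *
  rw [← Finset.sum_subset (Finset.range_subset_range.2 (Nat.succ_le_of_lt hn))]
  · refine Finset.sum_congr rfl fun a ha => ?_
    have ha := Finset.mem_range.1 ha
    rw [Finset.sum_eq_single (n - a), if_pos, hG _ (by omega) _ (by omega)]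
    · rw [Nat.cast_sub (by omega)]; simp
    · intro b hb hb'
      have hb := Finset.mem_range.1 hb
      split_ifs with h
      · rw [hG _ (by omega) _ hb]
        refine hF _ _ ?_
        by_contra h1
        have := Int.eq_zero_of_abs_lt_dvd h (by rw [abs_lt]; constructor <;> omega)
        omega
      · rfl
    · intro h
      exact absurd (Finset.mem_range.2 (by omega)) h
  · intro a ha ha'
    simp only [Finset.mem_range] at ha ha'
    refine Finset.sum_eq_zero fun b hb => ?_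
    have hb := Finset.mem_range.1 hb
    split_ifs with h
    · rw [hG _ ha _ hb]
      refine hF _ _ ?_
      by_contra h1
      have := Int.eq_zero_of_abs_lt_dvd h (by rw [abs_lt]; constructor <;> omega)
      omega
    · rfl
end

end Vale.Agent.P338.MD
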