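import Vale.Agent.P338.Spec

/-! The rounded transform on Gaussian integers and the statement of module D. -/

namespace Vale.Agent.P338

open Function

/-- the specification inside `ConstStmt` -/
def ConstSpec (ev : List Unit × CSpec → ℤ × ℤ) : Prop :=
  ∀ (f : List Unit) (c : CSpec), 0 < c.1.2 → (∀ q ∈ c.2, 0 < q.2) →
    ‖((ev (f, c)).1 + (ev (f, c)).2 * Complex.I) - 2 ^ f.length * c.val‖ ≤
      (|(c.1.1 : ℝ)| * c.2.length + 1) * (100 * f.length + 1000)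

/-- the data of the transform -/
structure FD where
  ev : List Unit × CSpec → ℤ × ℤ
  ds : ℕ × ℕ × List ℤ × Bool × ℕ → (ℤ × ℕ) × (ℤ × ℕ)
  ms : List Unit × ℕ × ℕ × List ℤ × ℕ → CSpec
  st : List Unit × List Unit × Bool → List Stage

/-- the list of stages -/
def FD.stg (D : FD) (L d : ℕ) (inv : Bool) : List Stage :=
  D.st (List.replicate L (), List.replicate d (), inv)

/-- the specification inside `FFTStmt` -/
def FFTSpec (D : FD) : Prop :=
  ∀ (L d : ℕ) (inv : Bool), 1 ≤ L →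
    (D.stg L d inv).length ≤ 30 * (L + d + 1) ∧
    ((D.stg L d inv).countP (fun g => g.1 = 1) ≤ 12 * L) ∧
    ((D.stg L d inv).countP (fun g => 2 ≤ g.1) ≤ 6 * d) ∧
    (∀ l, l < L → ((D.stg L d inv).countP (fun g => g.1 = 1 ∧ g.2.1 = l) ≤ 12)) ∧
    (∀ g ∈ D.stg L d inv, g.1 ≤ 3 ∧
      (g.1 = 1 → g.2.1 < L) ∧ (2 ≤ g.1 → g.2.1 < d) ∧
      ∀ (s : ℕ) (c : Bool) (j : ℕ), 0 < s → s ≤ 2 ^ L → j < 2 ^ L →
        0 < (D.ds (2 ^ L, s, g.2.2, c, j)).1.2 ∧ 0 < (D.ds (2 ^ L, s, g.2.2, c, j)).2.2 ∧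
        ((D.ds (2 ^ L, s, g.2.2, c, j)).1.1.natAbs ≤ 1) ∧
        0 < (D.ms (List.replicate (2 ^ L) (), 2 ^ L, s, g.2.2, j)).1.2 ∧
        (∀ q ∈ (D.ms (List.replicate (2 ^ L) (), 2 ^ L, s, g.2.2, j)).2, 0 < q.2) ∧
        (D.ms (List.replicate (2 ^ L) (), 2 ^ L, s, g.2.2, j)).1.1.natAbs ≤ 1 ∧
        (D.ms (List.replicate (2 ^ L) (), 2 ^ L, s, g.2.2, j)).2.length ≤ 2 ^ (L + 1)) ∧
    ∀ (i s : ℕ), i < d → 0 < s → s ≤ 2 ^ L → ∀ a b : Ax L, (b.2 : ℕ) < s →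
      ((D.stg L d inv).map (stageM D.ds D.ms L i s)).reverse.prod a b =
      if (a.2 : ℕ) < s ∧ b.1 = !a.1 then (1 / s : ℂ) *
        eph ((if a.1 = inv then -1 else 1) * ((a.2 : ℕ) * (b.2 : ℕ) : ℤ), s) else 0

/-- Gaussian integers -/
abbrev GI : Type := GaussianInt

/-- division by `2 ^ f`, rounded to nearest in both components -/
def rnd (f : ℕ) (z : GI) : GI := ⟨(z.re + 2 ^ (f - 1)) / 2 ^ f, (z.im + 2 ^ (f - 1)) / 2 ^ f⟩

/-- addresses: copy bit and position on each axis -/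
abbrev MA (d : ℕ) : Type := Fin d → Bool × ℕ

variable {d : ℕ}

/-- flip bit `l` of the position on axis `i` -/
def xr (l : ℕ) (i : Fin d) (a : MA d) : MA d := update a i ((a i).1, (a i).2 ^^^ 2 ^ l)

/-- flip the copy bit of axis `i` -/
def fl (i : Fin d) (a : MA d) : MA d := update a i (!(a i).1, (a i).2)

/-- twice the butterfly on one axis -/
def bfl (l : ℕ) (x : MA d → GI) (i : Fin d) : MA d → GI :=
  fun a => ⟨1, 1⟩ * x a + ⟨1, -1⟩ * x (xr l i a)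

/-- the product of numbers given by scale and phase -/
def dsp (l : List ((ℤ × ℕ) × (ℤ × ℕ))) : CSpec :=
  (((l.map fun e => e.1.1).prod, (l.map fun e => e.1.2).prod),
    [((l.map fun e => e.2.1 * (((l.map fun e => e.2.2).prod / e.2.2 : ℕ) : ℤ)).sum,
      (l.map fun e => e.2.2).prod)])

/-- the constant of stage `g` at an address given as the list of (modulus, copy bit, position) -/
def FD.cs (D : FD) (T : List Unit) (g : Stage) (l : List (ℕ × Bool × ℕ)) : CSpec :=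
  if g.1 ≤ 1 then dsp (l.map fun e => D.ds (T.length, e.1, g.2.2, e.2.1, e.2.2))
  else D.ms (T, T.length, (l.getD g.2.1 (0, false, 0)).1, g.2.2, (l.getD g.2.1 (0, false, 0)).2.2)

/-- the rounded constant -/
def FD.cz (D : FD) (L f : ℕ) (s : Fin d → ℕ) (g : Stage) (a : MA d) : GI :=
  ⟨(D.ev (List.replicate f (), D.cs (List.replicate (2 ^ L) ()) g
      (List.ofFn fun i => (s i, a i)))).1,
   (D.ev (List.replicate f (), D.cs (List.replicate (2 ^ L) ()) g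
      (List.ofFn fun i => (s i, a i)))).2⟩

/-- `2 ^ d` times the vector that is multiplied by the constant -/
def opd (g : Stage) (x : MA d → GI) : MA d → GI := fun a =>
  if g.1 = 0 then 2 ^ d * x a else if g.1 = 1 then (List.finRange d).foldl (bfl g.2.1) x a
  else if h : g.2.1 < d then 2 ^ d * x (fl ⟨g.2.1, h⟩ a) else 0

/-- the number that is rounded -/
def FD.arg (D : FD) (L f : ℕ) (s : Fin d → ℕ) (x : MA d → GI) (g : Stage) (a : MA d) : GI :=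
  D.cz L f s g a * opd g x a

/-- one stage -/
def FD.stZ (D : FD) (L f : ℕ) (s : Fin d → ℕ) (x : MA d → GI) (g : Stage) : MA d → GI := fun a =>
  if g.1 ≤ 1 then rnd (f + d) (D.arg L f s x g a)
  else if h : g.2.1 < d then
    (if (a ⟨g.2.1, h⟩).1 = decide (g.1 = 3) then x a + rnd (f + d) (D.arg L f s x g a) else x a)
  else x a

/-- replace the copy bits (weight `w`) of the coefficient index `k` -/
def setcb (w k : ℕ) (β : Fin d → Bool) : ℕ :=
  k % w + w * (∑ i, (β i).toNat * 2 ^ (i : ℕ) + 2 ^ d * (k / (w * 2 ^ d)))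

/-- the vector fed to the stages -/
def pre (s : Fin d → ℕ) (w : ℕ) (x : ℕ → (Fin d → ℕ) → GI) (k : ℕ) : MA d → GI := fun b =>
  if ∀ i, (b i).2 < s i then x (setcb w k fun i => !(b i).1)
    (fun i => if (b i).1 then (s i - (b i).2) % s i else (b i).2) else 0

/-- the computed transform -/
def FD.tr (D : FD) (L : ℕ) (s : Fin d → ℕ) (w : ℕ) (inv : Bool) (x : ℕ → (Fin d → ℕ) → GI)
    (k : ℕ) (r : Fin d → ℕ) : GI :=
  (D.stg L d inv).foldl (D.stZ L (3000 * (d * L)) s) (pre s w x k)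
    fun i => ((k / w).testBit i, r i)

/-- both components are below `2 ^ β` -/
def Fit (β : ℕ) (z : GI) : Prop := |z.re| < 2 ^ β ∧ |z.im| < 2 ^ β

/-- all rounded numbers of a transform are small -/
def FD.Fits (D : FD) (L : ℕ) (s : Fin d → ℕ) (w Λ : ℕ) (inv : Bool)
    (x : ℕ → (Fin d → ℕ) → GI) : Prop :=
  ∀ k < Λ, ∀ (l₁ l₂ : List Stage) (g : Stage), D.stg L d inv = l₁ ++ g :: l₂ →
    ∀ a : MA d, (∀ i, (a i).2 < 2 ^ L) → Fit (6000 * (d * L))
      (D.arg L (3000 * (d * L)) s (l₁.foldl (D.stZ L (3000 * (d * L)) s) (pre s w x k)) g a)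

/-- truncated product of polynomials in the coefficient index -/
def cnv (x y : ℕ → (Fin d → ℕ) → GI) (k : ℕ) (r : Fin d → ℕ) : GI :=
  ∑ l ∈ Finset.range (k + 1), x l r * y (k - l) r

/-- Module D (file Math.lean, theorem `math`). -/
def MathStmt : Prop :=
  ∀ (D : FD), ConstSpec D.ev → FFTSpec D →
  ∀ (d L w Λ : ℕ) (s c : Fin d → ℕ) (X Y : ℕ → ℕ → ℕ) (x y : ℕ → (Fin d → ℕ) → GI),
    1 ≤ d → d ≤ L → 0 < w → w * 2 ^ d ∣ Λ → Λ ≤ 2 ^ (d * L) →
    (∀ i, 0 < s i ∧ s i ≤ 2 ^ L ∧ Nat.Coprime (c i) (s i)) →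
    (∀ i j, i ≠ j → Nat.Coprime (s i) (s j)) →
    (∀ n k, X n k < 2 ^ (d * L) ∧ Y n k < 2 ^ (d * L)) →
    (∀ n k, ∏ i, s i ≤ 2 * n → X n k = 0 ∧ Y n k = 0) →
    (∀ n < ∏ i, s i, ∀ k < Λ, x k (fun i => c i * n % s i) = 2 ^ (1000 * (d * L)) * X n k ∧
      y k (fun i => c i * n % s i) = 2 ^ (1000 * (d * L)) * Y n k) →
    D.Fits L s w Λ false x ∧ D.Fits L s w Λ false y ∧
    D.Fits L s w Λ true (cnv (D.tr L s w false x) (D.tr L s w false y)) ∧
    ∀ n < ∏ i, s i, ∀ k < Λ,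
      Fit (6000 * (d * L)) ((((∏ i, s i) ^ 2 : ℕ) : GI) * D.tr L s w true
        (cnv (D.tr L s w false x) (D.tr L s w false y)) k fun i => c i * n % s i) ∧
      rnd (2000 * (d * L)) ((((∏ i, s i) ^ 2 : ℕ) : GI) * D.tr L s w true
        (cnv (D.tr L s w false x) (D.tr L s w false y)) k fun i => c i * n % s i) =
      ((∑ n₁ ∈ Finset.range (n + 1), ∑ l ∈ Finset.range (k + 1),
        X n₁ l * Y (n - n₁) (k - l) : ℕ) : GI)

theorem exists_FD (h1 : ConstStmt) (h2 : FFTStmt) : ∃ D : FD,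
    Vale.Agent.Lib.H24.T.PT D.ev ∧ Vale.Agent.Lib.H24.T.PT D.ds ∧ Vale.Agent.Lib.H24.T.PT D.ms ∧
    Vale.Agent.Lib.H24.T.PT D.st ∧ ConstSpec D.ev ∧ FFTSpec D := by
  obtain ⟨ev, a1, a2⟩ := h1
  obtain ⟨ds, ms, st, b1, b2, b3, b4⟩ := h2
  exact ⟨⟨ev, ds, ms, st⟩, a1, b1, b2, b3, a2, b4⟩

end Vale.Agent.P338
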