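import Vale.Agent.P338.Arr
import Vale.Agent.P338.Spec2

/-! Operations that keep the parameters, permutations of arrays, networks and loops. -/

namespace Vale.Agent.P338

open Function
open Vale.Agent.Lib.H24.T (Enc enc code sz PT Pb sz_pair sz_cons sz_nil sz_pos sz_append
  sz_reverse length_le_sz sz_unit sz_bool sz_nat_mono sz_mem sz_list_le)

variable {ι ι' : Type} {α β γ δ σ π π' : Type} [Enc α] [Enc β] [Enc γ] [Enc δ] [Enc σ] [Enc π]
  [Enc π']

/-- slightly superpolynomial -/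
def qp (a : ℕ) : ℕ := (a + 2) ^ a.size.size

theorem qp_mono {a b : ℕ} (h : a ≤ b) : qp a ≤ qp b :=
  (Nat.pow_le_pow_left (by omega) _).trans
    (Nat.pow_le_pow_right (by omega) (Nat.size_le_size (Nat.size_le_size h)))

theorem qp_pos (a : ℕ) : 0 < qp a := by unfold qp; positivity

theorem small_qp {a : ι → ℕ} {E : ι → ℝ} (h : ∀ i, (qp (a i) : ℝ) ≤ E i) : Small a E := fun k =>
  ⟨(2 ^ 2 ^ k + 2) ^ k, fun i => by
    have h1 : (1 : ℝ) ≤ qp (a i) := by exact_mod_cast qp_pos _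
    have h2 := h i
    refine ⟨by linarith, ?_⟩
    have h3 : (a i + 2) ^ k ≤ (2 ^ 2 ^ k + 2) ^ k * qp (a i) := by
      by_cases hk : k ≤ (a i).size.size
      · exact (Nat.pow_le_pow_right (by omega) hk).trans
          (Nat.le_mul_of_pos_left _ (by positivity))
      · have := Nat.size_le.1 (Nat.size_le.1 (not_le.1 hk).le).le
        exact (Nat.pow_le_pow_left (by omega) k).trans (Nat.le_mul_of_pos_right _ (qp_pos _))
    have h4 : ((a i : ℝ) + 2) ^ k ≤ ((2 ^ 2 ^ k + 2) ^ k : ℕ) * qp (a i) := by exact_mod_cast h3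
    exact h4.trans (mul_le_mul_of_nonneg_left h2 (by positivity))⟩

/-- an operation that keeps the parameters -/
def Op (e : Env ι π) (U : ι → ℝ) (x : ι → α) (y : ι → β) (V : ι → ℝ) : Prop :=
  Cmp e.s (fun i => (e.P i, x i)) (fun i => (e.P i, y i)) U V

/-- the context of an operation -/
abbrev Env.ctx (e : Env ι π) (U : ι → ℝ) (x : ι → α) : Ctx ι (π × α) :=
  ⟨e.s, fun i => (e.P i, x i), U⟩

section
variable {e : Env ι π} {U U' V V' : ι → ℝ} {x : ι → α} {y : ι → β} {z : ι → γ}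

theorem Op.cmp (hE : Bd e.E U) (hx : Bd (fun i => (sz (x i) : ℝ)) U)
    (h : Lin (e.ctx U x) e.P → Lin (e.ctx U x) x → Cmp e.s (fun i => (e.P i, x i)) y U V) :
    Op e U x y V := by
  have h0 := Lin.self (c := e.ctx U x) ((e.hS.bd.trans hE).szpair hx)
  exact (Cmp.pair h0.fst (h h0.fst h0.snd)).monoV fun i => by simp

theorem Op.lin (hE : Bd e.E U) (hx : Bd (fun i => (sz (x i) : ℝ)) U)
    (h : Lin (e.ctx U x) e.P → Lin (e.ctx U x) x → Lin (e.ctx U x) y) : Op e U x y 0 :=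
  Op.cmp hE hx h

theorem Op.bdx (h : Op e U x y V) : Bd (fun i => (sz (x i) : ℝ)) U :=
  (Cmp.bdx h).of_le fun i => by rw [sz_pair]; push_cast; linarith [(by positivity : (0 : ℝ) ≤ sz (e.P i))]

theorem Op.bdy (h : Op e U x y V) : Bd (fun i => (sz (y i) : ℝ)) U :=
  (Cmp.bdy h).of_le fun i => by rw [sz_pair]; push_cast; linarith [(by positivity : (0 : ℝ) ≤ sz (e.P i))]

theorem Op.trans (h : Op e U x y V) (h' : Op e U y z V') : Op e U x z fun i => V i + V' i :=
  Cmp.trans h h'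
theorem Op.trans0 (h : Op e U x y V) (h' : Op e U y z 0) : Op e U x z V := Cmp.trans0 h h'
theorem Op.trans0' (h : Op e U x y 0) (h' : Op e U y z V) : Op e U x z V := Cmp.trans0' h h'
theorem Op.monoV (h : Op e U x y V) (hV : ∀ i, V i ≤ V' i) : Op e U x y V' := Cmp.monoV h hV
theorem Op.mono (h : Op e U x y V) (hU : Bd U U') : Op e U' x y V := Cmp.mono h hU fun _ => le_rfl
theorem Op.V0 (h : Op e U x y V) (i : ι) : 0 ≤ V i := Cmp.V0 h i

theorem Op.congr {x' : ι → α} {y' : ι → β} (h : Op e U x y V) (hx : ∀ i, x' i = x i)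
    (hy : ∀ i, y' i = y i) : Op e U x' y' V :=
  Cmp.congr h (fun i => by rw [hx]) fun i => by rw [hy]

theorem Op.thenL (h : Op e U x y V) (hE : Bd e.E U)
    (h' : Lin (e.ctx U y) e.P → Lin (e.ctx U y) y → Lin (e.ctx U y) z) : Op e U x z V :=
  h.trans0 (Op.lin hE h.bdy h')

/-- apply an operation to a computed value -/
theorem Lin.op {c : Ctx ι δ} (hs : c.s = e.s) (hP : Lin c e.P) (hx : Lin c x)
    (h : Op e c.U x y V) : Cmp c.s c.x y c.U V := by
  have h1 : Cmp c.s (fun i => (e.P i, x i)) (fun i => (e.P i, y i)) c.U V := hs ▸ h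
  exact (Cmp.trans0' (hP.pair hx) h1).trans0 (Lin.self (c := ⟨c.s, _, c.U⟩) h1.bdy).snd

theorem Op.pair (h : Op e U x y V) (h' : Op e U x z V') :
    Op e U x (fun i => (y i, z i)) fun i => V i + V' i := by
  have h1 := Cmp.pair h h'
  have h2 := Lin.self (c := ⟨e.s, _, U⟩) h1.bdy
  exact h1.trans0 (h2.fst.fst.pair (h2.fst.snd.pair h2.snd.snd))

theorem Op.call {f : π → π'} (hf : PT f) (hE : Bd e.E U) (hx : Bd (fun i => (sz (x i) : ℝ)) U)
    (h : Cmp e.s (fun i => (f (e.P i), x i)) y U V) : Op e U x y V :=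
  Op.cmp hE hx fun h1 h2 => Cmp.trans0' ((h1.par hE hf).pair h2) h

/-- restriction of the family -/
def Env.re (e : Env ι π) (g : ι' → ι) : Env ι' π :=
  ⟨fun i => e.s (g i), fun i => e.P (g i), fun i => e.E (g i), e.hS.re g⟩

theorem Op.re (h : Op e U x y V) (g : ι' → ι) :
    Op (e.re g) (fun i => U (g i)) (fun i => x (g i)) (fun i => y (g i)) fun i => V (g i) :=
  Cmp.re h g

theorem Op.cases {b : π → Bool} (hb : PT b) (hE : Bd e.E U) (hx : Bd (fun i => (sz (x i) : ℝ)) U)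
    (h1 : Op (e.re fun i : {i // b (e.P i) = true} => i) (fun i => U i) (fun i => x i)
      (fun i => y i) fun i => V i)
    (h2 : Op (e.re fun i : {i // b (e.P i) = false} => i) (fun i => U i) (fun i => x i)
      (fun i => y i) fun i => V i) : Op e U x y V :=
  Cmp.cases (b := fun i => b (e.P i))
    ((Lin.self (c := e.ctx U x) ((e.hS.bd.trans hE).szpair hx)).fst.par hE hb) h1 h2

/-- the parameters inside a loop over the list `I` -/
def Env.ext (e : Env ι π) (I : π → List γ) (hI : PT I) (d : γ) :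
    Env (Pos fun i => (I (e.P i)).length) (π × γ) where
  s := fun q => e.s q.1.1
  P := fun q => (e.P q.1.1, (I (e.P q.1.1)).getD q.1.2 d)
  E := fun q => e.E q.1.1
  hS := (e.hS.re fun q : Pos fun i => (I (e.P i)).length => q.1.1).pair
    (((e.hS.pt hI).re fun q : Pos fun i => (I (e.P i)).length => q.1.1).of_le fun q => by
      rw [List.getD_eq_getElem _ _ q.2]
      exact sz_mem (List.getElem_mem _))

theorem Op.loop {I : π → List γ} (hI : PT I) (d : γ) (X : ι → ℕ → α) {U₁ V₁ : ι → ℕ → ℝ}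
    (h : Op (e.ext I hI d) (fun q => U₁ q.1.1 q.1.2) (fun q => X q.1.1 q.1.2)
      (fun q => X q.1.1 (q.1.2 + 1)) fun q => V₁ q.1.1 q.1.2)
    (hU : Bd (fun i => ∑ t ∈ Finset.range (I (e.P i)).length, U₁ i t) U) (hE : Bd e.E U)
    (hx : Bd (fun i => (sz (X i 0) : ℝ)) U) (hV0 : ∀ i, 0 ≤ V i)
    (hV : ∀ i, ∑ t ∈ Finset.range (I (e.P i)).length, V₁ i t ≤ V i) :
    Op e U (fun i => X i 0) (fun i => X i (I (e.P i)).length) V := by
  have h0 := Lin.self (c := e.ctx U fun i => X i 0) ((e.hS.bd.trans hE).szpair hx)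
  have hb : Bd (fun q : Pos fun i => (I (e.P i)).length => (sz ((e.P q.1.1, X q.1.1 q.1.2),
      (I (e.P q.1.1)).getD q.1.2 d) : ℝ)) fun q => U₁ q.1.1 q.1.2 :=
    (Cmp.bdx h).of_le fun q => by simp only [Env.ext, sz_pair]; push_cast; linarith
  have h1 := Lin.self (c := (e.ctx U fun i => X i 0).el (fun i => (I (e.P i)).length)
    (fun i t => ((e.P i, X i t), (I (e.P i)).getD t d)) U₁) hb
  have h2 := Cmp.trans0' ((h1.fst.fst.pair h1.snd).pair h1.fst.snd) h
  have h3 := Lin.self (c := ⟨fun q : Pos fun i => (I (e.P i)).length => e.s q.1.1, _, _⟩) h2.bdy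
  have h4 := Cmp.scanL (c := e.ctx U fun i => X i 0) (st := fun i t => (e.P i, X i t))
    (out := fun _ _ => ([] : List Unit)) (U' := U₁) (V' := V₁) h0
    ((h0.fst.par hE hI).congr fun i => (eq_tab _ d).symm)
    (h2.trans0 ((h3.fst.fst.pair h3.snd).pair (h3.cst []))) hU hV0 hV
  exact h4.trans0 (Lin.self (c := ⟨e.s, _, U⟩) h4.bdy).fst

theorem Op.net {w : ℕ} {G C : Type} {D M : ι → Type} [∀ i, CommRing (D i)]
    [∀ i, AddCommGroup (M i)] [∀ i, Module (D i) (M i)] (ren : ∀ i, M i → β)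
    (Γ : ∀ i, G → M i → M i) (cf : ∀ i, C → D i) (ok : G → Prop) (hE : Bd e.E U)
    (hb : ∀ v : ∀ i, M i, Bd (fun i => (sz (ren i (v i)) : ℝ)) U)
    (hs : ∀ g, ok g → ∀ v : ∀ i, M i,
      Op e U (fun i => ren i (v i)) (fun i => ren i (Γ i g (v i))) V)
    (hg : ∀ (a : C) (v v' : ∀ i, M i), Op e U (fun i => (ren i (v i), ren i (v' i)))
      (fun i => ren i (v i + cf i a • v' i)) 0) (hV : ∀ i, 0 ≤ V i)
    (L : List (Ins (Fin w) G C)) (hL : ∀ I ∈ L, I.Ok ok) (S : ∀ i, Fin w → M i) :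
    Op e U (fun i => List.ofFn fun u => ren i (S i u))
      (fun i => List.ofFn fun u => ren i (L.foldl (Ins.run (Γ i) (cf i)) (S i) u))
      fun i => L.countP Ins.isStep * V i := by
  have hbS : ∀ S : ∀ i, Fin w → M i,
      Bd (fun i => (sz (List.ofFn fun u => ren i (S i u)) : ℝ)) U := by
    intro S
    clear hL L hs hg
    induction w with
    | zero => exact (e.hS.one.trans hE).of_le fun i => by simp
    | succ w ih =>
      exact (Bd.szpair (hb fun i => S i 0) (ih (fun i u => S i u.succ) fun i u => S i u.succ)).of_le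
        fun i => by rw [List.ofFn_succ, sz_cons, sz_pair]
  have upd : ∀ (S : ∀ i, Fin w → M i) (u : Fin w) (v : ∀ i, M i) (T : ι → ℝ),
      Op e U (fun i => List.ofFn fun u => ren i (S i u)) (fun i => ren i (v i)) T →
      Op e U (fun i => List.ofFn fun u => ren i (S i u))
        (fun i => List.ofFn fun u' => ren i (update (S i) u (v i) u')) T := by
    intro S u v T h
    refine ((h.pair (Op.lin hE (hbS S) fun _ hx => hx)).thenL hE fun _ hx =>
      Lin.ofFn (Cmp.bdx hx) fun u' => ?_).monoV fun i => by simp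
    by_cases hu : u' = u
    · exact hx.fst.congr fun i => by rw [hu, update_self]
    · exact (hx.snd.getFn u').congr fun i => by rw [update_of_ne hu]
  induction L generalizing S with
  | nil => exact (Op.lin hE (hbS S) fun _ hx => hx).monoV fun i => by simp
  | cons I L ih =>
    have ih := ih fun I hI => hL I (List.mem_cons_of_mem _ hI)
    have hI := hL I List.mem_cons_self
    cases I with
    | step u g =>
      refine ((upd S u _ _ ((Op.lin hE (hbS S) fun _ hx => hx.getFn u).trans0'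
        (hs g hI fun i => S i u))).trans (ih _)).monoV fun i => ?_
      simp [Ins.isStep, List.countP_cons]; linarith
    | gate u u' a =>
      refine ((upd S u _ _ ((Op.lin hE (hbS S) fun _ hx => (hx.getFn u).pair (hx.getFn u')).trans0'
        (hg a (fun i => S i u) fun i => S i u'))).trans (ih _)).monoV fun i => ?_
      simp [Ins.isStep, List.countP_cons]

end

/-- atoms -/
abbrev Atom : Type := List (List Bool)

/-- an atom of `B` words of length `l` -/
def atB (B l : ℕ) (v : ℕ → ℕ → Bool) : Atom := tab B fun k => tab l (v k)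

theorem sz_atB (B l : ℕ) (v : ℕ → ℕ → Bool) : sz (atB B l v) ≤ 4 * (B * (l + 1) + 1) := by
  have := sz_list_le (l := atB B l v) (B := 4 * l + 1) fun a ha => by
    obtain ⟨k, -, rfl⟩ := List.mem_map.1 ha
    have := sz_list_le (l := tab l (v k)) (B := 3) fun a _ => sz_bool a
    rw [length_tab] at this; omega
  rw [atB, length_tab] at this
  unfold atB
  nlinarith

theorem Lin.zeroA {c : Ctx ι α} {B l : ι → ℕ} {v : ι → ℕ → ℕ → Bool}
    (h : Lin c fun i => atB (B i) (l i) (v i)) : Lin c fun i => atB (B i) (l i) fun _ _ => false :=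
  Lin.map0 (fun i _ => tab (l i) fun _ => false) h fun hx => (hx.fill false).congr fun q => by
    rw [length_tab, replicate_tab]

theorem Lin.xorA {c : Ctx ι α} {B l : ι → ℕ} {v v' : ι → ℕ → ℕ → Bool}
    (h : Lin c fun i => atB (B i) (l i) (v i)) (h' : Lin c fun i => atB (B i) (l i) (v' i)) :
    Lin c fun i => atB (B i) (l i) fun k t => xor (v i k t) (v' i k t) :=
  Lin.map0 (fun i k => tab (l i) fun t => xor (v i k t) (v' i k t)) (Lin.ztab h h') fun hx =>
    Lin.map0 (fun (q : Pos B) t => xor (v q.1.1 q.1.2 t) (v' q.1.1 q.1.2 t)) (hx.fst.ztab hx.snd)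
      fun hy => (hy.fst.cond (hy.snd.cond (hy.cst false) (hy.cst true)) hy.snd).congr fun q => by
        dsimp only
        cases v q.1.1.1.1 q.1.1.1.2 q.1.2 <;> cases v' q.1.1.1.1 q.1.1.1.2 q.1.2 <;> rfl

/-- an environment for arrays of `N` atoms -/
structure AE (ι π : Type) [Enc π] extends Env ι π where
  U : ι → ℝ
  N : π → ℕ
  B : ι → ℕ
  l : ι → ℕ
  hN : toEnv.Ok N U
  hA : Bd (fun i => (B i * (l i + 1) + 1 : ℕ)) E
  N0 : ∀ i, 0 < N (P i)

section
variable {a : AE ι π}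

theorem AE.at (a : AE ι π) (G : ι → ℕ → ℕ → ℕ → Bool) :
    a.At fun i j => atB (a.B i) (a.l i) (G i j) :=
  ((a.hA.cmul 4).re fun q : ι × ℕ => q.1).of_le fun q => by exact_mod_cast sz_atB _ _ _

/-- the array with the given bits -/
def AE.arr (a : AE ι π) (G : ι → ℕ → ℕ → ℕ → Bool) (i : ι) : List Atom :=
  tab (a.N (a.P i)) fun j => atB (a.B i) (a.l i) (G i j)

theorem AE.bd (a : AE ι π) (G : ι → ℕ → ℕ → ℕ → Bool) :
    Bd (fun i => (sz (a.arr G i) : ℝ)) a.U := a.hN.sztab (a.at G)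

/-- the index map `φ` can be applied to arrays -/
def AE.Pm (a : AE ι π) (φ : ι → ℕ → ℕ) (T : ι → ℝ) : Prop :=
  ∀ G, Op a.toEnv a.U (a.arr G) (a.arr fun i j => G i (φ i j)) T

theorem AE.Pm.lin {φ : ι → ℕ → ℕ} (h : ∀ G, Lin (a.ctx a.U (a.arr G)) a.P →
    Lin (a.ctx a.U (a.arr G)) (a.arr G) → Lin (a.ctx a.U (a.arr G)) (a.arr fun i j => G i (φ i j))) :
    a.Pm φ 0 := fun G => Op.lin a.hN.bdE (a.bd G) (h G)

/-- the address map `θ` can be applied on the addresses satisfying `cn` -/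
def AE.Mv (a : AE ι π) {A : ι → Type} (dec : ∀ i, ℕ → A i) (cn : ∀ i, A i → Prop)
    (θ : ∀ i, A i → A i) (T : ι → ℝ) : Prop :=
  ∃ φ, a.Pm φ T ∧ ∀ i j, cn i (dec i j) → dec i (φ i j) = θ i (dec i j)

variable {A : ι → Type} {dec : ∀ i, ℕ → A i} {cn c₁ c₂ : ∀ i, A i → Prop}
  {θ θ₁ θ₂ : ∀ i, A i → A i} {T T₁ T₂ : ι → ℝ}

theorem AE.Mv.id : a.Mv dec cn (fun _ x => x) 0 :=
  ⟨fun _ j => j, AE.Pm.lin fun _ _ h => h, fun _ _ _ => rfl⟩

theorem AE.Mv.comp (h₁ : a.Mv dec c₁ θ₁ T₁) (h₂ : a.Mv dec c₂ θ₂ T₂)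
    (h : ∀ i x, cn i x → c₂ i x ∧ c₁ i (θ₂ i x)) :
    a.Mv dec cn (fun i x => θ₁ i (θ₂ i x)) fun i => T₁ i + T₂ i := by
  obtain ⟨φ₁, p₁, q₁⟩ := h₁
  obtain ⟨φ₂, p₂, q₂⟩ := h₂
  refine ⟨fun i j => φ₁ i (φ₂ i j), fun G => (p₁ G).trans (p₂ _), fun i j hj => ?_⟩
  have := q₂ i j (h i _ hj).1
  rw [q₁ i _ (this ▸ (h i _ hj).2), this]

theorem AE.Mv.mono (h : a.Mv dec c₁ θ₁ T₁) (hc : ∀ i x, cn i x → c₁ i x ∧ θ i x = θ₁ i x)
    (hT : ∀ i, T₁ i ≤ T i) : a.Mv dec cn θ T := by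
  obtain ⟨φ, p, q⟩ := h
  exact ⟨φ, fun G => (p G).monoV hT, fun i j hj => by rw [q i j (hc i _ hj).1, (hc i _ hj).2]⟩

theorem AE.Mv.comp0 (h₁ : a.Mv dec c₁ θ₁ 0) (h₂ : a.Mv dec c₂ θ₂ 0)
    (h : ∀ i x, cn i x → c₂ i x ∧ c₁ i (θ₂ i x)) : a.Mv dec cn (fun i x => θ₁ i (θ₂ i x)) 0 :=
  (h₁.comp h₂ h).mono (fun _ _ hx => ⟨hx, rfl⟩) fun i => by simp

end

end Vale.Agent.P338
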