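import Vale.Agent.P338.NetSwap

/-! Labels modulo four and the design of the butterfly network. -/

namespace Vale.Agent.P338.Net

open Function Matrix

/-- the lift of a bit -/
def lf (a : ZMod 2) : ZMod 4 := if a = 0 then 0 else 1

/-- a sign -/
def sg (b : Bool) : ZMod 4 := if b then -1 else 1

theorem lf_mul (a b : ZMod 2) : lf (a * b) = lf a * lf b := by revert a b; decide
theorem sg_xor (a b : Bool) : sg (a ^^ b) = sg a * sg b := by revert a b; decide
theorem sq_lf (x : ZMod 4) : x * x = lf (ZMod.castHom (show 2 ∣ 4 by norm_num) (ZMod 2) x) := by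
  revert x; decide
theorem cast_lf (a : ZMod 2) : ZMod.castHom (show 2 ∣ 4 by norm_num) (ZMod 2) (lf a) = a := by
  revert a; decide

section
variable {I : Type}

/-- the rank one matrix of a binary vector -/
def vv (f : I → ZMod 2) : Matrix I I (ZMod 4) := vecMulVec (fun a => lf (f a)) fun a => lf (f a)

/-- congruence of symmetric matrices -/
structure Cong (X Y : Matrix I I (ZMod 4)) : Prop where
  l : ∀ a b, X a b = X b a
  r : ∀ a b, Y a b = Y b a
  d : ∀ a, X a a = Y a a
  t : ∀ a b, 2 * X a b = 2 * Y a b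

/-- the quadratic form of a matrix -/
def qf [Fintype I] (X : Matrix I I (ZMod 4)) (ξ : I → ZMod 2) : ZMod 4 :=
  ∑ p : I × I, X p.1 p.2 * (lf (ξ p.1) * lf (ξ p.2))

theorem qf_add [Fintype I] (X Y : Matrix I I (ZMod 4)) (ξ : I → ZMod 2) :
    qf (X + Y) ξ = qf X ξ + qf Y ξ := by simp [qf, add_mul, Finset.sum_add_distrib]

theorem Cong.qf [Fintype I] {X Y : Matrix I I (ZMod 4)} (h : Cong X Y) (ξ : I → ZMod 2) :
    qf X ξ = qf Y ξ := by
  rw [← sub_eq_zero, Net.qf, Net.qf, ← Finset.sum_sub_distrib]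
  refine Finset.sum_involution (fun p _ => p.swap) (fun p _ => ?_) (fun p _ hp e => hp ?_)
    (fun _ _ => Finset.mem_univ _) fun _ _ => rfl
  · simp only [Prod.fst_swap, Prod.snd_swap, h.l p.2, h.r p.2]
    linear_combination (lf (ξ p.1) * lf (ξ p.2)) * h.t p.1 p.2
  · have : p.2 = p.1 := congrArg Prod.fst e
    rw [this, h.d, sub_self]

theorem qf_vv [Fintype I] (c : ZMod 4) (f ξ : I → ZMod 2) :
    qf (c • vv f) ξ = c * lf (f ⬝ᵥ ξ) := by
  have h := sq_lf (∑ a, lf (f a) * lf (ξ a))
  simp only [map_sum, map_mul, cast_lf] at h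
  rw [dotProduct, ← h, Finset.sum_mul_sum, qf, Fintype.sum_prod_type]
  simp only [Finset.mul_sum, vv, Matrix.smul_apply, vecMulVec_apply, smul_eq_mul]
  exact Finset.sum_congr rfl fun _ _ => Finset.sum_congr rfl fun _ _ => by ring

theorem Cong.k3 {X Y Z X' Y' Z' : Matrix I I (ZMod 4)} (hX : Cong X X') (hY : Cong Y Y')
    (hZ : Cong Z Z') : Cong (k3 X Y Z) (k3 X' Y' Z') where
  l a b := by simp only [Net.k3]; rw [hX.l, hY.l, hZ.l]
  r a b := by simp only [Net.k3]; rw [hX.r, hY.r, hZ.r]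
  d a := by simp only [Net.k3, hX.d, hY.d, hZ.d]
  t a b := by
    simp only [Net.k3]
    linear_combination (Y a.2.1 b.2.1 * Z a.2.2 b.2.2) * hX.t a.1 b.1 +
      (X' a.1 b.1 * Z a.2.2 b.2.2) * hY.t a.2.1 b.2.1 + (X' a.1 b.1 * Y' a.2.1 b.2.1) * hZ.t a.2.2 b.2.2

/-- signed sums of at most `r` rank one matrices, up to congruence -/
def DC (r : ℕ) (X : Matrix I I (ZMod 4)) : Prop :=
  ∃ (J : Type) (_ : Fintype J) (f : J → I → ZMod 2) (s : J → Bool), Fintype.card J ≤ r ∧
    (∀ j, f j ≠ 0) ∧ Cong X (∑ j, sg (s j) • vv (f j))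

theorem DC.add {r r' : ℕ} {X Y : Matrix I I (ZMod 4)} (h : DC r X) (h' : DC r' Y) :
    DC (r + r') (X + Y) := by
  obtain ⟨J, _, f, s, h1, h2, h3⟩ := h
  obtain ⟨J', _, f', s', h1', h2', h3'⟩ := h'
  refine ⟨J ⊕ J', inferInstance, Sum.elim f f', Sum.elim s s', by simp; omega,
    by rintro (j | j); exacts [h2 j, h2' j], ?_⟩
  simp only [Fintype.sum_sum_type, Sum.elim_inl, Sum.elim_inr]
  refine ⟨fun a b => ?_, fun a b => ?_, fun a => ?_, fun a b => ?_⟩ <;>
    simp only [Matrix.add_apply]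
  · rw [h3.l, h3'.l]
  · rw [h3.r, h3'.r]
  · rw [h3.d, h3'.d]
  · rw [mul_add, mul_add, h3.t, h3'.t]

theorem DC.of_eq {r r' : ℕ} {X Y : Matrix I I (ZMod 4)} (h : DC r X) (hr : r ≤ r') (e : Y = X) :
    DC r' Y := by
  obtain ⟨J, _, f, s, h1, h2, h3⟩ := h
  exact ⟨J, inferInstance, f, s, h1.trans hr, h2, e ▸ h3⟩

theorem dc_of {J : Type} (t : Finset J) (f : J → I → ZMod 2) (b : Bool) (hf : ∀ j ∈ t, f j ≠ 0)
    {X N : Matrix I I (ZMod 4)} (h1 : ∀ a b, N a b = N b a) (h2 : ∀ a, N a a = 0)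
    (h3 : ∀ a b, 2 * N a b = 0) (h : X = N + ∑ j ∈ t, sg b • vv (f j)) : DC t.card X := by
  refine ⟨t, inferInstance, fun j => f j, fun _ => b, by simp, fun j => hf j j.2, ?_⟩
  rw [Finset.sum_coe_sort t fun j => sg b • vv (f j)]
  have h4 : ∀ a c, (∑ j ∈ t, sg b • vv (f j)) a c = (∑ j ∈ t, sg b • vv (f j)) c a := fun a c => by
    simp only [Matrix.sum_apply, vv, Matrix.smul_apply, vecMulVec_apply, mul_comm (lf (f _ a))]
  subst h
  refine ⟨fun a b => ?_, h4, fun a => ?_, fun a b => ?_⟩ <;> simp only [Matrix.add_apply]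
  · rw [h1, h4]
  · rw [h2, zero_add]
  · rw [mul_add, h3, zero_add]

variable [DecidableEq I]

/-- indicator vector -/
def ind (S : Finset I) : I → ZMod 2 := fun j => if j ∈ S then 1 else 0

/-- indicator matrix -/
def dg (S : Finset I) : Matrix I I (ZMod 4) := fun a b => if a = b ∧ a ∈ S then 1 else 0

theorem vv_ind (S : Finset I) (a b : I) : vv (ind S) a b = if a ∈ S ∧ b ∈ S then 1 else 0 := by
  by_cases ha : a ∈ S <;> by_cases hb : b ∈ S <;> simp [vv, ind, lf, vecMulVec_apply, ha, hb]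

theorem ind_ne {S : Finset I} (h : 0 < S.card) : ind S ≠ 0 := by
  obtain ⟨a, ha⟩ := Finset.card_pos.mp h
  intro e
  simpa [ind, ha] using congrFun e a

theorem dc_dg (b : Bool) (U : Finset I) : DC U.card (sg b • dg U) := by
  refine dc_of U (fun j => ind {j}) b (fun j _ => ind_ne (by simp)) (N := 0) (by simp) (by simp)
    (by simp) ?_
  rw [zero_add, ← Finset.smul_sum]
  congr 1
  ext x y
  simp only [Matrix.sum_apply, vv_ind, dg, Finset.mem_singleton]
  by_cases h : x = y
  · subst h; simp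
  · rw [if_neg (fun e => h e.1), Finset.sum_eq_zero fun j _ => if_neg fun e => h (e.1.trans e.2.symm)]

theorem dc_four {W E : Finset I} (hW : W.card = 4) (hE : E ⊆ W) :
    DC (4 - E.card) (dg W + ∑ j ∈ E, vv (ind (W.erase j))) := by
  have key : ∀ a b, (dg W + ∑ j ∈ W, vv (ind (W.erase j))) a b =
      if a ∈ W ∧ b ∈ W ∧ a ≠ b then 2 else 0 := by
    intro a b
    simp only [Matrix.add_apply, Matrix.sum_apply, vv_ind, dg, Finset.sum_boole]
    by_cases h : a ∈ W ∧ b ∈ W
    · have : W.filter (fun j => a ∈ W.erase j ∧ b ∈ W.erase j) = (W.erase a).erase b := by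
        ext j; simp [h, eq_comm]; tauto
      rw [this]
      by_cases hab : a = b
      · subst hab
        simp [h.1, hW]
        rfl
      · rw [Finset.card_erase_of_mem (by simp [h, Ne.symm hab]), Finset.card_erase_of_mem h.1, hW]
        simp [h, hab]
    · rw [Finset.filter_eq_empty_iff.mpr fun j _ e =>
        h ⟨Finset.mem_of_mem_erase e.1, Finset.mem_of_mem_erase e.2⟩, if_neg, if_neg]
      · simp
      · tauto
      · rintro ⟨rfl, e⟩
        exact h ⟨e, e⟩
  refine (dc_of (W \ E) (fun j => ind (W.erase j)) true (fun j hj => ind_ne ?_)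
    (N := dg W + ∑ j ∈ W, vv (ind (W.erase j))) (fun a b => ?_) (fun a => ?_) (fun a b => ?_)
    rfl).of_eq ?_ ?_
  · rw [Finset.card_erase_of_mem (Finset.mem_sdiff.mp hj).1, hW]; norm_num
  · simp only [key, ne_comm (a := a), and_left_comm]
  · simp [key]
  · rw [key]; split_ifs; exacts [rfl, rfl]
  · rw [Finset.card_sdiff_of_subset hE, hW]
  · rw [← Finset.sum_sdiff hE]
    simp [sg]
    abel

theorem dc_three {S : Finset I} (hS : S.card = 3) {a : I} (ha : a ∉ S) :
    DC 3 (dg (insert a S) + vv (ind S)) := by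
  simpa [Finset.erase_insert ha] using dc_four (W := insert a S) (E := {a})
    (by rw [Finset.card_insert_of_notMem ha, hS]) (by simp)

theorem dc_compl [Fintype I] (U : Finset I) : DC (Fintype.card I - U.card) (1 - dg U) :=
  (dc_dg false Uᶜ).of_eq (by rw [Finset.card_compl]) (by
    ext a b
    by_cases h : a = b <;> by_cases h' : a ∈ U <;> simp_all [sg, dg])

end

theorem exists_notMem {S : Finset (Fin 41)} (h : S.card < 41) : ∃ a, a ∉ S := by
  by_contra hh
  push Not at hh
  rw [Finset.eq_univ_iff_forall.mpr hh] at h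
  simp at h

theorem dc1 (S : Trip 41) : DC (39 + 1) (1 - -vv (ind S.1)) := by
  obtain ⟨a, ha⟩ := exists_notMem (S := S.1) (by rw [S.2]; norm_num)
  exact ((dc_compl (insert a S.1)).add (dc_three S.2 ha)).of_eq
    (by rw [Finset.card_insert_of_notMem ha, S.2]; simp) (by abel)

theorem dc2 (S T : Trip 41) (h : (S.1 ∩ T.1).card = 0 ∨ (S.1 ∩ T.1).card = 2) :
    DC 39 (1 - -vv (ind T.1) - -vv (ind S.1)) := by
  have hu := Finset.card_union_add_card_inter S.1 T.1
  rw [S.2, T.2] at hu
  rcases h with h0 | h2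
  · obtain ⟨a, ha⟩ := exists_notMem (S := S.1 ∪ T.1) (by omega)
    obtain ⟨b, hb⟩ := exists_notMem (S := insert a (S.1 ∪ T.1)) (by
      rw [Finset.card_insert_of_notMem ha]; omega)
    simp only [Finset.mem_insert, Finset.mem_union, not_or] at ha hb
    have hd : Disjoint (insert a S.1) (insert b T.1) := by
      rw [Finset.card_eq_zero, ← Finset.disjoint_iff_inter_eq_empty] at h0
      simp [ha, hb, h0]
    have e : dg (insert a S.1 ∪ insert b T.1) = dg (insert a S.1) + dg (insert b T.1) := by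
      ext x y
      have : x ∈ insert a S.1 → x ∉ insert b T.1 := fun h => Finset.disjoint_left.mp hd h
      simp only [dg, Matrix.add_apply, Finset.mem_union]
      by_cases h1 : x ∈ insert a S.1 <;> by_cases h2 : x ∈ insert b T.1 <;> simp_all
    refine (((dc_compl (insert a S.1 ∪ insert b T.1)).add (dc_three S.2 ha.1)).add
      (dc_three T.2 hb.2.2)).of_eq ?_ (by rw [e]; abel)
    rw [Finset.card_union_of_disjoint hd, Finset.card_insert_of_notMem ha.1,
      Finset.card_insert_of_notMem hb.2.2, S.2, T.2]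
    simp
  · have c1 : (S.1 \ T.1).card = 1 := by
      have := Finset.card_sdiff_add_card_inter S.1 T.1
      rw [S.2] at this; omega
    have c2 : (T.1 \ S.1).card = 1 := by
      have := Finset.card_sdiff_add_card_inter T.1 S.1
      rw [T.2, Finset.inter_comm] at this; omega
    obtain ⟨a, ha⟩ := Finset.card_eq_one.mp c1
    obtain ⟨b, hb⟩ := Finset.card_eq_one.mp c2
    have ha' := Finset.mem_sdiff.mp (ha ▸ Finset.mem_singleton_self a)
    have hb' := Finset.mem_sdiff.mp (hb ▸ Finset.mem_singleton_self b)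
    have e1 : S.1 ∪ T.1 = insert a T.1 := by
      rw [← Finset.sdiff_union_self_eq_union, ha]; rfl
    have e2 : S.1 ∪ T.1 = insert b S.1 := by
      rw [Finset.union_comm, ← Finset.sdiff_union_self_eq_union, hb]; rfl
    have hab : a ≠ b := by rintro rfl; exact hb'.2 ha'.1
    have h4 := dc_four (W := S.1 ∪ T.1) (E := {a, b}) (by omega) (by
      simp [Finset.insert_subset_iff, ha'.1, hb'.1])
    rw [Finset.sum_pair hab, Finset.card_pair hab,
      show (S.1 ∪ T.1).erase a = T.1 by rw [e1, Finset.erase_insert ha'.2],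
      show (S.1 ∪ T.1).erase b = S.1 by rw [e2, Finset.erase_insert hb'.2]] at h4
    refine ((dc_compl (S.1 ∪ T.1)).add h4).of_eq ?_ (by abel)
    rw [show (S.1 ∪ T.1).card = 4 by omega]
    simp

/-- quadratic forms -/
abbrev QF : Type := (Fin mm → ZMod 2) → ZMod 4

variable {R : Type} [CommRing R] (h : R) (ex : QF → R)

/-- the interpretation for the butterfly network -/
def sysC : Sys R ((Fin mm → ZMod 2) × Bool) (Bool × Bool) where
  γ g := ex fun ξ => sg g.2 * lf (g.1 ⬝ᵥ ξ)
  cf := cfC h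
  P g := g.1 ≠ 0

theorem co1 : Co (sysC h ex) 1 := .inr ⟨(false, false), by simp [sysC, cfC]⟩
theorem coh : Co (sysC h ex) h := .inr ⟨(false, true), by simp [sysC, cfC]⟩
theorem con (a : R) (ha : Co (sysC h ex) a) : Co (sysC h ex) (-a) := by
  rcases ha with rfl | ⟨c, rfl⟩
  · exact .inl neg_zero
  · exact .inr ⟨(!c.1, c.2), by rcases c with ⟨_ | _, _ | _⟩ <;> simp [sysC, cfC]⟩

/-- the design of the butterfly network -/
noncomputable def desC (h2 : 2 * h = 1) :
    Design (sysC h ex) (ZMod 4) (Fin 41) (Trip 41) (Option (Fin 41)) 39 where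
  DH := DC
  π S := -vv (ind S.1)
  n S T := if (S.1 ∩ T.1).card = 0 then h else if (S.1 ∩ T.1).card = 2 then -h else 0
  ρ T j := j.elim (-h) fun j => if j ∈ T.1 then h else 0
  γ S j := j.elim 1 fun j => if j ∈ S.1 then 1 else 0
  cn _ _ := by split_ifs; exacts [coh h ex, con h ex _ (coh h ex), .inl rfl]
  cρ _ j := by
    rcases j with _ | j <;> simp only [Option.elim]
    · exact con h ex _ (coh h ex)
    · split_ifs; exacts [coh h ex, .inl rfl]
  cγ _ j := by
    rcases j with _ | j <;> simp only [Option.elim]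
    · exact co1 h ex
    · split_ifs; exacts [co1 h ex, .inl rfl]
  c1 := co1 h ex
  cneg := con h ex
  ident S T := by
    obtain ⟨h1, h3⟩ := inter_three S T
    simp only [Fintype.sum_option, Option.elim, sum_ind, ← h3]
    generalize (S.1 ∩ T.1).card = c at h1
    interval_cases c <;> simp
    · ring
    · linear_combination h2
  d0 S := dc_of {()} (fun _ => ind S.1) true (fun _ _ => ind_ne (by rw [S.2]; norm_num)) (N := 0)
    (by simp) (by simp) (by simp) (by simp [sg])
  d1 := dc1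
  d2 S T h := dc2 S T (by by_contra h1; push Not at h1; exact h (by rw [if_neg h1.1, if_neg h1.2]))
  dI := (dc_dg false Finset.univ).of_eq (by simp) (by ext; simp [sg, dg, Matrix.one_apply])
  dN := (dc_dg true Finset.univ).of_eq (by simp) (by
    ext a b; by_cases e : a = b <;> simp [sg, dg, e])

/-- numbering of the cells -/
noncomputable def eC : Fin 41 × Fin 41 × Fin 41 ≃ Fin mm := Fintype.equivFinOfCardEq (by simp [mm])

/-- the exponential map of the butterfly network -/
noncomputable def expC (X : Matrix (Fin 41 × Fin 41 × Fin 41) (Fin 41 × Fin 41 × Fin 41) (ZMod 4)) :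
    R := ex fun ξ => qf X fun a => ξ (eC a)

/-- tensor product of binary vectors -/
def t3 {I : Type} (f g k : I → ZMod 2) : I × I × I → ZMod 2 := fun a => f a.1 * g a.2.1 * k a.2.2

theorem k3_vv {I : Type} (a b c : ZMod 4) (f g k : I → ZMod 2) :
    k3 (a • vv f) (b • vv g) (c • vv k) = (a * b * c) • vv (t3 f g k) := by
  ext x y
  simp only [k3, vv, t3, Matrix.smul_apply, vecMulVec_apply, smul_eq_mul, lf_mul]
  ring

variable {ex}

theorem hom_expC (he : Hom ex) : Hom (expC ex) :=
  ⟨(congrArg ex (funext fun ξ => by simp [qf])).trans he.zero, fun a b => by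
    simp only [expC, qf_add]; exact he.add _ _⟩

omit [CommRing R] in
theorem expC_vv (c : ZMod 4) (f : Fin 41 × Fin 41 × Fin 41 → ZMod 2) :
    expC ex (c • vv f) = ex fun ξ => c * lf ((fun a => f (eC.symm a)) ⬝ᵥ ξ) := by
  simp only [expC, qf_vv]
  exact congrArg ex (funext fun ξ => congrArg (fun x => c * lf x)
    (Fintype.sum_equiv eC _ _ fun a => by simp))

theorem k3_expC (he : Hom ex) {r r' r'' : ℕ} {X Y Z : Matrix (Fin 41) (Fin 41) (ZMod 4)}
    (hX : DC r X) (hY : DC r' Y) (hZ : DC r'' Z) :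
    St (sysC h ex) (r * r' * r'') (expC ex (k3 X Y Z)) := by
  obtain ⟨J, _, f, s, h1, h2, h3⟩ := hX
  obtain ⟨J', _, f', s', h1', h2', h3'⟩ := hY
  obtain ⟨J'', _, f'', s'', h1'', h2'', h3''⟩ := hZ
  refine (St.prod (s := sysC h ex) (Finset.univ : Finset (J × J' × J'')) (fun p =>
    (fun a => t3 (f p.1) (f' p.2.1) (f'' p.2.2) (eC.symm a), (s p.1 ^^ s' p.2.1) ^^ s'' p.2.2))
    fun p => ?_).of_eq (card_le3 h1 h1' h1'') ?_
  · obtain ⟨a, ha⟩ := Function.ne_iff.mp (h2 p.1)
    obtain ⟨b, hb⟩ := Function.ne_iff.mp (h2' p.2.1)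
    obtain ⟨c, hc⟩ := Function.ne_iff.mp (h2'' p.2.2)
    exact Function.ne_iff.mpr ⟨eC (a, b, c), by
      simpa [t3] using And.intro (And.intro ha hb) hc⟩
  · have : expC ex (k3 X Y Z) = expC ex (k3 _ _ _) :=
      congrArg ex (funext fun ξ => (h3.k3 h3' h3'').qf _)
    rw [this, k3_sum, (hom_expC he).sum]
    refine Finset.prod_congr rfl fun p _ => ?_
    rw [k3_vv, expC_vv]
    simp only [sysC, sg_xor]

/-- the final translations -/
def tW : Wt (Trip 41) (Option (Fin 41)) → Fin 41 × Fin 41 × Fin 41 → ZMod 2 :=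
  Sum.elim (Sum.elim (fun _ => 0) fun u => t3 (ind u.1.1) (ind u.2.1.1) (ind u.2.2.1)) fun _ => 0

/-- the final signs -/
def sW : Wt (Trip 41) (Option (Fin 41)) → Bool :=
  Sum.elim (Sum.elim (fun _ => true) fun _ => false) fun _ => false

theorem reachC (he : Hom ex) (h2 : 2 * h = 1) {V : Type} [AddCommGroup V] [Module R V]
    (σ : Wt (Trip 41) (Option (Fin 41)) → V) :
    Reach (sysC h ex) (steps (Fintype.card (Trip 41)) (Fintype.card (Option (Fin 41))) 39) σ
      fun w => ((if sW w then -1 else 1) * (ex (fun ξ => 2 * lf ((fun a => tW w (eC.symm a)) ⬝ᵥ ξ)) *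
        expC ex 1)) • σ (swp _ _ w) := by
  refine ((desC h ex h2).network (hom_expC he) (fun hX hY hZ => k3_expC h he hX hY hZ) σ).of_eq
    le_rfl rfl (funext fun w => congrArg (· • σ (swp _ _ w)) ?_)
  have z : expC ex ((2 : ZMod 4) • vv 0) = 1 := (expC_vv 2 0).trans
    ((congrArg ex (funext fun ξ => by simp [dotProduct, lf])).trans he.zero)
  rw [← expC_vv (ex := ex) 2 (tW w)]
  rcases w with ((u | u) | u)
  · simp [tW, sW, z]
  · rw [← (hom_expC he).add, if_neg (by simp [sW]), one_mul]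
    refine congrArg (expC ex) ?_
    have := k3_vv (-1) (-1) (-1) (ind u.1.1) (ind u.2.1.1) (ind u.2.2.1)
    simp only [neg_smul, one_smul, mul_neg, mul_one, neg_neg] at this
    simp only [Design.πu, desC, this, two_smul, tW, Sum.elim_inl, Sum.elim_inr]
    abel
  · simp [tW, sW, z]

end Vale.Agent.P338.Net
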