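import Vale.Agent.P338.NetR

/-! One invocation of the generic network. -/

namespace Vale.Agent.P338.Net

open Function Matrix
open scoped Classical

variable {R V G C : Type} [CommRing R] [AddCommGroup V] [Module R V] {s : Sys R G C}
variable {Λ : Type} [AddCommGroup Λ]

/-- an exponential map from labels to the ring -/
structure Hom (e : Λ → R) : Prop where
  zero : e 0 = 1
  add : ∀ a b, e (a + b) = e a * e b

theorem Reach.relabel {W : Type} [DecidableEq W] [Fintype W] {e : Λ → R} (he : Hom e)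
    {l l' : W → Λ} {r : W → ℕ} (h : ∀ w, St s (r w) (e (l' w - l w))) (z : W → V) :
    Reach s (∑ w, r w) (fun w => e (l w) • z w) (fun w => e (l' w) • z w) :=
  (Reach.diag h _).of_eq le_rfl rfl (funext fun w => by
    rw [smul_smul, ← he.add, sub_add_cancel])

/-- a gate compatible with the labels `l` -/
structure Gate (s : Sys R G C) {W L : Type} (N : Matrix W W R) (l : W → L) : Prop where
  co : ∀ w w', Co s (N w w')
  nil : ∀ w w' w'', N w w' ≠ 0 → N w' w'' = 0
  lab : ∀ w w', N w w' ≠ 0 → l w = l w'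

theorem Reach.gateL {W : Type} [DecidableEq W] [Fintype W] {N : Matrix W W R} {a : W → R}
    (h : Gate s N a) (z : W → V) :
    Reach s 0 (fun w => a w • z w) (fun w => a w • app (1 + N) z w) :=
  (Reach.gate h.co h.nil _).of_eq le_rfl rfl (funext fun w => by
    simp only [app_add, app_one, Pi.add_apply, smul_add]
    congr 1
    simp only [app, Finset.smul_sum]
    refine Finset.sum_congr rfl fun w' _ => ?_
    by_cases hw : N w w' = 0
    · simp [hw]
    · rw [h.lab _ _ hw, smul_comm])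

theorem Gate.map {W L L' : Type} {N : Matrix W W R} {l : W → L} (h : Gate s N l) (f : L → L') :
    Gate s N (fun w => f (l w)) := ⟨h.co, h.nil, fun w w' hw => by rw [h.lab w w' hw]⟩

/-- the data of a design -/
structure Design (s : Sys R G C) (K H A Hc : Type) [CommRing K] [DecidableEq H] [DecidableEq A]
    [Fintype Hc] (k : ℕ) where
  DH : ℕ → Matrix H H K → Prop
  π : A → Matrix H H K
  n : A → A → R
  ρ : A → Hc → R
  γ : A → Hc → R
  cn : ∀ S T, Co s (n S T)
  cρ : ∀ S j, Co s (ρ S j)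
  cγ : ∀ S j, Co s (γ S j)
  c1 : Co s 1
  cneg : ∀ a, Co s a → Co s (-a)
  ident : ∀ S T, n S T + ∑ j, ρ T j * γ S j = if S = T then 1 else 0
  d0 : ∀ S, DH 1 (π S)
  d1 : ∀ S, DH (k + 1) (1 - π S)
  d2 : ∀ S T, n S T ≠ 0 → DH k (1 - π T - π S)
  dI : DH (k + 2) 1
  dN : DH (k + 2) (-1)

variable {K H A Hc : Type} [CommRing K] [DecidableEq H] [DecidableEq A] [Fintype A] [Fintype Hc]
  [DecidableEq Hc] {k : ℕ}

/-- wires of one invocation -/
abbrev Wi (A Hc : Type) := (A ⊕ A) ⊕ ((A × A) ⊕ Hc)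

theorem ring_fwd {R : Type} [Ring R] (a b c e : R) (aa : a * a = 0) (ab : a * b = 0)
    (ba : b * a = 0) (bb : b * b = 0) (ae : a * e = 0) (bc : b * c = 0) (ca : c * a = 0)
    (cb : c * b = 0) (ea : e * a = 0) (eb : e * b = 0) (cc : c * c = 0) (ce : c * e = 0)
    (ec : e * c = 0) (ee : e * e = 0) :
    (1 + -e) * (1 + -c) * (1 + a) * (1 + b) * (1 + e) * (1 + c) * (1 + -b) * (1 + -a) =
      1 + (a * c + b * e) := by
  have h0 : (1 + -b) * (1 + -a) = 1 - a - b := by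
    simp only [add_mul, mul_add, neg_mul, mul_neg, one_mul, mul_one, ba]; abel
  have h1 : (1 + c) * (1 - a - b) = 1 - a - b + c := by
    simp only [add_mul, mul_sub, one_mul, mul_one, ca, cb]; abel
  have h2 : (1 + e) * (1 - a - b + c) = 1 - a - b + c + e := by
    simp only [add_mul, mul_add, mul_sub, one_mul, mul_one, ea, eb, ec]; abel
  have h3 : (1 + b) * (1 - a - b + c + e) = 1 - a + c + e + b * e := by
    simp only [add_mul, mul_add, mul_sub, one_mul, mul_one, ba, bb, bc]; abel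
  have h4 : (1 + a) * (1 - a + c + e + b * e) = 1 + c + e + b * e + a * c := by
    simp only [add_mul, mul_add, mul_sub, one_mul, mul_one, ← mul_assoc, aa, ab, ae, zero_mul]; abel
  have h5 : (1 + -c) * (1 + c + e + b * e + a * c) = 1 + e + b * e + a * c := by
    simp only [add_mul, neg_mul, mul_add, one_mul, mul_one, ← mul_assoc, cc, ce, ca, cb,
      zero_mul]; abel
  have h6 : (1 + -e) * (1 + e + b * e + a * c) = 1 + (a * c + b * e) := by
    simp only [add_mul, neg_mul, mul_add, one_mul, mul_one, ← mul_assoc, ee, ea, eb,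
      zero_mul]; abel
  simp only [mul_assoc, h0, h1, h2, h3, h4, h5, h6]

theorem ring_rev {R : Type} [Ring R] (a b c e : R) (aa : a * a = 0)
    (ba : b * a = 0) (bb : b * b = 0) (ea : e * a = 0) (cb : c * b = 0) (ac : a * c = 0)
    (bc : b * c = 0) (ae : a * e = 0) (be : b * e = 0) (cc : c * c = 0) (ce : c * e = 0)
    (ec : e * c = 0) (ee : e * e = 0) :
    (1 + e) * (1 + c) * (1 + -a) * (1 + -b) * (1 + -e) * (1 + -c) * (1 + b) * (1 + a) =
      1 + -(c * a + e * b) := by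
  have h0 : (1 + b) * (1 + a) = 1 + a + b := by
    simp only [add_mul, mul_add, one_mul, mul_one, ba]; abel
  have h1 : (1 + -c) * (1 + a + b) = 1 + a + b - c - c * a := by
    simp only [add_mul, neg_mul, mul_add, one_mul, mul_one, cb]; abel
  have h2 : (1 + -e) * (1 + a + b - c - c * a) = 1 + a + b - c - c * a - e - e * b := by
    simp only [add_mul, neg_mul, mul_add, mul_sub, one_mul, mul_one, ← mul_assoc, ea, ec, zero_mul]
    abel
  have h3 : (1 + -b) * (1 + a + b - c - c * a - e - e * b) = 1 + a - c - c * a - e - e * b := by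
    simp only [add_mul, neg_mul, mul_add, mul_sub, one_mul, mul_one, ← mul_assoc, ba, bb, bc, be,
      zero_mul]
    abel
  have h4 : (1 + -a) * (1 + a - c - c * a - e - e * b) = 1 - c - c * a - e - e * b := by
    simp only [add_mul, neg_mul, mul_add, mul_sub, one_mul, mul_one, ← mul_assoc, aa, ac, ae,
      zero_mul]
    abel
  have h5 : (1 + c) * (1 - c - c * a - e - e * b) = 1 - c * a - e - e * b := by
    simp only [add_mul, mul_sub, one_mul, mul_one, ← mul_assoc, cc, ce, zero_mul]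
    abel
  have h6 : (1 + e) * (1 - c * a - e - e * b) = 1 + -(c * a + e * b) := by
    simp only [add_mul, mul_sub, one_mul, mul_one, ← mul_assoc, ec, ee, zero_mul]
    abel
  simp only [mul_assoc, h0, h1, h2, h3, h4, h5, h6]

/-- the kind of a wire -/
def ty : Wi A Hc → Fin 4 :=
  Sum.elim (Sum.elim (fun _ => 0) fun _ => 1) (Sum.elim (fun _ => 2) fun _ => 3)

/-- a matrix from wires of kind `b` to wires of kind `a` -/
def Supp (N : Matrix (Wi A Hc) (Wi A Hc) R) (a b : Fin 4) : Prop :=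
  ∀ w w', N w w' ≠ 0 → ty w = a ∧ ty w' = b

omit [DecidableEq A] [DecidableEq Hc] in
theorem Supp.mul {N N' : Matrix (Wi A Hc) (Wi A Hc) R} {a b c e : Fin 4} (h : Supp N a b)
    (h' : Supp N' c e) (hbc : b ≠ c) : N * N' = 0 := by
  ext w w'
  rw [Matrix.mul_apply]
  refine Finset.sum_eq_zero fun x _ => ?_
  by_contra hne
  exact hbc ((h _ _ (left_ne_zero_of_mul hne)).2.symm.trans (h' _ _ (right_ne_zero_of_mul hne)).1)

omit [DecidableEq A] [DecidableEq Hc] [Fintype A] [Fintype Hc] in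
theorem Supp.tr {N : Matrix (Wi A Hc) (Wi A Hc) R} {a b : Fin 4} (h : Supp N a b) : Supp Nᵀ b a :=
  fun w w' hw => (h w' w hw).symm

omit [DecidableEq A] [DecidableEq Hc] [Fintype A] [Fintype Hc] in
theorem Supp.gates {N : Matrix (Wi A Hc) (Wi A Hc) R} {a b : Fin 4} (h : Supp N a b) (hab : a ≠ b)
    (hn : ∀ a, Co s a → Co s (-a)) (hc : ∀ w w', Co s (N w w')) {L : Type} {l : Wi A Hc → L}
    (hl : ∀ w w', N w w' ≠ 0 → l w = l w') :
    Gate s N l ∧ Gate s (-N) l ∧ Gate s Nᵀ l ∧ Gate s (-Nᵀ) l := by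
  have h1 : ∀ w w' w'', N w w' ≠ 0 → N w' w'' = 0 := fun w w' w'' h1 => by
    by_contra h2
    exact hab ((h _ _ h2).1.symm.trans (h _ _ h1).2)
  have h2 : ∀ w w' w'', N w' w ≠ 0 → N w'' w' = 0 := fun w w' w'' h1 => by
    by_contra h2
    exact hab ((h _ _ h1).1.symm.trans (h _ _ h2).2)
  exact ⟨⟨hc, h1, hl⟩, ⟨fun _ _ => hn _ (hc _ _), by simpa using h1, by simpa using hl⟩,
    ⟨fun _ _ => hc _ _, h2, fun _ _ h => (hl _ _ h).symm⟩,
    ⟨fun _ _ => hn _ (hc _ _), by simpa using h2, fun _ _ h => (hl _ _ (by simpa using h)).symm⟩⟩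

namespace Design

variable (d : Design s K H A Hc k)

/-- labels of the four kinds of wires -/
def lab (x y : A → Matrix H H K) (t : A × A → Matrix H H K) (c : Matrix H H K) :
    Wi A Hc → Matrix H H K :=
  Sum.elim (Sum.elim x y) (Sum.elim t fun _ => c)

def l1 : Wi A Hc → Matrix H H K := lab d.π (fun _ => 0) (fun _ => 0) 0
def l2 : Wi A Hc → Matrix H H K := lab d.π (fun _ => 0) (fun p => d.π p.1) 0
def l3 : Wi A Hc → Matrix H H K := lab (fun _ => 1) (fun _ => 0) (fun p => d.π p.1) 1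
def l4 : Wi A Hc → Matrix H H K := lab (fun _ => 1) (fun _ => 0) (fun p => d.π p.1) 0
noncomputable def l5 : Wi A Hc → Matrix H H K := lab (fun _ => 1) (fun T => 1 - d.π T)
  (fun p => if d.n p.1 p.2 = 0 then d.π p.1 else 1 - d.π p.2) 0
def l6 : Wi A Hc → Matrix H H K := lab (fun _ => 1) (fun T => 1 - d.π T) (fun _ => 1) 1

theorem schedule {e : Λ → R} (he : Hom e) (B : Λ) (ι : Matrix H H K →+ Λ)
    (hι : ∀ r X, d.DH r X → St s r (e (ι X)))
    {g0 g1 g2 g3 g4 g5 g6 g7 : Matrix (Wi A Hc) (Wi A Hc) R} (c0 : Gate s g0 d.l1)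
    (c1 : Gate s g1 d.l1) (c2 : Gate s g2 d.l2) (c3 : Gate s g3 d.l3) (c4 : Gate s g4 d.l4)
    (c5 : Gate s g5 d.l5) (c6 : Gate s g6 d.l6) (c7 : Gate s g7 d.l6) (z : Wi A Hc → V) :
    Reach s (2 * Fintype.card A * (k + 1) + Fintype.card A ^ 2 * (k + 2) +
        3 * Fintype.card Hc * (k + 2)) (fun w => e (B + ι (d.l1 w)) • z w)
      (fun w => e (B + ι (d.l6 w)) • app ((1 + g7) * (1 + g6) * (1 + g5) * (1 + g4) * (1 + g3) *
        (1 + g2) * (1 + g1) * (1 + g0)) z w) := by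
  have dd : ∀ {r : ℕ} {X X' : Matrix H H K}, X' = X ∨ d.DH r (X' - X) →
      St s r (e (B + ι X' - (B + ι X))) := by
    rintro r X X' (rfl | h)
    · exact (St.one r).of_eq le_rfl (by simp [he.zero])
    · exact (hι _ _ h).of_eq le_rfl (by simp)
  have e12 : ∀ w, d.l2 w = d.l1 w ∨ d.DH (Sum.elim (fun _ => 0) (Sum.elim (fun _ => 1) fun _ => 0) w)
      (d.l2 w - d.l1 w) := by
    rintro ((x | y) | (t | c))
    exacts [.inl rfl, .inl rfl, .inr (by simpa [l1, l2, lab] using d.d0 _), .inl rfl]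
  have e23 : ∀ w, d.l3 w = d.l2 w ∨ d.DH (Sum.elim (Sum.elim (fun _ => k + 1) fun _ => 0)
      (Sum.elim (fun _ => 0) fun _ => k + 2) w) (d.l3 w - d.l2 w) := by
    rintro ((x | y) | (t | c))
    exacts [.inr (d.d1 x), .inl rfl, .inl rfl, .inr (by simpa [l3, l2, lab] using d.dI)]
  have e34 : ∀ w, d.l4 w = d.l3 w ∨ d.DH (Sum.elim (fun _ => 0)
      (Sum.elim (fun _ => 0) fun _ => k + 2) w) (d.l4 w - d.l3 w) := by
    rintro ((x | y) | (t | c))
    exacts [.inl rfl, .inl rfl, .inl rfl, .inr (by simpa [l3, l4, lab] using d.dN)]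
  have e45 : ∀ w, d.l5 w = d.l4 w ∨ d.DH (Sum.elim (Sum.elim (fun _ => 0) fun _ => k + 1)
      (Sum.elim (fun p : A × A => if d.n p.1 p.2 = 0 then 0 else k) fun _ => 0) w)
      (d.l5 w - d.l4 w) := by
    rintro ((x | y) | (t | c))
    · exact .inl rfl
    · exact .inr (by simpa [l5, l4, lab] using d.d1 y)
    · by_cases hn : d.n t.1 t.2 = 0
      · exact .inl (by simp [l5, l4, lab, hn])
      · exact .inr (by simpa [l5, l4, lab, hn] using d.d2 _ _ hn)
    · exact .inl rfl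
  have e56 : ∀ w, d.l6 w = d.l5 w ∨ d.DH (Sum.elim (fun _ => 0)
      (Sum.elim (fun p : A × A => if d.n p.1 p.2 = 0 then k + 1 else 1) fun _ => k + 2) w)
      (d.l6 w - d.l5 w) := by
    rintro ((x | y) | (t | c))
    · exact .inl rfl
    · exact .inl rfl
    · by_cases hn : d.n t.1 t.2 = 0
      · exact .inr (by simpa [l5, l6, lab, hn] using d.d1 t.1)
      · exact .inr (by simpa [l5, l6, lab, hn] using d.d0 t.2)
    · exact .inr (by simpa [l5, l6, lab] using d.dI)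
  have gg : ∀ {g : Matrix (Wi A Hc) (Wi A Hc) R} {l : Wi A Hc → Matrix H H K}, Gate s g l →
      ∀ z : Wi A Hc → V, Reach s 0 (fun w => e (B + ι (l w)) • z w)
        (fun w => e (B + ι (l w)) • app (1 + g) z w) :=
    fun h z => Reach.gateL (h.map fun X => e (B + ι X)) z
  have key := (gg c0 z).trans <| (gg c1 _).trans <|
    (Reach.relabel he (fun w => dd (e12 w)) _).trans <| (gg c2 _).trans <|
    (Reach.relabel he (fun w => dd (e23 w)) _).trans <| (gg c3 _).trans <|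
    (Reach.relabel he (fun w => dd (e34 w)) _).trans <| (gg c4 _).trans <|
    (Reach.relabel he (fun w => dd (e45 w)) _).trans <| (gg c5 _).trans <|
    (Reach.relabel he (fun w => dd (e56 w)) _).trans <| (gg c6 _).trans <| gg c7 _
  refine key.of_eq (le_of_eq ?_) rfl (by simp only [app_mul])
  have hs : ∑ p : A × A, (if d.n p.1 p.2 = 0 then 0 else k) +
      ∑ p : A × A, (if d.n p.1 p.2 = 0 then k + 1 else 1) = Fintype.card A ^ 2 * (k + 1) := by
    rw [← Finset.sum_add_distrib, Finset.sum_congr rfl (g := fun _ => k + 1)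
      (fun p _ => by split_ifs <;> simp)]
    simp [sq]
  simp only [Fintype.sum_sum_type, Sum.elim_inl, Sum.elim_inr, Finset.sum_const, Finset.card_univ,
    smul_eq_mul, mul_zero, Fintype.card_prod A A, zero_add, add_zero]
  generalize ∑ p : A × A, (if d.n p.1 p.2 = 0 then 0 else k) = s1 at *
  generalize ∑ p : A × A, (if d.n p.1 p.2 = 0 then k + 1 else 1) = s2 at *
  linear_combination hs

def gJ : Matrix (Wi A Hc) (Wi A Hc) R := fun w w' => match w, w' with
  | .inl (.inr T), .inr (.inl p) => if p.2 = T then d.n p.1 p.2 else 0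
  | _, _ => 0

def gR : Matrix (Wi A Hc) (Wi A Hc) R := fun w w' => match w, w' with
  | .inl (.inr T), .inr (.inr j) => d.ρ T j
  | _, _ => 0

def gV (_ : Design s K H A Hc k) : Matrix (Wi A Hc) (Wi A Hc) R := fun w w' => match w, w' with
  | .inr (.inl p), .inl (.inl S) => if S = p.1 then 1 else 0
  | _, _ => 0

def gG : Matrix (Wi A Hc) (Wi A Hc) R := fun w w' => match w, w' with
  | .inr (.inr j), .inl (.inl S) => d.γ S j
  | _, _ => 0

def gE (_ : Design s K H A Hc k) : Matrix (Wi A Hc) (Wi A Hc) R := fun w w' => match w, w' with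
  | .inl (.inr T), .inl (.inl S) => if S = T then 1 else 0
  | _, _ => 0

section
omit [Fintype A] [DecidableEq Hc]

theorem sJ : Supp d.gJ 1 2 := by
  rintro ((x | y) | (t | c)) ((x' | y') | (t' | c')) h <;> simp_all [gJ, ty]
theorem sR : Supp d.gR 1 3 := by
  rintro ((x | y) | (t | c)) ((x' | y') | (t' | c')) h <;> simp_all [gR, ty]
theorem sV : Supp d.gV 2 0 := by
  rintro ((x | y) | (t | c)) ((x' | y') | (t' | c')) h <;> simp_all [gV, ty]
theorem sG : Supp d.gG 3 0 := by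
  rintro ((x | y) | (t | c)) ((x' | y') | (t' | c')) h <;> simp_all [gG, ty]

theorem oJ : ∀ w w', Co s (d.gJ w w') := by
  rintro ((x | y) | (t | c)) ((x' | y') | (t' | c')) <;> simp only [gJ] <;>
    first | exact .inl rfl | (split_ifs; exacts [d.cn _ _, .inl rfl])
theorem oR : ∀ w w', Co s (d.gR w w') := by
  rintro ((x | y) | (t | c)) ((x' | y') | (t' | c')) <;> simp only [gR] <;>
    first | exact .inl rfl | exact d.cρ _ _
theorem oV : ∀ w w', Co s (d.gV w w') := by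
  rintro ((x | y) | (t | c)) ((x' | y') | (t' | c')) <;> simp only [gV] <;>
    first | exact .inl rfl | (split_ifs; exacts [d.c1, .inl rfl])
theorem oG : ∀ w w', Co s (d.gG w w') := by
  rintro ((x | y) | (t | c)) ((x' | y') | (t' | c')) <;> simp only [gG] <;>
    first | exact .inl rfl | exact d.cγ _ _

theorem cJ1 : Gate s d.gJ d.l1 ∧ Gate s (-d.gJ) d.l1 ∧ Gate s d.gJᵀ d.l1 ∧ Gate s (-d.gJᵀ) d.l1 :=
  d.sJ.gates (by decide) d.cneg d.oJ (by
    rintro ((x | y) | (t | c)) ((x' | y') | (t' | c')) h <;> simp_all [gJ, l1, lab])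
theorem cR1 : Gate s d.gR d.l1 ∧ Gate s (-d.gR) d.l1 ∧ Gate s d.gRᵀ d.l1 ∧ Gate s (-d.gRᵀ) d.l1 :=
  d.sR.gates (by decide) d.cneg d.oR (by
    rintro ((x | y) | (t | c)) ((x' | y') | (t' | c')) h <;> simp_all [gR, l1, lab])
theorem cV2 : Gate s d.gV d.l2 ∧ Gate s (-d.gV) d.l2 ∧ Gate s d.gVᵀ d.l2 ∧ Gate s (-d.gVᵀ) d.l2 :=
  d.sV.gates (by decide) d.cneg d.oV (by
    rintro ((x | y) | (t | c)) ((x' | y') | (t' | c')) h <;> simp_all [gV, l2, lab])
theorem cG3 : Gate s d.gG d.l3 ∧ Gate s (-d.gG) d.l3 ∧ Gate s d.gGᵀ d.l3 ∧ Gate s (-d.gGᵀ) d.l3 :=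
  d.sG.gates (by decide) d.cneg d.oG (by
    rintro ((x | y) | (t | c)) ((x' | y') | (t' | c')) h <;> simp_all [gG, l3, lab])
theorem cR4 : Gate s d.gR d.l4 ∧ Gate s (-d.gR) d.l4 ∧ Gate s d.gRᵀ d.l4 ∧ Gate s (-d.gRᵀ) d.l4 :=
  d.sR.gates (by decide) d.cneg d.oR (by
    rintro ((x | y) | (t | c)) ((x' | y') | (t' | c')) h <;> simp_all [gR, l4, lab])
theorem cJ5 : Gate s d.gJ d.l5 ∧ Gate s (-d.gJ) d.l5 ∧ Gate s d.gJᵀ d.l5 ∧ Gate s (-d.gJᵀ) d.l5 :=
  d.sJ.gates (by decide) d.cneg d.oJ (by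
    rintro ((x | y) | (t | c)) ((x' | y') | (t' | c')) h <;> simp_all [gJ, l5, lab])
theorem cV6 : Gate s d.gV d.l6 ∧ Gate s (-d.gV) d.l6 ∧ Gate s d.gVᵀ d.l6 ∧ Gate s (-d.gVᵀ) d.l6 :=
  d.sV.gates (by decide) d.cneg d.oV (by
    rintro ((x | y) | (t | c)) ((x' | y') | (t' | c')) h <;> simp_all [gV, l6, lab])
theorem cG6 : Gate s d.gG d.l6 ∧ Gate s (-d.gG) d.l6 ∧ Gate s d.gGᵀ d.l6 ∧ Gate s (-d.gGᵀ) d.l6 :=
  d.sG.gates (by decide) d.cneg d.oG (by
    rintro ((x | y) | (t | c)) ((x' | y') | (t' | c')) h <;> simp_all [gG, l6, lab])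

end

omit [DecidableEq Hc] in
theorem JV_RG : d.gJ * d.gV + d.gR * d.gG = d.gE := by
  ext ((x | y) | (t | c)) ((x' | y') | (t' | c')) <;>
    simp [Matrix.mul_apply, Fintype.sum_sum_type, gJ, gV, gR, gG, gE, Fintype.sum_prod_type]
  exact d.ident x' y

theorem prod_fwd : (1 + -d.gG) * (1 + -d.gV) * (1 + d.gJ) * (1 + d.gR) * (1 + d.gG) * (1 + d.gV) *
    (1 + -d.gR) * (1 + -d.gJ) = 1 + d.gE := by
  rw [← d.JV_RG]
  exact ring_fwd _ _ _ _ (d.sJ.mul d.sJ (by decide)) (d.sJ.mul d.sR (by decide))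
    (d.sR.mul d.sJ (by decide)) (d.sR.mul d.sR (by decide)) (d.sJ.mul d.sG (by decide))
    (d.sR.mul d.sV (by decide)) (d.sV.mul d.sJ (by decide)) (d.sV.mul d.sR (by decide))
    (d.sG.mul d.sJ (by decide)) (d.sG.mul d.sR (by decide)) (d.sV.mul d.sV (by decide))
    (d.sV.mul d.sG (by decide)) (d.sG.mul d.sV (by decide)) (d.sG.mul d.sG (by decide))

theorem prod_rev : (1 + d.gGᵀ) * (1 + d.gVᵀ) * (1 + -d.gJᵀ) * (1 + -d.gRᵀ) * (1 + -d.gGᵀ) *
    (1 + -d.gVᵀ) * (1 + d.gRᵀ) * (1 + d.gJᵀ) = 1 + -d.gEᵀ := by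
  rw [← d.JV_RG, Matrix.transpose_add, Matrix.transpose_mul, Matrix.transpose_mul]
  exact ring_rev _ _ _ _ (d.sJ.tr.mul d.sJ.tr (by decide)) (d.sR.tr.mul d.sJ.tr (by decide))
    (d.sR.tr.mul d.sR.tr (by decide)) (d.sG.tr.mul d.sJ.tr (by decide))
    (d.sV.tr.mul d.sR.tr (by decide)) (d.sJ.tr.mul d.sV.tr (by decide))
    (d.sR.tr.mul d.sV.tr (by decide)) (d.sJ.tr.mul d.sG.tr (by decide))
    (d.sR.tr.mul d.sG.tr (by decide)) (d.sV.tr.mul d.sV.tr (by decide))
    (d.sV.tr.mul d.sG.tr (by decide)) (d.sG.tr.mul d.sV.tr (by decide))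
    (d.sG.tr.mul d.sG.tr (by decide))

end Design

end Vale.Agent.P338.Net
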