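import Vale.Agent.P338.Spec

/-! A reachability calculus for in-place networks over a commutative ring. -/

namespace Vale.Agent.P338.Net

open Function

/-- interpretation of steps and gate coefficients in a ring, and the admissible steps -/
structure Sys (R G C : Type) where
  γ : G → R
  cf : C → R
  P : G → Prop

variable {R V G C : Type} [CommRing R] [AddCommGroup V] [Module R V] (s : Sys R G C)

/-- the state `σ'` is obtained from `σ` by an admissible network with at most `c` steps -/
def Reach {W : Type} [DecidableEq W] (c : ℕ) (σ σ' : W → V) : Prop :=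
  ∃ L : List (Ins W G C), L.countP Ins.isStep ≤ c ∧ (∀ I ∈ L, I.Ok s.P) ∧
    L.foldl (Ins.run (fun g v => s.γ g • v) s.cf) σ = σ'

/-- a product of at most `r` admissible steps -/
def St (r : ℕ) (a : R) : Prop :=
  ∃ gs : List G, gs.length ≤ r ∧ (∀ g ∈ gs, s.P g) ∧ (gs.map s.γ).prod = a

/-- an available gate coefficient -/
def Co (a : R) : Prop := a = 0 ∨ ∃ c, s.cf c = a

variable {s}

theorem St.one (r : ℕ) : St s r 1 := ⟨[], by simp, by simp, by simp⟩

theorem St.mul {r r' : ℕ} {a b : R} (h : St s r a) (h' : St s r' b) : St s (r + r') (a * b) := by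
  obtain ⟨l, h1, h2, rfl⟩ := h
  obtain ⟨l', h1', h2', rfl⟩ := h'
  refine ⟨l ++ l', by simp; omega, fun g hg => ?_, by simp⟩
  rcases List.mem_append.mp hg with h | h
  exacts [h2 g h, h2' g h]

theorem St.of_eq {r r' : ℕ} {a b : R} (h : St s r a) (hr : r ≤ r') (e : b = a) : St s r' b := by
  obtain ⟨l, h1, h2, h3⟩ := h
  exact ⟨l, h1.trans hr, h2, h3.trans e.symm⟩

theorem St.prod {J : Type} (t : Finset J) (g : J → G) (hg : ∀ j, s.P (g j)) :
    St s t.card (∏ j ∈ t, s.γ (g j)) := by
  classical
  induction t using Finset.induction_on with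
  | empty => simpa using St.one 0
  | insert a t ha ih =>
    rw [Finset.prod_insert ha, Finset.card_insert_of_notMem ha, add_comm]
    exact St.mul ⟨[g a], by simp, by simpa using hg a, by simp⟩ ih

section
variable {W : Type} [DecidableEq W]

theorem Reach.refl (σ : W → V) : Reach s 0 σ σ := ⟨[], by simp, by simp, rfl⟩

theorem Reach.trans {c c' : ℕ} {σ σ' σ'' : W → V} (h : Reach s c σ σ') (h' : Reach s c' σ' σ'') :
    Reach s (c + c') σ σ'' := by
  obtain ⟨l, h1, h2, rfl⟩ := h
  obtain ⟨l', h1', h2', rfl⟩ := h'
  refine ⟨l ++ l', by rw [List.countP_append]; omega, fun g hg => ?_, by rw [List.foldl_append]⟩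
  rcases List.mem_append.mp hg with h | h
  exacts [h2 g h, h2' g h]

theorem Reach.of_eq {c c' : ℕ} {σ σ' τ τ' : W → V} (h : Reach s c σ σ') (hc : c ≤ c')
    (e : τ = σ) (e' : τ' = σ') : Reach s c' τ τ' := by
  obtain ⟨l, h1, h2, h3⟩ := h
  exact ⟨l, h1.trans hc, h2, by rw [e, e', h3]⟩

theorem Reach.single {r : ℕ} {a : R} (h : St s r a) (σ : W → V) (w : W) :
    Reach s r σ (update σ w (a • σ w)) := by
  obtain ⟨l, h1, h2, rfl⟩ := h
  refine Reach.of_eq (c := l.length) ?_ h1 rfl rfl
  clear h1
  induction l generalizing σ with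
  | nil => simpa using Reach.refl σ
  | cons g l ih =>
    have h3 : Reach s 1 σ (update σ w (s.γ g • σ w)) :=
      ⟨[.step w g], by simp [Ins.isStep], by simpa [Ins.Ok] using h2 g (by simp), rfl⟩
    refine (h3.trans (ih (update σ w (s.γ g • σ w)) fun g' hg => h2 g' (by simp [hg]))).of_eq
      (by simp [add_comm]) rfl ?_
    simp [smul_smul, mul_comm]

theorem Reach.diag [Fintype W] {r : W → ℕ} {a : W → R} (h : ∀ w, St s (r w) (a w)) (σ : W → V) :
    Reach s (∑ w, r w) σ (fun w => a w • σ w) := by
  have : ∀ t : Finset W, Reach s (∑ w ∈ t, r w) σ (fun w => if w ∈ t then a w • σ w else σ w) := by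
    intro t
    induction t using Finset.induction_on with
    | empty => simpa using Reach.refl σ
    | insert b t hb ih =>
      refine (ih.trans (Reach.single (h b) _ b)).of_eq (by rw [Finset.sum_insert hb]; omega) rfl ?_
      funext w
      by_cases hw : w = b
      · subst hw; simp [hb]
      · simp [hw]
  simpa using this Finset.univ

/-- action of a matrix on a state -/
def app {W W' : Type} [Fintype W] (N : Matrix W' W R) (σ : W → V) : W' → V :=
  fun w => ∑ w', N w w' • σ w'

theorem app_mul {W : Type} [Fintype W] (N N' : Matrix W W R) (σ : W → V) :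
    app (N * N') σ = app N (app N' σ) := by
  funext w
  simp only [app, Matrix.mul_apply, Finset.sum_smul, Finset.smul_sum, mul_smul]
  exact Finset.sum_comm

theorem app_one [Fintype W] (σ : W → V) : app (1 : Matrix W W R) σ = σ := by
  funext w
  simp [app, Matrix.one_apply]

theorem app_add {W : Type} [Fintype W] (N N' : Matrix W W R) (σ : W → V) :
    app (N + N') σ = app N σ + app N' σ := by
  funext w; simp [app, add_smul, Finset.sum_add_distrib]

theorem app_neg {W : Type} [Fintype W] (N : Matrix W W R) (σ : W → V) :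
    app (-N) σ = -app N σ := by
  funext w; simp [app]

theorem Reach.gate [Fintype W] {N : Matrix W W R} (hN : ∀ w w', Co s (N w w'))
    (ht : ∀ w w' w'', N w w' ≠ 0 → N w' w'' = 0) (σ : W → V) :
    Reach s 0 σ (app (1 + N) σ) := by
  have : ∀ t : Finset (W × W), Reach s 0 σ
      (fun w => σ w + ∑ w', if (w, w') ∈ t then N w w' • σ w' else 0) := by
    intro t
    induction t using Finset.induction_on with
    | empty => simpa using Reach.refl σ
    | insert p t hp ih =>
      obtain ⟨a, b⟩ := p
      have e1 : ∀ w, (∑ w', if (w, w') ∈ insert (a, b) t then N w w' • σ w' else 0) =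
          (∑ w', if (w, w') ∈ t then N w w' • σ w' else 0) +
            if w = a then N a b • σ b else 0 := by
        intro w
        have : (if w = a then N a b • σ b else 0) =
            ∑ w', if w = a ∧ w' = b then N w w' • σ w' else 0 := by
          by_cases hw : w = a <;> simp [hw]
        rw [this, ← Finset.sum_add_distrib]
        refine Finset.sum_congr rfl fun w' _ => ?_
        by_cases hw : w = a ∧ w' = b
        · obtain ⟨rfl, rfl⟩ := hw
          simp [hp]
        · simp [hw]
      rcases eq_or_ne (N a b) 0 with h0 | h0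
      · refine ih.of_eq le_rfl rfl (funext fun w => ?_)
        simp only [e1, h0, zero_smul, ite_self, add_zero]
      · obtain ⟨c, hc⟩ := (hN a b).resolve_left h0
        have hab : a ≠ b := fun e => h0 (by subst e; exact ht _ _ _ h0)
        refine (ih.trans (c' := 0) ⟨[.gate a b c], by simp [Ins.isStep], by simpa [Ins.Ok] using hab,
          rfl⟩).of_eq le_rfl rfl (funext fun w => ?_)
        simp only [e1, List.foldl, Ins.run, hc]
        by_cases hw : w = a
        · subst hw
          simp [ht _ _ _ h0, add_assoc]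
        · simp [hw]
  refine (this Finset.univ).of_eq le_rfl rfl ?_
  rw [app_add, app_one]
  funext w
  simp [app]

/-- renaming of wires -/
def ren {W W' : Type} (f : W' → W) : Ins W' G C → Ins W G C
  | .step w g => .step (f w) g
  | .gate w w' c => .gate (f w) (f w') c

theorem Reach.embed {W' : Type} [DecidableEq W'] {f : W' → W} (hf : Injective f) {c : ℕ}
    {σ σ' : W → V} (h : Reach s c (fun a => σ (f a)) (fun a => σ' (f a)))
    (ho : ∀ w, (∀ a, f a ≠ w) → σ' w = σ w) : Reach s c σ σ' := by
  obtain ⟨l, h1, h2, h3⟩ := h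
  have key : ∀ (l : List (Ins W' G C)) (σ : W → V),
      (fun a => (l.map (ren f)).foldl (Ins.run (fun g v => s.γ g • v) s.cf) σ (f a)) =
        l.foldl (Ins.run (fun g v => s.γ g • v) s.cf) (fun a => σ (f a)) ∧
      ∀ w, (∀ a, f a ≠ w) → (l.map (ren f)).foldl (Ins.run (fun g v => s.γ g • v) s.cf) σ w = σ w := by
    intro l
    induction l with
    | nil => simp
    | cons I l ih =>
      intro σ
      simp only [List.map_cons, List.foldl_cons]
      refine ⟨(ih _).1.trans ?_, fun w hw => ((ih _).2 w hw).trans ?_⟩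
      · congr 1
        funext a
        cases I <;> simp [ren, Ins.run, update_apply, hf.eq_iff]
      · cases I <;> simp [ren, Ins.run, (hw _).symm]
  refine ⟨l.map (ren f), ?_, ?_, ?_⟩
  · rw [List.countP_map]
    convert h1 using 2
    funext I
    cases I <;> rfl
  · intro I hI
    obtain ⟨J, hJ, rfl⟩ := List.mem_map.mp hI
    have := h2 J hJ
    cases J
    · exact this
    · exact hf.ne this
  · funext w
    by_cases hw : ∃ a, f a = w
    · obtain ⟨a, rfl⟩ := hw
      exact congrFun ((key l σ).1.trans h3) a
    · push Not at hw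
      rw [(key l σ).2 w hw, ho w hw]

theorem Reach.par {W' I : Type} [DecidableEq W'] [Fintype I] {f : I → W' → W}
    (hf : ∀ i j a b, f i a = f j b → i = j ∧ a = b) {c : ℕ} {σ σ' : W → V}
    (h : ∀ i, Reach s c (fun a => σ (f i a)) (fun a => σ' (f i a)))
    (ho : ∀ w, (∀ i a, f i a ≠ w) → σ' w = σ w) : Reach s (Fintype.card I * c) σ σ' := by
  classical
  have : ∀ t : Finset I, Reach s (t.card * c) σ
      (fun w => if ∃ i ∈ t, ∃ a, f i a = w then σ' w else σ w) := by
    intro t
    induction t using Finset.induction_on with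
    | empty => simpa using Reach.refl σ
    | insert i t hi ih =>
      refine (ih.trans (Reach.embed (f := f i) (fun a b e => (hf _ _ _ _ e).2)
        ((h i).of_eq le_rfl ?_ ?_) ?_)).of_eq
        (by rw [Finset.card_insert_of_notMem hi, add_mul, one_mul]) rfl rfl
      · funext a
        rw [if_neg]
        rintro ⟨j, hj, b, e⟩
        exact hi ((hf _ _ _ _ e).1 ▸ hj)
      · funext a
        rw [if_pos ⟨i, Finset.mem_insert_self _ _, a, rfl⟩]
      · intro w hw
        simp [hw]
  refine (this Finset.univ).of_eq le_rfl rfl (funext fun w => ?_)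
  split_ifs with hw
  · rfl
  · push Not at hw
    exact ho w fun i a => hw i (Finset.mem_univ _) a

end

theorem finish {W : Type} [DecidableEq W] [Fintype W] {w c : ℕ} (eW : W ≃ Fin w)
    (τ : Equiv.Perm W) (co : W → R)
    (h : ∀ σ : W → Fin w → R, Reach s c σ (fun u => co u • σ (τ u))) :
    ∃ L : List (Ins (Fin w) G C), L.countP Ins.isStep ≤ c ∧ (∀ I ∈ L, I.Ok s.P) ∧
      ∀ (D V : Type) [CommRing D] [AddCommGroup V] [Module D V] (φ : R →+* Module.End D V)
        (Γ : G → V → V) (cf : C → D), (∀ g v, Γ g v = φ (s.γ g) v) →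
        (∀ c v, cf c • v = φ (s.cf c) v) → ∀ σ : Fin w → V,
        L.foldl (Ins.run Γ cf) σ =
          fun u => φ (co (eW.symm u)) (σ ((eW.symm.trans (τ.trans eW)) u)) := by
  obtain ⟨L, h1, h2, h3⟩ := Reach.embed (s := s) (f := eW) eW.injective
    (σ := fun u => (Pi.single u 1 : Fin w → R))
    (σ' := fun u => co (eW.symm u) • (Pi.single (eW (τ (eW.symm u))) 1 : Fin w → R))
    ((h _).of_eq le_rfl rfl (by funext a; simp)) (fun u hu => absurd (eW.apply_symm_apply u) (hu _))
  refine ⟨L, h1, h2, fun D V _ _ _ φ Γ cf hΓ hc σ => ?_⟩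
  let Φ : (Fin w → R) → V := fun x => ∑ u, φ (x u) (σ u)
  have a1 : ∀ x y, Φ (x + y) = Φ x + Φ y := fun x y => by simp [Φ, Finset.sum_add_distrib]
  have a2 : ∀ (a : R) x, Φ (a • x) = φ a (Φ x) := fun a x => by simp [Φ]
  have a3 : ∀ u, Φ (Pi.single u 1) = σ u := fun u => by
    simp only [Φ, Pi.single_apply, apply_ite φ, map_one, map_zero]
    rw [Finset.sum_eq_single u] <;> simp +contextual
  have key : ∀ (L : List (Ins (Fin w) G C)) (x : Fin w → Fin w → R),
      L.foldl (Ins.run Γ cf) (fun u => Φ (x u)) =
        fun u => Φ (L.foldl (Ins.run (fun g v => s.γ g • v) s.cf) x u) := by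
    intro L
    induction L with
    | nil => simp
    | cons I L ih =>
      intro x
      simp only [List.foldl_cons]
      rw [← ih]
      congr 1
      funext u
      cases I <;> simp only [Ins.run, update_apply] <;> split_ifs <;> simp [a1, a2, hΓ, hc]
  have := key L fun u => Pi.single u 1
  simp only [a3] at this
  rw [this, h3]
  funext u
  simp [a2, a3]

end Vale.Agent.P338.Net
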