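import Vale.Agent.P338.NetG

/-! The three stages of the generic network. -/

namespace Vale.Agent.P338.Net

open Function Matrix
open scoped Classical

variable {R V G C : Type} [CommRing R] [AddCommGroup V] [Module R V] {s : Sys R G C}
variable {K H A Hc : Type} [CommRing K] [DecidableEq H] [DecidableEq A] [Fintype A] [Fintype Hc]
  [DecidableEq Hc] {k : ℕ}

/-- all wires -/
abbrev Wt (A Hc : Type) := ((A × A × A) ⊕ (A × A × A)) ⊕ (Fin 3 × (A × A) × ((A × A) ⊕ Hc))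

/-- cost of one invocation -/
def icost (v hc k m : ℕ) : ℕ := 2 * v * (k + 1) + v ^ 2 * m + hc * (m + 2 * (k + 2))

section
variable {Λ : Type} [AddCommGroup Λ]

/-- a state given by labels and formal values -/
def st (e : Λ → R) (lX lY : A × A × A → Λ) (X Y : A × A × A → V)
    (Z : Fin 3 × (A × A) × ((A × A) ⊕ Hc) → V) : Wt A Hc → V :=
  Sum.elim (Sum.elim (fun u => e (lX u) • X u) (fun u => e (lY u) • Y u)) Z

theorem mid {e : Λ → R} (he : Hom e) {lX lY lX' lY' : A × A × A → Λ} {r r' : ℕ}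
    (hX : ∀ u, St s r (e (lX' u - lX u))) (hY : ∀ u, St s r' (e (lY' u - lY u)))
    (X Y : A × A × A → V) (Z : Fin 3 × (A × A) × ((A × A) ⊕ Hc) → V) :
    Reach s (Fintype.card A ^ 3 * (r + r')) (st e lX lY X Y Z) (st e lX' lY' X Y Z) := by
  refine (Reach.relabel he (l := Sum.elim (Sum.elim lX lY) fun _ => 0)
    (l' := Sum.elim (Sum.elim lX' lY') fun _ => 0)
    (r := Sum.elim (Sum.elim (fun _ => r) fun _ => r') fun _ => 0) ?_
    (Sum.elim (Sum.elim X Y) Z)).of_eq (le_of_eq ?_) ?_ ?_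
  · rintro ((u | u) | u)
    exacts [hX u, hY u, (St.one 0).of_eq le_rfl (by simp [he.zero])]
  · simp [Fintype.sum_sum_type]; ring
  · funext w
    rcases w with ((u | u) | u) <;> simp [st, he.zero]
  · funext w
    rcases w with ((u | u) | u) <;> simp [st, he.zero]

namespace Design

variable (d : Design s K H A Hc k)

variable (V) in
/-- the effect of one invocation -/
def InvSpec (c : ℕ) (e : Λ → R) (B o : Λ) (ι : Matrix H H K →+ Λ) (fx fy : V → V → V) : Prop :=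
  ∀ (ξ η : A → V) (z : (A × A) ⊕ Hc → V), Reach s c
    (Sum.elim (Sum.elim (fun a => e (B + ι (d.π a)) • ξ a) fun a => e B • η a) z : Wi A Hc → V)
    (Sum.elim (Sum.elim (fun a => e (B + ι 1) • fx (ξ a) (η a))
      fun a => e (B + ι (1 - d.π a)) • fy (ξ a) (η a)) fun t => e o • z t)

theorem inv_gen {e : Λ → R} (he : Hom e) (B o : Λ) (ι : Matrix H H K →+ Λ)
    (hι : ∀ r X, d.DH r X → St s r (e (ι X))) {rB rE m : ℕ} (hB : St s rB (e B))
    (hE : St s rE (e (o - (B + ι 1)))) (hm : rB + (k + 2) + rE = m)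
    {g0 g1 g2 g3 g4 g5 g6 g7 : Matrix (Wi A Hc) (Wi A Hc) R} (c0 : Gate s g0 d.l1)
    (c1 : Gate s g1 d.l1) (c2 : Gate s g2 d.l2) (c3 : Gate s g3 d.l3) (c4 : Gate s g4 d.l4)
    (c5 : Gate s g5 d.l5) (c6 : Gate s g6 d.l6) (c7 : Gate s g7 d.l6) {fx fy : V → V → V}
    (hP : ∀ σ : Wi A Hc → V, app ((1 + g7) * (1 + g6) * (1 + g5) * (1 + g4) * (1 + g3) *
        (1 + g2) * (1 + g1) * (1 + g0)) σ =
      Sum.elim (Sum.elim (fun a => fx (σ (.inl (.inl a))) (σ (.inl (.inr a))))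
        (fun a => fy (σ (.inl (.inl a))) (σ (.inl (.inr a))))) (fun a => σ (.inr a))) :
    d.InvSpec V (icost (Fintype.card A) (Fintype.card Hc) k m) e B o ι fx fy := by
  intro ξ η z
  have h1 := Reach.diag (s := s) (W := Wi A Hc) (r := Sum.elim (fun _ => 0) fun _ => rB)
    (a := Sum.elim (fun _ => 1) fun _ => e B) (by
      rintro (a | a)
      exacts [St.one 0, hB])
    (Sum.elim (Sum.elim (fun a => e (B + ι (d.π a)) • ξ a) fun a => e B • η a) z)
  have h2 := d.schedule he B ι hι c0 c1 c2 c3 c4 c5 c6 c7 (Sum.elim (Sum.elim ξ η) z)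
  rw [hP] at h2
  have h3 := (h1.trans (h2.of_eq le_rfl (by
      funext w
      rcases w with ((a | a) | (a | a)) <;> simp [l1, lab]) rfl)).trans
    (Reach.diag (s := s) (W := Wi A Hc) (r := Sum.elim (fun _ => 0) fun _ => rE)
    (a := Sum.elim (fun _ => 1) fun _ => e (o - (B + ι 1))) (by
      rintro (a | a)
      exacts [St.one 0, hE]) _)
  refine h3.of_eq (le_of_eq ?_) rfl ?_
  · subst hm
    simp [Fintype.sum_sum_type, icost]
    ring
  · funext w
    rcases w with ((a | a) | (a | a)) <;> simp [l6, lab, smul_smul, ← he.add]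

theorem inv_fwd {e : Λ → R} (he : Hom e) (B o : Λ) (ι : Matrix H H K →+ Λ)
    (hι : ∀ r X, d.DH r X → St s r (e (ι X))) {rB rE m : ℕ} (hB : St s rB (e B))
    (hE : St s rE (e (o - (B + ι 1)))) (hm : rB + (k + 2) + rE = m) :
    d.InvSpec V (icost (Fintype.card A) (Fintype.card Hc) k m) e B o ι
      (fun x _ => x) (fun x y => y + x) :=
  d.inv_gen he B o ι hι hB hE hm d.cJ1.2.1 d.cR1.2.1 d.cV2.1 d.cG3.1 d.cR4.1 d.cJ5.1 d.cV6.2.1
    d.cG6.2.1 (fun σ => by
      rw [d.prod_fwd, app_add, app_one]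
      funext w
      rcases w with ((a | a) | (a | a)) <;> simp [app, gE, Fintype.sum_sum_type])

theorem inv_rev {e : Λ → R} (he : Hom e) (B o : Λ) (ι : Matrix H H K →+ Λ)
    (hι : ∀ r X, d.DH r X → St s r (e (ι X))) {rB rE m : ℕ} (hB : St s rB (e B))
    (hE : St s rE (e (o - (B + ι 1)))) (hm : rB + (k + 2) + rE = m) :
    d.InvSpec V (icost (Fintype.card A) (Fintype.card Hc) k m) e B o ι
      (fun x y => x - y) (fun _ y => y) :=
  d.inv_gen he B o ι hι hB hE hm d.cJ1.2.2.1 d.cR1.2.2.1 d.cV2.2.2.2 d.cG3.2.2.2 d.cR4.2.2.2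
    d.cJ5.2.2.2 d.cV6.2.2.1 d.cG6.2.2.1 (fun σ => by
      rw [d.prod_rev, app_add, app_one, app_neg]
      funext w
      rcases w with ((a | a) | (a | a)) <;> simp [app, gE, Fintype.sum_sum_type, sub_eq_add_neg])

theorem stage (p : A × A × A ≃ (A × A) × A) (j : Fin 3) {c : ℕ} {e : Λ → R} {B : A × A → Λ} {o : Λ}
    {ι : A × A → Matrix H H K →+ Λ} {fx fy : V → V → V}
    (h : ∀ i, d.InvSpec V c e (B i) o (ι i) fx fy) (X Y : A × A × A → V)
    (Z : Fin 3 × (A × A) × ((A × A) ⊕ Hc) → V) :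
    Reach s (Fintype.card A ^ 2 * c)
      (st e (fun u => B (p u).1 + ι (p u).1 (d.π (p u).2)) (fun u => B (p u).1) X Y Z)
      (st e (fun u => B (p u).1 + ι (p u).1 1) (fun u => B (p u).1 + ι (p u).1 (1 - d.π (p u).2))
        (fun u => fx (X u) (Y u)) (fun u => fy (X u) (Y u))
        (fun q => if q.1 = j then e o • Z q else Z q)) := by
  refine (Reach.par (I := A × A) (W' := Wi A Hc) (c := c) (f := fun i => Sum.map
    (Sum.map (fun a => p.symm (i, a)) fun a => p.symm (i, a)) fun t => (j, i, t)) ?_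
    (fun i => (h i (fun a => X (p.symm (i, a))) (fun a => Y (p.symm (i, a)))
      fun t => Z (j, i, t)).of_eq le_rfl ?_ ?_) ?_).of_eq (by simp [sq]) rfl rfl
  · rintro i i' ((a | a) | a) ((b | b) | b) h <;> simp_all
  · funext w
    rcases w with ((a | a) | a) <;> simp [st]
  · funext w
    rcases w with ((a | a) | a) <;> simp [st]
  · rintro ((u | u) | ⟨j', i, t⟩) hw
    · exact absurd (by simp) (hw (p u).1 (.inl (.inl (p u).2)))
    · exact absurd (by simp) (hw (p u).1 (.inl (.inr (p u).2)))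
    · have : j' ≠ j := fun h => hw i (.inr t) (by simp [h])
      simp [st, this]

end Design

end

/-- threefold Kronecker product -/
def k3 (X Y Z : Matrix H H K) : Matrix (H × H × H) (H × H × H) K :=
  fun a b => X a.1 b.1 * Y a.2.1 b.2.1 * Z a.2.2 b.2.2

theorem k3_one : k3 (1 : Matrix H H K) 1 1 = 1 := by
  ext a b
  simp only [k3, Matrix.one_apply, Prod.ext_iff]
  split_ifs <;> simp_all

def ι1 (Y Z : Matrix H H K) : Matrix H H K →+ Matrix (H × H × H) (H × H × H) K :=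
  AddMonoidHom.mk' (fun X => k3 X Y Z) fun _ _ => by ext; simp [k3, add_mul]

def ι2 (X Z : Matrix H H K) : Matrix H H K →+ Matrix (H × H × H) (H × H × H) K :=
  AddMonoidHom.mk' (fun Y => k3 X Y Z) fun _ _ => by ext; simp [k3, add_mul, mul_add]

def ι3 (X Y : Matrix H H K) : Matrix H H K →+ Matrix (H × H × H) (H × H × H) K :=
  AddMonoidHom.mk' (fun Z => k3 X Y Z) fun _ _ => by ext; simp [k3, mul_add]

def p1 : A × A × A ≃ (A × A) × A :=
  ⟨fun u => ((u.2.1, u.2.2), u.1), fun q => (q.2, q.1.1, q.1.2), fun _ => rfl, fun _ => rfl⟩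
def p2 : A × A × A ≃ (A × A) × A :=
  ⟨fun u => ((u.1, u.2.2), u.2.1), fun q => (q.1.1, q.2, q.1.2), fun _ => rfl, fun _ => rfl⟩
def p3 : A × A × A ≃ (A × A) × A :=
  ⟨fun u => ((u.1, u.2.1), u.2.2), fun q => (q.1.1, q.1.2, q.2), fun _ => rfl, fun _ => rfl⟩

/-- number of steps -/
def steps (v hc k : ℕ) : ℕ :=
  3 * (v ^ 2 * icost v hc k ((k + 2) ^ 3)) + v ^ 3 * (2 * ((k + 1) * (k + 1))) +
    v ^ 3 * (2 * ((k + 1) * (k + 2) * (k + 1) + (k + 1) * (k + 1)))

/-- the exchange of the two main families of wires -/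
def swp (A Hc : Type) : Equiv.Perm (Wt A Hc) := Equiv.sumCongr (Equiv.sumComm _ _) (Equiv.refl _)

omit [DecidableEq A] [DecidableEq Hc] in
theorem card_Wt : Fintype.card (Wt A Hc) = 2 * Fintype.card A ^ 3 +
    3 * (Fintype.card A ^ 2 * (Fintype.card A ^ 2 + Fintype.card Hc)) := by
  simp only [Fintype.card_sum, Fintype.card_prod, Fintype.card_fin]
  ring

namespace Design

variable (d : Design s K H A Hc k)

/-- the rank one label of a main wire -/
def πu (u : A × A × A) : Matrix (H × H × H) (H × H × H) K :=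
  k3 (d.π u.1) (d.π u.2.1) (d.π u.2.2)

theorem network {e : Matrix (H × H × H) (H × H × H) K → R} (he : Hom e)
    (hk : ∀ {r r' r'' X Y Z}, d.DH r X → d.DH r' Y → d.DH r'' Z →
      St s (r * r' * r'') (e (k3 X Y Z))) (σ : Wt A Hc → V) :
    Reach s (steps (Fintype.card A) (Fintype.card Hc) k) σ fun w =>
      Sum.elim (Sum.elim (fun _ => -e 1) fun u => e (1 - d.πu u - d.πu u)) (fun _ => e 1) w •
        σ (swp A Hc w) := by
  have q1 := d.d0
  have q2 := d.d1
  have q3 := d.dI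
  have z0 : St s 0 (e 0) := (St.one 0).of_eq le_rfl he.zero
  have ad : ∀ {r r' X Y}, St s r (e X) → St s r' (e Y) → St s (r + r') (e (X + Y)) :=
    fun h h' => (h.mul h').of_eq le_rfl (he.add _ _)
  have cg : ∀ {r r' X Y}, St s r (e X) → r = r' → Y = X → St s r' (e Y) :=
    fun h h1 h2 => h.of_eq h1.le (by rw [h2])
  have i1 := fun i : A × A => d.inv_fwd (V := V) he 0 1 (ι1 (d.π i.1) (d.π i.2))
    (fun r X hX => cg (hk hX (q1 _) (q1 _)) (by simp) rfl) (m := (k + 2) ^ 3) z0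
    (cg (ad (hk q3 (q2 i.1) q3) (hk q3 (q1 i.1) (q2 i.2))) rfl (by
      rw [← k3_one]; ext; simp [k3, ι1]; ring)) (by ring)
  have i2 := fun i : A × A => d.inv_rev (V := V) he (k3 (1 - d.π i.1) 1 (d.π i.2)) 1
    (ι2 (d.π i.1) (d.π i.2)) (fun r X hX => cg (hk (q1 _) hX (q1 _)) (by simp) rfl)
    (m := (k + 2) ^ 3) (hk (q2 i.1) q3 (q1 i.2)) (cg (hk q3 q3 (q2 i.2)) rfl (by
      rw [← k3_one]; ext; simp [k3, ι2]; ring)) (by ring)
  have i3 := fun i : A × A => d.inv_fwd (V := V) he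
    (k3 (1 - d.π i.1) 1 1 + k3 (d.π i.1) (1 - d.π i.2) 1) 1 (ι3 (d.π i.1) (d.π i.2))
    (fun r X hX => cg (hk (q1 _) (q1 _) hX) (by simp) rfl) (m := (k + 2) ^ 3)
    (ad (hk (q2 i.1) q3 q3) (hk (q1 i.1) (q2 i.2) q3)) (cg z0 rfl (by
      rw [← k3_one]; ext; simp [k3, ι3]; ring)) (by ring)
  have r12 : ∀ u : A × A × A, St s ((k + 1) * (k + 1))
      (e (k3 (1 - d.π u.1) (1 - d.π u.2.1) (d.π u.2.2))) :=
    fun u => cg (hk (q2 _) (q2 _) (q1 _)) (by simp) rfl
  have r23 : ∀ u : A × A × A, St s ((k + 1) * (k + 2) * (k + 1) + (k + 1) * (k + 1))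
      (e (k3 (1 - d.π u.1) 1 (1 - d.π u.2.2) + k3 (d.π u.1) (1 - d.π u.2.1) (1 - d.π u.2.2))) :=
    fun u => cg (ad (hk (q2 _) q3 (q2 _)) (hk (q1 _) (q2 _) (q2 _))) (by simp) rfl
  have key := (d.stage p1 0 i1 (fun u => e (-d.πu u) • σ (.inl (.inl u)))
      (fun u => σ (.inl (.inr u))) (fun q => σ (.inr q))).trans <|
    (mid he (fun u => cg (r12 u) rfl (by ext; simp [k3, ι1, ι2, p1, p2]; ring))
      (fun u => cg (r12 u) rfl (by ext; simp [k3, ι1, p1, p2]; ring)) _ _ _).trans <|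
    (d.stage p2 1 i2 _ _ _).trans <|
    (mid he (fun u => cg (r23 u) rfl (by ext; simp [k3, ι3, ι2, p2, p3]; ring))
      (fun u => cg (r23 u) rfl (by ext; simp [k3, ι2, p2, p3]; ring)) _ _ _).trans <|
    d.stage p3 2 i3 _ _ _
  refine key.of_eq (le_of_eq (by unfold steps; ring)) ?_ ?_
  · funext w
    rcases w with ((u | u) | u)
    · have : (0 + ι1 (d.π (p1 u).1.1) (d.π (p1 u).1.2) (d.π (p1 u).2)) = d.πu u := zero_add _
      simp only [st, Sum.elim_inl, this, smul_smul, ← he.add, add_neg_cancel, he.zero, one_smul]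
    · simp [st, he.zero]
    · rfl
  · funext w
    rcases w with ((u | u) | ⟨j, u⟩)
    · have : k3 (1 - d.π (p3 u).1.1) 1 1 + k3 (d.π (p3 u).1.1) (1 - d.π (p3 u).1.2) 1 +
          ι3 (d.π (p3 u).1.1) (d.π (p3 u).1.2) 1 = 1 := by
        rw [← k3_one]; ext; simp [k3, ι3]; ring
      simp only [st, Sum.elim_inl, this]
      simp [swp]
    · have : k3 (1 - d.π (p3 u).1.1) 1 1 + k3 (d.π (p3 u).1.1) (1 - d.π (p3 u).1.2) 1 +
          ι3 (d.π (p3 u).1.1) (d.π (p3 u).1.2) (1 - d.π (p3 u).2) = 1 - d.πu u := by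
        rw [← k3_one]; ext; simp [k3, ι3, πu, p3]; ring
      simp only [st, Sum.elim_inl, Sum.elim_inr, this]
      simp [swp, smul_smul, ← he.add, sub_eq_add_neg]
    · fin_cases j <;> simp [st, swp]

end Design

end Vale.Agent.P338.Net
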