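import Vale.Agent.P338.NetS

/-! The network for swapping fields. -/

namespace Vale.Agent.P338

namespace Net

open Function Matrix

theorem Hom.sum {R Λ J : Type} [CommRing R] [AddCommGroup Λ] {e : Λ → R} (he : Hom e)
    (t : Finset J) (X : J → Λ) : e (∑ j ∈ t, X j) = ∏ j ∈ t, e (X j) := by
  classical
  induction t using Finset.induction_on with
  | empty => simpa using he.zero
  | insert a t ha ih => rw [Finset.sum_insert ha, Finset.prod_insert ha, he.add, ih]

theorem k3_sum {H K J J' J'' : Type} [CommRing K] [Fintype J] [Fintype J'] [Fintype J'']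
    (X : J → Matrix H H K) (Y : J' → Matrix H H K) (Z : J'' → Matrix H H K) :
    k3 (∑ j, X j) (∑ j, Y j) (∑ j, Z j) = ∑ p : J × J' × J'', k3 (X p.1) (Y p.2.1) (Z p.2.2) := by
  ext a b
  simp only [k3, Matrix.sum_apply, Fintype.sum_prod_type]
  rw [mul_assoc, Finset.sum_mul_sum, Finset.sum_mul]
  refine Finset.sum_congr rfl fun _ _ => ?_
  rw [Finset.mul_sum]
  refine Finset.sum_congr rfl fun _ _ => ?_
  rw [Finset.mul_sum]
  exact Finset.sum_congr rfl fun _ _ => by ring

theorem card_le3 {J J' J'' : Type} [Fintype J] [Fintype J'] [Fintype J''] {r r' r'' : ℕ}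
    (h : Fintype.card J ≤ r) (h' : Fintype.card J' ≤ r') (h'' : Fintype.card J'' ≤ r'') :
    (Finset.univ : Finset (J × J' × J'')).card ≤ r * r' * r'' := by
  simp only [Finset.card_univ, Fintype.card_prod, ← mul_assoc]
  exact Nat.mul_le_mul (Nat.mul_le_mul h h') h''

theorem elim_rows {H K : Type} [CommRing K] [Fintype H] [DecidableEq H] (P : Matrix H H K)
    (E : Finset H) (U : H → H → K) (hU : ∀ x ∈ E, ∀ j ∈ E, U x j = if x = j then 1 else 0)
    (h : ∀ x ∈ E, ∀ y, ∑ j, U x j * P j y = 0) :
    P = ∑ j ∈ Eᶜ, vecMulVec (fun x => if x ∈ E then -U x j else if x = j then 1 else 0) (P j) := by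
  ext x y
  simp only [Matrix.sum_apply, vecMulVec_apply]
  by_cases hx : x ∈ E
  · have h1 := h x hx y
    rw [← Finset.sum_add_sum_compl E, Finset.sum_congr rfl fun j hj => by rw [hU x hx j hj]] at h1
    simp only [ite_mul, one_mul, zero_mul, Finset.sum_ite_eq, hx, if_true, neg_mul,
      Finset.sum_neg_distrib] at h1 ⊢
    linear_combination h1
  · simp [hx]

/-- one half -/
noncomputable def hh : K2 := IsLocalization.Away.invSelf (2 : ℤ)

theorem two_hh : 2 * hh = 1 := by
  simpa [hh] using IsLocalization.Away.mul_invSelf (S := K2) (2 : ℤ)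

theorem good_mul {a b : K2} (h : GoodK a) (h' : GoodK b) : GoodK (a * b) := by
  rcases h with rfl | h
  · exact .inl (zero_mul _)
  rcases h' with rfl | h'
  · exact .inl (mul_zero _)
  exact .inr (Submonoid.mul_mem _ h h')

theorem good_hh : GoodK hh := .inr (Submonoid.subset_closure (by simp [hh]))
theorem good_one : GoodK 1 := .inr (Submonoid.one_mem _)
theorem good_two : GoodK 2 := .inr (Submonoid.subset_closure (by simp))
theorem good_neg {a : K2} (h : GoodK a) : GoodK (-a) := by
  convert good_mul (.inr (Submonoid.subset_closure (by simp)) : GoodK (-1)) h using 1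
  ring

theorem good_int {z : ℤ} (h : z = 0 ∨ z = 1 ∨ z = -1 ∨ z = 2 ∨ z = -2 ∨ z = 4) :
    GoodK (z : K2) := by
  rcases h with rfl | rfl | rfl | rfl | rfl | rfl
  · exact .inl (by simp)
  · simpa using good_one
  · simpa using good_neg good_one
  · simpa using good_two
  · simpa using good_neg good_two
  · have := good_mul good_two good_two
    norm_num at this
    simpa using this

theorem good_ite {p : Prop} [Decidable p] : GoodK (if p then 1 else 0) := by
  split_ifs
  exacts [good_one, .inl rfl]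

/-- sums of at most `r` good rank one matrices -/
def DS {H : Type} (r : ℕ) (X : Matrix H H K2) : Prop :=
  ∃ (J : Type) (_ : Fintype J) (f g : J → H → K2), Fintype.card J ≤ r ∧ (∀ j a, GoodK (f j a)) ∧
    (∀ j a, GoodK (g j a)) ∧ X = ∑ j, vecMulVec (f j) (g j)

theorem ds_vec {H : Type} {f g : H → K2} (hf : ∀ a, GoodK (f a)) (hg : ∀ a, GoodK (g a)) :
    DS 1 (vecMulVec f g) :=
  ⟨Unit, inferInstance, fun _ => f, fun _ => g, by simp, fun _ => hf, fun _ => hg, by simp⟩

theorem ds_elim {H : Type} [Fintype H] [DecidableEq H] {P : Matrix H H K2} (E : Finset H)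
    (U : H → H → K2) (hU : ∀ x ∈ E, ∀ j ∈ E, U x j = if x = j then 1 else 0)
    (h : ∀ x ∈ E, ∀ y, ∑ j, U x j * P j y = 0) (gU : ∀ x j, GoodK (U x j))
    (gP : ∀ j, j ∉ E → ∀ y, GoodK (P j y)) {r : ℕ} (hr : Fintype.card H - E.card ≤ r) :
    DS r P := by
  refine ⟨↥(Eᶜ), inferInstance,
    fun j x => if x ∈ E then -U x j else if x = j then 1 else 0, fun j => P j, ?_,
    fun j x => ?_, fun j => gP j (Finset.mem_compl.mp j.2), ?_⟩
  · rwa [Fintype.card_coe, Finset.card_compl]
  · by_cases hx : x ∈ E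
    · simpa [hx] using good_neg (gU x j)
    · simpa [hx] using good_ite
  · exact (elim_rows P E U hU h).trans (Finset.sum_coe_sort Eᶜ fun j =>
      vecMulVec (fun x => if x ∈ E then -U x j else if x = j then 1 else 0) (P j)).symm

/-- triples -/
abbrev Trip (n : ℕ) := {S : Finset (Fin n) // S.card = 3}

theorem inter_three {n : ℕ} (S T : Trip n) : (S.1 ∩ T.1).card ≤ 3 ∧
    ((S.1 ∩ T.1).card = 3 ↔ S = T) := by
  refine ⟨(Finset.card_le_card Finset.inter_subset_left).trans S.2.le, fun h => ?_, ?_⟩
  · have e1 := Finset.eq_of_subset_of_card_le (Finset.inter_subset_left (s₁ := S.1) (s₂ := T.1))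
      (by rw [h, S.2])
    have e2 := Finset.eq_of_subset_of_card_le (Finset.inter_subset_right (s₁ := S.1) (s₂ := T.1))
      (by rw [h, T.2])
    exact Subtype.ext (e1.symm.trans e2)
  · rintro rfl
    simpa using S.2

theorem sum_ind {R : Type} [CommRing R] {n : ℕ} (S T : Finset (Fin n)) (c : R) :
    ∑ j, (if j ∈ T then c else 0) * (if j ∈ S then 1 else 0) = (S ∩ T).card * c := by
  simp only [mul_ite, mul_one, mul_zero, ← ite_and, ← Finset.mem_inter]
  simp [-Finset.mem_inter]

/-- the indicator vector with one more coordinate `c` -/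
def tz (c : ℤ) (S : Finset (Fin 40)) : Option (Fin 40) → ℤ :=
  fun j => j.elim c fun a => if a ∈ S then 1 else 0

/-- the projector of a triple -/
noncomputable def πS (S : Trip 40) : Matrix (Option (Fin 40)) (Option (Fin 40)) K2 :=
  vecMulVec (fun a => hh * tz 1 S.1 a) fun b => tz (-1) S.1 b

theorem good_tz {c : ℤ} (hc : c = 1 ∨ c = -1) (S : Finset (Fin 40)) (j : Option (Fin 40)) :
    GoodK (tz c S j) := by
  apply good_int
  rcases j with _ | j <;> simp only [tz, Option.elim]
  · omega
  · split_ifs <;> simp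

theorem row_π (S T : Trip 40) (y : Option (Fin 40)) : ∑ j, (tz (-1) S.1 j : K2) * πS T j y =
    hh * (((T.1 ∩ S.1).card : K2) - 1) * tz (-1) T.1 y := by
  have := sum_ind (R := K2) T.1 S.1 1
  simp only [πS, vecMulVec_apply, Fintype.sum_option, tz, Option.elim, ← mul_assoc,
    ← Finset.sum_mul]
  push_cast
  simp only [mul_right_comm _ hh, ← Finset.sum_mul, this]
  ring

theorem row_one (u : Option (Fin 40) → K2) (y : Option (Fin 40)) :
    ∑ j, u j * (1 : Matrix (Option (Fin 40)) (Option (Fin 40)) K2) j y = u y := by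
  simp [Matrix.one_apply]

theorem ds1 (S : Trip 40) : DS (39 + 1) (1 - πS S) := by
  refine ds_elim {none} (fun _ j => -(tz (-1) S.1 j : K2)) (by simp [tz]) (fun _ _ y => ?_)
    (fun _ j => good_neg (good_tz (.inr rfl) _ _)) (fun j hj y => ?_) (by simp)
  · rw [Finset.sum_congr rfl (g := fun j => -((tz (-1) S.1 j : K2) * (1 - πS S) j y))
      fun j _ => by ring]
    simp only [Finset.sum_neg_distrib, Matrix.sub_apply, mul_sub, Finset.sum_sub_distrib,
      row_one, row_π, Finset.inter_self, S.2]
    push_cast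
    linear_combination (tz (-1) S.1 y : K2) * two_hh
  · have : (1 - πS S) j y =
        hh * ((2 * (if j = y then 1 else 0) - tz 1 S.1 j * tz (-1) S.1 y : ℤ) : K2) := by
      simp only [Matrix.sub_apply, Matrix.one_apply, πS, vecMulVec_apply]
      push_cast
      linear_combination (-(if j = y then 1 else 0) : K2) * two_hh
    rw [this]
    refine good_mul good_hh (good_int ?_)
    rcases j with _ | j
    · simp at hj
    · rcases y with _ | y <;> simp only [tz, Option.elim] <;> split_ifs <;> simp_all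

theorem ds2 (S T : Trip 40) (h : (S.1 ∩ T.1).card = 1) : DS 39 (1 - πS T - πS S) := by
  have c1 : 0 < (S.1 \ T.1).card := by
    have := Finset.card_sdiff_add_card_inter S.1 T.1
    rw [S.2] at this; omega
  have c2 : 0 < (T.1 \ S.1).card := by
    have := Finset.card_sdiff_add_card_inter T.1 S.1
    rw [T.2, Finset.inter_comm] at this; omega
  obtain ⟨a, ha⟩ := Finset.card_pos.mp c1
  obtain ⟨b, hb⟩ := Finset.card_pos.mp c2
  rw [Finset.mem_sdiff] at ha hb
  have hab : a ≠ b := by rintro rfl; exact hb.2 ha.1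
  refine ds_elim {some a, some b}
    (fun x j => if x = some a then (tz (-1) S.1 j : K2) else tz (-1) T.1 j)
    (by simp [tz, ha, hb, hab, hab.symm]) (fun x _ y => ?_) (fun x j => ?_) (fun j _ y => ?_)
    (by rw [Finset.card_pair (by simpa using hab)]; simp)
  · split_ifs <;> simp only [Matrix.sub_apply, mul_sub, Finset.sum_sub_distrib,
      row_one, row_π, Finset.inter_self, S.2, T.2, Finset.inter_comm T.1, h] <;> push_cast
    · linear_combination (-tz (-1) S.1 y : K2) * two_hh
    · linear_combination (-tz (-1) T.1 y : K2) * two_hh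
  · split_ifs <;> exact good_tz (.inr rfl) _ _
  · have : (1 - πS T - πS S) j y = hh * ((2 * (if j = y then 1 else 0) -
        tz 1 T.1 j * tz (-1) T.1 y - tz 1 S.1 j * tz (-1) S.1 y : ℤ) : K2) := by
      simp only [Matrix.sub_apply, Matrix.one_apply, πS, vecMulVec_apply]
      push_cast
      linear_combination (-(if j = y then 1 else 0) : K2) * two_hh
    rw [this]
    refine good_mul good_hh (good_int ?_)
    rcases j with _ | j <;> rcases y with _ | y <;> simp only [tz, Option.elim] <;> split_ifs <;>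
      simp_all

theorem dsI (c : K2) (hc : GoodK c) :
    DS (39 + 2) (c • 1 : Matrix (Option (Fin 40)) (Option (Fin 40)) K2) :=
  ds_elim ∅ (fun _ _ => 0) (by simp) (by simp) (fun _ _ => .inl rfl)
    (fun j _ y => by simpa [Matrix.one_apply] using good_mul hc (good_ite (p := j = y))) (by simp)

/-- the universal ring of the swap network -/
abbrev RS : Type := AddMonoidAlgebra (ZMod 2) (Matrix (Fin mm) (Fin mm) K2)

/-- its interpretation -/
noncomputable def sysS : Sys RS ((Fin mm → K2) × (Fin mm → K2)) Unit where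
  γ g := AddMonoidAlgebra.single (vecMulVec g.1 g.2) 1
  cf _ := 1
  P g := (∀ a, GoodK (g.1 a)) ∧ ∀ a, GoodK (g.2 a)

theorem two_RS : (1 + 1 : RS) = 0 := by
  have := map_add (algebraMap (ZMod 2) RS) 1 1
  rw [show (1 + 1 : ZMod 2) = 0 from rfl, map_zero, map_one] at this
  exact this.symm

theorem co_ite (p : Prop) [Decidable p] : Co sysS (if p then 1 else 0) := by
  split_ifs
  exacts [.inr ⟨(), rfl⟩, .inl rfl]

/-- the design of the swap network -/
noncomputable def desS : Design sysS K2 (Option (Fin 40)) (Trip 40) (Fin 40) 39 where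
  DH := DS
  π := πS
  n S T := if (S.1 ∩ T.1).card = 1 then 1 else 0
  ρ T j := if j ∈ T.1 then 1 else 0
  γ S j := if j ∈ S.1 then 1 else 0
  cn _ _ := co_ite _
  cρ _ _ := co_ite _
  cγ _ _ := co_ite _
  c1 := .inr ⟨(), rfl⟩
  cneg := by
    rintro _ (rfl | ⟨_, rfl⟩)
    · exact .inl neg_zero
    · exact .inr ⟨(), eq_neg_of_add_eq_zero_left two_RS⟩
  ident S T := by
    obtain ⟨h1, h2⟩ := inter_three S T
    rw [sum_ind]
    simp only [← h2]
    generalize (S.1 ∩ T.1).card = c at h1
    interval_cases c <;> simp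
    · exact two_RS
    · linear_combination two_RS
    · linear_combination two_RS
  d0 S := ds_vec (fun _ => good_mul good_hh (good_tz (.inl rfl) _ _)) (good_tz (.inr rfl) _)
  d1 := ds1
  d2 S T h := ds2 S T (by by_contra h1; exact h (if_neg h1))
  dI := by simpa using dsI 1 good_one
  dN := by
    convert dsI (-1) (good_neg good_one) using 1
    ext a b
    simp only [Matrix.neg_apply, Matrix.smul_apply, smul_eq_mul]
    ring

/-- numbering of the cells -/
noncomputable def eS : Option (Fin 40) × Option (Fin 40) × Option (Fin 40) ≃ Fin mm :=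
  Fintype.equivFinOfCardEq (by simp [mm])

/-- the exponential map of the swap network -/
noncomputable def expS (X : Matrix (Option (Fin 40) × Option (Fin 40) × Option (Fin 40))
    (Option (Fin 40) × Option (Fin 40) × Option (Fin 40)) K2) : RS :=
  AddMonoidAlgebra.single (X.submatrix eS.symm eS.symm) 1

theorem hom_expS : Hom expS :=
  ⟨rfl, fun a b => by rw [expS, expS, expS, AddMonoidAlgebra.single_mul_single, mul_one]; rfl⟩

theorem k3_expS {r r' r'' : ℕ} {X Y Z : Matrix (Option (Fin 40)) (Option (Fin 40)) K2}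
    (hX : DS r X) (hY : DS r' Y) (hZ : DS r'' Z) : St sysS (r * r' * r'') (expS (k3 X Y Z)) := by
  obtain ⟨J, _, f, g, h1, h2, h3, rfl⟩ := hX
  obtain ⟨J', _, f', g', h1', h2', h3', rfl⟩ := hY
  obtain ⟨J'', _, f'', g'', h1'', h2'', h3'', rfl⟩ := hZ
  refine (St.prod (s := sysS) (Finset.univ : Finset (J × J' × J'')) (fun p =>
    (fun a => f p.1 (eS.symm a).1 * f' p.2.1 (eS.symm a).2.1 * f'' p.2.2 (eS.symm a).2.2,
     fun a => g p.1 (eS.symm a).1 * g' p.2.1 (eS.symm a).2.1 * g'' p.2.2 (eS.symm a).2.2))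
    fun p => ⟨fun a => good_mul (good_mul (h2 _ _) (h2' _ _)) (h2'' _ _),
      fun a => good_mul (good_mul (h3 _ _) (h3' _ _)) (h3'' _ _)⟩).of_eq (card_le3 h1 h1' h1'') ?_
  rw [k3_sum, hom_expS.sum]
  refine Finset.prod_congr rfl fun p _ => ?_
  simp only [expS, sysS]
  congr 1
  ext a b
  simp only [k3, Matrix.submatrix_apply, vecMulVec_apply]
  ring

theorem card_Trip (n : ℕ) : Fintype.card (Trip n) = n.choose 3 := by
  rw [Fintype.card_finset_len, Fintype.card_fin]

theorem Reach.extra {R V G C : Type} [CommRing R] [AddCommGroup V] [Module R V] {s : Sys R G C}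
    {A Hc : Type} [DecidableEq A] [DecidableEq Hc] [Fintype A] [Fintype Hc] {c : ℕ}
    {a : A × A × A → R} (h : ∀ u, St s 1 (a u)) {σ σ' : Wt A Hc → V} (h1 : Reach s c σ σ') :
    Reach s (c + Fintype.card A ^ 3) σ fun w =>
      Sum.elim (Sum.elim (fun _ => 1) a) (fun _ => 1) w • σ' w := by
  refine (h1.trans (Reach.diag (r := Sum.elim (Sum.elim (fun _ => 0) fun _ => 1) fun _ => 0)
    ?_ _)).of_eq (le_of_eq ?_) rfl rfl
  · rintro ((u | u) | u)
    exacts [St.one 0, h u, St.one 0]
  · simp [Fintype.sum_sum_type]; ring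

theorem reachS {V : Type} [AddCommGroup V] [Module RS V] (σ : Wt (Trip 40) (Fin 40) → V) :
    Reach sysS (steps (Fintype.card (Trip 40)) (Fintype.card (Fin 40)) 39 +
      Fintype.card (Trip 40) ^ 3) σ fun w => expS 1 • σ (swp _ _ w) := by
  have h2 : ∀ S : Trip 40, DS 1 (πS S + πS S) := fun S => by
    convert ds_vec (good_tz (.inl rfl) S.1) (good_tz (.inr rfl) S.1) using 1
    ext a b
    simp only [πS, Matrix.add_apply, vecMulVec_apply]
    linear_combination (tz 1 S.1 a * tz (-1) S.1 b : K2) * two_hh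
  refine ((desS.network hom_expS (fun hX hY hZ => k3_expS hX hY hZ) σ).extra
    (a := fun u => expS (desS.πu u + desS.πu u)) fun u => ?_).of_eq le_rfl rfl ?_
  · refine (k3_expS (h2 u.1) (desS.d0 u.2.1) (desS.d0 u.2.2)).of_eq le_rfl (congrArg expS ?_)
    ext a b
    simp only [Design.πu, desS, k3, Matrix.add_apply]
    ring
  · funext w
    rcases w with ((u | u) | u) <;> simp only [Sum.elim_inl, Sum.elim_inr, one_smul]
    · rw [show -expS 1 = expS 1 by linear_combination (-expS 1) * two_RS]
    · rw [smul_smul, ← hom_expS.add, show desS.πu u + desS.πu u + (1 - desS.πu u - desS.πu u) = 1 by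
        abel]

end Net

open Net in
theorem swapNet : SwapNetStmt := by
  have hv : Fintype.card (Trip 40) = 9880 := by rw [card_Trip]; norm_num [Nat.choose]
  obtain ⟨L, h1, h2, h3⟩ := finish (s := sysS) (Fintype.equivFin (Wt (Trip 40) (Fin 40)))
    (swp _ _) (fun _ => expS 1) reachS
  refine ⟨_, (Fintype.equivFin _).symm.trans ((swp _ _).trans (Fintype.equivFin _)), L, ?_,
    h1.trans_lt ?_, h2, fun V _ _ Γ g0 ga σ => ?_⟩
  · rw [card_Wt, hv]; norm_num
  · rw [card_Wt, hv]; norm_num [steps, icost, mm]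
  let F : Multiplicative (Matrix (Fin mm) (Fin mm) K2) →* Module.End (ZMod 2) V :=
    ⟨⟨fun X => Γ X.toAdd, g0⟩, fun a b => ga _ _⟩
  have hF : ∀ X, AddMonoidAlgebra.lift (ZMod 2) _ _ F (AddMonoidAlgebra.single X 1) = Γ X :=
    fun X => by rw [AddMonoidAlgebra.lift_single, one_smul]; rfl
  rw [h3 (ZMod 2) V (AddMonoidAlgebra.lift (ZMod 2) _ _ F : RS →ₐ[ZMod 2] _) _ _
    (fun g v => by simp [sysS, hF]) (fun c v => by simp [sysS])]
  funext u
  simp [expS, hF]

end Vale.Agent.P338
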