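import Vale.Agent.P338.Spec3

/-! Module G, first part: estimates for the parameters. -/

namespace Vale.Agent.P338

theorem succ_pow_le {x m : ℕ} (hx : 0 < x) (h : m ≤ x) : (x + 1) ^ m ≤ 3 * x ^ m := by
  have hx' : (0 : ℝ) < x := by exact_mod_cast hx
  have h1 : ((x : ℝ) + 1) ≤ x * Real.exp (1 / x) := by
    have := Real.add_one_le_exp (1 / (x : ℝ))
    calc (x : ℝ) + 1 = x * (1 / x + 1) := by field_simp; ring
      _ ≤ _ := by gcongr
  have h2 : Real.exp (1 / x) ^ m ≤ 3 := by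
    rw [← Real.exp_nat_mul]
    refine le_trans (Real.exp_le_exp.2 ?_) Real.exp_one_lt_three.le
    rw [mul_one_div, div_le_one hx']
    exact_mod_cast h
  have h3 : ((x : ℝ) + 1) ^ m ≤ 3 * x ^ m :=
    calc ((x : ℝ) + 1) ^ m ≤ (x * Real.exp (1 / x)) ^ m := by gcongr
      _ = x ^ m * Real.exp (1 / x) ^ m := mul_pow _ _ _
      _ ≤ x ^ m * 3 := by gcongr
      _ = _ := mul_comm _ _
  exact_mod_cast h3

theorem qp_le {a L u : ℕ} (h : a + 2 ≤ 2 ^ (L + 1)) (h' : L + 1 < 2 ^ u) :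
    qp a ≤ 2 ^ ((L + 1) * u) := by
  have h1 : a.size ≤ L + 1 := Nat.size_le.2 (by omega)
  have h2 : a.size.size ≤ u := Nat.size_le.2 (by omega)
  rw [qp, pow_mul]
  exact (Nat.pow_le_pow_left h _).trans (Nat.pow_le_pow_right (by positivity) h2)

/-- the relations between the length `n` and the parameters -/
structure Hyp (n : ℕ) (p : Par) : Prop where
  h1 : p.d ^ 2 * p.u * (p.g + 1) ≤ n.size
  h2 : n.size < p.d ^ 2 * p.u * (p.g + 2)
  h3 : p.u ≤ p.g + 1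
  h4 : p.g ≤ p.u ^ 2
  h5 : p.u ^ 5 ≤ p.d
  h6 : 2 * n.size ≤ 2 ^ p.u
  h7 : 0 < p.A
  h8 : p.A ≤ 2 ^ (p.u * p.u)
  h9 : 2 ^ p.b ≤ 2 * p.Ns
  h10 : p.Ns ≤ 2 ^ p.b
  h11 : p.B = n / (p.b * (p.Lp / 2) * (p.Ns / 2)) + 1
  h12 : 10 ^ 15 ≤ p.u

namespace Hyp
variable {n : ℕ} {p : Par} (h : Hyp n p)
include h

theorem g_ge : 10 ^ 14 ≤ p.g := by have := h.h3; have := h.h12; omega

theorem u_le : p.u ≤ p.d := (Nat.le_self_pow (by omega) _).trans h.h5

omit h in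
theorem b_eq : p.b = p.d ^ 2 * p.u * p.g := by rw [p.b_eq, p.L_eq, p.K_eq]; ring

theorem b1 : p.b + p.d ^ 2 * p.u ≤ n.size := by have := h.h1; rw [b_eq]; linarith

theorem b2 : n.size < p.b + 2 * (p.d ^ 2 * p.u) := by have := h.h2; rw [b_eq]; linarith

theorem e_ge : p.u ≤ p.d ^ 2 * p.u :=
  Nat.le_mul_of_pos_left _ (pow_pos (by have := h.u_le; have := h.h12; omega) _)

theorem b_ge : 10 ^ 14 * (p.d ^ 2 * p.u) ≤ p.b := by
  rw [b_eq, mul_comm]; exact Nat.mul_le_mul_left _ h.g_ge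

theorem L_ge : 2 * p.u ≤ p.L := by
  have h1 := h.g_ge
  have h2 := h.u_le
  have h3 := h.h12
  rw [p.L_eq, p.K_eq]
  calc 2 * p.u ≤ p.g * p.u := Nat.mul_le_mul_right _ (by omega)
    _ ≤ _ := Nat.le_mul_of_pos_left _ (by omega)

theorem L_le : p.L ≤ p.d * p.u ^ 3 := by
  rw [p.L_eq, p.K_eq]
  exact Nat.mul_le_mul_left _ ((Nat.mul_le_mul_right _ h.h4).trans_eq (by ring))

theorem L_le_b : p.L ≤ p.b := by
  rw [p.b_eq]; exact Nat.le_mul_of_pos_left _ (by have := h.u_le; have := h.h12; omega)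

theorem d_le_L : p.d ≤ p.L := by
  rw [p.L_eq, p.K_eq]
  exact Nat.le_mul_of_pos_right _ (Nat.mul_pos (by have := h.g_ge; omega)
    (by have := h.h12; omega))

theorem two_n : 2 ^ n.size ≤ 2 * n := by
  have h1 := h.b1
  have h2 := h.e_ge
  have h3 := h.h12
  have := Nat.lt_size.1 (show n.size - 1 < n.size by omega)
  rw [show n.size = n.size - 1 + 1 by omega, pow_succ]; omega

theorem N_le : p.N ≤ 3 * (p.Lp * 2 ^ p.b) := by
  have h1 : p.u * p.D ≤ 2 ^ p.g := by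
    have a1 : p.u * p.D ≤ n.size := by
      have := h.g_ge
      have a2 : p.d ≤ p.d * p.d := Nat.le_mul_self _
      calc p.u * p.D ≤ p.u * (2 * (p.d * p.d)) := by rw [p.D_eq]; gcongr; omega
        _ = p.d ^ 2 * p.u * 2 := by ring
        _ ≤ p.d ^ 2 * p.u * (p.g + 1) := by gcongr; omega
        _ ≤ _ := h.h1
    have a3 : 2 ^ p.u ≤ 2 ^ (p.g + 1) := Nat.pow_le_pow_right (by omega) h.h3
    have := h.h6
    rw [pow_succ] at a3; omega
  have h2 := succ_pow_le (Nat.two_pow_pos _) h1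
  rw [Par.N, Par.R, Par.Q, ← pow_mul, Par.Lp]
  calc p.w * (2 ^ p.g + 1) ^ (p.u * p.D) ≤ p.w * (3 * (2 ^ p.g) ^ (p.u * p.D)) := by gcongr
    _ = _ := by rw [p.b_eq, p.D_eq, p.L_eq, p.K_eq]; ring

theorem Lp_eq : p.Lp = 2 * (p.Lp / 2) := by
  have h1 := h.L_ge
  have h2 := h.h12
  have : 2 ∣ p.Lp := Dvd.dvd.mul_left (dvd_pow_self 2 (by omega)) _
  omega

theorem Lp_pos : 0 < p.Lp := Nat.mul_pos (Nat.mul_pos h.h7 (by positivity)) (by positivity)

theorem b_pos : 10 ≤ p.b := by have := h.L_ge; have := h.L_le_b; have := h.h12; omega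

theorem Ns_ge : 2 ^ p.b ≤ 6 * (p.Ns / 2) := by
  have h1 := h.h9
  have h2 : 2 ^ 10 ≤ 2 ^ p.b := Nat.pow_le_pow_right (by omega) h.b_pos
  omega

theorem X_pos : 0 < p.b * (p.Lp / 2) * (p.Ns / 2) := by
  have h1 := h.Lp_eq
  have h2 := h.Lp_pos
  have h3 := h.Ns_ge
  have h4 := h.b_pos
  have h5 := Nat.two_pow_pos p.b
  exact Nat.mul_pos (Nat.mul_pos (by omega) (by omega)) (by omega)

theorem expo : (p.L + 1) * p.u + (p.u + (p.u * p.u + p.d + p.L) + p.b) + 1 ≤ n.size := by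
  have h1 := h.b1
  have h2 := h.L_le
  have h3 := h.h5
  have h4 := h.h12
  have h5 := h.u_le
  have h6 := h.d_le_L
  have a1 : p.L * p.u ≤ p.d * p.u ^ 4 := (Nat.mul_le_mul_right _ h2).trans_eq (by ring)
  have a2 : p.L ≤ p.L * p.u := Nat.le_mul_of_pos_right _ (by omega)
  have a3 : p.u * p.u ≤ p.L * p.u := Nat.mul_le_mul_right _ (by omega)
  have a4 : p.d * p.u ^ 4 * 10 ≤ p.d ^ 2 * p.u :=
    calc p.d * p.u ^ 4 * 10 ≤ p.d * p.u ^ 4 * p.u := by gcongr; omega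
      _ = p.d * p.u ^ 5 * 1 := by ring
      _ ≤ p.d * p.d * p.u := by gcongr; omega
      _ = _ := by ring
  rw [add_mul, one_mul]; omega

theorem size_lt : n.size < 2 ^ p.u := by
  have := h.h6; have := Nat.two_pow_pos p.u; omega

theorem X_le : 2 ^ ((p.L + 1) * p.u) * (p.b * (p.Lp / 2) * (p.Ns / 2)) ≤ n := by
  have a1 : p.b ≤ 2 ^ p.u := by have := h.b1; have := h.size_lt; omega
  have a2 : p.Lp / 2 ≤ 2 ^ (p.u * p.u + p.d + p.L) := by
    refine (Nat.div_le_self _ _).trans ?_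
    rw [Par.Lp, Par.w, pow_add, pow_add]
    have := h.h8
    gcongr
  have a3 : p.Ns / 2 ≤ 2 ^ p.b := (Nat.div_le_self _ _).trans h.h10
  have a4 := Nat.pow_le_pow_right (show 0 < 2 by omega) h.expo
  have a5 := h.two_n
  have a6 : 2 ^ ((p.L + 1) * p.u) * (p.b * (p.Lp / 2) * (p.Ns / 2)) ≤
      2 ^ ((p.L + 1) * p.u) * (2 ^ p.u * 2 ^ (p.u * p.u + p.d + p.L) * 2 ^ p.b) := by gcongr
  rw [← pow_add, ← pow_add, ← pow_add] at a6
  rw [pow_succ] at a4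
  omega

theorem B_ge : 2 ^ ((p.L + 1) * p.u) ≤ p.B := by
  rw [h.h11]
  exact ((Nat.le_div_iff_mul_le h.X_pos).2 h.X_le).trans (Nat.le_succ _)

theorem lt_BX : n < p.B * (p.b * (p.Lp / 2) * (p.Ns / 2)) := by
  rw [h.h11, mul_comm]; exact Nat.lt_mul_div_succ _ h.X_pos

theorem BX_le : p.B * (p.b * (p.Lp / 2) * (p.Ns / 2)) ≤ 2 * n := by
  have a1 := Nat.div_mul_le_self n (p.b * (p.Lp / 2) * (p.Ns / 2))
  have a2 := (Nat.le_mul_of_pos_left _ (Nat.two_pow_pos _)).trans h.X_le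
  rw [h.h11, add_mul]; omega

theorem cover : n ≤ p.b * (p.La / 2) * (p.Ns / 2) := by
  have e : p.La / 2 = p.B * (p.Lp / 2) := by
    rw [Par.La]
    conv_lhs => rw [h.Lp_eq, mul_left_comm, Nat.mul_div_cancel_left _ (by omega)]
  rw [e]
  exact h.lt_BX.le.trans_eq (by ring)

theorem Y_le : p.b * p.La * 2 ^ p.b ≤ 24 * n :=
  calc p.b * p.La * 2 ^ p.b ≤ p.b * (p.B * (2 * (p.Lp / 2))) * (6 * (p.Ns / 2)) := by
        rw [← h.Lp_eq]; have := h.Ns_ge; unfold Par.La; gcongr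
    _ = 12 * (p.B * (p.b * (p.Lp / 2) * (p.Ns / 2))) := by ring
    _ ≤ _ := by have := h.BX_le; omega

theorem bLa_le : 42000 * (p.b * p.La) + 2 ≤ 2 ^ (3 * (p.d ^ 2 * p.u)) := by
  have a1 := h.Y_le
  have a2 := Nat.lt_size_self n
  have a3 := Nat.pow_le_pow_right (show 0 < 2 by omega) h.b2.le
  have a4 : p.b * p.La * 2 ^ p.b ≤ 32 * 2 ^ (2 * (p.d ^ 2 * p.u)) * 2 ^ p.b := by
    rw [pow_add] at a3; nlinarith
  have a5 := Nat.le_of_mul_le_mul_right a4 (Nat.two_pow_pos _)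
  have a6 : 2 ^ 22 ≤ 2 ^ (p.d ^ 2 * p.u) :=
    Nat.pow_le_pow_right (by omega) (by have := h.e_ge; have := h.h12; omega)
  have a7 := Nat.two_pow_pos (2 * (p.d ^ 2 * p.u))
  rw [show 3 * (p.d ^ 2 * p.u) = p.d ^ 2 * p.u + 2 * (p.d ^ 2 * p.u) by ring, pow_add]
  have := Nat.mul_le_mul_right (2 ^ (2 * (p.d ^ 2 * p.u))) a6
  omega

omit h in
theorem qLa_eq : 6 * p.q * p.La = 42000 * (p.b * p.La) := by rw [p.q_eq]; ring

theorem La_le : p.La ≤ 2 ^ p.b := by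
  have a1 := h.bLa_le
  have a2 : p.La ≤ p.b * p.La := Nat.le_mul_of_pos_left _ (by have := h.b_pos; omega)
  have a3 : 2 ^ (3 * (p.d ^ 2 * p.u)) ≤ 2 ^ p.b :=
    Nat.pow_le_pow_right (by omega) (by have := h.b_ge; omega)
  omega

theorem qLa_lt : 6 * p.q * p.La < n := by
  have a1 := h.bLa_le
  have a2 : 2 ^ (3 * (p.d ^ 2 * p.u) + 1) ≤ 2 ^ n.size := Nat.pow_le_pow_right (by omega)
    (by have := h.b_ge; have := h.b1; have := h.e_ge; have := h.h12; omega)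
  have a3 := h.two_n
  rw [pow_succ] at a2
  rw [qLa_eq]; omega

theorem B_pos : 0 < p.B := by rw [h.h11]; exact Nat.succ_pos _

theorem La_pos : 0 < p.La := Nat.mul_pos h.B_pos h.Lp_pos

theorem q_lt : 2 * p.q + 2 < n := by
  have a1 := h.qLa_lt
  have a2 : 6 * p.q ≤ 6 * p.q * p.La := Nat.le_mul_of_pos_right _ h.La_pos
  have a3 := h.b_pos
  have a4 := p.q_eq
  omega

theorem NB_le : p.N * p.B * p.b ≤ 72 * n :=
  calc p.N * p.B * p.b ≤ 3 * (p.Lp * 2 ^ p.b) * p.B * p.b := by have := h.N_le; gcongr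
    _ = 3 * (p.b * p.La * 2 ^ p.b) := by rw [Par.La]; ring
    _ ≤ _ := by have := h.Y_le; omega

theorem big_le : 14004 * n.size ≤ 2 ^ (2 * p.u) := by
  have a1 := h.size_lt
  have a2 : 14004 ≤ 2 ^ p.u := by
    have := h.h12; have := (Nat.lt_two_pow_self (n := p.u)); omega
  rw [two_mul, pow_add]
  exact Nat.mul_le_mul a2 a1.le

theorem qp_bound {a : ℕ} (ha : a + 2 ≤ 14004 * n.size) :
    qp (a + 2 ^ p.L) ≤ 2 ^ ((p.L + 1) * p.u) := by
  have a1 := h.big_le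
  have a2 := Nat.pow_le_pow_right (show 0 < 2 by omega) h.L_ge
  refine qp_le (by rw [pow_succ]; omega) ?_
  have := h.size_lt
  have := h.L_le_b
  have := h.b1
  have := h.e_ge
  have := h.h12
  omega

theorem qp_B : qp (p.N.size + p.q + 2 ^ p.L) ≤ p.B := by
  refine (h.qp_bound ?_).trans h.B_ge
  have a1 : p.N ≤ p.N * p.B * p.b := by
    rw [mul_assoc]
    exact Nat.le_mul_of_pos_right _ (Nat.mul_pos h.B_pos (by have := h.b_pos; omega))
  have a2 : p.N.size ≤ n.size + 7 := Nat.size_le.2 (by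
    have := h.NB_le; have := Nat.lt_size_self n; rw [pow_add]; omega)
  have := p.q_eq
  have := h.b1
  have := h.b_pos
  omega

theorem qp_n : qp (n.size + 2 ^ p.L) ≤ n := by
  refine (h.qp_bound ?_).trans ((Nat.le_mul_of_pos_right _ h.X_pos).trans h.X_le)
  have := h.b1
  have := h.b_pos
  omega

end Hyp

end Vale.Agent.P338
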