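import Vale.Agent.P338.ParA

/-! Module G, second part: the real estimates. -/

namespace Vale.Agent.P338

theorem logb_le {m k : ℕ} (h : m + 2 ≤ 2 ^ k) : Real.logb 2 (m + 2) ≤ k := by
  rw [Real.logb_le_iff_le_rpow (by norm_num) (by positivity), Real.rpow_natCast]
  exact_mod_cast h

theorem one_le_logb (m : ℕ) : 1 ≤ Real.logb 2 (m + 2) := by
  rw [Real.le_logb_iff_rpow_le (by norm_num) (by positivity), Real.rpow_one]
  linarith [Nat.cast_nonneg (α := ℝ) m]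

theorem tau_le {κ : ℝ} {m k : ℕ} (hκ : κ ≤ 1) (h : m + 2 ≤ 2 ^ k) :
    tau κ m ≤ (m + 1) * (k : ℝ) ^ (1 - κ) := by
  have := one_le_logb m
  have := logb_le h
  unfold tau
  gcongr

namespace Hyp
variable {n : ℕ} {p : Par} (h : Hyp n p) {κ γ : ℝ} {J j : ℕ}
include h

theorem size_le : (n.size : ℝ) ≤ 2 * Real.logb 2 (n + 2) := by
  have a1 := h.two_n
  have a2 := one_le_logb n
  have a3 : (n.size : ℝ) - 1 ≤ Real.logb 2 (n + 2) := by
    rw [Real.le_logb_iff_rpow_le (by norm_num) (by positivity), Real.rpow_sub_one (by norm_num),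
      Real.rpow_natCast]
    have : (2 : ℝ) ^ n.size ≤ 2 * n := by exact_mod_cast a1
    linarith
  linarith

theorem T_ge (h0 : 0 < κ) (h1 : κ ≤ 1) (hγ : 1 ≤ γ) (hu : p.u = mm ^ J)
    (hκ : (n.size : ℝ) ^ κ * γ ^ (J + 1) ≤ mm ^ (J + 1)) :
    n.size * γ ^ J ≤ 2 * mm * p.u * Real.logb 2 (n + 2) ^ (1 - κ) := by
  have hβ : (0 : ℝ) < n.size := by
    have := h.b1; have := h.b_pos; exact_mod_cast (by omega)
  have a1 : ((n.size : ℝ) / 2) ^ (1 - κ) ≤ Real.logb 2 (n + 2) ^ (1 - κ) := by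
    have := h.size_le
    gcongr
    linarith
  have a2 : ((n.size : ℝ) / 2) ^ κ ≤ n.size ^ κ := by gcongr; linarith
  have a3 : ((n.size : ℝ) / 2) ^ (1 - κ) * (n.size / 2) ^ κ = n.size / 2 := by
    rw [← Real.rpow_add (by positivity)]; simp
  have a4 : γ ^ J ≤ γ ^ (J + 1) := pow_le_pow_right₀ hγ (by omega)
  have a5 : (0 : ℝ) ≤ ((n.size : ℝ) / 2) ^ (1 - κ) := by positivity
  calc n.size * γ ^ J = 2 * (((n.size : ℝ) / 2) ^ (1 - κ) * (n.size / 2) ^ κ * γ ^ J) := by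
        rw [a3]; ring
    _ ≤ 2 * (Real.logb 2 (n + 2) ^ (1 - κ) * (n.size ^ κ * γ ^ (J + 1))) := by
        rw [mul_assoc]; gcongr; exact a5.trans a1
    _ ≤ 2 * (Real.logb 2 (n + 2) ^ (1 - κ) * mm ^ (J + 1)) := by gcongr; exact a5.trans a1
    _ = _ := by rw [hu]; push_cast; ring

theorem cT_le (hγ : 1 ≤ γ) (hj : j ≤ p.u ^ 2) (hd : (p.u : ℝ) ^ 5 * γ ^ j ≤ p.d) :
    p.u * cT γ J j p ≤ 6 * (n.size * γ ^ J) := by
  have a1 : ((p.d : ℝ) ^ 2 * p.u * (p.g + 1)) ≤ n.size := by exact_mod_cast h.h1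
  have a2 : (p.g : ℝ) ≤ p.u ^ 2 := by exact_mod_cast h.h4
  have a3 : (j : ℝ) ≤ p.u ^ 2 := by exact_mod_cast hj
  have a4 : (1 : ℝ) ≤ p.u := by have := h.h12; exact_mod_cast (by omega)
  have a5 : 1 ≤ γ ^ J := one_le_pow₀ hγ
  have a6 : (p.L : ℝ) = p.d * (p.g * p.u) := by rw [p.L_eq, p.K_eq]; push_cast; ring
  have a7 : (p.u : ℝ) ≤ p.u ^ 5 := le_self_pow₀ a4 (by omega)
  have b1 : p.L * (j * (p.g + 2) * γ ^ (J + j)) ≤ p.d ^ 2 * (p.g + 2) * γ ^ J :=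
    calc p.L * (j * (p.g + 2) * γ ^ (J + j)) =
          p.d * (p.g + 2) * γ ^ J * (p.g * p.u * j * γ ^ j) := by rw [a6]; ring
      _ ≤ p.d * (p.g + 2) * γ ^ J * (p.u ^ 2 * p.u * p.u ^ 2 * γ ^ j) := by gcongr
      _ = p.d * (p.g + 2) * γ ^ J * (p.u ^ 5 * γ ^ j) := by ring
      _ ≤ p.d * (p.g + 2) * γ ^ J * p.d := by gcongr
      _ = _ := by ring
  have b2 : p.L * γ ^ j ≤ p.d ^ 2 * (p.g + 2) * γ ^ J :=
    calc p.L * γ ^ j = p.d * p.g * 1 * (p.u * γ ^ j) := by rw [a6]; ring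
      _ ≤ p.d * (p.g + 2) * γ ^ J * (p.u ^ 5 * γ ^ j) := by gcongr; linarith
      _ ≤ p.d * (p.g + 2) * γ ^ J * p.d := by gcongr
      _ = _ := by ring
  calc p.u * cT γ J j p ≤ p.u * (3 * (p.d ^ 2 * (p.g + 2) * γ ^ J)) := by
        unfold cT; gcongr; linarith
    _ ≤ p.u * (3 * (p.d ^ 2 * (2 * (p.g + 1)) * γ ^ J)) := by
        gcongr; linarith [Nat.cast_nonneg (α := ℝ) p.g]
    _ = 6 * (p.d ^ 2 * p.u * (p.g + 1) * γ ^ J) := by ring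
    _ ≤ _ := by gcongr

theorem uT_le (hγ : 1 ≤ γ) (hj : j ≤ p.u ^ 2) (hd : (p.u : ℝ) ^ 5 * γ ^ j ≤ p.d)
    (hT : n.size * γ ^ J ≤ 2 * mm * p.u * Real.logb 2 (n + 2) ^ (1 - κ)) :
    uT γ J j p ≤ 12 * mm * (7001 * 72) * tau κ n := by
  have a4 : (0 : ℝ) < p.u := by have := h.h12; exact_mod_cast (by omega)
  have a0 : 0 ≤ Real.logb 2 (n + 2) ^ (1 - κ) := by have := one_le_logb n; positivity
  have a1 : cT γ J j p ≤ 12 * mm * Real.logb 2 (n + 2) ^ (1 - κ) := by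
    have := h.cT_le (J := J) hγ hj hd
    exact le_of_mul_le_mul_left (by linarith) a4
  have a2 : p.N * (p.B * (p.q + 1)) ≤ 7001 * 72 * (n + 1) := by
    have a3 := h.NB_le
    have a5 : p.N * (p.B * (p.q + 1)) ≤ p.N * (p.B * (7001 * p.b)) := by
      have := h.b_pos; have := p.q_eq; gcongr; omega
    rw [show p.N * (p.B * (7001 * p.b)) = 7001 * (p.N * p.B * p.b) by ring] at a5
    omega
  have a3 : (p.N : ℝ) * (p.B * (p.q + 1)) ≤ 7001 * 72 * (n + 1) := by exact_mod_cast a2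
  calc uT γ J j p ≤ 12 * mm * Real.logb 2 (n + 2) ^ (1 - κ) * (7001 * 72 * (n + 1)) := by
        unfold uT; gcongr
    _ = _ := by unfold tau; ring

theorem small1 (h0 : 0 < κ) (h1 : κ ≤ 1) (hγ : 1 ≤ γ)
    (hT : n.size * γ ^ J ≤ 2 * mm * p.u * Real.logb 2 (n + 2) ^ (1 - κ)) :
    100 * (p.L + p.d + 1) * (p.N * (p.B * tau κ (2 * p.q + 2))) ≤ tau κ n / 4 := by
  have hu := h.h12
  have a4 : (1 : ℝ) ≤ p.u := by exact_mod_cast (by omega)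
  have a0 : 0 ≤ Real.logb 2 (n + 2) ^ (1 - κ) := by have := one_le_logb n; positivity
  have a1 : tau κ (2 * p.q + 2) ≤ (14003 * p.b * (2 * p.u) : ℕ) := by
    have b1 := h.big_le
    have b2 := h.b1
    have b3 := h.b_pos
    have b4 := p.q_eq
    refine (tau_le h1 (k := 2 * p.u) (by omega)).trans ?_
    have b5 : ((2 * p.u : ℕ) : ℝ) ^ (1 - κ) ≤ (2 * p.u : ℕ) :=
      Real.rpow_le_self_of_one_le (by push_cast; linarith) (by linarith)
    have b6 : ((2 * p.q + 2 : ℕ) : ℝ) + 1 ≤ (14003 * p.b : ℕ) := by exact_mod_cast (by omega)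
    rw [Nat.cast_mul (14003 * p.b)]
    gcongr
  have a2 : 100 * (p.L + p.d + 1) * (p.N * (p.B * (14003 * p.b * (2 * p.u)))) * (8 * mm * p.u) ≤
      (n + 1) * n.size := by
    have b1 := h.d_le_L
    have b2 := h.L_ge
    have b3 := h.NB_le
    have b4 := h.h5
    have b5 : p.b ≤ n.size := by have := h.b1; omega
    have b6 : 300 * 28006 * 72 * 8 * mm ≤ p.u ^ 3 :=
      le_trans (by unfold mm; omega) (Nat.le_self_pow (by omega) _)
    calc _ ≤ 100 * (3 * p.L) * (p.N * (p.B * (14003 * p.b * (2 * p.u)))) * (8 * mm * p.u) := by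
          gcongr; omega
      _ = 300 * 28006 * 8 * mm * p.u ^ 2 * p.L * (p.N * p.B * p.b) := by ring
      _ ≤ 300 * 28006 * 8 * mm * p.u ^ 2 * p.L * (72 * (n + 1)) :=
          Nat.mul_le_mul_left _ (by omega)
      _ = (n + 1) * (300 * 28006 * 72 * 8 * mm * p.u ^ 2 * p.L) := by ring
      _ ≤ (n + 1) * (p.u ^ 3 * p.u ^ 2 * p.L) := by gcongr
      _ ≤ (n + 1) * (p.d * p.L) := by rw [← pow_add]; gcongr
      _ ≤ _ := by rw [← p.b_eq]; gcongr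
  have a3 : (n.size : ℝ) ≤ 2 * mm * p.u * Real.logb 2 (n + 2) ^ (1 - κ) :=
    (le_mul_of_one_le_right (by positivity) (one_le_pow₀ hγ)).trans hT
  have a5 : (0 : ℝ) < 8 * mm * p.u := by unfold mm; positivity
  refine le_of_mul_le_mul_right ?_ a5
  calc _ ≤ 100 * (p.L + p.d + 1) * (p.N * (p.B * (14003 * p.b * (2 * p.u) : ℕ))) *
        (8 * mm * p.u : ℝ) := by gcongr
    _ ≤ (n + 1) * n.size := by exact_mod_cast a2
    _ ≤ (n + 1) * (2 * mm * p.u * Real.logb 2 (n + 2) ^ (1 - κ)) := by gcongr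
    _ = _ := by unfold tau; ring

theorem small2 (h1 : κ ≤ 1 / 2) : p.Ns * tau κ (6 * p.q * p.La) ≤ tau κ n / 4 := by
  have hu := h.h12
  have a1 := tau_le (κ := κ) (m := 6 * p.q * p.La) (by linarith) (qLa_eq ▸ h.bLa_le)
  have a2 : p.Ns * (6 * p.q * p.La + 1) ≤ 42001 * 24 * (n + 1) := by
    have b1 := h.Y_le
    have b2 := h.h10
    have b3 : 0 < p.b * p.La := Nat.mul_pos (by have := h.b_pos; omega) h.La_pos
    calc _ ≤ 2 ^ p.b * (42001 * (p.b * p.La)) := by rw [qLa_eq]; gcongr; omega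
      _ = 42001 * (p.b * p.La * 2 ^ p.b) := by ring
      _ ≤ _ := by omega
  have a3 : 3 * (p.d ^ 2 * p.u) * 4032096 ^ 2 * 2 ≤ n.size :=
    calc _ = p.d ^ 2 * p.u * (6 * 4032096 ^ 2) := by ring
      _ ≤ p.d ^ 2 * p.u * (p.g + 1) := by have := h.h3; gcongr; omega
      _ ≤ _ := h.h1
  have a4 : ((3 * (p.d ^ 2 * p.u) : ℕ) : ℝ) * 4032096 ^ 2 ≤ Real.logb 2 (n + 2) := by
    have b1 := h.size_le
    have b2 : ((3 * (p.d ^ 2 * p.u) : ℕ) : ℝ) * 4032096 ^ 2 * 2 ≤ n.size := by exact_mod_cast a3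
    linarith
  have a5 : (4032096 : ℝ) ≤ (4032096 ^ 2) ^ (1 - κ) := by
    rw [← Real.rpow_natCast, ← Real.rpow_mul (by norm_num)]
    exact Real.self_le_rpow_of_one_le (by norm_num) (by push_cast; linarith)
  have a6 : ((3 * (p.d ^ 2 * p.u) : ℕ) : ℝ) ^ (1 - κ) * 4032096 ≤
      Real.logb 2 (n + 2) ^ (1 - κ) :=
    calc _ ≤ ((3 * (p.d ^ 2 * p.u) : ℕ) : ℝ) ^ (1 - κ) * (4032096 ^ 2) ^ (1 - κ) := by gcongr
      _ = (((3 * (p.d ^ 2 * p.u) : ℕ) : ℝ) * 4032096 ^ 2) ^ (1 - κ) :=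
        (Real.mul_rpow (by positivity) (by positivity)).symm
      _ ≤ _ := by gcongr; linarith
  have a7 : (p.Ns : ℝ) * ((6 * p.q * p.La : ℕ) + 1) ≤ 42001 * 24 * (n + 1) := by exact_mod_cast a2
  calc _ ≤ p.Ns * ((((6 * p.q * p.La : ℕ) : ℝ) + 1) * ((3 * (p.d ^ 2 * p.u) : ℕ) : ℝ) ^ (1 - κ)) := by
        gcongr
    _ ≤ 42001 * 24 * (n + 1) * ((3 * (p.d ^ 2 * p.u) : ℕ) : ℝ) ^ (1 - κ) := by
        rw [← mul_assoc]; gcongr
    _ = (n + 1) * (((3 * (p.d ^ 2 * p.u) : ℕ) : ℝ) ^ (1 - κ) * 4032096) / 4 := by ring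
    _ ≤ _ := by unfold tau; gcongr

end Hyp

end Vale.Agent.P338
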