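import Vale.Agent.P338.Prog

/-! Primitive linear-time programs on codes of lists. -/

namespace Vale.Agent.P338

open Function
open Vale.Agent.Lib.H24.T (scons W Tr ser serB update_scons_succ update_scons_zero scons_nil
  W0 W1 W2 W3 uW0 uW1 uW2 uW3 Enc enc code sz code_pair code_cons code_nil code_bool)

/-- A window of six stacks. -/
def W6 (a b c d e f : List Bool) : ℕ → List Bool := scons a (scons b (W c d e f))

section
variable (a b c d e f x : List Bool)
@[simp] theorem g0 : W6 a b c d e f 0 = a := rfl
@[simp] theorem g1 : W6 a b c d e f 1 = b := rfl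
@[simp] theorem g2 : W6 a b c d e f 2 = c := rfl
@[simp] theorem g3 : W6 a b c d e f 3 = d := rfl
@[simp] theorem g4 : W6 a b c d e f 4 = e := rfl
@[simp] theorem g5 : W6 a b c d e f 5 = f := rfl
@[simp] theorem u0 : update (W6 a b c d e f) 0 x = W6 x b c d e f := update_scons_zero _ _ _
@[simp] theorem u1 : update (W6 a b c d e f) 1 x = W6 a x c d e f := by
  unfold W6; rw [update_scons_succ, update_scons_zero]
@[simp] theorem u2 : update (W6 a b c d e f) 2 x = W6 a b x d e f := by
  unfold W6; rw [update_scons_succ, update_scons_succ, uW0]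
@[simp] theorem u3 : update (W6 a b c d e f) 3 x = W6 a b c x e f := by
  unfold W6; rw [update_scons_succ, update_scons_succ, uW1]
@[simp] theorem u4 : update (W6 a b c d e f) 4 x = W6 a b c d x f := by
  unfold W6; rw [update_scons_succ, update_scons_succ, uW2]
@[simp] theorem u5 : update (W6 a b c d e f) 5 x = W6 a b c d e x := by
  unfold W6; rw [update_scons_succ, update_scons_succ, uW3]
theorem W_eq : W a [] [] [] = W6 a [] [] [] [] [] := by
  simp only [W6, W, scons_nil]
end

variable {s : Prog}

/-- shift by five stacks -/
def Prog.up5 (p : Prog) : Prog := p.up.up.up.up.up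

theorem Run.s5 {p x y t} (h : Run s p x y t) (a b c d e) :
    Tri s p.up5 (W6 a b c d e x) (W6 a b c d e y) t := by
  have := Tri.up a (Tri.up b (Tri.up c (Tri.up d (Tri.up e h))))
  simp only [W, scons_nil] at this
  simp only [W6, W]
  exact this

theorem Run.of6 {p x y t} (h : Tri s p (W6 x [] [] [] [] []) (W6 y [] [] [] [] []) t) :
    Run s p x y t := by
  unfold Run; rwa [W_eq, W_eq]

/-- move, reversing -/
def mv (a b : ℕ) : Prog := emb (Vale.Agent.Lib.H24.T.mv a b)
/-- clear -/
def clr (a : ℕ) : Prog := emb (Vale.Agent.Lib.H24.T.clr a)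
/-- move one tree, reversing, using stack 3 as counter -/
def cp (a b : ℕ) : Prog := .seq (.push 3 true) (emb (Vale.Agent.Lib.H24.T.cpt a b 3))

theorem Tri.mv {a b : ℕ} (hab : a ≠ b) (S : ℕ → List Bool) :
    Tri s (mv a b) S (update (update S a []) b ((S a).reverse ++ S b)) ((S a).length + 1) :=
  Tri.emb (Vale.Agent.Lib.H24.T.Tri.mv hab _ S rfl)

theorem Tri.clr (a : ℕ) (S : ℕ → List Bool) :
    Tri s (clr a) S (update S a []) ((S a).length + 1) :=
  Tri.emb (Vale.Agent.Lib.H24.T.Tri.clr _ S rfl)

theorem Tri.cp {α : Type} [Enc α] {a b : ℕ} (hab : a ≠ b) (ha : a ≠ 3) (hb : b ≠ 3) (x : α)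
    (rest : List Bool) (S : ℕ → List Bool) (h : S a = code x ++ rest) (h3 : S 3 = []) :
    Tri s (cp a b) S (update (update S a rest) b ((code x).reverse ++ S b)) (sz x + 1) := by
  have e := Vale.Agent.Lib.H24.T.Tri.cpt hab ha hb rest _ [enc x] (update S 3 [true]) rfl
    (by simpa [ha, code] using h) (by simp)
  refine (((Tri.push 3 true S).seq (Tri.emb (h3 ▸ e))).mono (by simp [sz, code])).cast rfl ?_
  funext j
  by_cases h1 : j = a <;> by_cases h2 : j = b <;> by_cases h4 : j = 3 <;>
    simp_all [code, hab.symm, ha.symm, hb.symm]

variable {α β σ : Type} [Enc α] [Enc β] [Enc σ]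

/-- the code of a list without the final symbol -/
def body (l : List α) : List Bool := l.flatMap fun a => true :: code a

theorem code_eq_body (l : List α) : code l = body l ++ [false] := by
  induction l with
  | nil => rfl
  | cons a l ih => simp [code_cons, ih, body]

theorem body_append (l l' : List α) : body (l ++ l') = body l ++ body l' := by simp [body]
theorem body_cons (a : α) (l : List α) : body (a :: l) = true :: (code a ++ body l) := by
  simp [body]
theorem body_nil : body ([] : List α) = [] := rfl

theorem len_code (a : α) : (code a).length = sz a := rfl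

theorem len_body (l : List α) : (body l).length + 1 = sz l := by
  rw [← len_code, code_eq_body]; simp

/-- The pairing program. -/
def pairP (p q : Prog) : Prog :=
  .seq (emb (Vale.Agent.Lib.H24.T.dup 0 1 2)) (.seq (mv 2 5) (.seq q.up5 (.seq (mv 5 2)
    (.seq (mv 2 0) (.seq (mv 1 5) (.seq p.up5 (.seq (mv 5 1) (.seq (mv 1 0) (.push 0 true)))))))))

theorem Run.pair {p q x y z t t'} (h : Run s p x y t) (h' : Run s q x z t') :
    Run s (pairP p q) x (true :: (y ++ z))
      (t + t' + 3 * x.length + 2 * y.length + 2 * z.length + 7) := by
  have e1 := Tri.emb (s := s) (Vale.Agent.Lib.H24.T.Tri.dup (a := 0) (b := 1) (c := 2) (by omega)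
    (by omega) (by omega) x (W6 x [] [] [] [] []) rfl)
  have e2 := Tri.mv (s := s) (a := 2) (b := 5) (by omega) (W6 [] x.reverse x.reverse [] [] [])
  have e3 := h'.s5 [] x.reverse [] [] []
  have e4 := Tri.mv (s := s) (a := 5) (b := 2) (by omega) (W6 [] x.reverse [] [] [] z)
  have e5 := Tri.mv (s := s) (a := 2) (b := 0) (by omega) (W6 [] x.reverse z.reverse [] [] [])
  have e6 := Tri.mv (s := s) (a := 1) (b := 5) (by omega) (W6 z x.reverse [] [] [] [])
  have e7 := h.s5 z [] [] [] []
  have e8 := Tri.mv (s := s) (a := 5) (b := 1) (by omega) (W6 z [] [] [] [] y)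
  have e9 := Tri.mv (s := s) (a := 1) (b := 0) (by omega) (W6 z y.reverse [] [] [] [])
  have e10 := Tri.push (s := s) 0 true (W6 (y ++ z) [] [] [] [] [])
  simp only [g0, g1, g2, g5, u0, u1, u2, u5, List.append_nil, List.reverse_reverse,
    List.length_reverse] at e1 e2 e4 e5 e6 e8 e9 e10
  exact Run.of6 ((e1.seq (e2.seq (e3.seq (e4.seq (e5.seq (e6.seq (e7.seq (e8.seq
    (e9.seq e10))))))))).mono (by omega))

/-- branch on a Boolean code on top of stack `x` -/
def bcase (x : ℕ) (p q : Prog) : Prog := brk x (.seq (.pop x) (.seq (.pop x) p)) q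

theorem Tri.bifT {x p q S S' t l} (hx : S x = code true ++ l)
    (h : Tri s p (update S x l) S' t) : Tri s (bcase x p q) S S' t :=
  Tri.brkT (l := false :: false :: l) hx
    (((Tri.pop x _).seq ((Tri.pop x _).seq (h.cast (by simp) rfl))).mono (by omega))

theorem Tri.bifF {x p q S S' t l} (hx : S x = code false ++ l)
    (h : Tri s q (update S x l) S' t) : Tri s (bcase x p q) S S' t :=
  Tri.brkF (l := l) hx h

theorem Run.condT {p q x y t} (h : Run s p x y t) :
    Run s (.seq (.pop 0) (bcase 0 p q)) (true :: (code true ++ x)) y t :=
  ((Tri.pop 0 _).seq (Tri.bifT (l := x) (by simp) (h.cast (by simp) rfl))).mono (by omega)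

theorem Run.condF {p q x y t} (h : Run s q x y t) :
    Run s (.seq (.pop 0) (bcase 0 p q)) (true :: (code false ++ x)) y t :=
  ((Tri.pop 0 _).seq (Tri.bifF (l := x) (by simp) (h.cast (by simp) rfl))).mono (by omega)

/-- append -/
def appendP : Prog := .seq (.pop 0) (.seq (cp 0 4) (.seq (.pop 4) (mv 4 0)))

theorem Run.append (l l' : List α) :
    Run s appendP (code (l, l')) (code (l ++ l')) (2 * sz l + 2) := by
  have e1 := Tri.pop (s := s) 0 (W6 (true :: (code l ++ code l')) [] [] [] [] [])
  have e2 := Tri.cp (s := s) (a := 0) (b := 4) (by omega) (by omega) (by omega) l (code l')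
    (W6 (code l ++ code l') [] [] [] [] []) rfl rfl
  have e3 := Tri.pop (s := s) 4 (W6 (code l') [] [] [] (code l).reverse [])
  have e4 := Tri.mv (s := s) (a := 4) (b := 0) (by omega)
    (W6 (code l') [] [] [] (code l).reverse.tail [])
  simp only [g0, g4, u0, u4, List.append_nil, List.tail_cons] at e1 e2 e3 e4
  refine Run.of6 (((e1.seq (e2.seq (e3.seq e4))).mono ?_).cast rfl ?_)
  · simp [len_code]; omega
  · simp [code_eq_body, body_append]

/-- reverse -/
def reverseP : Prog := .seq (.push 2 false) (.seq (.push 3 true) (.seq
  (.whilePop 3 (brk 0 (.seq (cp 0 4) (.seq (mv 4 2) (.seq (.push 2 true) (.push 3 true)))) .skip))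
  (.seq (mv 2 4) (mv 4 0))))

theorem Run.reverse (l : List α) : Run s reverseP (code l) (code l.reverse) (5 * sz l + 4) := by
  have key : ∀ (l r : List α), Tri s (.whilePop 3 (brk 0 (.seq (cp 0 4) (.seq (mv 4 2)
      (.seq (.push 2 true) (.push 3 true)))) .skip)) (W6 (code l) [] (code r) [true] [] [])
      (W6 [] [] (code (l.reverse ++ r)) [] [] []) (3 * sz l) := by
    intro l
    induction l with
    | nil =>
      intro r
      exact (Tri.whileCons (t := 0) rfl (Tri.brkF (l := []) (by simp [code_nil]) Tri.skip)
        ((Tri.whileNil (by simp)).cast rfl (by simp))).mono (by simp)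
    | cons a l ih =>
      intro r
      have e1 := Tri.cp (s := s) (a := 0) (b := 4) (by omega) (by omega) (by omega) a (code l)
        (W6 (code a ++ code l) [] (code r) [] [] []) rfl rfl
      have e2 := Tri.mv (s := s) (a := 4) (b := 2) (by omega)
        (W6 (code l) [] (code r) [] (code a).reverse [])
      have e3 := Tri.push (s := s) 2 true (W6 (code l) [] (code a ++ code r) [] [] [])
      have e4 := Tri.push (s := s) 3 true (W6 (code l) [] (true :: (code a ++ code r)) [] [] [])
      simp only [g2, g3, g4, u0, u2, u3, u4, List.append_nil, List.reverse_reverse,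
        List.length_reverse, len_code] at e1 e2 e3 e4
      have := Tri.whileCons (x := 3) (S := W6 (code (a :: l)) [] (code r) [true] [] []) rfl
        (Tri.brkT (q := .skip) (l := code a ++ code l) (by simp [code_cons])
          ((e1.seq (e2.seq (e3.seq e4))).cast (by simp) rfl)) (ih (a :: r))
      exact (this.mono (by simp; omega)).cast rfl (by simp)
  have e1 := Tri.push (s := s) 2 false (W6 (code l) [] [] [] [] [])
  have e2 := Tri.push (s := s) 3 true (W6 (code l) [] [false] [] [] [])
  have e3 := key l []
  have e4 := Tri.mv (s := s) (a := 2) (b := 4) (by omega) (W6 [] [] (code l.reverse) [] [] [])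
  have e5 := Tri.mv (s := s) (a := 4) (b := 0) (by omega)
    (W6 [] [] [] [] (code l.reverse).reverse [])
  simp only [g0, g2, g3, g4, u0, u2, u3, u4, List.append_nil, List.reverse_reverse,
    List.length_reverse, len_code, Vale.Agent.Lib.H24.T.sz_reverse] at e1 e2 e3 e4 e5
  exact Run.of6 ((e1.seq (e2.seq (e3.seq (e4.seq e5)))).mono (by omega))

/-- final stage of the stream programs: output on stack 2 -/
def finP : Prog := .seq (clr 0) (.seq (clr 5) (.seq (.push 0 false) (mv 2 0)))

theorem Tri.fin (a f : List Bool) (l : List α) :
    Tri s finP (W6 a [] (body l).reverse [] [] f) (W6 (code l) [] [] [] [] [])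
      (a.length + f.length + sz l + 2) := by
  have e1 := Tri.clr (s := s) 0 (W6 a [] (body l).reverse [] [] f)
  have e2 := Tri.clr (s := s) 5 (W6 [] [] (body l).reverse [] [] f)
  have e3 := Tri.push (s := s) 0 false (W6 [] [] (body l).reverse [] [] [])
  have e4 := Tri.mv (s := s) (a := 2) (b := 0) (by omega) (W6 [false] [] (body l).reverse [] [] [])
  simp only [g0, g2, g5, u0, u2, u5, List.reverse_reverse, List.length_reverse] at e1 e2 e3 e4
  have := len_body l
  exact ((e1.seq (e2.seq (e3.seq e4))).mono (by omega)).cast rfl (by rw [code_eq_body])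

/-- split a pair: first component to stack `x` -/
def splitP (x : ℕ) : Prog := .seq (.pop 0) (.seq (cp 0 4) (mv 4 x))

theorem Tri.split5 (a : α) (r b : List Bool) :
    Tri s (splitP 5) (W6 (true :: (code a ++ r)) b [] [] [] []) (W6 r b [] [] [] (code a))
      (2 * sz a + 2) := by
  have e1 := Tri.pop (s := s) 0 (W6 (true :: (code a ++ r)) b [] [] [] [])
  have e2 := Tri.cp (s := s) (a := 0) (b := 4) (by omega) (by omega) (by omega) a r
    (W6 (code a ++ r) b [] [] [] []) rfl rfl
  have e3 := Tri.mv (s := s) (a := 4) (b := 5) (by omega) (W6 r b [] [] (code a).reverse [])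
  simp only [g0, g4, g5, u0, u4, u5, List.append_nil, List.tail_cons, List.reverse_reverse,
    List.length_reverse, len_code] at e1 e2 e3
  exact (e1.seq (e2.seq e3)).mono (by omega)

theorem Tri.split1 (a : α) (r : List Bool) :
    Tri s (splitP 1) (W6 (true :: (code a ++ r)) [] [] [] [] []) (W6 r (code a) [] [] [] [])
      (2 * sz a + 2) := by
  have e1 := Tri.pop (s := s) 0 (W6 (true :: (code a ++ r)) [] [] [] [] [])
  have e2 := Tri.cp (s := s) (a := 0) (b := 4) (by omega) (by omega) (by omega) a r
    (W6 (code a ++ r) [] [] [] [] []) rfl rfl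
  have e3 := Tri.mv (s := s) (a := 4) (b := 1) (by omega) (W6 r [] [] [] (code a).reverse [])
  simp only [g0, g4, g1, u0, u4, u1, List.append_nil, List.tail_cons, List.reverse_reverse,
    List.length_reverse, len_code] at e1 e2 e3
  exact (e1.seq (e2.seq e3)).mono (by omega)

/-- loop of zip -/
def zipL : Prog := .whilePop 3 (brk 5 (brk 0 (.seq (.push 2 true) (.seq (.push 2 true)
  (.seq (cp 5 2) (.seq (cp 0 2) (.push 3 true))))) .skip) .skip)

/-- zip -/
def zipP : Prog := .seq (splitP 5) (.seq (.push 3 true) (.seq zipL finP))

theorem Run.zip (l : List α) (l' : List β) :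
    Run s zipP (code (l, l')) (code (l.zip l')) (8 * (sz l + sz l') + 6) := by
  have key : ∀ (l : List α) (l' : List β) (o : List Bool), ∃ a f, a.length ≤ sz l' ∧
      f.length ≤ sz l ∧ Tri s zipL (W6 (code l') [] o [true] [] (code l))
      (W6 a [] ((body (l.zip l')).reverse ++ o) [] [] f) (3 * (sz l + sz l')) := by
    intro l
    induction l with
    | nil =>
      intro l' o
      refine ⟨code l', [], le_rfl, by simp, ?_⟩
      have := Vale.Agent.Lib.H24.T.sz_pos l'
      exact (Tri.whileCons (t := 0) rfl (Tri.brkF (l := []) (by simp [code_nil]) Tri.skip)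
        ((Tri.whileNil (by simp)).cast rfl (by simp [body_nil]))).mono (by simp; omega)
    | cons a l ih =>
      intro l' o
      rcases l' with _ | ⟨b, l'⟩
      · refine ⟨[], code a ++ code l, by simp, by simp [len_code], ?_⟩
        exact (Tri.whileCons (t := 0) rfl (Tri.brkT (l := code a ++ code l) (by simp [code_cons])
          (Tri.brkF (l := []) (by simp [code_nil]) Tri.skip))
          ((Tri.whileNil (by simp)).cast rfl (by simp [body_nil]))).mono (by simp; omega)
      · obtain ⟨a', f', h1, h2, h3⟩ := ih l' ((code b).reverse ++ ((code a).reverse ++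
          true :: true :: o))
        refine ⟨a', f', by simp; omega, by simp; omega, ?_⟩
        have e1 := Tri.push (s := s) 2 true (W6 (code b ++ code l') [] o [] [] (code a ++ code l))
        have e2 := Tri.push (s := s) 2 true
          (W6 (code b ++ code l') [] (true :: o) [] [] (code a ++ code l))
        have e3 := Tri.cp (s := s) (a := 5) (b := 2) (by omega) (by omega) (by omega) a (code l)
          (W6 (code b ++ code l') [] (true :: true :: o) [] [] (code a ++ code l)) rfl rfl
        have e4 := Tri.cp (s := s) (a := 0) (b := 2) (by omega) (by omega) (by omega) b (code l')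
          (W6 (code b ++ code l') [] ((code a).reverse ++ true :: true :: o) [] [] (code l)) rfl rfl
        have e5 := Tri.push (s := s) 3 true (W6 (code l') [] ((code b).reverse ++
          ((code a).reverse ++ true :: true :: o)) [] [] (code l))
        simp only [g2, g3, u0, u2, u3, u5] at e1 e2 e3 e4 e5
        have := Tri.whileCons (x := 3)
          (S := W6 (code (b :: l')) [] o [true] [] (code (a :: l))) rfl
          (Tri.brkT (q := .skip) (l := code a ++ code l) (by simp [code_cons])
            (Tri.brkT (q := .skip) (l := code b ++ code l') (by simp [code_cons])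
              ((e1.seq (e2.seq (e3.seq (e4.seq e5)))).cast (by simp) rfl))) h3
        exact (this.mono (by simp; omega)).cast rfl (by simp [body_cons, code_pair])
  obtain ⟨a, f, h1, h2, h3⟩ := key l l' []
  have e1 := Tri.split5 (s := s) l (code l') []
  have e2 := Tri.push (s := s) 3 true (W6 (code l') [] [] [] [] (code l))
  have e4 := Tri.fin (s := s) a f (l.zip l')
  simp only [g3, u3, List.append_nil] at e2 h3
  have hz : ∀ (l : List α) (l' : List β), sz (l.zip l') ≤ sz l + sz l' := by
    intro l
    induction l with
    | nil => intro l'; simp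
    | cons a l ih =>
      intro l'
      rcases l' with _ | ⟨b, l'⟩
      · simp
      · have := ih l'; simp; omega
  have := hz l l'
  exact Run.of6 ((e1.seq (e2.seq (h3.seq e4))).mono (by omega))

/-- merge two lists along a selector -/
def merge : List Bool → List α → List α → List α
  | [], _, _ => []
  | false :: σ, [], l => merge σ [] l
  | false :: σ, a :: k, l => a :: merge σ k l
  | true :: σ, k, [] => merge σ k []
  | true :: σ, k, a :: l => a :: merge σ k l

/-- emit one element of the list on stack `x` -/
def takeP (x : ℕ) : Prog := brk x (.seq (.push 2 true) (cp x 2)) (.push x false)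

/-- loop of merge -/
def mergeL : Prog := .whilePop 3 (brk 1 (.seq (bcase 1 (takeP 0) (takeP 5)) (.push 3 true)) .skip)

/-- merge -/
def mergeP : Prog := .seq (splitP 1) (.seq (splitP 5) (.seq (.push 3 true) (.seq mergeL finP)))

theorem sz_merge (σ : List Bool) : ∀ k l : List α, sz (merge σ k l) ≤ sz k + sz l := by
  induction σ with
  | nil => intro k l; have := Vale.Agent.Lib.H24.T.sz_pos l; simp [merge]; omega
  | cons b σ ih =>
    intro k l
    rcases b with _ | _
    · rcases k with _ | ⟨a, k⟩
      · exact ih _ _
      · have := ih k l; simp [merge]; omega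
    · rcases l with _ | ⟨a, l⟩
      · have := ih k []; simpa [merge] using this
      · have := ih k l; simp [merge] at this ⊢; omega

theorem Run.merge (σ : List Bool) (k l : List α) :
    Run s mergeP (code (σ, k, l)) (code (merge σ k l)) (6 * (sz σ + sz k + sz l) + 8) := by
  have key : ∀ (σ : List Bool) (k l : List α) (o : List Bool), ∃ a f, a.length ≤ sz l ∧
      f.length ≤ sz k ∧ Tri s mergeL (W6 (code l) (code σ) o [true] [] (code k))
      (W6 a [] ((body (P338.merge σ k l)).reverse ++ o) [] [] f) (2 * (sz σ + sz k + sz l)) := by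
    intro σ
    induction σ with
    | nil =>
      intro k l o
      refine ⟨code l, code k, le_rfl, le_rfl, ?_⟩
      exact (Tri.whileCons (t := 0) rfl (Tri.brkF (l := []) (by simp [code_nil]) Tri.skip)
        ((Tri.whileNil (by simp)).cast rfl (by simp [body_nil, P338.merge]))).mono (by simp; omega)
    | cons b σ ih =>
      intro k l o
      have hb := Vale.Agent.Lib.H24.T.sz_pos b
      rcases b with _ | _
      · rcases k with _ | ⟨a, k⟩
        · obtain ⟨a', f', h1, h2, h3⟩ := ih [] l o
          refine ⟨a', f', h1, h2, ?_⟩
          have e1 := Tri.push (s := s) 5 false (W6 (code l) (code σ) o [] [] [])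
          have e2 := Tri.push (s := s) 3 true (W6 (code l) (code σ) o [] [] [false])
          simp only [g3, g5, u3, u5] at e1 e2
          have := Tri.whileCons (x := 3)
            (S := W6 (code l) (code (false :: σ)) o [true] [] (code ([] : List α))) rfl
            (Tri.brkT (q := .skip) (l := code false ++ code σ) (by simp [code_cons])
              ((Tri.bifF (p := takeP 0) (l := code σ) (by simp) (Tri.brkF (l := [])
                (by simp [code_nil]) (e1.cast (by simp) rfl))).seq e2)) h3
          exact (this.mono (by simp)).cast rfl (by simp [P338.merge])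
        · obtain ⟨a', f', h1, h2, h3⟩ := ih k l ((code a).reverse ++ true :: o)
          refine ⟨a', f', h1, by simp; omega, ?_⟩
          have e0 := Tri.push (s := s) 2 true (W6 (code l) (code σ) o [] [] (code a ++ code k))
          have e1 := Tri.cp (s := s) (a := 5) (b := 2) (by omega) (by omega) (by omega) a (code k)
            (W6 (code l) (code σ) (true :: o) [] [] (code a ++ code k)) rfl rfl
          have e2 := Tri.push (s := s) 3 true
            (W6 (code l) (code σ) ((code a).reverse ++ true :: o) [] [] (code k))
          simp only [g2, g3, u2, u3, u5] at e0 e1 e2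
          have := Tri.whileCons (x := 3)
            (S := W6 (code l) (code (false :: σ)) o [true] [] (code (a :: k))) rfl
            (Tri.brkT (q := .skip) (l := code false ++ code σ) (by simp [code_cons])
              ((Tri.bifF (p := takeP 0) (l := code σ) (by simp) (Tri.brkT (l := code a ++ code k)
                (by simp [code_cons]) ((e0.seq e1).cast (by simp) rfl))).seq e2)) h3
          exact (this.mono (by simp; omega)).cast rfl (by simp [P338.merge, body_cons])
      · rcases l with _ | ⟨a, l⟩
        · obtain ⟨a', f', h1, h2, h3⟩ := ih k [] o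
          refine ⟨a', f', h1, h2, ?_⟩
          have e1 := Tri.push (s := s) 0 false (W6 [] (code σ) o [] [] (code k))
          have e2 := Tri.push (s := s) 3 true (W6 [false] (code σ) o [] [] (code k))
          simp only [g3, g0, u3, u0] at e1 e2
          have := Tri.whileCons (x := 3)
            (S := W6 (code ([] : List α)) (code (true :: σ)) o [true] [] (code k)) rfl
            (Tri.brkT (q := .skip) (l := code true ++ code σ) (by simp [code_cons])
              ((Tri.bifT (q := takeP 5) (l := code σ) (by simp) (Tri.brkF (l := [])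
                (by simp [code_nil]) (e1.cast (by simp) rfl))).seq e2)) h3
          exact (this.mono (by simp)).cast rfl (by cases k <;> simp [P338.merge])
        · obtain ⟨a', f', h1, h2, h3⟩ := ih k l ((code a).reverse ++ true :: o)
          refine ⟨a', f', by simp; omega, h2, ?_⟩
          have e0 := Tri.push (s := s) 2 true (W6 (code a ++ code l) (code σ) o [] [] (code k))
          have e1 := Tri.cp (s := s) (a := 0) (b := 2) (by omega) (by omega) (by omega) a (code l)
            (W6 (code a ++ code l) (code σ) (true :: o) [] [] (code k)) rfl rfl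
          have e2 := Tri.push (s := s) 3 true
            (W6 (code l) (code σ) ((code a).reverse ++ true :: o) [] [] (code k))
          simp only [g2, g3, u2, u3, u0] at e0 e1 e2
          have := Tri.whileCons (x := 3)
            (S := W6 (code (a :: l)) (code (true :: σ)) o [true] [] (code k)) rfl
            (Tri.brkT (q := .skip) (l := code true ++ code σ) (by simp [code_cons])
              ((Tri.bifT (q := takeP 5) (l := code σ) (by simp) (Tri.brkT (l := code a ++ code l)
                (by simp [code_cons]) ((e0.seq e1).cast (by simp) rfl))).seq e2)) h3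
          exact (this.mono (by simp; omega)).cast rfl
            (by cases k <;> simp [P338.merge, body_cons])
  obtain ⟨a, f, h1, h2, h3⟩ := key σ k l []
  have e0 := Tri.split1 (s := s) σ (code (k, l))
  have e1 := Tri.split5 (s := s) k (code l) (code σ)
  have e2 := Tri.push (s := s) 3 true (W6 (code l) (code σ) [] [] [] (code k))
  have e4 := Tri.fin (s := s) a f (P338.merge σ k l)
  simp only [g3, u3, List.append_nil] at e2 h3
  have := sz_merge σ k l
  exact Run.of6 ((e0.seq (e1.seq (e2.seq (h3.seq e4)))).mono (by omega))

/-- raw output of the grouping program -/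
def rawG (l : List ((Bool × Bool) × α)) : List Bool := l.flatMap fun e =>
  (if e.1.1 then [true] else []) ++ true :: (code e.2 ++ if e.1.2 then [false] else [])

/-- loop of group -/
def groupL : Prog := .whilePop 3 (brk 0 (.seq (.pop 0) (.seq (.pop 0) (.seq
  (bcase 0 (.push 2 true) .skip) (.seq (.push 2 true) (.seq
    (bcase 0 (.seq (cp 0 2) (.push 2 false)) (cp 0 2)) (.push 3 true)))))) .skip)

/-- group -/
def groupP : Prog := .seq (.push 3 true) (.seq groupL finP)

theorem Run.group (l : List ((Bool × Bool) × α)) (L : List (List α)) (h : rawG l = body L) :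
    Run s groupP (code l) (code L) (2 * sz l + sz L + 2) := by
  have key : ∀ (l : List ((Bool × Bool) × α)) (o : List Bool),
      Tri s groupL (W6 (code l) [] o [true] [] []) (W6 [] [] ((rawG l).reverse ++ o) [] [] [])
        (2 * sz l) := by
    intro l
    induction l with
    | nil =>
      intro o
      exact (Tri.whileCons (t := 0) rfl (Tri.brkF (l := []) (by simp [code_nil]) Tri.skip)
        ((Tri.whileNil (by simp)).cast rfl (by simp [rawG]))).mono (by simp)
    | cons e l ih =>
      intro o
      obtain ⟨⟨b1, b2⟩, a⟩ := e
      have e1 := Tri.pop (s := s) 0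
        (W6 (true :: true :: (code b1 ++ (code b2 ++ (code a ++ code l)))) [] o [] [] [])
      have e2 := Tri.pop (s := s) 0
        (W6 (true :: (code b1 ++ (code b2 ++ (code a ++ code l)))) [] o [] [] [])
      have e3 : Tri s (bcase 0 (.push 2 true) .skip)
          (W6 (code b1 ++ (code b2 ++ (code a ++ code l))) [] o [] [] [])
          (W6 (code b2 ++ (code a ++ code l)) [] ((if b1 then [true] else []) ++ o) [] [] []) 0 := by
        cases b1
        · exact Tri.bifF rfl (Tri.skip.cast rfl (by simp))
        · exact Tri.bifT rfl ((Tri.push 2 true _).cast rfl (by simp))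
      have e4 := Tri.push (s := s) 2 true
        (W6 (code b2 ++ (code a ++ code l)) [] ((if b1 then [true] else []) ++ o) [] [] [])
      have e5' := Tri.cp (s := s) (a := 0) (b := 2) (by omega) (by omega) (by omega) a (code l)
        (W6 (code a ++ code l) [] (true :: ((if b1 then [true] else []) ++ o)) [] [] []) rfl rfl
      simp only [g2, u0, u2] at e5'
      have e5 : Tri s (bcase 0 (.seq (cp 0 2) (.push 2 false)) (cp 0 2))
          (W6 (code b2 ++ (code a ++ code l)) [] (true :: ((if b1 then [true] else []) ++ o))
            [] [] [])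
          (W6 (code l) [] ((if b2 then [false] else []) ++ ((code a).reverse ++
            true :: ((if b1 then [true] else []) ++ o))) [] [] []) (sz a + 1) := by
        cases b2
        · exact Tri.bifF rfl (e5'.cast (by simp) (by simp))
        · exact Tri.bifT rfl ((e5'.seq (Tri.push 2 false _)).cast (by simp) (by simp))
      have e6 := Tri.push (s := s) 3 true (W6 (code l) [] ((if b2 then [false] else []) ++
        ((code a).reverse ++ true :: ((if b1 then [true] else []) ++ o))) [] [] [])
      simp only [g0, g2, g3, u0, u2, u3, List.tail_cons] at e1 e2 e4 e6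
      have := Tri.whileCons (x := 3) (S := W6 (code (((b1, b2), a) :: l)) [] o [true] [] []) rfl
        (Tri.brkT (q := .skip)
          (l := true :: true :: (code b1 ++ (code b2 ++ (code a ++ code l))))
          (by simp [code_cons, code_pair])
          ((e1.seq (e2.seq (e3.seq (e4.seq (e5.seq e6))))).cast (by simp) rfl)) (ih _)
      refine (this.mono (by simp; omega)).cast rfl ?_
      cases b1 <;> cases b2 <;> simp [rawG]
  have e1 := Tri.push (s := s) 3 true (W6 (code l) [] [] [] [] [])
  have e2 := key l []
  have e3 := Tri.fin (s := s) [] [] L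
  simp only [g3, u3, List.append_nil, h] at e1 e2
  exact Run.of6 ((e1.seq (e2.seq e3)).mono (by simp; omega))

/-- loop of scan -/
def scanL (p : Prog) : Prog := .whilePop 3 (brk 0 (.seq (cp 0 4) (.seq (mv 4 5) (.seq (mv 1 4)
  (.seq (mv 4 5) (.seq (.push 5 true) (.seq p.up5 (.seq (.pop 5) (.seq (cp 5 4) (.seq (mv 4 1)
    (.seq (mv 5 2) (.seq (.pop 2) (.push 3 true)))))))))))) .skip)

/-- scan -/
def scanP (p : Prog) : Prog := .seq (splitP 1) (.seq (.push 3 true) (.seq (scanL p)
  (.seq (.push 0 false) (.seq (mv 2 0) (.seq (mv 1 4) (.seq (mv 4 0) (.push 0 true)))))))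

theorem Run.scan {p : Prog} (N : ℕ) (st : ℕ → σ) (F : ℕ → α) (out : ℕ → List β) (t : ℕ → ℕ)
    (h : ∀ j < N, Run s p (code (st j, F j)) (code (st (j + 1), out j)) (t j)) :
    Run s (scanP p) (code (st 0, (List.range N).map F))
      (code (st N, (List.range N).flatMap out))
      (∑ j ∈ Finset.range N, (t j + 4 * (sz (st j, F j) + sz (st (j + 1), out j))) +
        4 * sz (st 0) + 8) := by
  have key : ∀ k j o, j + k = N → Tri s (scanL p)
      (W6 (code ((List.range' j k).map F)) (code (st j)) o [true] [] [])
      (W6 [] (code (st N)) ((body ((List.range' j k).flatMap out)).reverse ++ o) [] [] [])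
      (∑ i ∈ Finset.range k, (t (j + i) + 2 * (sz (st (j + i), F (j + i)) +
        sz (st (j + i + 1), out (j + i))) + 4) + 2) := by
    intro k
    induction k with
    | zero =>
      intro j o hj
      obtain rfl : j = N := by omega
      exact (Tri.whileCons (t := 0) rfl (Tri.brkF (l := []) (by simp [code_nil]) Tri.skip)
        ((Tri.whileNil (by simp)).cast rfl (by simp [body_nil]))).mono (by simp)
    | succ k ih =>
      intro j o hj
      set r := code ((List.range' (j + 1) k).map F)
      have e1 := Tri.cp (s := s) (a := 0) (b := 4) (by omega) (by omega) (by omega) (F j) r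
        (W6 (code (F j) ++ r) (code (st j)) o [] [] []) rfl rfl
      have e2 := Tri.mv (s := s) (a := 4) (b := 5) (by omega)
        (W6 r (code (st j)) o [] (code (F j)).reverse [])
      have e3 := Tri.mv (s := s) (a := 1) (b := 4) (by omega)
        (W6 r (code (st j)) o [] [] (code (F j)))
      have e4 := Tri.mv (s := s) (a := 4) (b := 5) (by omega)
        (W6 r [] o [] (code (st j)).reverse (code (F j)))
      have e5 := Tri.push (s := s) 5 true (W6 r [] o [] [] (code (st j) ++ code (F j)))
      have e6 := (h j (by omega)).s5 r [] o [] []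
      have e7 := Tri.pop (s := s) 5 (W6 r [] o [] [] (code (st (j + 1), out j)))
      have e8 := Tri.cp (s := s) (a := 5) (b := 4) (by omega) (by omega) (by omega) (st (j + 1))
        (code (out j)) (W6 r [] o [] [] (code (st (j + 1)) ++ code (out j))) rfl rfl
      have e9 := Tri.mv (s := s) (a := 4) (b := 1) (by omega)
        (W6 r [] o [] (code (st (j + 1))).reverse (code (out j)))
      have e10 := Tri.mv (s := s) (a := 5) (b := 2) (by omega)
        (W6 r (code (st (j + 1))) o [] [] (code (out j)))
      have e11 := Tri.pop (s := s) 2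
        (W6 r (code (st (j + 1))) ((code (out j)).reverse ++ o) [] [] [])
      have e12 := Tri.push (s := s) 3 true
        (W6 r (code (st (j + 1))) ((body (out j)).reverse ++ o) [] [] [])
      have hb : ((code (out j)).reverse ++ o).tail = (body (out j)).reverse ++ o := by
        simp [code_eq_body]
      simp only [g1, g2, g3, g4, g5, u0, u1, u2, u3, u4, u5, List.append_nil,
        List.reverse_reverse, List.length_reverse, len_code, code_pair, List.tail_cons, hb]
        at e1 e2 e3 e4 e5 e6 e7 e8 e9 e10 e11 e12
      have := Tri.whileCons (x := 3)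
        (S := W6 (code ((List.range' j (k + 1)).map F)) (code (st j)) o [true] [] []) rfl
        (Tri.brkT (q := .skip) (l := code (F j) ++ r) (by simp [code_cons, List.range'_succ, r])
          ((e1.seq (e2.seq (e3.seq (e4.seq (e5.seq (e6.seq (e7.seq (e8.seq (e9.seq (e10.seq
            (e11.seq e12))))))))))).cast (by simp) rfl)) (ih (j + 1) _ (by omega))
      refine (this.mono ?_).cast rfl (by simp [List.range'_succ, body_append])
      rw [Finset.sum_range_succ']
      simp only [add_assoc j, add_comm 1, Vale.Agent.Lib.H24.T.sz_pair, add_zero, zero_add]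
      omega
  have e0 := Tri.split1 (s := s) (st 0) (code ((List.range N).map F))
  have e1 := Tri.push (s := s) 3 true (W6 (code ((List.range N).map F)) (code (st 0)) [] [] [] [])
  have e2 := key N 0 [] (by omega)
  set o := (List.range N).flatMap out with ho
  have e3 := Tri.push (s := s) 0 false (W6 [] (code (st N)) (body o).reverse [] [] [])
  have e4 := Tri.mv (s := s) (a := 2) (b := 0) (by omega)
    (W6 [false] (code (st N)) (body o).reverse [] [] [])
  have e5 := Tri.mv (s := s) (a := 1) (b := 4) (by omega)
    (W6 (body o ++ [false]) (code (st N)) [] [] [] [])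
  have e6 := Tri.mv (s := s) (a := 4) (b := 0) (by omega)
    (W6 (body o ++ [false]) [] [] [] (code (st N)).reverse [])
  have e7 := Tri.push (s := s) 0 true (W6 (code (st N) ++ (body o ++ [false])) [] [] [] [] [])
  simp only [g0, g1, g2, g3, g4, u0, u1, u2, u3, u4, List.append_nil, List.reverse_reverse,
    List.length_reverse, len_code, ← List.range_eq_range', zero_add, ← ho] at e1 e2 e3 e4 e5 e6 e7
  refine Run.of6 (((e0.seq (e1.seq (e2.seq (e3.seq (e4.seq (e5.seq (e6.seq e7))))))).mono ?_).cast
    rfl (by rw [code_pair, code_eq_body o]))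
  have h1 : ∀ n, (body ((List.range n).flatMap out)).length + 2 * sz (st n) +
      ∑ i ∈ Finset.range n, (t i + 2 * (sz (st i, F i) + sz (st (i + 1), out i)) + 4) ≤
      ∑ j ∈ Finset.range n, (t j + 4 * (sz (st j, F j) + sz (st (j + 1), out j))) +
        2 * sz (st 0) := by
    intro n
    induction n with
    | zero => simp [body_nil]
    | succ n ih =>
      have := len_body (out n)
      have := Vale.Agent.Lib.H24.T.sz_pos (F n)
      have := Vale.Agent.Lib.H24.T.sz_pos (st n)
      simp only [List.range_succ, List.flatMap_append, body_append, List.length_append,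
        Finset.sum_range_succ, List.flatMap_cons, List.flatMap_nil, List.append_nil,
        Vale.Agent.Lib.H24.T.sz_pair] at ih ⊢
      omega
  have := h1 N
  rw [← ho] at this
  omega

end Vale.Agent.P338
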