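import Vale.Agent.P338.Defs

/-! Stack machines with an input and an output tape, simulated by multitape Turing machines. -/

namespace Vale.Agent.P338.CA

open Function

/-- Action on a stack. -/
inductive Act (Γ : Type) : Type
  | keep : Act Γ
  | pop : Act Γ
  | push (g : Γ) : Act Γ

/-- Effect of an action. -/
def Act.run {Γ : Type} : Act Γ → List Γ → List Γ
  | .keep, l => l
  | .pop, l => l.tail
  | .push g, l => g :: l

/-- A stack machine with `n` stacks. -/
structure SM (Q Γ : Type) where
  n : ℕ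
  halt : Q → Bool
  δ : Q → Option Γ → (ℕ → Option Γ) → Q × Bool × Option Γ × (ℕ → Act Γ)

/-- Configurations of stack machines. -/
structure Cf (Q Γ : Type) where
  q : Q
  inp : List Γ
  out : List Γ
  st : ℕ → List Γ

variable {Q Γ : Type}

/-- One step. -/
def SM.step (A : SM Q Γ) (c : Cf Q Γ) : Cf Q Γ :=
  if A.halt c.q then c else
    let r := A.δ c.q c.inp.head? fun j => if j < A.n then (c.st j).head? else none
    ⟨r.1, if r.2.1 then c.inp.tail else c.inp, c.out ++ r.2.2.1.toList,
      fun j => if j < A.n then (r.2.2.2 j).run (c.st j) else c.st j⟩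

/-- The tape holding a stack. -/
def stk : List Γ → ℕ → Option Γ
  | [] => fun _ => none
  | g :: l => update (stk l) (l.length + 1) (some g)

lemma stk_gt (l : List Γ) (z : ℕ) (h : l.length < z) : stk l z = none := by
  induction l with
  | nil => rfl
  | cons g l ih =>
    rw [List.length_cons] at h
    rw [stk, update_of_ne (by omega), ih (by omega)]

lemma stk_top (l : List Γ) : stk l l.length = l.head? := by
  cases l <;> simp [stk]

lemma stk_tail (l : List Γ) : update (stk l) l.length none = stk l.tail := by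
  cases l with
  | nil => funext z; simp [stk, update_apply]
  | cons g l =>
    rw [stk, List.length_cons, update_idem, List.tail_cons, ← stk_gt l (l.length + 1) (by omega),
      update_eq_self]

/-- First phase on a stack tape. -/
def Act.ph1 (a : Option Γ) : Act Γ → Option Γ × SignType
  | .keep => (a, 0)
  | .pop => (none, -1)
  | .push _ => (a, 1)

/-- The pending symbol. -/
def Act.pend : Act Γ → Option Γ
  | .push g => some g
  | _ => none

/-- Action on the output tape. -/
def emit (a : Option Γ) : Option Γ → Option Γ × SignType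
  | none => (a, 0)
  | some g => (some g, 1)

/-- The first phase. -/
def SM.δ1 (A : SM Q Γ) (a : Fin (A.n + 2) → Option Γ)
    (r : Q × Bool × Option Γ × (ℕ → Act Γ)) :
    (Q × Option (Fin A.n → Option Γ)) × (Fin (A.n + 2) → Option Γ × SignType) :=
  ((r.1, some fun j => (r.2.2.2 j).pend),
    Fin.cons (a 0, if r.2.1 then 1 else 0) (Fin.cons (emit (a 1) r.2.2.1)
      fun j => (r.2.2.2 j).ph1 (a j.succ.succ)))

/-- The second phase. -/
def SM.δ2 (A : SM Q Γ) (q : Q) (a : Fin (A.n + 2) → Option Γ) (p : Fin A.n → Option Γ) :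
    (Q × Option (Fin A.n → Option Γ)) × (Fin (A.n + 2) → Option Γ × SignType) :=
  ((q, none), Fin.cons (a 0, 0) (Fin.cons (a 1, 0) fun j => ((p j).or (a j.succ.succ), 0)))

/-- The transition function. -/
def SM.δ0 (A : SM Q Γ) (q : Q × Option (Fin A.n → Option Γ)) (a : Fin (A.n + 2) → Option Γ) :
    (Q × Option (Fin A.n → Option Γ)) × (Fin (A.n + 2) → Option Γ × SignType) :=
  match q.2 with
  | none => A.δ1 a
      (A.δ q.1 (a 0) fun j => if h : j < A.n then a (Fin.succ (Fin.succ ⟨j, h⟩)) else none)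
  | some p => A.δ2 q.1 a p

/-- The simulating Turing machine. -/
@[reducible] def SM.tm (A : SM Q Γ) [Finite Q] [Finite Γ] (g0 g1 gs : Γ)
    (h : [g0, g1, gs].Nodup) (q0 : Q) : TM where
  k := A.n + 1
  Q := Q × Option (Fin A.n → Option Γ)
  Γ := Option Γ
  finQ := inferInstance
  finΓ := inferInstance
  blank := none
  zero := some g0
  one := some g1
  sep := some gs
  distinct := by simpa using h
  out := 1
  start := (q0, none)
  halt q := A.halt q.1 && q.2.isNone
  δ := A.δ0

section
variable {A : SM Q Γ} [Finite Q] [Finite Γ] {g0 g1 gs : Γ} {h : [g0, g1, gs].Nodup} {q0 : Q}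

/-- The simulation relation. -/
structure Sim (c : Cf Q Γ) (C : (A.tm g0 g1 gs h q0).Cfg) : Prop where
  q : C.q = (c.q, none)
  inp : ∀ z, C.tape 0 (C.pos 0 + z) = c.inp[z]?
  pos1 : C.pos 1 = c.out.length
  out : C.tape 1 = fun z => c.out[z]?
  pos : ∀ j : Fin A.n, C.pos j.succ.succ = (c.st j).length
  st : ∀ j : Fin A.n, C.tape j.succ.succ = stk (c.st j)

lemma Sim.step {c : Cf Q Γ} {C : (A.tm g0 g1 gs h q0).Cfg} (hs : Sim c C) :
    Sim (A.step c) ((A.tm g0 g1 gs h q0).step ((A.tm g0 g1 gs h q0).step C)) := by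
  obtain ⟨q, pos, tape⟩ := C
  obtain ⟨h1, h2, h3, h4, h5, h6⟩ := hs
  simp only at h1 h2 h3 h4 h5 h6
  subst h1
  by_cases hh : A.halt c.q = true
  · have e : (A.tm g0 g1 gs h q0).step ⟨(c.q, none), pos, tape⟩ = ⟨(c.q, none), pos, tape⟩ :=
      if_pos (by simp [hh])
    rw [e, e, SM.step, if_pos hh]
    exact ⟨rfl, h2, h3, h4, h5, h6⟩
  have a0 : tape 0 (pos 0) = c.inp.head? := by
    have := h2 0; rwa [add_zero, ← List.head?_eq_getElem?] at this
  have a2 : (fun j => if h : j < A.n then tape (Fin.succ (Fin.succ ⟨j, h⟩))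
      (pos (Fin.succ (Fin.succ ⟨j, h⟩))) else none) =
      fun j => if j < A.n then (c.st j).head? else none := by
    funext j
    split_ifs with hj
    · rw [h5, h6, stk_top]
    · rfl
  rw [SM.step, if_neg hh]
  generalize hr : A.δ c.q c.inp.head? (fun j => if j < A.n then (c.st j).head? else none) = r
  have e1 : A.δ0 (c.q, none) (fun j => tape j (pos j)) = A.δ1 (fun j => tape j (pos j)) r := by
    rw [← hr, ← a0, ← a2]; rfl
  have e2 : (A.tm g0 g1 gs h q0).step ⟨(c.q, none), pos, tape⟩ =
      ⟨(r.1, some fun j => (r.2.2.2 j).pend),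
        fun j => move (pos j) ((A.δ1 (fun j => tape j (pos j)) r).2 j).2,
        fun j => update (tape j) (pos j) ((A.δ1 (fun j => tape j (pos j)) r).2 j).1⟩ := by
    rw [TM.step, if_neg (by simp [hh])]
    simp only [e1]; rfl
  have e3 : ∀ q p pos tape, (A.tm g0 g1 gs h q0).step ⟨(q, some p), pos, tape⟩ =
      ⟨(q, none), fun j => move (pos j) ((A.δ2 q (fun j => tape j (pos j)) p).2 j).2,
        fun j => update (tape j) (pos j) ((A.δ2 q (fun j => tape j (pos j)) p).2 j).1⟩ := by
    intro q p pos tape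
    rw [TM.step, if_neg (by simp)]; rfl
  rw [e2, e3]
  have mz : ∀ z, move z 0 = z := fun _ => rfl
  have mp : ∀ z, move z 1 = z + 1 := fun _ => rfl
  have mn : ∀ z, move z (-1) = z - 1 := fun _ => rfl
  refine ⟨rfl, fun z => ?_, ?_, ?_, fun j => ?_, fun j => ?_⟩
  · simp only [SM.δ1, SM.δ2, Fin.cons_zero, update_eq_self, mz]
    split_ifs
    · rw [mp, add_assoc (pos 0), h2, List.getElem?_tail, add_comm 1 z]
    · rw [mz, h2]
  · simp only [SM.δ1, SM.δ2, Fin.cons_one, Fin.cons_zero, mz]
    cases r.2.2.1 <;> simp [emit, mz, mp, h3]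
  · simp only [SM.δ1, SM.δ2, Fin.cons_one, Fin.cons_zero, update_eq_self]
    cases r.2.2.1 with
    | none => simp [emit, h4]
    | some g =>
      funext z
      simp only [emit, h3, h4, update_apply, Option.toList_some, List.getElem?_append]
      split_ifs with c1 c2 c2
      · omega
      · simp [c1]
      · rfl
      · rw [List.getElem?_eq_none (by omega), List.getElem?_eq_none (by simp; omega)]
  · simp only [SM.δ1, SM.δ2, Fin.cons_succ, mz, j.2, if_true]
    cases r.2.2.2 j <;> simp [Act.ph1, Act.run, mz, mp, mn, h5]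
  · simp only [SM.δ1, SM.δ2, Fin.cons_succ, j.2, if_true]
    cases r.2.2.2 j <;> simp [Act.ph1, Act.run, Act.pend, mp, h5, h6, stk_tail, stk]

lemma Sim.iter {c : Cf Q Γ} {C : (A.tm g0 g1 gs h q0).Cfg} (hs : Sim c C) (m : ℕ) :
    Sim (A.step^[m] c) ((A.tm g0 g1 gs h q0).step^[2 * m] C) := by
  induction m with
  | zero => exact hs
  | succ m ih =>
    rw [iterate_succ_apply', mul_add, mul_one, iterate_succ_apply', iterate_succ_apply']
    exact ih.step

theorem SM.tm_run (x y o : List Bool) {m : ℕ} {c : Cf Q Γ}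
    (hc : A.step^[m] ⟨q0, x.map (cond · g1 g0) ++ gs :: y.map (cond · g1 g0), [], fun _ => []⟩ = c)
    (hq : A.halt c.q = true) (ho : c.out = o.map (cond · g1 g0)) :
    (A.tm g0 g1 gs h q0).HaltsIn x y (2 * m) ∧
      ((A.tm g0 g1 gs h q0).step^[2 * m] ((A.tm g0 g1 gs h q0).init x y)).tape
        (A.tm g0 g1 gs h q0).out = (A.tm g0 g1 gs h q0).word (o.map (A.tm g0 g1 gs h q0).bit) := by
  have hb : (A.tm g0 g1 gs h q0).bit = some ∘ (cond · g1 g0) := by
    funext b; cases b <;> rfl
  have hw : ∀ l : List Γ, (A.tm g0 g1 gs h q0).word (l.map some) = fun z => l[z]? := by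
    intro l; funext z
    simp only [TM.word, List.getD_eq_getElem?_getD, List.getElem?_map]
    cases l[z]? <;> rfl
  have h0 : Sim ⟨q0, x.map (cond · g1 g0) ++ gs :: y.map (cond · g1 g0), [], fun _ => []⟩
      ((A.tm g0 g1 gs h q0).init x y) := by
    refine ⟨rfl, fun z => ?_, rfl, ?_, fun _ => rfl, fun j => ?_⟩
    · have := congrFun (hw (x.map (cond · g1 g0) ++ gs :: y.map (cond · g1 g0))) z
      rw [← this]
      simp only [TM.init, if_true, zero_add, hb, List.map_append, List.map_cons, List.map_map]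
    · have : ¬ (1 : Fin (A.n + 1 + 1)) = 0 := Fin.succ_ne_zero (0 : Fin (A.n + 1))
      simp only [TM.init, if_neg this]
      exact hw []
    · simp only [TM.init, if_neg (Fin.succ_ne_zero _)]
      exact hw []
  have := h0.iter m
  rw [hc] at this
  refine ⟨?_, ?_⟩
  · rw [TM.HaltsIn, this.q]; simp [hq]
  · rw [hb, ← List.map_map, hw, ← ho]; exact this.out

end

end Vale.Agent.P338.CA
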