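import Vale.Agent.P338.Swp

/-! Cheap linear changes of the digits of two fields. -/

namespace Vale.Agent.P338

open Function
open Vale.Agent.Lib.H24.T (Enc PT)

theorem two_half {R : ℕ} (h : R % 2 = 1) : (2 : ZMod R) * ((R + 1) / 2 : ℕ) = 1 := by
  have : ((2 * ((R + 1) / 2) : ℕ) : ZMod R) = ((R + 1 : ℕ) : ZMod R) := by congr 1; omega
  simpa using this

/-- dyadic rationals modulo an odd number -/
noncomputable def kz {R : ℕ} (h : R % 2 = 1) : K2 →+* ZMod R :=
  IsLocalization.Away.lift (2 : ℤ) (g := Int.castRingHom (ZMod R))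
    (IsUnit.of_mul_eq_one _ (by simpa using two_half h))

theorem kz_rep (x : K2) : ∃ f : ℕ → ℕ, PT f ∧ ∀ (R : ℕ) (h : R % 2 = 1), (f R : ZMod R) = kz h x := by
  obtain ⟨k, a, ha⟩ := IsLocalization.Away.surj (2 : ℤ) x
  refine ⟨fun R => (a.toNat + (R - 1) * (-a).toNat) * ((R + 1) / 2) ^ (List.replicate k ()).length,
    by fun_prop, fun R h => ?_⟩
  have h1 := congrArg (kz h) ha
  simp only [map_mul, map_pow, eq_intCast, map_intCast, Int.cast_ofNat, map_ofNat] at h1
  have h2 : ((R - 1 : ℕ) : ZMod R) = -1 := by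
    rw [Nat.cast_sub (by omega)]; simp
  have h3 : ((a.toNat : ℤ) : ZMod R) - ((-a).toNat : ℤ) = a := by
    rw [← Int.cast_sub, Int.toNat_sub_toNat_neg]
  simp only [Int.cast_natCast] at h3
  rw [List.length_replicate, Nat.cast_mul, Nat.cast_add, Nat.cast_mul, h2, Nat.cast_pow,
    neg_one_mul, ← sub_eq_add_neg, h3, ← h1, mul_assoc, ← mul_pow, two_half h, one_pow, mul_one]

/-- signed powers of two -/
abbrev KU : Submonoid K2 := Submonoid.closure ({-1, 2, IsLocalization.Away.invSelf (2 : ℤ)} : Set K2)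

theorem two_inv : (2 : K2) * IsLocalization.Away.invSelf (2 : ℤ) = 1 := by
  simpa using IsLocalization.Away.mul_invSelf (S := K2) (2 : ℤ)

theorem KU_inv {x : K2} (h : x ∈ KU) : ∃ y ∈ KU, x * y = 1 := by
  induction h using Submonoid.closure_induction with
  | mem x hx =>
    rcases hx with rfl | rfl | rfl
    · exact ⟨-1, Submonoid.subset_closure (by simp), by norm_num⟩
    · exact ⟨IsLocalization.Away.invSelf (2 : ℤ), Submonoid.subset_closure (Or.inr (Or.inr rfl)),
        two_inv⟩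
    · exact ⟨2, Submonoid.subset_closure (Or.inr (Or.inl rfl)), by rw [mul_comm, two_inv]⟩
  | one => exact ⟨1, one_mem _, by simp⟩
  | mul x y _ _ h1 h2 =>
    obtain ⟨x', a, b⟩ := h1
    obtain ⟨y', c, d⟩ := h2
    exact ⟨x' * y', mul_mem a c, by rw [mul_mul_mul_comm, b, d, one_mul]⟩

/-- addresses -/
abbrev SA (R : ℕ) : Type := (ℕ × ℕ × ℕ) × (ℕ → ZMod R)

/-- weights of the digits -/
def wt (m w w' R p : ℕ) : ℕ := if p < m then w * R ^ p else w' * R ^ (p - m)

/-- the address of an index -/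
def sdec (m w w' R j : ℕ) : SA R :=
  ((j % w, dg (w * R ^ m) (w' / (w * R ^ m)) j, j / (w' * R ^ m)), fun p => dg (wt m w w' R p) R j)

section
variable {m w w' R : ℕ}

theorem wt_dvd (h : w * R ^ m ∣ w') {p p' : ℕ} (hp : p < p') :
    wt m w w' R p * R ∣ wt m w w' R p' := by
  unfold wt
  split_ifs with h1 h2
  · exact pow_dvd hp
  · exact (pow_dvd h1).trans (h.mul_right _)
  · omega
  · exact pow_dvd (by omega)

theorem wt_top (h : w * R ^ m ∣ w') {p : ℕ} (hp : p < 2 * m) : wt m w w' R p * R ∣ w' * R ^ m := by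
  have := wt_dvd h hp
  rwa [wt, wt, if_neg (show ¬2 * m < m by omega), show 2 * m - m = m by omega, ← wt] at this

theorem wt_pos (hw : 0 < w) (hw' : 0 < w') (hR : 0 < R) (p : ℕ) : 0 < wt m w w' R p := by
  unfold wt; split_ifs <;> positivity

theorem sdec_upd (hw : 0 < w) (hw' : 0 < w') (h : w * R ^ m ∣ w') {p v : ℕ} (hp : p < 2 * m)
    (hv : v < R) (j : ℕ) : sdec m w w' R (upd (wt m w w' R p) R j v) =
      ((sdec m w w' R j).1, update (sdec m w w' R j).2 p v) := by
  have h0 := wt_pos (m := m) hw hw' (show 0 < R by omega) p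
  refine Prod.ext (Prod.ext ?_ (Prod.ext ?_ ?_)) (funext fun p' => ?_)
  · refine upd_mod ?_
    unfold wt; split_ifs
    exacts [Dvd.intro _ rfl, ((Dvd.intro _ rfl).trans h).mul_right _]
  · by_cases h1 : p < m
    · exact dg_upd_hi h0 hv (by rw [wt, if_pos h1]; exact pow_dvd h1)
    · exact dg_upd_lo (by rw [wt, if_neg h1, Nat.mul_div_cancel' h]; exact Dvd.intro _ rfl)
  · exact upd_div h0 hv (wt_top h hp)
  · rcases lt_trichotomy p' p with h1 | rfl | h1
    · simp only [sdec]; rw [update_of_ne h1.ne, dg_upd_lo (wt_dvd h h1)]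
    · simp only [sdec]; rw [update_self, dg_upd_self h0 hv]
    · simp only [sdec]; rw [update_of_ne h1.ne', dg_upd_hi h0 hv (wt_dvd h h1)]

theorem five {w X w' : ℕ} (h : w * X ∣ w') (j : ℕ) : j = j % w + w * dg w X j +
    w * X * dg (w * X) (w' / (w * X)) j + w' * dg w' X j + w' * X * (j / (w' * X)) := by
  have e : ∀ a b : ℕ, j % (a * b) = j % a + a * dg a b j := fun a b => Nat.mod_mul
  have h1 := e w X
  have h2 := e (w * X) (w' / (w * X))
  have h3 := e w' X
  rw [Nat.mul_div_cancel' h] at h2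
  have := Nat.mod_add_div j (w' * X)
  omega

/-- the index of an address -/
def senc (m w w' R : ℕ) (x : SA R) : ℕ := x.1.1 + w * ∑ p ∈ Finset.range m, (x.2 p).val * R ^ p +
  w * R ^ m * x.1.2.1 + w' * ∑ p ∈ Finset.range m, (x.2 (m + p)).val * R ^ p + w' * R ^ m * x.1.2.2

/-- exchange the fields -/
def swA (m : ℕ) {R : ℕ} (x : SA R) : SA R :=
  (x.1, fun p => if p < m then x.2 (m + p) else if p < 2 * m then x.2 (p - m) else x.2 p)

theorem sum_lo (j : ℕ) : ∑ p ∈ Finset.range m, ((sdec m w w' R j).2 p).val * R ^ p =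
    dg w (R ^ m) j := by
  rw [← sum_dg]
  refine Finset.sum_congr rfl fun p hp => ?_
  simp only [sdec, wt, if_pos (Finset.mem_range.1 hp), ZMod.val_natCast, dg, Nat.mod_mod]

theorem sum_hi (j : ℕ) : ∑ p ∈ Finset.range m, ((sdec m w w' R j).2 (m + p)).val * R ^ p =
    dg w' (R ^ m) j := by
  rw [← sum_dg]
  refine Finset.sum_congr rfl fun p _ => ?_
  simp only [sdec, wt, if_neg (show ¬m + p < m by omega), ZMod.val_natCast, dg, Nat.mod_mod,
    Nat.add_sub_cancel_left]

theorem senc_sdec (h : w * R ^ m ∣ w') (j : ℕ) : senc m w w' R (sdec m w w' R j) = j := by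
  rw [senc, sum_lo, sum_hi]; exact (five h j).symm

theorem senc_swA (hw : 0 < w) (hw' : 0 < w') (hR : 0 < R) (h : w * R ^ m ∣ w') (j : ℕ) :
    senc m w w' R (swA m (sdec m w w' R j)) = swp w (R ^ m) w' j := by
  have hX : 0 < R ^ m := by positivity
  have e1 : ∑ p ∈ Finset.range m, ((swA m (sdec m w w' R j)).2 p).val * R ^ p = dg w' (R ^ m) j := by
    rw [← sum_hi (w := w)]
    exact Finset.sum_congr rfl fun p hp => by simp only [swA, if_pos (Finset.mem_range.1 hp)]
  have e2 : ∑ p ∈ Finset.range m, ((swA m (sdec m w w' R j)).2 (m + p)).val * R ^ p =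
      dg w (R ^ m) j := by
    rw [← sum_lo (w' := w')]
    refine Finset.sum_congr rfl fun p hp => ?_
    have := Finset.mem_range.1 hp
    simp only [swA, if_neg (show ¬m + p < m by omega), if_pos (show m + p < 2 * m by omega),
      Nat.add_sub_cancel_left]
  rw [senc, e1, e2, five h (swp w (R ^ m) w' j)]
  unfold swp
  rw [upd_mod ((Dvd.intro _ rfl).trans h), upd_mod dvd_rfl, dg_upd_lo h, dg_upd_self hw (dg_lt hX),
    dg_upd_lo (by rw [Nat.mul_div_cancel' h]), dg_upd_hi hw (dg_lt hX) dvd_rfl,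
    dg_upd_self hw' (dg_lt hX), upd_div hw' (dg_lt hX) dvd_rfl,
    upd_div hw (dg_lt hX) (h.mul_right _)]
  rfl
end

variable {ι π : Type} [Enc π]

section
variable (a : AE ι π) {w X : π → ℕ} (hw : PT w) (hX : PT X)
  (h0 : ∀ i, 0 < w (a.P i) ∧ 0 < X (a.P i)) (hd : ∀ i, w (a.P i) * X (a.P i) ∣ a.N (a.P i))
include hw hX hd

include h0 in
theorem AE.Pm.rot {r : π × ℕ → ℕ} (hr : PT r)
    (hi : ∀ i j j', j / (w (a.P i) * X (a.P i)) = j' / (w (a.P i) * X (a.P i)) →
      r (a.P i, j) = r (a.P i, j')) : a.Pm (fun i j => upd (w (a.P i)) (X (a.P i)) j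
      ((dg (w (a.P i)) (X (a.P i)) j + r (a.P i, j)) % X (a.P i))) 0 :=
  AE.Pm.lin fun G hP hx => Lin.rot hP a.hN (a.at G) hw hX h0 hd a.N0 hr hi hx

include h0 in
theorem AE.Pm.neg : a.Pm (fun i j => upd (w (a.P i)) (X (a.P i)) j
      ((X (a.P i) - dg (w (a.P i)) (X (a.P i)) j) % X (a.P i))) 0 :=
  AE.Pm.lin fun G hP hx => by
    have := Lin.neg hP a.hN (a.at G) hw hX h0 hd a.N0 hx
    exact this

include h0 in
theorem AE.Pm.dbl : a.Pm (fun i j => upd (w (a.P i)) (X (a.P i)) j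
      (2 * dg (w (a.P i)) (X (a.P i)) j % X (a.P i))) 0 :=
  AE.Pm.lin fun G hP hx => by
    have := Lin.dbl hP a.hN (a.at G) hw hX h0 hd a.N0 hx
    exact this

theorem AE.Pm.half (h0 : ∀ i, 0 < w (a.P i) ∧ X (a.P i) % 2 = 1) :
    a.Pm (fun i j => upd (w (a.P i)) (X (a.P i)) j
      (hlf (X (a.P i)) (dg (w (a.P i)) (X (a.P i)) j))) 0 :=
  AE.Pm.lin fun G hP hx => by
    have := Lin.half hP a.hN (a.at G) hw hX h0 hd a.N0 hx
    exact this
end

/-- two fields of `m` digits of odd range -/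
structure SE (ι π : Type) [Enc π] (m : ℕ) extends AE ι π where
  w : π → ℕ
  w' : π → ℕ
  R : π → ℕ
  pw : PT w
  pw' : PT w'
  pR : PT R
  w0 : ∀ i, 0 < w (P i)
  odd : ∀ i, R (P i) % 2 = 1
  h1 : ∀ i, w (P i) * R (P i) ^ m ∣ w' (P i)
  h2 : ∀ i, w' (P i) * R (P i) ^ m ∣ N (P i)

namespace SE
variable {m : ℕ} (a : SE ι π m)

theorem R0 (i : ι) : 0 < a.R (a.P i) := by have := a.odd i; omega
theorem w0' (i : ι) : 0 < a.w' (a.P i) := Nat.pos_of_ne_zero fun h => by
  have := a.h2 i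
  have := a.N0 i
  simp_all

/-- addresses -/
abbrev A (i : ι) : Type := SA (a.R (a.P i))

/-- decoding -/
def dec (i : ι) (j : ℕ) : a.A i := sdec m (a.w (a.P i)) (a.w' (a.P i)) (a.R (a.P i)) j

/-- the address map can be applied -/
def Mf (θ : ∀ i, a.A i → a.A i) (T : ι → ℝ) : Prop :=
  ∀ F : ∀ i, a.A i → ℕ → ℕ → Bool, Op a.toEnv a.U (a.arr fun i j => F i (a.dec i j))
    (a.arr fun i j => F i (θ i (a.dec i j))) T

variable {a} {θ θ₁ θ₂ : ∀ i, a.A i → a.A i} {T T₁ T₂ : ι → ℝ}

theorem Mf.of_pm {φ : ι → ℕ → ℕ} (h : a.Pm φ T) (e : ∀ i j, a.dec i (φ i j) = θ i (a.dec i j)) :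
    a.Mf θ T := fun F => (h fun i j => F i (a.dec i j)).congr (fun _ => rfl) fun i => by
  simp only [AE.arr, e]

theorem Mf.id : a.Mf (fun _ x => x) 0 := Mf.of_pm (AE.Pm.lin fun _ _ h => h) fun _ _ => rfl

theorem Mf.congr (h : a.Mf θ₁ T) (e : ∀ i x, θ i x = θ₁ i x) : a.Mf θ T := fun F =>
  (h F).congr (fun _ => rfl) fun i => by simp only [AE.arr, e]

theorem Mf.l (h₁ : a.Mf θ₁ 0) (h₂ : a.Mf θ₂ T) : a.Mf (fun i x => θ₁ i (θ₂ i x)) T :=
  fun F => (h₁ F).trans0' (h₂ fun i x => F i (θ₁ i x))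

theorem Mf.r (h₁ : a.Mf θ₁ T) (h₂ : a.Mf θ₂ 0) : a.Mf (fun i x => θ₁ i (θ₂ i x)) T :=
  fun F => (h₁ F).trans0 (h₂ fun i x => F i (θ₁ i x))

theorem pwt (a : SE ι π m) (p : ℕ) : PT fun x => wt m (a.w x) (a.w' x) (a.R x) p := by
  have := a.pw
  have := a.pw'
  have := a.pR
  have h1 : PT fun x => a.w x * a.R x ^ (List.replicate p ()).length := by fun_prop
  have h2 : PT fun x => a.w' x * a.R x ^ (List.replicate (p - m) ()).length := by fun_prop
  unfold wt
  split_ifs
  exacts [by simpa using h1, by simpa using h2]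

theorem wt0 (a : SE ι π m) (p : ℕ) (i : ι) :
    0 < wt m (a.w (a.P i)) (a.w' (a.P i)) (a.R (a.P i)) p := wt_pos (a.w0 i) (a.w0' i) (a.R0 i) p

theorem wtN (a : SE ι π m) {p : ℕ} (hp : p < 2 * m) (i : ι) :
    wt m (a.w (a.P i)) (a.w' (a.P i)) (a.R (a.P i)) p * a.R (a.P i) ∣ a.N (a.P i) :=
  (wt_top (a.h1 i) hp).trans (a.h2 i)

theorem dec_upd (a : SE ι π m) {p : ℕ} (hp : p < 2 * m) (i : ι) (j : ℕ) {v : ℕ}
    (hv : v < a.R (a.P i)) :
    a.dec i (upd (wt m (a.w (a.P i)) (a.w' (a.P i)) (a.R (a.P i)) p) (a.R (a.P i)) j v) =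
      ((a.dec i j).1, update (a.dec i j).2 p v) :=
  sdec_upd (a.w0 i) (a.w0' i) (a.h1 i) hp hv j

theorem shear (a : SE ι π m) {p p' : ℕ} (hp : p < 2 * m) (h : p < p') (c : K2) :
    a.Mf (fun i x => (x.1, x.2 + Pi.single p (kz (a.odd i) c * x.2 p'))) 0 := by
  obtain ⟨f, hf, e⟩ := kz_rep c
  have h1 := (a.pwt p').comp (g := fun q : π × ℕ => q.1) (by fun_prop)
  have h2 := a.pR.comp (g := fun q : π × ℕ => q.1) (by fun_prop)
  refine Mf.of_pm (AE.Pm.rot a.toAE (a.pwt p) a.pR (fun i => ⟨a.wt0 p i, a.R0 i⟩) (a.wtN hp)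
    (r := fun q => f (a.R q.1) * dg (wt m (a.w q.1) (a.w' q.1) (a.R q.1) p') (a.R q.1) q.2)
    ((hf.comp h2).mul (PT.dg h1 h2 (by fun_prop)))
    fun i j j' e => by rw [dg_congr (wt_dvd (a.h1 i) h) e]) fun i j => ?_
  rw [a.dec_upd hp i j (Nat.mod_lt _ (a.R0 i))]
  refine Prod.ext rfl (funext fun t => ?_)
  by_cases ht : t = p
  · subst ht; simp [e _ (a.odd i), dec, sdec]
  · simp [ht]

theorem scale (a : SE ι π m) {p : ℕ} (hp : p < 2 * m) {c : K2} (hc : c ∈ KU) :
    a.Mf (fun i x => (x.1, update x.2 p (kz (a.odd i) c * x.2 p))) 0 := by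
  induction hc using Submonoid.closure_induction with
  | mem c hc =>
    rcases hc with rfl | rfl | rfl
    · refine Mf.of_pm (AE.Pm.neg a.toAE (a.pwt p) a.pR
        (fun i => ⟨a.wt0 p i, a.R0 i⟩) (a.wtN hp)) fun i j => ?_
      rw [a.dec_upd hp i j (Nat.mod_lt _ (a.R0 i)), ZMod.natCast_mod,
        Nat.cast_sub (dg_lt (a.R0 i)).le]
      simp [dec, sdec]
    · refine Mf.of_pm (AE.Pm.dbl a.toAE (a.pwt p) a.pR
        (fun i => ⟨a.wt0 p i, a.R0 i⟩) (a.wtN hp)) fun i j => ?_
      rw [a.dec_upd hp i j (Nat.mod_lt _ (a.R0 i)), ZMod.natCast_mod, map_ofNat]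
      simp [dec, sdec]
    · refine Mf.of_pm (AE.Pm.half a.toAE (a.pwt p) a.pR (a.wtN hp)
        fun i => ⟨a.wt0 p i, a.odd i⟩) fun i j => ?_
      have h0 := a.odd i
      have h1 := dg_lt (w := wt m (a.w (a.P i)) (a.w' (a.P i)) (a.R (a.P i)) p) (j := j) (a.R0 i)
      rw [a.dec_upd hp i j (by unfold hlf; split_ifs <;> omega)]
      congr 2
      have h2 := congrArg (kz h0) two_inv
      rw [map_mul, map_ofNat, map_one] at h2
      simp only [dec, sdec]
      generalize dg (wt m (a.w (a.P i)) (a.w' (a.P i)) (a.R (a.P i)) p) (a.R (a.P i)) j = x at *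
      have h3 : (x : ZMod (a.R (a.P i))) = 2 * (hlf (a.R (a.P i)) x : ℕ) := by
        unfold hlf
        split_ifs
        · exact_mod_cast congrArg (Nat.cast : ℕ → ZMod (a.R (a.P i))) (show x = 2 * (x / 2) by omega)
        · have := congrArg (Nat.cast : ℕ → ZMod (a.R (a.P i)))
            (show x + a.R (a.P i) = 2 * ((x + a.R (a.P i)) / 2) by omega)
          simpa using this
      rw [h3, ← mul_assoc, mul_comm _ 2, h2, one_mul]
  | one => exact Mf.id.congr fun i x => by simp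
  | mul x y _ _ h1 h2 => exact (h1.l h2).congr fun i x => by simp [mul_assoc]

theorem tri (a : SE ι π m) {κ : Type} [DecidableEq κ] (S : Finset κ) (tg sr : κ → ℕ) (c : κ → K2)
    (h1 : ∀ b, c b = 0 ∨ tg b < 2 * m ∧ tg b < sr b)
    (h2 : ∀ b b', c b = 0 ∨ c b' = 0 ∨ tg b ≠ sr b') :
    a.Mf (fun i x => (x.1, x.2 + ∑ b ∈ S, Pi.single (tg b) (kz (a.odd i) (c b) * x.2 (sr b)))) 0 := by
  induction S using Finset.induction_on with
  | empty => exact Mf.id.congr fun i x => by simp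
  | insert b S hb ih =>
    by_cases h0 : c b = 0
    · exact ih.congr fun i x => by simp [Finset.sum_insert hb, h0]
    obtain ⟨h3, h4⟩ := (h1 b).resolve_left h0
    refine ((a.shear h3 h4 (c b)).l ih).congr fun i x => ?_
    have : (∑ b ∈ S, Pi.single (tg b) (kz (a.odd i) (c b) * x.2 (sr b)) : ℕ → _) (sr b) = 0 := by
      rw [Finset.sum_apply]
      refine Finset.sum_eq_zero fun b' _ => ?_
      rcases h2 b' b with h | h | h
      · simp [h]
      · exact absurd h h0
      · simp [h.symm]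
    simp only [Finset.sum_insert hb, Pi.add_apply, this, add_zero]
    congr 1; abel

theorem negs (a : SE ι π m) (n : ℕ) (hn : n ≤ 2 * m) :
    a.Mf (fun _ x => (x.1, fun p => if p < n then -x.2 p else x.2 p)) 0 := by
  induction n with
  | zero => exact Mf.id.congr fun i x => by simp
  | succ n ih =>
    refine ((a.scale (p := n) hn (c := -1) (Submonoid.subset_closure (by simp))).l
      (ih (by omega))).congr fun i x => Prod.ext rfl (funext fun p => ?_)
    by_cases h : p = n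
    · subst h; simp
    · simp only [update_of_ne h, show p < n + 1 ↔ p < n by omega]

/-- the shear of the upper field -/
noncomputable def gam (a : SE ι π m) (M : Matrix (Fin m) (Fin m) K2) (i : ι) (x : a.A i) : a.A i :=
  (x.1, x.2 + ∑ b : Fin m, Pi.single (m + b) (∑ t : Fin m, kz (a.odd i) (M b t) * x.2 t))

theorem sum_single_lo {M : Type} [AddCommMonoid M] (v : Fin m → M) {p : ℕ}
    (hp : p < m ∨ 2 * m ≤ p) : (∑ b : Fin m, Pi.single (m + b) (v b) : ℕ → M) p = 0 := by
  rw [Finset.sum_apply]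
  exact Finset.sum_eq_zero fun b _ => Pi.single_eq_of_ne (by have := b.2; omega) _

theorem sum_single_hi {M : Type} [AddCommMonoid M] (v : Fin m → M) (o : ℕ) (t : Fin m) :
    (∑ b : Fin m, Pi.single (o + b) (v b) : ℕ → M) (o + t) = v t := by
  rw [Finset.sum_apply, Finset.sum_eq_single t]
  · simp
  · exact fun b _ hb => Pi.single_eq_of_ne (fun h => hb (Fin.ext (by omega))) _
  · simp

theorem sum_single_ge {M : Type} [AddCommMonoid M] (v : Fin m → M) {p : ℕ}
    (hp : m ≤ p) : (∑ b : Fin m, Pi.single (0 + b) (v b) : ℕ → M) p = 0 := by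
  rw [Finset.sum_apply]
  exact Finset.sum_eq_zero fun b _ => Pi.single_eq_of_ne (by have := b.2; omega) _

theorem swap_all (h : a.Mf (a.gam 1) T) : a.Mf (fun _ => swA m) T := by
  have L := a.tri Finset.univ (fun b : Fin m => 0 + b) (fun b => m + b) (fun _ => -1)
    (fun b => Or.inr ⟨by have := b.2; omega, by have := b.2; omega⟩)
    fun b b' => Or.inr (Or.inr (by have := b.2; omega))
  refine ((a.negs m (by omega)).l (L.l (h.r L))).congr fun i x => Prod.ext rfl (funext fun p => ?_)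
  have e : ∀ (z : Fin m → ZMod (a.R (a.P i))) (b : Fin m),
      ∑ t : Fin m, kz (a.odd i) ((1 : Matrix (Fin m) (Fin m) K2) b t) * z t = z b := fun z b => by
    simp [Matrix.one_apply, apply_ite]
  have e0 : ∀ (v : Fin m → ZMod (a.R (a.P i))) (t : Fin m),
      (∑ b : Fin m, Pi.single (0 + b) (v b) : ℕ → _) t = v t := fun v t => by
    simpa using sum_single_hi v 0 t
  simp only [swA, gam, e, Pi.add_apply]
  by_cases h1 : p < m
  · lift p to Fin m using h1
    simp only [p.2, if_true, e0, sum_single_hi, sum_single_lo _ (Or.inl p.2),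
      sum_single_ge _ (Nat.le_add_right _ _)]
    simp
  · by_cases h2 : p < 2 * m
    · obtain ⟨t, rfl⟩ : ∃ t : Fin m, p = m + t := ⟨⟨p - m, by omega⟩, by simp; omega⟩
      simp only [h1, h2, if_true, if_false, e0, sum_single_hi,
        sum_single_ge _ (Nat.le_add_right _ _), Nat.add_sub_cancel_left]
      simp
    · simp only [h1, h2, if_false, sum_single_lo _ (Or.inr (not_lt.1 h2)),
        sum_single_ge _ (not_lt.1 h1), add_zero]

theorem swap_pm (h : a.Mf (a.gam 1) T) :
    a.Pm (fun i => swp (a.w (a.P i)) (a.R (a.P i) ^ m) (a.w' (a.P i))) T := fun G =>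
  (swap_all h fun i x => G i (senc m (a.w (a.P i)) (a.w' (a.P i)) (a.R (a.P i)) x)).congr
    (fun i => by simp only [AE.arr, dec, senc_sdec (a.h1 i)])
    fun i => by simp only [AE.arr, dec, senc_swA (a.w0 i) (a.w0' i) (a.R0 i) (a.h1 i)]

theorem step (hT : ∀ i, 0 ≤ T i) (hs : ∀ p p' : Fin m, a.Pm (fun i =>
      swp (wt m (a.w (a.P i)) (a.w' (a.P i)) (a.R (a.P i)) p) (a.R (a.P i))
        (wt m (a.w (a.P i)) (a.w' (a.P i)) (a.R (a.P i)) (m + p'))) T)
    {f g : Fin m → K2} (hf : ∀ b, GoodK (f b)) (hg : ∀ b, GoodK (g b)) :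
    a.Mf (a.gam (Matrix.vecMulVec f g)) T := by
  classical
  by_cases h0 : (∀ b, f b = 0) ∨ ∀ b, g b = 0
  · refine fun F => (Mf.id.congr (fun i x => ?_) F).monoV hT
    rcases h0 with h0 | h0 <;> simp [gam, Matrix.vecMulVec_apply, h0]
  push Not at h0
  obtain ⟨b₀, hb, hb'⟩ := (Finset.univ.filter fun b => f b ≠ 0).exists_max_image id
    (by simpa [Finset.Nonempty] using h0.1)
  obtain ⟨t₀, ht, ht'⟩ := (Finset.univ.filter fun b => g b ≠ 0).exists_min_image id
    (by simpa [Finset.Nonempty] using h0.2)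
  simp only [Finset.mem_filter, Finset.mem_univ, true_and, id] at hb hb' ht ht'
  have fK := (hf b₀).resolve_left hb
  have gK := (hg t₀).resolve_left ht
  obtain ⟨f', f'K, ef⟩ := KU_inv fK
  obtain ⟨g', g'K, eg⟩ := KU_inv gK
  have l1 := t₀.2
  have l2 := b₀.2
  have n1 : (t₀ : ℕ) ≠ m + b₀ := by omega
  have S : a.Mf (fun _ x => (x.1, update (update x.2 t₀ (x.2 (m + b₀))) (m + b₀) (x.2 t₀))) T :=
    Mf.of_pm (hs t₀ b₀) fun i j => by
      rw [swp, a.dec_upd (by omega) i _ (dg_lt (a.R0 i)), a.dec_upd (by omega) i _ (dg_lt (a.R0 i))]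
      rfl
  have L := a.shear (p := t₀) (p' := m + b₀) (by omega) (by omega) 1
  have N := a.scale (p := t₀) (by omega) (c := -1) (Submonoid.subset_closure (by simp))
  have E : a.Mf (fun _ x => (x.1, x.2 + Pi.single (m + b₀) (x.2 t₀))) T :=
    (L.l (N.l (S.r L))).congr fun i x => Prod.ext rfl (funext fun p => by
      by_cases h1 : p = t₀
      · subst h1; simp [n1, n1.symm]
      · by_cases h2 : p = m + b₀
        · subst h2; simp [n1, n1.symm, add_comm]
        · simp [h1, h2])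
  have E' : a.Mf (fun i x => (x.1, x.2 + Pi.single (m + b₀)
      (kz (a.odd i) (f b₀ * g t₀) * x.2 t₀))) T :=
    ((a.scale (p := t₀) (by omega) (mul_mem f'K g'K)).l
      (E.r (a.scale (p := t₀) (by omega) (mul_mem fK gK)))).congr fun i x =>
      Prod.ext rfl (funext fun p => by
        by_cases h1 : p = t₀
        · subst h1
          simp only [Pi.add_apply, update_self, Pi.single_eq_of_ne n1, add_zero]
          rw [← mul_assoc, ← map_mul, show f' * g' * (f b₀ * g t₀) = f b₀ * f' * (g t₀ * g') by ring,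
            ef, eg]
          simp
        · simp [h1])
  have X := fun s : K2 => a.tri Finset.univ (fun _ : Fin m => (t₀ : ℕ)) (fun t => t)
    (fun t => if t = t₀ then 0 else s * (g t * g')) (fun t => by
      by_cases h1 : t = t₀
      · simp [h1]
      by_cases h2 : g t = 0
      · simp [h2]
      exact Or.inr ⟨by omega, lt_of_le_of_ne (ht' t h2) fun h => h1 (Fin.ext h.symm)⟩)
    fun t t' => by
      by_cases h1 : t' = t₀
      · simp [h1]
      exact Or.inr (Or.inr fun h => h1 (Fin.ext h.symm))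
  have Y := fun s : K2 => a.tri Finset.univ (fun b : Fin m => m + b) (fun _ => m + b₀)
    (fun b => if b = b₀ then 0 else s * (f b * f')) (fun b => by
      by_cases h1 : b = b₀
      · simp [h1]
      by_cases h2 : f b = 0
      · simp [h2]
      have := b.2
      have : (b : ℕ) < b₀ := lt_of_le_of_ne (hb' b h2) fun h => h1 (Fin.ext h)
      exact Or.inr ⟨by omega, by omega⟩)
    fun b b' => by
      by_cases h1 : b = b₀
      · simp [h1]
      exact Or.inr (Or.inr fun h => h1 (Fin.ext (by omega)))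
  have B : a.Mf (fun i x => (x.1, x.2 + Pi.single (m + b₀)
      (kz (a.odd i) (f b₀) * ∑ t : Fin m, kz (a.odd i) (g t) * x.2 t))) T :=
    ((X (-1)).l (E'.r (X 1))).congr fun i x => Prod.ext rfl (by
      have e0 : ∀ v : Fin m → ZMod (a.R (a.P i)), (∑ t, Pi.single (t₀ : ℕ) (v t) : ℕ → _) =
          Pi.single (t₀ : ℕ) (∑ t, v t) := fun v =>
        (map_sum (AddMonoidHom.single (fun _ : ℕ => ZMod (a.R (a.P i))) t₀) v _).symm
      simp only [e0]
      have e1 : ∀ (s : K2) (v w : ZMod (a.R (a.P i))), ∑ t : Fin m, kz (a.odd i)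
          (if t = t₀ then 0 else s * (g t * g')) * (x.2 + Pi.single (t₀ : ℕ) v +
            Pi.single (m + b₀) w : ℕ → _) t = kz (a.odd i) s * ∑ t : Fin m, kz (a.odd i)
          (if t = t₀ then 0 else 1 * (g t * g')) * x.2 t := fun s v w => by
        rw [Finset.mul_sum]
        refine Finset.sum_congr rfl fun t _ => ?_
        have := t.2
        by_cases h1 : t = t₀
        · simp [h1]
        · simp [h1, Pi.single_eq_of_ne (show (t : ℕ) ≠ t₀ from fun h => h1 (Fin.ext h)),
            Pi.single_eq_of_ne (show (t : ℕ) ≠ m + b₀ by omega), mul_assoc]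
      rw [e1]
      have e2 : ∑ t : Fin m, kz (a.odd i) (g t) * x.2 t = kz (a.odd i) (g t₀) * (x.2 t₀ +
          ∑ t : Fin m, kz (a.odd i) (if t = t₀ then 0 else 1 * (g t * g')) * x.2 t) := by
        rw [mul_add, Finset.mul_sum, ← Finset.add_sum_erase _ _ (Finset.mem_univ t₀),
          ← Finset.add_sum_erase _ _ (Finset.mem_univ t₀)]
        simp only [if_true, map_zero, zero_mul, mul_zero, zero_add]
        congr 1
        refine Finset.sum_congr rfl fun t h1 => ?_
        rw [if_neg (Finset.ne_of_mem_erase h1), ← mul_assoc, ← map_mul,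
          show g t₀ * (1 * (g t * g')) = g t * (g t₀ * g') by ring, eg, mul_one]
      rw [e2]
      simp only [map_neg, map_one, neg_one_mul, Pi.single_neg, Pi.add_apply, Pi.single_eq_same,
        map_mul, mul_assoc]
      abel)
  refine ((Y 1).l (B.r (Y (-1)))).congr fun i x => Prod.ext rfl (funext fun p => ?_)
  simp only [gam, Pi.add_apply, sum_single_hi, fun t : Fin m => sum_single_lo (M := ZMod (a.R (a.P i)))
    (p := t) (hp := Or.inl t.2), if_true, map_zero, zero_mul, add_zero, Pi.single_eq_same]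
  by_cases h1 : p < m ∨ 2 * m ≤ p
  · simp only [sum_single_lo _ h1, Pi.single_eq_of_ne (show p ≠ m + b₀ by omega), add_zero]
  · obtain ⟨t, rfl⟩ : ∃ t : Fin m, p = m + t := ⟨⟨p - m, by omega⟩, by simp; omega⟩
    simp only [sum_single_hi, Matrix.vecMulVec_apply, map_mul, mul_assoc, ← Finset.mul_sum]
    by_cases h2 : t = b₀
    · simp [h2]
    · have e := congrArg (kz (a.odd i)) ef
      rw [map_mul, map_one] at e
      simp only [h2, if_false, Pi.single_eq_of_ne (show m + (t : ℕ) ≠ m + b₀ from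
        fun h => h2 (Fin.ext (by omega))), map_mul, map_neg, map_one]
      linear_combination (-(kz (a.odd i) (f t) * ∑ t : Fin m, kz (a.odd i) (g t) * x.2 t)) * e

end SE

end Vale.Agent.P338
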