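import Vale.Agent.P338.Net

/-! Words, parameters and the statements of the program modules. -/

namespace Vale.Agent.P338

open Function
open Vale.Agent.Lib.H24.T (Enc enc code sz PT Pb sz_pair sz_cons sz_nil sz_pos sz_list_le sz_nat_le
  sz_unit)

/-- residues -/
abbrev Zq (q : ℕ) : Type := ZMod (2 ^ (2 * q) + 1)

/-- the word of a residue -/
def wd (q : ℕ) (v : Zq q) : List Bool := lb (2 * q + 2) v.val

/-- an atom of `B` residues -/
def atm (q B : ℕ) (v : ℕ → Zq q) : Atom := tab B fun k => wd q (v k)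

theorem atm_eq (q B : ℕ) (v : ℕ → Zq q) :
    atm q B v = atB B (2 * q + 2) fun k t => (v k).val.testBit t := rfl

/-- one half -/
def hh (q : ℕ) : Zq q := -2 ^ (2 * q - 1)

/-- the imaginary unit -/
def ii (q : ℕ) : Zq q := 2 ^ q

theorem two_pow_eq (q : ℕ) : (2 : Zq q) ^ (2 * q) = -1 := by
  have : ((2 ^ (2 * q) + 1 : ℕ) : Zq q) = 0 := ZMod.natCast_self _
  push_cast at this
  exact eq_neg_of_add_eq_zero_left this

theorem ii_mul (q : ℕ) : ii q * ii q = -1 := by rw [ii, ← pow_add, ← two_mul, two_pow_eq]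

theorem two_hh {q : ℕ} (h : 1 ≤ q) : 2 * hh q = 1 := by
  rw [hh, mul_neg, ← pow_succ', show 2 * q - 1 + 1 = 2 * q by omega, two_pow_eq, neg_neg]

/-- Gaussian integers as residues -/
def gz (q : ℕ) : GI →+* Zq q := Zsqrtd.lift ⟨ii q, by rw [ii_mul]; simp⟩

theorem gz_apply (q : ℕ) (z : GI) : gz q z = z.re + z.im * ii q := rfl

/-- calls multiply factors of length `n` in time `T` -/
def MulT (s : Prog) (n : ℕ) (T : ℝ) : Prop :=
  ∀ x y : List Bool, x.length = n → y.length = n →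
    ∃ t : ℕ, (t : ℝ) ≤ T ∧ Run s s (code (x, y)) (code (lb (2 * n) (lv x * lv y))) t

/-- exchange of two digits -/
def SWSpec (W : ℕ) (γ : ℝ) : Prop :=
  ∀ (ι : Type) (s : ι → Prog) (J N w w' Q B l : ι → ℕ) (F : ι → ℕ → ℕ → ℕ → Bool),
    (∀ i, W ^ J i ∣ w i ∧ 0 < w i ∧ w i * Q i ^ mm ^ J i ∣ w' i ∧ w' i * Q i ^ mm ^ J i ∣ N i ∧
      0 < N i ∧ Q i % 2 = 1 ∧ 3 ≤ Q i ∧ qp (N i).size ≤ B i) →
    Cmp s (fun i => ((N i, w i, w' i, Q i, List.replicate (mm ^ J i) ()),
        tab (N i) fun j => atB (B i) (l i) (F i j)))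
      (fun i => tab (N i) fun j => atB (B i) (l i) (F i (swp (w i) (Q i ^ mm ^ J i) (w' i) j)))
      (fun i => (Q i).size * γ ^ J i * (N i * (B i * (l i + 1)))) 0

/-- addresses: low part and cells -/
abbrev CA' : Type := ℕ × (ℕ → ℕ)

/-- the address of an index -/
def cdec (w R j : ℕ) : CA' := (j % w, fun p => dg (w * R ^ p) R j)

/-- flip bit `ρ` of the cells selected by `t` -/
def xo (q ρ : ℕ) (t : ℕ → ZMod 2) : Module.End (Zq q) (CA' → ℕ → Zq q) :=
  LinearMap.funLeft _ _ fun a => (a.1, fun p => a.2 p ^^^ (t p).val * 2 ^ ρ)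

/-- arrays of `D` cells of range `R`, zero unless all cells are below `2 ^ K` -/
def carr (q B w R K D : ℕ) (F : CA' → ℕ → Zq q) : List Atom :=
  tab (w * R ^ D) fun j => atm q B
    (cond (okB w R (List.replicate D ()) (fun _ => 2 ^ K) j) (F (cdec w R j)) 0)

/-- butterflies on bit `ρ` of `mm ^ j` consecutive cells -/
def CNSpec (WS WC : ℕ) (γ : ℝ) : Prop :=
  ∀ (ι : Type) (s : ι → Prog) (J j w g ρ p D q B : ι → ℕ) (F : ∀ i, CA' → ℕ → Zq (q i)),
    (∀ i, WC ^ j i * WS ^ (J i + j i) ∣ w i ∧ 0 < w i ∧ 1 ≤ g i ∧ 1 ≤ q i ∧ mm ^ j i ≤ p i ∧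
      p i + mm ^ j i ≤ D i ∧ ρ i < g i * mm ^ J i ∧ (j i = 0 ∨ ρ i + 1 + 2 * g i ≤ g i * mm ^ J i) ∧
      qp ((w i * ((2 ^ g i + 1) ^ mm ^ J i) ^ D i).size + q i) ≤ B i) →
    Cmp s (fun i => (((List.replicate (mm ^ J i) (), List.replicate (g i) (),
        List.replicate (D i) (), List.replicate (mm ^ j i) (), List.replicate (q i) ()),
        (w i, ρ i, p i)),
        carr (q i) (B i) (w i) ((2 ^ g i + 1) ^ mm ^ J i) (g i * mm ^ J i) (D i) (F i)))
      (fun i => carr (q i) (B i) (w i) ((2 ^ g i + 1) ^ mm ^ J i) (g i * mm ^ J i) (D i)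
        (cpr (hh (q i)) (ii (q i)) (xo (q i) (ρ i)) (fun c => Pi.single (p i + c) 1) (mm ^ j i) (F i)))
      (fun i => (j i * (g i + 2) * γ ^ (J i + j i) + γ ^ j i) *
        ((w i * ((2 ^ g i + 1) ^ mm ^ J i) ^ D i : ℕ) * (B i * (q i + 1)))) 0

/-- parameters `((u, g, d, T), (A, B), s)` -/
abbrev Par : Type := (List Unit × List Unit × List Unit × List Unit) × (ℕ × ℕ) × List ℕ

/-- product of unary numbers -/
def mulU (a b : List Unit) : List Unit := a.flatMap fun _ => b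

@[simp] theorem length_mulU (a b : List Unit) : (mulU a b).length = a.length * b.length := by
  simp [mulU]

@[fun_prop] theorem PT.mulU {α : Type} [Enc α] {a b : α → List Unit} (ha : PT a) (hb : PT b) :
    PT fun x => mulU (a x) (b x) := by unfold P338.mulU; fun_prop

theorem eq_rep (u : List Unit) : u = List.replicate u.length () :=
  List.eq_replicate_iff.2 ⟨rfl, fun _ _ => rfl⟩

namespace Par
variable (p : Par)
/-- unary `u` -/
def uU : List Unit := p.1.1
/-- unary `g` -/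
def gU : List Unit := p.1.2.1
/-- unary `d` -/
def dU : List Unit := p.1.2.2.1
/-- unary `2 ^ L` -/
def TU : List Unit := p.1.2.2.2
/-- batch size -/
def A : ℕ := p.2.1.1
/-- words per atom -/
def B : ℕ := p.2.1.2
/-- the moduli -/
def sf (i : ℕ) : ℕ := p.2.2.getD i 1
/-- unary `K` -/
def KU : List Unit := mulU p.gU p.uU
/-- unary `L` -/
def LU : List Unit := mulU p.dU p.KU
/-- unary `b` -/
def bU : List Unit := mulU p.dU p.LU
/-- unary `q` -/
def qU : List Unit := mulU (List.replicate 7000 ()) p.bU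
/-- unary `D` -/
def DU : List Unit := p.dU ++ mulU p.dU p.dU
/-- digits per cell -/
abbrev u : ℕ := p.uU.length
/-- bits per digit -/
abbrev g : ℕ := p.gU.length
/-- dimension -/
abbrev d : ℕ := p.dU.length
/-- bits per cell -/
abbrev K : ℕ := p.KU.length
/-- bits per axis -/
abbrev L : ℕ := p.LU.length
/-- bits per input digit -/
abbrev b : ℕ := p.bU.length
/-- half word length -/
abbrev q : ℕ := p.qU.length
/-- number of cells -/
abbrev D : ℕ := p.DU.length
/-- range of a digit -/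
def Q : ℕ := 2 ^ p.g + 1
/-- range of a cell -/
def R : ℕ := p.Q ^ p.u
/-- weight of the lowest cell -/
def w : ℕ := p.A * 2 ^ p.d
/-- number of atoms of a padded array -/
def N : ℕ := p.w * p.R ^ p.D
/-- atoms per polynomial -/
def Lp : ℕ := p.w * 2 ^ p.L
/-- coefficients per polynomial -/
def La : ℕ := p.B * p.Lp
/-- product of the moduli -/
def Ns : ℕ := pw p.sf p.d
/-- the moduli -/
def sF (i : Fin p.d) : ℕ := p.sf i

theorem K_eq : p.K = p.g * p.u := length_mulU _ _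
theorem L_eq : p.L = p.d * p.K := length_mulU _ _
theorem b_eq : p.b = p.d * p.L := length_mulU _ _
theorem q_eq : p.q = 7000 * p.b := by simp only [q, qU, length_mulU, List.length_replicate]
theorem D_eq : p.D = p.d + p.d * p.d := by simp only [D, DU, List.length_append, length_mulU]
theorem Ns_eq : p.Ns = ∏ i, p.sF i := (Fin.prod_univ_eq_prod_range p.sf p.d).symm

variable {α : Type} [Enc α] {f : α → Par} (h : PT f)
include h
@[fun_prop] theorem pt_uU : PT fun a => (f a).uU := by unfold uU; fun_prop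
@[fun_prop] theorem pt_gU : PT fun a => (f a).gU := by unfold gU; fun_prop
@[fun_prop] theorem pt_dU : PT fun a => (f a).dU := by unfold dU; fun_prop
@[fun_prop] theorem pt_TU : PT fun a => (f a).TU := by unfold TU; fun_prop
@[fun_prop] theorem pt_A : PT fun a => (f a).A := by unfold A; fun_prop
@[fun_prop] theorem pt_B : PT fun a => (f a).B := by unfold B; fun_prop
@[fun_prop] theorem pt_sf {i : α → ℕ} (hi : PT i) : PT fun a => (f a).sf (i a) := by
  unfold sf; fun_prop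
@[fun_prop] theorem pt_KU : PT fun a => (f a).KU := by unfold KU; fun_prop
@[fun_prop] theorem pt_LU : PT fun a => (f a).LU := by unfold LU; fun_prop
@[fun_prop] theorem pt_bU : PT fun a => (f a).bU := by unfold bU; fun_prop
@[fun_prop] theorem pt_qU : PT fun a => (f a).qU := by unfold qU; fun_prop
@[fun_prop] theorem pt_DU : PT fun a => (f a).DU := by unfold DU; fun_prop
@[fun_prop] theorem pt_Q : PT fun a => (f a).Q := by unfold Q; fun_prop
@[fun_prop] theorem pt_R : PT fun a => (f a).R := by unfold R; fun_prop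
@[fun_prop] theorem pt_w : PT fun a => (f a).w := by unfold w; fun_prop
@[fun_prop] theorem pt_N : PT fun a => (f a).N := by unfold N; fun_prop
@[fun_prop] theorem pt_Lp : PT fun a => (f a).Lp := by unfold Lp; fun_prop
@[fun_prop] theorem pt_La : PT fun a => (f a).La := by unfold La; fun_prop
@[fun_prop] theorem pt_pw {i : α → ℕ} (hi : PT i) :
    PT fun a => pw (f a).sf (min (i a) (f a).d) := by
  have : PT fun a => ((List.range ((f a).dU.take (i a)).length).map fun l => (f a).sf l).prod := by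
    fun_prop
  exact this.of_eq fun a => by rw [List.length_take]; rfl
@[fun_prop] theorem pt_Ns : PT fun a => (f a).Ns :=
  (pt_pw h (i := fun a => (f a).d) (by fun_prop)).of_eq fun a => by rw [min_self, Ns]
end Par

/-- admissible parameters -/
structure Good (WS WC J j : ℕ) (p : Par) : Prop where
  hu : p.u = mm ^ J
  hd : p.d = mm ^ j
  hg : 1 ≤ p.g
  hT : p.TU.length = 2 ^ p.L
  hA : WC ^ j * WS ^ (J + j) ∣ p.A
  hA0 : 0 < p.A
  hl : p.2.2.length = p.d
  hs : ∀ i < p.d, 0 < p.sf i ∧ p.sf i ≤ 2 ^ p.L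
  hc : ∀ i < p.d, ∀ i' < p.d, i ≠ i' → Nat.Coprime (p.sf i) (p.sf i')
  hLa : p.La ≤ 2 ^ p.b
  hB : qp (p.N.size + p.q + 2 ^ p.L) ≤ p.B

namespace Good
variable {WS WC J j : ℕ} {p : Par} (h : Good WS WC J j p)
include h
theorem u_pos : 0 < p.u := h.hu ▸ pow_pos (by decide) _
theorem d_pos : 0 < p.d := h.hd ▸ pow_pos (by decide) _
theorem K_pos : 0 < p.K := p.K_eq ▸ Nat.mul_pos h.hg h.u_pos
theorem d_le : p.d ≤ p.L := p.L_eq ▸ Nat.le_mul_of_pos_right _ h.K_pos
theorem K_le : p.K ≤ p.L := p.L_eq ▸ Nat.le_mul_of_pos_left _ h.d_pos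
theorem L_le : p.L ≤ p.b := p.b_eq ▸ Nat.le_mul_of_pos_left _ h.d_pos
theorem b_pos : 0 < p.b := (h.d_pos.trans_le h.d_le).trans_le h.L_le
theorem B_pos : 0 < p.B := (qp_pos _).trans_le h.hB
theorem w_pos : 0 < p.w := Nat.mul_pos h.hA0 (by positivity)
theorem Lp_pos : 0 < p.Lp := Nat.mul_pos h.w_pos (by positivity)
theorem Ns_pos : 0 < p.Ns := pw_pos fun i hi => (h.hs i hi).1
omit h in
theorem R_ge : 2 ^ p.K ≤ p.R := by
  rw [p.K_eq, pow_mul]; exact Nat.pow_le_pow_left (Nat.le_succ _) _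
omit h in
theorem R_pos : 0 < p.R := (Nat.two_pow_pos _).trans_le R_ge
theorem N_pos : 0 < p.N := Nat.mul_pos h.w_pos (pow_pos R_pos _)
theorem Ns_le : p.Ns ≤ (2 ^ p.L) ^ p.d := by
  rw [← pw_const]
  exact Finset.prod_le_prod' (s := Finset.range p.d) fun i hi => (h.hs i (by simpa using hi)).2
omit h in
theorem pad_le : p.Lp * (2 ^ p.L) ^ p.d ≤ p.N := by
  have e : p.Lp * (2 ^ p.L) ^ p.d = p.w * (2 ^ p.K) ^ p.D := by
    rw [Par.Lp, p.D_eq, p.L_eq]; ring
  rw [e]
  exact Nat.mul_le_mul_left _ (Nat.pow_le_pow_left R_ge _)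
theorem le_N : p.Lp * p.Ns ≤ p.N := (Nat.mul_le_mul_left _ h.Ns_le).trans pad_le

theorem sz_le : sz p ≤ (p.N.size + p.q + 2 ^ p.L + 2) ^ 2 := by
  have hu : ∀ l : List Unit, sz l ≤ 2 * l.length + 1 := fun l => by
    have := sz_list_le (l := l) (B := 1) fun a _ => (sz_unit a).le
    omega
  have a1 := hu p.uU
  have a2 := hu p.gU
  have a3 := hu p.dU
  have a4 := hu p.TU
  have a5 : sz p.A ≤ 4 * p.N.size + 1 := sz_nat_le ((Nat.le_mul_of_pos_right _ (by positivity) |>.trans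
    (Nat.le_mul_of_pos_right (p.A * 2 ^ p.d) (pow_pos R_pos p.D))).trans_lt (Nat.lt_size_self _))
  have a6 : sz p.B ≤ 4 * (p.b + 1) + 1 := sz_nat_le
    (((Nat.le_mul_of_pos_right _ h.Lp_pos).trans h.hLa).trans_lt
      (Nat.pow_lt_pow_right (by omega) (by omega)))
  have a7 := sz_list_le (l := p.2.2) (B := 4 * (p.L + 1) + 1) fun a ha => sz_nat_le (by
    obtain ⟨i, hi, rfl⟩ := List.getElem_of_mem ha
    have := (h.hs i (h.hl ▸ hi)).2
    rw [Par.sf, List.getD_eq_getElem _ _ hi] at this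
    exact this.trans_lt (Nat.pow_lt_pow_right (by omega) (by omega)))
  have a8 : p.u ≤ p.K := p.K_eq ▸ Nat.le_mul_of_pos_left _ h.hg
  have a9 : p.g ≤ p.K := p.K_eq ▸ Nat.le_mul_of_pos_right _ h.u_pos
  have e : sz p = sz p.uU + sz p.gU + sz p.dU + sz p.TU + sz p.A + sz p.B + sz p.2.2 + 6 := by
    obtain ⟨⟨a, b, c, d⟩, ⟨x, y⟩, z⟩ := p
    simp only [sz_pair, Par.uU, Par.gU, Par.dU, Par.TU, Par.A, Par.B]; omega
  have := h.hT
  have := h.K_le
  have := h.d_le
  have := h.L_le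
  have := h.b_pos
  have := p.q_eq
  have b1 := p.b_eq
  rw [h.hl, show p.d * (4 * (p.L + 1) + 1 + 1) = 4 * (p.d * p.L) + 6 * p.d by ring, ← b1] at a7
  have b2 : sz p ≤ 4 * (p.N.size + p.q + 2 ^ p.L) := by
    simp only [Par.u, Par.g, Par.d, Par.K, Par.L, Par.b, Par.q] at *; omega
  nlinarith
end Good

/-- the environment of admissible parameters -/
def pe {ι : Type} {WS WC : ℕ} {J j : ι → ℕ} (s : ι → Prog) (P : ι → Par)
    (h : ∀ i, Good WS WC (J i) (j i) (P i)) : Env ι Par where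
  s := s
  P := P
  E := fun i => (P i).B * ((P i).q + 1)
  hS := (small_qp (a := fun i => (P i).N.size + (P i).q + 2 ^ (P i).L) fun i => by
    have h1 : (qp ((P i).N.size + (P i).q + 2 ^ (P i).L) : ℝ) ≤ (P i).B := by exact_mod_cast (h i).hB
    nlinarith [(by positivity : (0 : ℝ) ≤ (P i).B), (by positivity : (0 : ℝ) ≤ (P i).q)]).poly 2
      fun i => (h i).sz_le

/-- passes used by a transform -/
noncomputable def cT (γ : ℝ) (J j : ℕ) (p : Par) : ℝ :=
  p.d ^ 2 * (p.g + 2) * γ ^ J + p.L * (j * (p.g + 2) * γ ^ (J + j) + γ ^ j)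

/-- the budget of a transform -/
noncomputable def uT (γ : ℝ) (J j : ℕ) (p : Par) : ℝ := cT γ J j p * (p.N * (p.B * (p.q + 1)))

/-- polynomials in natural order -/
def narr (p : Par) (X : ℕ → ℕ → Zq p.q) : List Atom :=
  tab (p.Lp * p.Ns) fun j => atm p.q p.B fun k => X (j / p.Lp) (k + p.B * (j % p.Lp))

/-- polynomials indexed by residues -/
def rarr (p : Par) (Y : ℕ → (Fin p.d → ℕ) → Zq p.q) : List Atom :=
  tab (p.Lp * p.Ns) fun j => atm p.q p.B fun k =>
    Y (k + p.B * (j % p.Lp)) fun i => dg (p.Lp * pw p.sf i) (p.sf i) j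

/-- Module H (file Crt.lean, theorem `crt`). -/
def CrtStmt : Prop :=
  ∀ (WS WC : ℕ) (γ : ℝ), 1 ≤ γ → SWSpec WS γ →
    ∃ (c : Par → ℕ → ℕ) (ψ : (p : Par) → (Fin p.d → ℕ) → ℕ),
    (∀ J j p, Good WS WC J j p → (∀ i < p.d, Nat.Coprime (c p i) (p.sf i)) ∧
      ∀ n < p.Ns, ψ p (fun i => c p i * n % p.sf i) = n) ∧
    ∀ (ι : Type) (s : ι → Prog) (P : ι → Par) (J j : ι → ℕ)
      (h : ∀ i, Good WS WC (J i) (j i) (P i)),
      (∀ X : ∀ i, ℕ → ℕ → Zq (P i).q, Op (pe s P h) (fun i => uT γ (J i) (j i) (P i))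
        (fun i => narr (P i) (X i)) (fun i => rarr (P i) fun k r => X i (ψ (P i) r) k) 0) ∧
      ∀ Y : ∀ i, ℕ → (Fin (P i).d → ℕ) → Zq (P i).q, Op (pe s P h) (fun i => uT γ (J i) (j i) (P i))
        (fun i => rarr (P i) (Y i))
        (fun i => narr (P i) fun n k => Y i k fun a => c (P i) a * n % (P i).sf a) 0

/-- Module I (file Tr.lean, theorem `transform`). -/
def TrStmt : Prop :=
  ∀ (D : FD), PT D.ev → PT D.ds → PT D.ms → PT D.st → FFTSpec D →
    ∀ (WS WC : ℕ) (γ : ℝ), 1 ≤ γ → SWSpec WS γ → CNSpec WS WC γ →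
    ∀ (inv : Bool) (ι : Type) (s : ι → Prog) (P : ι → Par) (J j : ι → ℕ)
      (h : ∀ i, Good WS WC (J i) (j i) (P i)) (T : ι → ℝ)
      (x : ∀ i, ℕ → (Fin (P i).d → ℕ) → GI), (∀ i, MulT (s i) (2 * (P i).q + 2) (T i)) →
      (∀ i, D.Fits (P i).L (P i).sF ((P i).B * (P i).A) (P i).La inv (x i)) →
      Op (pe s P h) (fun i => uT γ (J i) (j i) (P i))
        (fun i => rarr (P i) fun k r => gz _ (x i k r))
        (fun i => rarr (P i) fun k r =>
          gz _ (D.tr (P i).L (P i).sF ((P i).B * (P i).A) inv (x i) k r))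
        fun i => 30 * ((P i).L + (P i).d + 1) * ((P i).N * ((P i).B * T i))

/-- the digits of a factor -/
def Xd (p : Par) (x n k : ℕ) : ℕ :=
  if k < p.La / 2 then dg (2 ^ (p.b * (k + p.La / 2 * n))) (2 ^ p.b) x else 0

/-- the target running time -/
noncomputable def tau (κ : ℝ) (n : ℕ) : ℝ := (n + 1) * Real.logb 2 (n + 2) ^ (1 - κ)

/-- Module G (file Par.lean, theorem `par_exists`). -/
def ParStmt : Prop :=
  ∀ (WS WC : ℕ) (γ : ℝ), 0 < WS → 0 < WC → 1 ≤ γ → γ < mm →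
    ∃ (par : ℕ × List Unit → Par) (tt : ℕ → ℕ) (n₀ : ℕ) (κ C : ℝ), PT par ∧ PT tt ∧ 0 < κ ∧ κ < 1 ∧
      ∀ n, n₀ ≤ n → qp (n.size + tt n) ≤ n ∧ ∃ J j, ∀ p, p = par (n, List.replicate (tt n) ()) →
        Good WS WC J j p ∧ n ≤ p.b * (p.La / 2) * (p.Ns / 2) ∧ uT γ J j p ≤ C * tau κ n ∧
        2 * p.q + 2 < n ∧ 6 * p.q * p.La < n ∧
        100 * (p.L + p.d + 1) * (p.N * (p.B * tau κ (2 * p.q + 2))) +
          p.Ns * tau κ (6 * p.q * p.La) ≤ tau κ n / 2

end Vale.Agent.P338
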