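import Vale.Agent.P338.Spec3

/-! Exchanges of digits inside array environments. -/

namespace Vale.Agent.P338

open Function
open Vale.Agent.Lib.H24.T (Enc PT)

variable {ι π : Type} [Enc π] {W : ℕ} {γ : ℝ}

theorem SWSpec.mono {γ' : ℝ} (h : SWSpec W γ) (h0 : 0 ≤ γ) (h1 : γ ≤ γ') : SWSpec W γ' :=
  fun ι s J N w w' Q B l F hc => (h ι s J N w w' Q B l F hc).mono (Bd.le_right (fun i => by positivity)
    fun i => by have := h0.trans h1; gcongr) fun _ => le_rfl

theorem AE.Pm.swap (h : SWSpec W γ) (a : AE ι π) (J : ι → ℕ) {w w' Q : π → ℕ} {k : π → List Unit}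
    (hw : PT w) (hw' : PT w') (hQ : PT Q) (hk : PT k)
    (hc : ∀ i, (k (a.P i)).length = mm ^ J i ∧ W ^ J i ∣ w (a.P i) ∧ 0 < w (a.P i) ∧
      w (a.P i) * Q (a.P i) ^ mm ^ J i ∣ w' (a.P i) ∧
      w' (a.P i) * Q (a.P i) ^ mm ^ J i ∣ a.N (a.P i) ∧ Q (a.P i) % 2 = 1 ∧ 3 ≤ Q (a.P i) ∧
      qp (a.N (a.P i)).size ≤ a.B i)
    (hU : Bd (fun i => (Q (a.P i)).size * γ ^ J i * (a.N (a.P i) * (a.B i * (a.l i + 1)))) a.U) :
    a.Pm (fun i => swp (w (a.P i)) (Q (a.P i) ^ mm ^ J i) (w' (a.P i))) 0 := fun G => by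
  have hN := a.hN.1
  refine Op.call (f := fun p => (a.N p, w p, w' p, Q p, k p)) (by fun_prop) a.hN.bdE (a.bd G) ?_
  refine ((h ι a.s J (fun i => a.N (a.P i)) (fun i => w (a.P i)) (fun i => w' (a.P i))
    (fun i => Q (a.P i)) a.B a.l G fun i => ?_).mono hU fun _ => le_rfl).congr (fun i => ?_)
    fun _ => rfl
  · obtain ⟨-, b, c, d, e, f, g, h⟩ := hc i
    exact ⟨b, c, d, e, a.N0 i, f, g, h⟩
  · rw [← (hc i).1, ← eq_rep]; rfl

/-- the environment inside a loop -/
def AE.ext {δ : Type} [Enc δ] (a : AE ι π) (I : π → List δ) (hI : PT I) (d : δ) (U : ι → ℝ)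
    (hU : a.Ok a.N U) : AE (Pos fun i => (I (a.P i)).length) (π × δ) where
  toEnv := a.toEnv.ext I hI d
  U := fun q => U q.1.1
  N := fun p => a.N p.1
  B := fun q => a.B q.1.1
  l := fun q => a.l q.1.1
  hN := ⟨by have := hU.1; fun_prop, hU.2.re fun q : Pos _ => q.1.1⟩
  hA := a.hA.re fun q : Pos _ => q.1.1
  N0 := fun q => a.N0 q.1.1

/-- restriction of the family -/
def AE.re {ι' : Type} (a : AE ι π) (g : ι' → ι) : AE ι' π where
  toEnv := a.toEnv.re g
  U := fun i => a.U (g i)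
  N := a.N
  B := fun i => a.B (g i)
  l := fun i => a.l (g i)
  hN := ⟨a.hN.1, a.hN.2.re g⟩
  hA := a.hA.re g
  N0 := fun i => a.N0 (g i)

/-- exchange the digits `p` and `θ p` for all `p < t` -/
def invI (w X : ℕ) (θ : ℕ → ℕ) : ℕ → ℕ → ℕ
  | 0, j => j
  | t + 1, j => invI w X θ t (if t < θ t then swp (w * X ^ t) X (w * X ^ θ t) j else j)

theorem dg_swp {w X a b p j : ℕ} (hw : 0 < w) (hX : 0 < X) (h : a < b) :
    dg (w * X ^ p) X (swp (w * X ^ a) X (w * X ^ b) j) = dg (w * X ^ Equiv.swap a b p) X j := by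
  unfold swp
  rcases eq_or_ne p b with rfl | hb
  · rw [dg_upd_self (by positivity) (dg_lt hX), Equiv.swap_apply_right]
  · have : dg (w * X ^ p) X (upd (w * X ^ b) X (upd (w * X ^ a) X j (dg (w * X ^ b) X j))
        (dg (w * X ^ a) X j)) = dg (w * X ^ p) X (upd (w * X ^ a) X j (dg (w * X ^ b) X j)) := by
      rcases hb.lt_or_gt with h1 | h1
      · exact dg_upd_lo (pow_dvd h1)
      · exact dg_upd_hi (by positivity) (dg_lt hX) (pow_dvd h1)
    rw [this]
    rcases lt_trichotomy p a with h1 | rfl | h1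
    · rw [dg_upd_lo (pow_dvd h1), Equiv.swap_apply_of_ne_of_ne h1.ne hb]
    · rw [dg_upd_self (by positivity) (dg_lt hX), Equiv.swap_apply_left]
    · rw [dg_upd_hi (by positivity) (dg_lt hX) (pow_dvd h1), Equiv.swap_apply_of_ne_of_ne h1.ne' hb]

theorem swp_mod {w X a b j : ℕ} : swp (w * a) X (w * b) j % w = j % w := by
  unfold swp; rw [upd_mod (Dvd.intro _ rfl), upd_mod (Dvd.intro _ rfl)]

theorem invI_mod (w X : ℕ) (θ : ℕ → ℕ) (t : ℕ) : ∀ j, invI w X θ t j % w = j % w := by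
  induction t with
  | zero => intro j; rfl
  | succ t ih => intro j; rw [invI, ih]; split_ifs; exacts [swp_mod, rfl]

theorem dg_invI {w X n : ℕ} {θ : ℕ → ℕ} (hw : 0 < w) (hX : 0 < X)
    (hθ : ∀ p < n, θ p < n ∧ θ (θ p) = p) (t : ℕ) (ht : t ≤ n) : ∀ j, ∀ p < n,
    dg (w * X ^ p) X (invI w X θ t j) = dg (w * X ^ if p < t ∨ θ p < t then θ p else p) X j := by
  induction t with
  | zero => intro j p _; simp [invI]
  | succ t ih =>
    intro j p hp
    rw [invI, ih (by omega) _ p hp]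
    have h1 := hθ p hp
    have h2 := hθ t ht
    have h3 : θ p = t → p = θ t := fun e => by rw [← e, h1.2]
    have h4 : θ p = θ t → p = t := fun e => by rw [← h1.2, e, h2.2]
    by_cases h : t < θ t
    · rw [if_pos h, dg_swp hw hX h]
      congr 3
      rcases eq_or_ne p t with rfl | e1
      · rw [if_neg (by omega), if_pos (by omega), Equiv.swap_apply_left]
      rcases eq_or_ne p (θ t) with rfl | e2
      · rw [if_neg (by omega), if_pos (by omega), Equiv.swap_apply_right, h2.2]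
      rw [Equiv.swap_apply_of_ne_of_ne] <;> split_ifs <;> omega
    · rw [if_neg h]
      congr 3
      rcases eq_or_ne p t with rfl | e1
      · split_ifs <;> omega
      · have : θ p = t → p < t := fun e => by have := h3 e; omega
        split_ifs <;> omega

/-- an involution of the digits -/
theorem AE.Pm.invol (h : SWSpec W γ) (h1 : 1 ≤ γ) (a : AE ι π) (J : ι → ℕ) {w Q : π → ℕ}
    {k n : π → List Unit} {θ : π → ℕ → ℕ} (hw : PT w) (hQ : PT Q) (hk : PT k) (hn : PT n)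
    (hθ : PT fun p : π × ℕ => θ p.1 p.2)
    (hc : ∀ i, (k (a.P i)).length = mm ^ J i ∧ W ^ J i ∣ w (a.P i) ∧ 0 < w (a.P i) ∧
      a.N (a.P i) = w (a.P i) * (Q (a.P i) ^ mm ^ J i) ^ (n (a.P i)).length ∧
      Q (a.P i) % 2 = 1 ∧ 3 ≤ Q (a.P i) ∧ qp (a.N (a.P i)).size ≤ a.B i ∧
      ∀ p < (n (a.P i)).length, θ (a.P i) p < (n (a.P i)).length)
    (hE : Bd a.E fun i => a.B i * (a.l i + 1))
    (hU : Bd (fun i => (n (a.P i)).length *
      ((Q (a.P i)).size * γ ^ J i * (a.N (a.P i) * (a.B i * (a.l i + 1))))) a.U) :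
    a.Pm (fun i => invI (w (a.P i)) (Q (a.P i) ^ mm ^ J i) (θ (a.P i)) (n (a.P i)).length) 0 := by
  intro G
  let U₁ : ι → ℝ := fun i => (Q (a.P i)).size * γ ^ J i * (a.N (a.P i) * (a.B i * (a.l i + 1)))
  have hU₁ : a.Ok a.N U₁ := ⟨a.hN.1, (((Bd.refl (U := fun i => (a.N (a.P i) + 1 : ℝ))
    fun i => by positivity).mul hE a.E0).trans ⟨2, fun i => ⟨by positivity, by
      have e1 : (1 : ℝ) ≤ a.N (a.P i) := by exact_mod_cast a.N0 i
      have e2 : (1 : ℝ) ≤ (Q (a.P i)).size := by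
        exact_mod_cast Nat.size_pos.2 (by have := (hc i).2.2.2.2.2.1; omega)
      have e3 : (1 : ℝ) ≤ (Q (a.P i)).size * γ ^ J i := one_le_mul_of_one_le_of_one_le e2 (one_le_pow₀ h1)
      have e4 : (0 : ℝ) ≤ a.B i * (a.l i + 1) := by positivity
      have e5 := mul_le_mul_of_nonneg_right e3 (mul_nonneg (zero_le_one.trans e1) e4)
      simp only [U₁]; push_cast; nlinarith⟩⟩)⟩
  have hI : PT fun p => List.range (n p).length := by fun_prop
  let a' := a.ext _ hI 0 U₁ hU₁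
  have eP : ∀ q, (a'.P q).2 = q.1.2 := fun q => by
    have := q.2
    simp only [List.length_range] at this
    simp [a', AE.ext, Env.ext, this]
  have := Op.loop (e := a.toEnv) (U := a.U) (V := 0) hI 0 (fun i t => a.arr
    (fun i j => G i (invI (w (a.P i)) (Q (a.P i) ^ mm ^ J i) (θ (a.P i)) t j)) i)
    (U₁ := fun i _ => U₁ i) (V₁ := fun _ _ => 0) ?_ (Bd.sum_const (by simpa using hU)) a.hN.bdE
    (a.bd G) (fun _ => le_rfl) fun i => by simp
  · exact this.congr (fun _ => rfl) fun i => by simp only [List.length_range, AE.arr]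
  let G' := fun (q : Pos fun i => (List.range (n (a.P i)).length).length) j =>
    G q.1.1 (invI (w (a.P q.1.1)) (Q (a.P q.1.1) ^ mm ^ J q.1.1) (θ (a.P q.1.1)) q.1.2 j)
  refine Op.cases (e := a'.toEnv) (b := fun p => decide (p.2 < θ p.1 p.2)) (by fun_prop)
    a'.hN.bdE (a'.bd G') ?_ ?_
  · refine (AE.Pm.swap h (a'.re fun q : {q // decide ((a'.P q).2 < θ (a'.P q).1 (a'.P q).2) = true}
      => q) (fun q => J q.1.1.1) (w := fun p => w p.1 * pb (Q p.1 ^ (k p.1).length) (n p.1) p.2)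
      (w' := fun p => w p.1 * pb (Q p.1 ^ (k p.1).length) (n p.1) (θ p.1 p.2))
      (Q := fun p => Q p.1) (k := fun p => k p.1) (by fun_prop) (by fun_prop) (by fun_prop)
      (by fun_prop) (fun q => ?_) (Bd.refl fun q => hU₁.2.nonneg _) fun q => G' q).congr
      (fun _ => rfl) fun q => ?_
    all_goals
      obtain ⟨⟨⟨i, t⟩, ht⟩, hq⟩ := q
      obtain ⟨c1, c2, c3, c4, c5, c6, c7, c8⟩ := hc i
      have e := eP ⟨(i, t), ht⟩
      simp only [List.length_range] at ht
      simp only [e, decide_eq_true_eq] at hq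
      have e1 : (a'.P ⟨(i, t), by simpa using ht⟩).1 = a.P i := rfl
    · simp only [AE.re, Env.re, e, e1, pb_eq ht.le, pb_eq (c8 t ht).le, c1]
      exact ⟨trivial, c2.mul_right _, by have : 0 < Q (a.P i) := by omega
                                         positivity,
        pow_dvd hq, by have := pow_dvd (w := w (a.P i)) (R := Q (a.P i) ^ mm ^ J i) (c8 t ht)
                       rwa [← c4] at this, c5, c6, c7⟩
    · simp only [AE.arr, AE.re, Env.re, e, e1, pb_eq ht.le, pb_eq (c8 t ht).le, c1, G', invI]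
      rw [e1] at hq
      simp only [if_pos hq]
      rfl
  · let a'' := a'.re fun q : {q // decide ((a'.P q).2 < θ (a'.P q).1 (a'.P q).2) = false} => q
    refine (Op.lin a''.hN.bdE (a''.bd fun q => G' q) fun _ hx => hx).congr
      (fun _ => rfl) fun q => ?_
    obtain ⟨⟨⟨i, t⟩, ht⟩, hq⟩ := q
    have e := eP ⟨(i, t), ht⟩
    simp only [e, decide_eq_false_iff_not] at hq
    have e1 : (a'.P ⟨(i, t), ht⟩).1 = a.P i := rfl
    rw [e1] at hq
    simp only [a'', AE.arr, AE.re, Env.re, G', invI, if_neg hq]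
    rfl

end Vale.Agent.P338
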