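import Vale.Agent.P338.Tr4

/-! Module I: the transform. -/

namespace Vale.Agent.P338

open Function
open Vale.Agent.Lib.H24.T (Enc PT sz)

theorem sum_getD {α : Type} (l : List α) (d : α) (f : α → ℝ) :
    ∑ t ∈ Finset.range l.length, f (l.getD t d) = (l.map f).sum := by
  conv_rhs => rw [eq_tab l d, map_tab, ← ofFn_tab, List.sum_ofFn]
  rw [Finset.sum_range]

theorem sum_cS {γ : ℝ} (h0 : 0 ≤ γ) (J j : ℕ) (p : Par) (A : Finset ℕ) (l : List Stage)
    (h : ∀ g ∈ l, g.1 = 1 → ¬g.2.1 % p.K + 1 + 2 * p.g ≤ p.K → g.2.1 ∈ A) :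
    (l.map (cS γ J j p)).sum ≤ l.length + l.countP (fun g => g.1 = 1) *
      (j * (p.g + 2) * γ ^ (J + j) + γ ^ j) +
      (∑ a ∈ A, l.countP (fun g => g.1 = 1 ∧ g.2.1 = a) : ℕ) * (p.d : ℝ) := by
  induction l with
  | nil => simp
  | cons g l ih =>
    have ih := ih fun g hg => h g (List.mem_cons_of_mem _ hg)
    have h1 := h g List.mem_cons_self
    have c0 : (0 : ℝ) ≤ j * (p.g + 2) * γ ^ (J + j) + γ ^ j := by positivity
    have d0 : (0 : ℝ) ≤ p.d := by positivity
    simp only [List.map_cons, List.sum_cons, List.length_cons, List.countP_cons,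
      Finset.sum_add_distrib, decide_eq_true_eq, cS]
    by_cases e : g.1 = 1
    · simp only [e, true_and, if_true, Finset.sum_ite_eq]
      by_cases e' : g.2.1 % p.K + 1 + 2 * p.g ≤ p.K
      · rw [if_pos e']
        push_cast at ih ⊢
        split_ifs <;> nlinarith
      · rw [if_neg e', if_pos (h1 e e')]
        push_cast at ih ⊢
        nlinarith
    · simp only [e, false_and, if_false, Finset.sum_const_zero]
      push_cast at ih ⊢
      nlinarith

theorem Good.sum_cS {WS WC J j : ℕ} {p : Par} (h : Good WS WC J j p) {γ : ℝ} (h1 : 1 ≤ γ) {D : FD}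
    (hD : FFTSpec D) (inv : Bool) : ((D.stg p.L p.d inv).map (cS γ J j p)).sum ≤ 102 * cT γ J j p := by
  obtain ⟨a1, a2, -, a3, a4, -⟩ := hD p.L p.d inv (h.d_pos.trans_le h.d_le)
  have hK := h.K_pos
  let A := (Finset.range p.d ×ˢ Finset.range (2 * p.g)).image fun x => x.1 * p.K + (p.K - 1 - x.2)
  have b1 := P338.sum_cS (zero_le_one.trans h1) J j p (A.filter (· < p.L)) (D.stg p.L p.d inv)
    fun g hg e e' => by
      have c1 := (a4 g hg).2.1 e
      have c2 := Nat.mod_lt g.2.1 hK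
      have c3 := Nat.div_add_mod' g.2.1 p.K
      refine Finset.mem_filter.2 ⟨Finset.mem_image.2 ⟨(g.2.1 / p.K, p.K - 1 - g.2.1 % p.K), ?_, ?_⟩, c1⟩
      · rw [Finset.mem_product, Finset.mem_range, Finset.mem_range, Nat.div_lt_iff_lt_mul hK, ← p.L_eq]
        exact ⟨c1, by omega⟩
      · simp only; omega
  have b2 : ∑ a ∈ A.filter (· < p.L), (D.stg p.L p.d inv).countP (fun g => g.1 = 1 ∧ g.2.1 = a) ≤
      p.d * (2 * p.g) * 12 := by
    refine (Finset.sum_le_card_nsmul _ _ 12 fun a ha => a3 a (Finset.mem_filter.1 ha).2).trans ?_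
    refine Nat.mul_le_mul_right _ ((Finset.card_filter_le _ _).trans (Finset.card_image_le.trans ?_))
    simp
  have b3 : ((D.stg p.L p.d inv).length : ℝ) ≤ 90 * p.L := by
    have := h.d_le
    have := h.d_pos
    exact_mod_cast (by omega)
  have b4 : (((D.stg p.L p.d inv).countP fun g => g.1 = 1 : ℕ) : ℝ) ≤ 12 * p.L := by exact_mod_cast a2
  have b5 : ((∑ a ∈ A.filter (· < p.L), (D.stg p.L p.d inv).countP
      (fun g => g.1 = 1 ∧ g.2.1 = a) : ℕ) : ℝ) ≤ p.d * (2 * p.g) * 12 := by exact_mod_cast b2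
  have c1 : (1 : ℝ) ≤ j * (p.g + 2) * γ ^ (J + j) + γ ^ j :=
    (one_le_pow₀ h1).trans (le_add_of_nonneg_left (by positivity))
  have c2 : (p.d : ℝ) ^ 2 * (p.g + 2) ≤ p.d ^ 2 * (p.g + 2) * γ ^ J :=
    le_mul_of_one_le_right (by positivity) (one_le_pow₀ h1)
  have c3 := mul_le_mul_of_nonneg_right b4 (zero_le_one.trans c1)
  have c4 := mul_le_mul_of_nonneg_right b5 (by positivity : (0 : ℝ) ≤ p.d)
  have c5 := mul_le_mul_of_nonneg_left c1 (by positivity : (0 : ℝ) ≤ p.L)
  have c6 : (0 : ℝ) ≤ p.d ^ 2 * p.g := by positivity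
  have c7 : (0 : ℝ) ≤ p.d ^ 2 := by positivity
  unfold cT
  nlinarith

theorem Good.cT_ge {WS WC J j : ℕ} {p : Par} (h : Good WS WC J j p) {γ : ℝ} (h1 : 1 ≤ γ) :
    (p.d : ℝ) ^ 2 * (p.g + 2) * γ ^ J ≤ cT γ J j p ∧ (p.d : ℝ) ≤ cT γ J j p ∧ 1 ≤ cT γ J j p := by
  have a1 : (p.d : ℝ) ^ 2 * (p.g + 2) * γ ^ J ≤ cT γ J j p :=
    le_add_of_nonneg_right (by have := zero_le_one.trans h1; positivity)
  have a2 : (1 : ℝ) ≤ p.d := by exact_mod_cast h.d_pos
  have a3 : (p.d : ℝ) ^ 2 * (p.g + 2) ≤ p.d ^ 2 * (p.g + 2) * γ ^ J :=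
    le_mul_of_one_le_right (by positivity) (one_le_pow₀ h1)
  have a4 : (p.d : ℝ) ≤ cT γ J j p := by nlinarith [(by positivity : (0 : ℝ) ≤ p.d ^ 2 * p.g)]
  exact ⟨a1, a4, a2.trans a4⟩

/-- the environment of a transform -/
noncomputable def te {ι : Type} {WS WC : ℕ} {J j : ι → ℕ} (s : ι → Prog) (P : ι → Par)
    (h : ∀ i, Good WS WC (J i) (j i) (P i)) (U : ι → ℝ) (hU : (pe s P h).Ok Par.N U) :
    TE ι Par WS WC where
  toEnv := pe s P h
  pr := fun p => p
  ppr := by fun_prop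
  J := J
  j := j
  hG := h
  hE := fun _ => rfl
  U := U
  hU := hU

theorem bd_uT {ι : Type} {WS WC : ℕ} {J j : ι → ℕ} {P : ι → Par}
    (h : ∀ i, Good WS WC (J i) (j i) (P i)) {γ : ℝ} (h1 : 1 ≤ γ) {c : ι → ℝ} (k : ℕ)
    (hc : ∀ i, c i ≤ k * cT γ (J i) (j i) (P i)) :
    Bd (fun i => c i * (((P i).N + 1) * ((P i).B * ((P i).q + 1)))) fun i => uT γ (J i) (j i) (P i) :=
  ⟨2 * k, fun i => by
    have a1 := ((h i).cT_ge h1).2.2
    have a2 : (1 : ℝ) ≤ (P i).N := by exact_mod_cast (h i).N_pos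
    refine ⟨by unfold uT; positivity, ?_⟩
    calc _ ≤ k * cT γ (J i) (j i) (P i) * (2 * (P i).N * ((P i).B * ((P i).q + 1))) := by
          exact mul_le_mul (hc i) (mul_le_mul_of_nonneg_right (by linarith) (by positivity))
            (by positivity) (by positivity)
      _ = _ := by unfold uT; push_cast; ring⟩

theorem ok_uT {ι : Type} {WS WC : ℕ} {J j : ι → ℕ} (s : ι → Prog) {P : ι → Par}
    (h : ∀ i, Good WS WC (J i) (j i) (P i)) {γ : ℝ} (h1 : 1 ≤ γ) :
    (pe s P h).Ok Par.N fun i => uT γ (J i) (j i) (P i) :=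
  ⟨by fun_prop, (bd_uT h h1 (c := fun _ => 1) 1 fun i => by simpa using ((h i).cT_ge h1).2.2).of_le
    fun i => (one_mul _).ge⟩

theorem transform : TrStmt := by
  intro D p1 p2 p3 p4 hD WS WC γ h1 hs hc inv ι s P J j h T x hm hF
  have h0 := zero_le_one.trans h1
  let t := te s P h _ (ok_uT s h h1)
  have hT : ∀ i, 0 ≤ T i := fun i => by
    obtain ⟨t, ht, -⟩ := hm i _ _ (List.length_replicate (a := false))
      (List.length_replicate (a := false))
    exact (Nat.cast_nonneg t).trans ht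
  have hI : PT fun p : Par => D.st (p.LU, p.dU, inv) := by fun_prop
  have eI : ∀ p : Par, D.st (p.LU, p.dU, inv) = D.stg p.L p.d inv := fun p => by
    rw [FD.stg, ← eq_rep, ← eq_rep]
  let S := fun i n k => ((D.stg (P i).L (P i).d inv).take n).foldl
    (D.stZ (P i).L (3000 * ((P i).d * (P i).L)) (P i).sF) (pre (P i).sF ((P i).B * (P i).A) (x i) k)
  let U₁ := fun i n => cS γ (J i) (j i) (P i) ((D.st ((P i).LU, (P i).dU, inv)).getD n (0, 0, [])) *
    (((P i).N + 1) * t.E i)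
  let t' := t.ext _ hI (0, 0, []) U₁ fun i k => le_mul_of_one_le_left
    (by have := t.E0 i; positivity) (le_add_of_nonneg_right (by split_ifs <;> positivity))
  have hL := Op.loop (e := t.toEnv) (U := t.U) hI (0, 0, [])
    (fun i n => (P i).R2 ((P i).onC (P i).cT ((P i).ZS (S i n)))) (U₁ := U₁)
    (V₁ := fun i _ => (P i).N * ((P i).B * T i))
    (V := fun i => 30 * ((P i).L + (P i).d + 1) * ((P i).N * ((P i).B * T i))) ?_ ?_ t.hU.bdE
    (t.bd2 _) (fun i => by have := hT i; positivity) fun i => ?_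
  · have b1 := bd_uT h h1 (c := fun i => (P i).d) 1 fun i => by simpa using ((h i).cT_ge h1).2.1
    have b2 : Bd (fun i => (t.p i).d ^ 2 * ((t.p i).g + 2) * γ ^ t.J i * ((t.p i).N * t.E i)) t.U :=
      (bd_uT h h1 (c := fun i => (P i).d ^ 2 * ((P i).g + 2) * γ ^ J i) 1
        fun i => by simpa using ((h i).cT_ge h1).1).of_le fun i =>
        mul_le_mul_of_nonneg_left (mul_le_mul_of_nonneg_right (le_add_of_nonneg_right zero_le_one)
          (t.E0 i)) (by positivity)
    have eT : ∀ (i) (Z : (P i).ZF), (P i).onC (fun a e => (P i).th ((P i).cN a e)) Z =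
        (P i).onC (P i).cT Z := fun i Z => by
      funext a k
      simp only [Par.onC]
      congr 1
      funext b
      exact (P i).fld_congr fun e he => by rw [(P i).th_cN he]
    have eN : ∀ (i) (Z : (P i).ZF), (P i).onC (fun a e => (P i).th ((P i).cT a e)) Z =
        (P i).onC (P i).cN Z := fun i Z => by
      funext a k
      simp only [Par.onC]
      congr 1
      funext b
      exact (P i).fld_congr fun e he => by
        rw [← (P i).th_cN he, ((P i).th_inv (h i).d_pos _ ((P i).cN_lt b.2 he)).2]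
    have c1 := (((t.prep b1 x).trans0 (t.pad2 _)).trans0 (t.transp h1 hs b2 (fun i => (P i).cN)
      (fun i a ha e he => (P i).cN_lt ha he) _)).congr (fun _ => rfl)
      (y' := fun i => (P i).R2 ((P i).onC (P i).cT ((P i).ZS (S i 0)))) fun i => by rw [← eT]; rfl
    have c2 := (t.transp h1 hs b2 (fun i => (P i).cT) (fun i a ha e he => (P i).cN_lt he ha)
      fun i => (P i).ZS (S i (D.st ((P i).LU, (P i).dU, inv)).length)).congr (fun _ => rfl)
      (y' := fun i => (P i).R2 ((P i).onC (P i).cN ((P i).ZS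
        (S i (D.st ((P i).LU, (P i).dU, inv)).length)))) fun i => by rw [← eN]; rfl
    refine ((((c1.trans0' hL).trans0 c2).trans0 (t.unpad2 _)).trans0 (t.unpad1 _)).congr
      (fun _ => rfl) fun i => tab_congr fun a _ => atm_congr fun k hk => ?_
    simp only [S, eI, List.take_length, Par.ZS, FD.tr, Par.mod_Lp, (P i).testBit_lam hk,
      ← (P i).pre_sp (h i).hA0 hk _ _ (Nat.mod_lt _ (h i).w_pos)]
    rfl
  · have hm' : ∀ q : Pos fun i => (D.st ((P i).LU, (P i).dU, inv)).length,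
        q.1.2 < (D.stg (P q.1.1).L (P q.1.1).d inv).length ∧ (t'.P q).2 =
          (D.stg (P q.1.1).L (P q.1.1).d inv).getD q.1.2 (0, 0, []) := fun q => by
      rw [← eI]; exact ⟨q.2, rfl⟩
    refine (t'.stage h0 hc p1 p2 p3 (T := fun q => T q.1.1) (fun q => hm q.1.1) (g := fun x => x.2)
      (by fun_prop) (fun q => ?_) (fun _ => le_rfl) (fun q => S q.1.1 q.1.2) fun q k hk a ha =>
        hF q.1.1 k hk _ ((D.stg (P q.1.1).L (P q.1.1).d inv).drop (q.1.2 + 1)) _ ?_ a ha).congr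
      (fun _ => rfl) fun q => ?_
    · obtain ⟨-, -, -, -, a, -⟩ := hD (P q.1.1).L (P q.1.1).d inv ((h _).d_pos.trans_le (h _).d_le)
      have := a (t'.P q).2 (by
        rw [(hm' q).2, List.getD_eq_getElem _ _ (hm' q).1]; exact List.getElem_mem _)
      exact ⟨this.2.1, this.2.2.1⟩
    · rw [(hm' q).2, List.getD_eq_getElem _ _ (hm' q).1, ← List.drop_eq_getElem_cons (hm' q).1,
        List.take_append_drop]
    · simp only [S, (hm' q).2, List.getD_eq_getElem _ _ (hm' q).1, List.take_add_one,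
        List.getElem?_eq_getElem (hm' q).1, List.foldl_append]
      rfl
  · refine (bd_uT h h1 102 fun i => (h i).sum_cS h1 hD inv).of_le fun i => ?_
    simp only [U₁]
    rw [← Finset.sum_mul, ← eI, ← sum_getD _ (0, 0, [])]
    rfl
  · obtain ⟨a, -⟩ := hD (P i).L (P i).d inv ((h _).d_pos.trans_le (h _).d_le)
    have := hT i
    rw [Finset.sum_const, Finset.card_range, nsmul_eq_mul]
    refine mul_le_mul_of_nonneg_right ?_ (by positivity)
    rw [← eI] at a
    exact_mod_cast a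

end Vale.Agent.P338
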