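import Vale.Agent.P338.Spec3

/-! Addresses of the transform. -/

namespace Vale.Agent.P338

open Function

theorem testBit_dg (x A i : ℕ) : (x / A).testBit i = decide (dg (A * 2 ^ i) 2 x = 1) := by
  rw [Nat.testBit_eq_decide_div_mod_eq, dg, Nat.div_div_eq_div_mul]

theorem dg_mod {w X w' j : ℕ} (h : w * X ∣ w') : dg w X (j % w') = dg w X j := by
  rw [dg_eq, dg_eq, Nat.mod_mod_of_dvd _ h]

theorem sum_bits (x d : ℕ) : ∑ i : Fin d, (x.testBit i).toNat * 2 ^ (i : ℕ) = x % 2 ^ d := by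
  have := sum_dg 1 2 x d
  rw [dg, Nat.div_one] at this
  rw [← this, Fin.sum_univ_eq_sum_range (fun i => (x.testBit i).toNat * 2 ^ i)]
  refine Finset.sum_congr rfl fun i _ => ?_
  rw [dg, one_mul, Nat.toNat_testBit]

theorem sum_not_bits (x d : ℕ) :
    ∑ i : Fin d, (!x.testBit i).toNat * 2 ^ (i : ℕ) = 2 ^ d - 1 - x % 2 ^ d := by
  have h1 := sum_bits x d
  have h2 := sum_bits (2 ^ d - 1) d
  have : ∑ i : Fin d, (!x.testBit i).toNat * 2 ^ (i : ℕ) + ∑ i : Fin d, (x.testBit i).toNat * 2 ^ (i : ℕ)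
      = ∑ i : Fin d, ((2 ^ d - 1).testBit i).toNat * 2 ^ (i : ℕ) := by
    rw [← Finset.sum_add_distrib]
    refine Finset.sum_congr rfl fun i _ => ?_
    rw [Nat.testBit_two_pow_sub_one]
    cases x.testBit i <;> simp
  rw [Nat.mod_eq_of_lt (a := 2 ^ d - 1) (by have := Nat.two_pow_pos d; omega)] at h2
  omega

theorem xor_sum {K d e₀ ρ : ℕ} {z : ℕ → ℕ} (hz : ∀ e < d, z e < 2 ^ K) (he : e₀ < d) (hρ : ρ < K) :
    ∑ e ∈ Finset.range d, (if e = e₀ then z e ^^^ 2 ^ ρ else z e) * (2 ^ K) ^ e =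
      (∑ e ∈ Finset.range d, z e * (2 ^ K) ^ e) ^^^ 2 ^ (K * e₀ + ρ) := by
  have h1 := sum_lt_pow d hz
  have h2 : 2 ^ (K * e₀ + ρ) < (2 ^ K) ^ d := by
    rw [← pow_mul]; exact Nat.pow_lt_pow_right (by omega) (by nlinarith)
  have h3 : (∑ e ∈ Finset.range d, z e * (2 ^ K) ^ e) ^^^ 2 ^ (K * e₀ + ρ) < (2 ^ K) ^ d := by
    rw [← pow_mul] at *; exact Nat.xor_lt_two_pow h1 h2
  have := sum_dg 1 (2 ^ K) ((∑ e ∈ Finset.range d, z e * (2 ^ K) ^ e) ^^^ 2 ^ (K * e₀ + ρ)) d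
  rw [dg, Nat.div_one, Nat.mod_eq_of_lt h3] at this
  rw [← this]
  refine Finset.sum_congr rfl fun e he' => ?_
  have h4 := dg_sum d hz (Finset.mem_range.1 he')
  rw [one_mul, dg, ← pow_mul, Nat.xor_div_two_pow, Nat.xor_mod_two_pow, pow_mul, ← dg, h4, ← pow_mul]
  congr 1
  rcases lt_trichotomy e e₀ with h | rfl | h
  · obtain ⟨t, rfl⟩ : ∃ t, e₀ = e + 1 + t := ⟨e₀ - (e + 1), by omega⟩
    rw [if_neg h.ne, show K * (e + 1 + t) + ρ = K * e + (K + (K * t + ρ)) by ring, pow_add,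
      Nat.mul_div_cancel_left _ (by positivity), pow_add, Nat.mul_mod_right, Nat.xor_zero]
  · rw [if_pos rfl, pow_add, Nat.mul_div_cancel_left _ (by positivity),
      Nat.mod_eq_of_lt (Nat.pow_lt_pow_right (by omega) hρ)]
  · rw [if_neg h.ne', Nat.div_eq_of_lt (Nat.pow_lt_pow_right (by omega) (by nlinarith))]; simp

namespace Par
variable (p : Par)

/-- a field of `d` cells -/
def fld (a : CA') (c : ℕ → ℕ) : ℕ := ∑ e ∈ Finset.range p.d, a.2 (c e) % 2 ^ p.K * (2 ^ p.K) ^ e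

/-- cells in natural order -/
def cN (i e : ℕ) : ℕ := p.d + i * p.d + e

/-- cells in transposed order -/
def cT (i e : ℕ) : ℕ := p.d + e * p.d + i

/-- the transposition -/
def th (x : ℕ) : ℕ := if x < p.d then x else p.d + (x - p.d) % p.d * p.d + (x - p.d) / p.d

/-- data indexed by word, low part, lowest field and positions -/
abbrev ZF : Type := ℕ → ℕ → ℕ → (Fin p.d → ℕ) → Zq p.q

/-- compact arrays -/
def R0 (Z : p.ZF) : List Atom := tab (p.Lp * p.Ns) fun j => atm p.q p.B fun k =>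
  Z k (j % p.w) (dg p.w (2 ^ p.L) j) fun i => dg (p.Lp * pw p.sf i) (p.sf i) j

/-- binary arrays -/
def R1 (Z : p.ZF) : List Atom := tab (p.Lp * (2 ^ p.L) ^ p.d) fun j => atm p.q p.B fun k =>
  Z k (j % p.w) (dg p.w (2 ^ p.L) j) fun i => dg (p.Lp * (2 ^ p.L) ^ (i : ℕ)) (2 ^ p.L) j

/-- data on cells -/
def onC (c : ℕ → ℕ → ℕ) (Z : p.ZF) : CA' → ℕ → Zq p.q := fun a k =>
  Z k a.1 (p.fld a id) fun i => p.fld a (c i)

/-- arrays of cells -/
def R2 (F : CA' → ℕ → Zq p.q) : List Atom := carr p.q p.B p.w p.R p.K p.D F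

theorem fld_lt (a : CA') (c : ℕ → ℕ) : p.fld a c < 2 ^ p.L := by
  rw [p.L_eq, mul_comm, pow_mul]
  exact sum_lt_pow _ fun _ _ => Nat.mod_lt _ (by positivity)

theorem cN_lt {i e : ℕ} (hi : i < p.d) (he : e < p.d) : p.cN i e < p.D := by
  rw [cN, p.D_eq]; nlinarith

theorem th_cN {i e : ℕ} (he : e < p.d) : p.th (p.cN i e) = p.cT i e := by
  rw [th, cN, if_neg (by omega), add_assoc p.d (i * p.d), Nat.add_sub_cancel_left, Nat.mul_add_mod_of_lt he,
    add_comm (i * p.d), Nat.add_mul_div_right _ _ (by omega), Nat.div_eq_of_lt he, zero_add, cT]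

theorem th_inv (h : 0 < p.d) (x : ℕ) (hx : x < p.D) : p.th x < p.D ∧ p.th (p.th x) = x := by
  by_cases h1 : x < p.d
  · simp only [th, if_pos h1]; exact ⟨hx, trivial⟩
  · have h2 : (x - p.d) / p.d < p.d := by
      rw [Nat.div_lt_iff_lt_mul h]; rw [p.D_eq] at hx; omega
    have h3 := Nat.mod_lt (x - p.d) h
    have e : p.th x = p.cN ((x - p.d) % p.d) ((x - p.d) / p.d) := by rw [th, if_neg h1, cN]
    rw [e, p.th_cN h2, cT]
    have := Nat.div_add_mod' (x - p.d) p.d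
    exact ⟨p.cN_lt h3 h2, by omega⟩

@[fun_prop] theorem pt_th {α : Type} [Vale.Agent.Lib.H24.T.Enc α] {f : α → Par} {x : α → ℕ}
    (h : Vale.Agent.Lib.H24.T.PT f) (hx : Vale.Agent.Lib.H24.T.PT x) :
    Vale.Agent.Lib.H24.T.PT fun a => (f a).th (x a) := by unfold th; fun_prop

/-- the coefficient index with cleared copy bits -/
def sp (k lo dv : ℕ) : ℕ := k + p.B * (lo % p.A + p.w * dv)

/-- data given by Gaussian integers -/
def ZS (S : ℕ → MA p.d → GI) : p.ZF := fun k lo dv r =>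
  gz p.q (S (p.sp k lo dv) fun i => ((lo / p.A).testBit i, r i))

theorem fld_xor {a : CA'} {l : ℕ} (hl : l < p.L) (c i : Fin p.d) :
    p.fld (a.1, fun x => a.2 x ^^^ ((Pi.single (p.d + l / p.K * p.d + c) 1 : ℕ → ZMod 2) x).val *
      2 ^ (l % p.K)) (p.cT i) = if i = c then p.fld a (p.cT i) ^^^ 2 ^ l else p.fld a (p.cT i) := by
  have hK : 0 < p.K := Nat.pos_of_ne_zero fun h => by rw [p.L_eq, h] at hl; simp at hl
  have he : l / p.K < p.d := by rw [Nat.div_lt_iff_lt_mul hK, ← p.L_eq]; exact hl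
  have inj : ∀ e, p.cT i e = p.d + l / p.K * p.d + c → e = l / p.K ∧ i = c := fun e h => by
    have h1 : e * p.d + i = l / p.K * p.d + c := by rw [cT] at h; omega
    have h2 := congrArg (· % p.d) h1
    simp only [Nat.mul_add_mod_of_lt i.2, Nat.mul_add_mod_of_lt c.2] at h2
    exact ⟨Nat.eq_of_mul_eq_mul_right c.pos (by omega), Fin.ext h2⟩
  split_ifs with h
  · subst h
    have := xor_sum (z := fun e => a.2 (p.cT i e) % 2 ^ p.K) (fun _ _ => Nat.mod_lt _ (by positivity))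
      he (Nat.mod_lt l hK)
    rw [Nat.div_add_mod] at this
    rw [fld, fld, ← this]
    refine Finset.sum_congr rfl fun e _ => ?_
    split_ifs with h1
    · subst h1
      simp [cT, Nat.xor_mod_two_pow, ZMod.val_one,
        Nat.mod_eq_of_lt (Nat.pow_lt_pow_right (by omega : 1 < 2) (Nat.mod_lt l hK))]
    · simp [Pi.single_eq_of_ne fun h => h1 (inj e h).1]
  · refine Finset.sum_congr rfl fun e _ => ?_
    simp [Pi.single_eq_of_ne fun h1 => h (inj e h1).2]

theorem cop_ZS (hq : 1 ≤ p.q) (S : ℕ → MA p.d → GI) {l : ℕ} (hl : l < p.L) (c : Fin p.d) :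
    (2 : Zq p.q) • cop (hh p.q) (ii p.q) (xo p.q (l % p.K)
      (Pi.single (p.d + l / p.K * p.d + c) 1)) (p.onC p.cT (p.ZS S)) =
      p.onC p.cT (p.ZS fun k => bfl l (S k) c) := by
  funext a k
  have e1 : p.fld (a.1, fun x => a.2 x ^^^ ((Pi.single (p.d + l / p.K * p.d + c) 1 : ℕ → ZMod 2) x).val *
      2 ^ (l % p.K)) id = p.fld a id := Finset.sum_congr rfl fun e he => by
    have := Finset.mem_range.1 he
    simp [Pi.single_eq_of_ne (show e ≠ p.d + l / p.K * p.d + c by omega)]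
  have e2 : (fun i : Fin p.d => ((a.1 / p.A).testBit i,
      if i = c then p.fld a (p.cT i) ^^^ 2 ^ l else p.fld a (p.cT i))) =
      xr l c fun i => ((a.1 / p.A).testBit i, p.fld a (p.cT i)) := funext fun i => by
    by_cases h : i = c
    · subst h; simp [xr]
    · simp [xr, h]
  simp only [cop, xo, onC, ZS, bfl, LinearMap.add_apply, LinearMap.smul_apply, Pi.smul_apply,
    Pi.add_apply, Module.End.one_apply, LinearMap.funLeft_apply, e1, p.fld_xor hl, e2, map_add,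
    map_mul, smul_eq_mul, gz_apply p.q ⟨1, 1⟩, gz_apply p.q ⟨1, -1⟩]
  push_cast
  generalize gz p.q (S _ (xr _ _ _)) = y
  generalize gz p.q (S _ _) = x
  linear_combination (x * (1 + ii p.q) + y * (1 - ii p.q)) * two_hh hq

theorem cpr_ZS (hq : 1 ≤ p.q) (S : ℕ → MA p.d → GI) {l : ℕ} (hl : l < p.L) :
    (2 : Zq p.q) ^ p.d • cpr (hh p.q) (ii p.q) (xo p.q (l % p.K))
      (fun c => Pi.single (p.d + l / p.K * p.d + c) 1) p.d (p.onC p.cT (p.ZS S)) =
      p.onC p.cT (p.ZS fun k => (List.finRange p.d).foldl (bfl l) (S k)) := by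
  have key : ∀ Lc : List (Fin p.d), (2 : Zq p.q) ^ Lc.length • (Lc.map fun c : Fin p.d =>
      cop (hh p.q) (ii p.q) (xo p.q (l % p.K) (Pi.single (p.d + l / p.K * p.d + c) 1))).prod
      (p.onC p.cT (p.ZS S)) = p.onC p.cT (p.ZS fun k => Lc.reverse.foldl (bfl l) (S k)) := by
    intro Lc
    induction Lc with
    | nil => simp
    | cons c Lc ih =>
      rw [List.map_cons, List.prod_cons, List.length_cons, pow_succ', mul_smul,
        Module.End.mul_apply, ← map_smul, ih, p.cop_ZS hq _ hl]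
      simp
  haveI : RightCommutative (bfl (d := p.d) l) := ⟨fun x i i' => funext fun a => by
    have : xr l i (xr l i' a) = xr l i' (xr l i a) := by
      by_cases h : i = i'
      · rw [h]
      · simp only [xr, update_of_ne h, update_of_ne (Ne.symm h)]; exact update_comm (Ne.symm h) _ _ _
    simp only [bfl, this]; ring⟩
  have := key (List.finRange p.d)
  simp only [(List.reverse_perm _).foldl_eq, List.length_finRange] at this
  rw [← this, cpr, ← List.map_coe_finRange_eq_range, List.map_map]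
  rfl

theorem setcb_eq {k : ℕ} (hk : k < p.B) (y : ℕ) (β : Fin p.d → Bool) :
    setcb (p.B * p.A) (k + p.B * y) β =
      k + p.B * (y % p.A + p.A * ∑ i, (β i).toNat * 2 ^ (i : ℕ) + p.w * (y / p.w)) := by
  have e : (k + p.B * y) / p.B = y := by
    rw [Nat.add_mul_div_left _ _ (by omega), Nat.div_eq_of_lt hk, zero_add]
  have e' : (k + p.B * y) / (p.B * p.A * 2 ^ p.d) = y / p.w := by
    rw [mul_assoc, ← Nat.div_div_eq_div_mul, e, w]
  rw [setcb, Nat.mod_mul, e, e', Nat.add_mul_mod_self_left, Nat.mod_eq_of_lt hk, w]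
  ring

theorem pre_sp (hA : 0 < p.A) {k : ℕ} (hk : k < p.B) (lo dv : ℕ) (hlo : lo < p.w)
    (x : ℕ → (Fin p.d → ℕ) → GI) :
    pre p.sF (p.B * p.A) x (p.sp k lo dv) = pre p.sF (p.B * p.A) x (k + p.B * (lo + p.w * dv)) := by
  have hw : 0 < p.w := by omega
  have h1 : lo % p.A < p.w :=
    (Nat.mod_lt _ hA).trans_le (Nat.le_mul_of_pos_right _ (by positivity))
  have h2 : ∀ y, (y + p.w * dv) % p.A = y % p.A := fun y => by
    rw [w, mul_assoc, Nat.add_mul_mod_self_left]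
  funext b
  simp only [pre, sp, p.setcb_eq hk, Nat.add_mul_div_left _ _ hw, Nat.div_eq_of_lt h1,
    Nat.div_eq_of_lt hlo, h2, Nat.mod_mod]

theorem mod_Lp (j : ℕ) : j % p.Lp = j % p.w + p.w * dg p.w (2 ^ p.L) j := Nat.mod_mul

theorem testBit_lam {k : ℕ} (hk : k < p.B) (lo dv : ℕ) (i : Fin p.d) :
    ((k + p.B * (lo + p.w * dv)) / (p.B * p.A)).testBit i = (lo / p.A).testBit i := by
  rw [← Nat.div_div_eq_div_mul, Nat.add_mul_div_left _ _ (by omega), Nat.div_eq_of_lt hk, zero_add,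
    testBit_dg, testBit_dg, ← dg_mod (w' := p.w) (pow_dvd i.2), Nat.add_mul_mod_self_left,
    dg_mod (w' := p.w) (pow_dvd i.2)]

end Par

end Vale.Agent.P338
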