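import Vale.Agent.P338.Tr1
import Vale.Agent.P338.SW1

/-! Changes of layout for the transform. -/

namespace Vale.Agent.P338

open Function
open Vale.Agent.Lib.H24.T (Enc PT sz)

variable {ι π : Type} [Enc π]

theorem atm_zero (q B : ℕ) : atm q B 0 = atB B (2 * q + 2) fun _ _ => false := by
  rw [atm_eq]; simp

theorem Lin.zat {α : Type} [Enc α] {c : Ctx ι α} {N q B : ι → ℕ} {v : ∀ i, ℕ → ℕ → Zq (q i)}
    (h : Lin c fun i => tab (N i) fun j => atm (q i) (B i) (v i j)) (h0 : ∀ i, 0 < N i) :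
    Lin c fun i => atm (q i) (B i) 0 := by
  have h1 : Lin c fun i => atm (q i) (B i) (v i 0) :: tab (N i - 1) fun j =>
      atm (q i) (B i) (v i (j + 1)) := h.congr fun i => by
    rw [← tab_succ' (N i - 1) fun j => atm (q i) (B i) (v i j), Nat.sub_add_cancel (h0 i)]
  exact (Lin.zeroA (l := fun i => 2 * q i + 2) (v := fun i k t => (v i 0 k).val.testBit t)
    h1.head).congr fun i => atm_zero _ _

namespace Par
variable (p : Par)

theorem low_congr {j j' : ℕ} (h : j % p.Lp = j' % p.Lp) :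
    j % p.w = j' % p.w ∧ dg p.w (2 ^ p.L) j = dg p.w (2 ^ p.L) j' := by
  rw [dg_eq, dg_eq, ← Lp, h, ← Nat.mod_mod_of_dvd j (Dvd.intro _ rfl : p.w ∣ p.Lp), h,
    Nat.mod_mod_of_dvd _ (Dvd.intro _ rfl : p.w ∣ p.Lp)]
  exact ⟨rfl, rfl⟩

theorem N1_eq : p.w * pw (fun _ => 2 ^ p.K) p.D = p.Lp * (2 ^ p.L) ^ p.d := by
  rw [pw_const, Lp, p.D_eq, p.L_eq]; ring

theorem fld_eq {j : ℕ} {a : CA'} (h : ∀ x < p.D, dg (p.w * (2 ^ p.K) ^ x) (2 ^ p.K) j = a.2 x % 2 ^ p.K) :
    dg p.w (2 ^ p.L) j = p.fld a id ∧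
      ∀ i < p.d, dg (p.Lp * (2 ^ p.L) ^ i) (2 ^ p.L) j = p.fld a (p.cN i) := by
  have e : 2 ^ p.L = (2 ^ p.K) ^ p.d := by rw [p.L_eq, mul_comm, pow_mul]
  refine ⟨?_, fun i hi => ?_⟩
  · rw [e, ← sum_dg]
    exact Finset.sum_congr rfl fun x hx => by
      rw [h x (by have := Finset.mem_range.1 hx; rw [p.D_eq]; omega)]; rfl
  · rw [Lp, e, ← sum_dg]
    refine Finset.sum_congr rfl fun x hx => ?_
    rw [← h _ (p.cN_lt hi (Finset.mem_range.1 hx)), cN]
    congr 2; ring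

theorem fld_congr {a a' : CA'} {c c' : ℕ → ℕ} (h : ∀ e < p.d, a.2 (c e) = a'.2 (c' e)) :
    p.fld a c = p.fld a' c' :=
  Finset.sum_congr rfl fun e he => by rw [h e (Finset.mem_range.1 he)]
end Par

/-- an environment with admissible parameters -/
structure TE (ι π : Type) [Enc π] (WS WC : ℕ) extends Env ι π where
  pr : π → Par
  ppr : PT pr
  J : ι → ℕ
  j : ι → ℕ
  hG : ∀ i, Good WS WC (J i) (j i) (pr (P i))
  hE : ∀ i, E i = (pr (P i)).B * ((pr (P i)).q + 1)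
  U : ι → ℝ
  hU : toEnv.Ok (fun x => (pr x).N) U

namespace TE
variable {WS WC : ℕ} (t : TE ι π WS WC)

/-- the parameters -/
abbrev p (i : ι) : Par := t.pr (t.P i)

/-- arrays of a given length -/
def ae (N : Par → ℕ) (hN : PT N) (h : ∀ i, 0 < N (t.p i) ∧ N (t.p i) ≤ (t.p i).N) : AE ι π where
  toEnv := t.toEnv
  U := t.U
  N := fun x => N (t.pr x)
  B := fun i => (t.p i).B
  l := fun i => 2 * (t.p i).q + 2
  hN := t.hU.of_le (hN.comp t.ppr) 1 fun i => by simpa using (h i).2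
  hA := ⟨4, fun i => ⟨t.E0 i, by
    have : (1 : ℝ) ≤ (t.p i).B := by exact_mod_cast (t.hG i).B_pos
    rw [t.hE]; push_cast
    nlinarith [(by positivity : (0 : ℝ) ≤ (t.p i).q)]⟩⟩
  N0 := fun i => (h i).1

/-- compact arrays -/
def a0 : AE ι π := t.ae (fun p => p.Lp * p.Ns) (by fun_prop)
  fun i => ⟨Nat.mul_pos (t.hG i).Lp_pos (t.hG i).Ns_pos, (t.hG i).le_N⟩
/-- binary arrays -/
def a1 : AE ι π := t.ae (fun p => p.Lp * (2 ^ p.L) ^ p.d) (by fun_prop)
  fun i => ⟨Nat.mul_pos (t.hG i).Lp_pos (by positivity), Good.pad_le⟩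
/-- arrays of cells -/
def a2 : AE ι π := t.ae Par.N (by fun_prop) fun i => ⟨(t.hG i).N_pos, le_rfl⟩

theorem at' (v : ∀ i, ℕ → ℕ → Zq (t.p i).q) : t.At fun i j => atm (t.p i).q (t.p i).B (v i j) :=
  t.a0.at fun i j k x => (v i j k).val.testBit x

theorem bd0 (Z : ∀ i, (t.p i).ZF) : Bd (fun i => (sz ((t.p i).R0 (Z i)) : ℝ)) t.U :=
  t.a0.hN.sztab (t.at' _)
theorem bd1 (Z : ∀ i, (t.p i).ZF) : Bd (fun i => (sz ((t.p i).R1 (Z i)) : ℝ)) t.U :=
  t.a1.hN.sztab (t.at' _)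
theorem bd2 (F : ∀ i, CA' → ℕ → Zq (t.p i).q) : Bd (fun i => (sz ((t.p i).R2 (F i)) : ℝ)) t.U :=
  t.a2.hN.sztab (t.at' _)

theorem bdz : Bd (fun i => (sz (atm (t.p i).q (t.p i).B 0) : ℝ)) t.E :=
  Bd.re (t.at' fun _ _ => 0) fun i => (i, 0)

theorem pad1 (Z : ∀ i, (t.p i).ZF) : Op t.toEnv t.U (fun i => (t.p i).R0 (Z i))
    (fun i => (t.p i).R1 fun k lo dv r => if ∀ a, r a < (t.p i).sF a then Z i k lo dv r else 0) 0 := by
  have pp := t.ppr
  refine Op.lin t.hU.bdE (t.bd0 Z) fun hP hx => ?_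
  have h1 := Lin.pad (w := fun x => (t.pr x).Lp) (X := fun x => 2 ^ (t.pr x).L)
    (u := fun x => (t.pr x).dU) (r := fun x => (t.pr x).sf) hP t.a1.hN (by fun_prop) (by fun_prop)
    (by fun_prop) (by fun_prop) (fun i => (t.hG i).Lp_pos) (fun i => (t.hG i).hs) (fun _ => rfl)
    (hx.zat t.a0.N0) t.bdz hx
  refine h1.congr fun i => tab_congr fun j _ => ?_
  by_cases h : okB (t.p i).Lp (2 ^ (t.p i).L) (t.p i).dU (t.p i).sf j = true
  · rw [h, cond_true]
    have h2 := okB_iff.1 h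
    have h3 := (t.p i).low_congr (rrx_mod (w := (t.p i).Lp) (j := j) (r := fun _ => 2 ^ (t.p i).L)
      (r' := (t.p i).sf) (n := (t.p i).d))
    have h4 := fun a : Fin (t.p i).d => dg_rrx (r := fun _ => 2 ^ (t.p i).L) (j := j) (t.hG i).Lp_pos
      (by simpa only [pw_const] using h2) a.2
    simp only [h3.1, h3.2, h4, pw_const]
    congr 1
    funext k
    exact if_pos fun a : Fin (t.p i).d => h2 a a.2
  · rw [Bool.not_eq_true] at h
    rw [h, cond_false]
    congr 1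
    funext k
    refine if_neg fun h2 => ?_
    rw [okB_iff.2 fun a ha => h2 ⟨a, ha⟩] at h
    exact absurd h (by simp)

theorem unpad1 (Z : ∀ i, (t.p i).ZF) :
    Op t.toEnv t.U (fun i => (t.p i).R1 (Z i)) (fun i => (t.p i).R0 (Z i)) 0 := by
  have pp := t.ppr
  refine Op.lin t.hU.bdE (t.bd1 Z) fun hP hx => ?_
  have h1 := Lin.unpad (w := fun x => (t.pr x).Lp) (X := fun x => 2 ^ (t.pr x).L)
    (u := fun x => (t.pr x).dU) (r := fun x => (t.pr x).sf) hP t.a1.hN (by fun_prop) (by fun_prop)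
    (by fun_prop) (by fun_prop) (fun i => (t.hG i).Lp_pos) (fun i => (t.hG i).hs) (fun _ => rfl) hx
  refine h1.congr fun i => tab_congr fun j _ => ?_
  have h3 := (t.p i).low_congr (rrx_mod (w := (t.p i).Lp) (j := j) (r' := fun _ => 2 ^ (t.p i).L)
    (r := (t.p i).sf) (n := (t.p i).d))
  have h4 := fun a : Fin (t.p i).d => dg_rrx (r' := fun _ => 2 ^ (t.p i).L) (j := j) (t.hG i).Lp_pos
    (fun x hx => (dg_lt ((t.hG i).hs x hx).1).trans_le ((t.hG i).hs x hx).2) a.2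
  simp only [pw_const] at h4
  simp only [h3.1, h3.2, h4]

theorem pad2 (Z : ∀ i, (t.p i).ZF) : Op t.toEnv t.U (fun i => (t.p i).R1 (Z i))
    (fun i => (t.p i).R2 ((t.p i).onC (t.p i).cN (Z i))) 0 := by
  have pp := t.ppr
  refine Op.lin t.hU.bdE (t.bd1 Z) fun hP hx => ?_
  have h1 := Lin.pad (w := fun x => (t.pr x).w) (X := fun x => (t.pr x).R)
    (u := fun x => (t.pr x).DU) (r := fun x _ => 2 ^ (t.pr x).K) hP t.hU (by fun_prop) (by fun_prop)
    (by fun_prop) (by fun_prop) (fun i => (t.hG i).w_pos)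
    (fun i _ _ => ⟨by positivity, Good.R_ge⟩) (fun _ => rfl)
    (hx.zat t.a1.N0) t.bdz (hx.congr fun i => by rw [Par.N1_eq]; rfl)
  refine h1.congr fun i => tab_congr fun j _ => ?_
  rw [← eq_rep]
  cases h : okB (t.p i).w (t.p i).R (t.p i).DU (fun _ => 2 ^ (t.p i).K) j
  · rfl
  · have h2 := okB_iff.1 h
    have h3 := (t.p i).fld_eq (a := cdec (t.p i).w (t.p i).R j) (j := rrx (t.p i).w
      (fun _ => (t.p i).R) (fun _ => 2 ^ (t.p i).K) (t.p i).D j) fun x hx => by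
        have := dg_rrx (r := fun _ => (t.p i).R) (r' := fun _ => 2 ^ (t.p i).K) (j := j)
          (t.hG i).w_pos (by simpa only [pw_const] using h2) hx
        simp only [pw_const] at this
        rw [this, cdec, Nat.mod_eq_of_lt (h2 x hx)]
    simp only [cond_true, h3.1, fun a : Fin (t.p i).d => h3.2 a a.2, rrx_mod]
    rfl

theorem unpad2 (Z : ∀ i, (t.p i).ZF) : Op t.toEnv t.U
    (fun i => (t.p i).R2 ((t.p i).onC (t.p i).cN (Z i))) (fun i => (t.p i).R1 (Z i)) 0 := by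
  have pp := t.ppr
  refine Op.lin t.hU.bdE (t.bd2 _) fun hP hx => ?_
  have h1 := Lin.unpad (w := fun x => (t.pr x).w) (X := fun x => (t.pr x).R)
    (u := fun x => (t.pr x).DU) (r := fun x _ => 2 ^ (t.pr x).K) hP t.hU (by fun_prop) (by fun_prop)
    (by fun_prop) (by fun_prop) (fun i => (t.hG i).w_pos)
    (fun i _ _ => ⟨by positivity, Good.R_ge⟩) (fun _ => rfl) hx
  refine h1.congr fun i => ?_
  rw [Par.N1_eq]
  refine tab_congr fun j _ => ?_
  have h2 := fun x hx => dg_rrx (r' := fun _ => (t.p i).R) (r := fun _ => 2 ^ (t.p i).K) (j := j)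
    (n := (t.p i).D) (p := x) (t.hG i).w_pos (fun x _ => (dg_lt (by positivity)).trans_le Good.R_ge) hx
  simp only [pw_const] at h2
  have h3 := (t.p i).fld_eq (j := j) (a := cdec (t.p i).w (t.p i).R (rrx (t.p i).w
      (fun _ => 2 ^ (t.p i).K) (fun _ => (t.p i).R) (t.p i).D j)) fun x hx => by
    simp only [cdec, h2 x hx]; exact (Nat.mod_mod _ _).symm
  rw [← eq_rep, okB_iff.2 fun x hx => by rw [h2 x hx]; exact dg_lt (by positivity)]
  simp only [cond_true, h3.1, fun a : Fin (t.p i).d => h3.2 a a.2, Par.onC, cdec, rrx_mod]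
  rfl

theorem transp {γ : ℝ} (h1 : 1 ≤ γ) (hs : SWSpec WS γ)
    (hU : Bd (fun i => (t.p i).d ^ 2 * ((t.p i).g + 2) * γ ^ t.J i * ((t.p i).N * t.E i)) t.U)
    (c : ι → ℕ → ℕ → ℕ) (hc : ∀ i, ∀ a < (t.p i).d, ∀ e < (t.p i).d, c i a e < (t.p i).D)
    (Z : ∀ i, (t.p i).ZF) : Op t.toEnv t.U (fun i => (t.p i).R2 ((t.p i).onC (c i) (Z i)))
      (fun i => (t.p i).R2 ((t.p i).onC (fun a e => (t.p i).th (c i a e)) (Z i))) 0 := by
  have pp := t.ppr
  have eR : ∀ i, (t.p i).Q ^ mm ^ t.J i = (t.p i).R := fun i => by rw [Par.R, (t.hG i).hu]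
  have h2 := AE.Pm.invol hs h1 t.a2 t.J (w := fun x => (t.pr x).w) (Q := fun x => (t.pr x).Q)
    (k := fun x => (t.pr x).uU) (n := fun x => (t.pr x).DU) (θ := fun x => (t.pr x).th)
    (by fun_prop) (by fun_prop) (by fun_prop) (by fun_prop) (by fun_prop)
    (fun i => ⟨(t.hG i).hu, ((pow_dvd_pow WS (Nat.le_add_right _ _)).trans
      ((Dvd.intro_left _ rfl).trans (t.hG i).hA)).mul_right _, (t.hG i).w_pos,
      by rw [show (t.pr (t.a2.P i)).Q ^ mm ^ t.J i = _ from eR i]; rfl, by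
        have := (t.hG i).hg
        exact (show (2 ^ (t.p i).g + 1) % 2 = 1 by
          rw [Nat.add_mod, Nat.two_pow_mod_two_eq_zero.2 this]), by
        exact Nat.succ_le_succ (Nat.pow_le_pow_right (show 0 < 2 by omega) (t.hG i).hg),
      (qp_mono ((Nat.le_add_right _ _).trans (Nat.le_add_right _ _))).trans (t.hG i).hB,
      fun x hx => ((t.p i).th_inv (t.hG i).d_pos x hx).1⟩)
    (Bd.le_right t.E0 fun i => by
      rw [show t.a2.E i = _ from t.hE i]
      simp only [a2, ae]; push_cast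
      nlinarith [(by positivity : (0 : ℝ) ≤ (t.p i).B), (by positivity : (0 : ℝ) ≤ (t.p i).q)])
    ((hU.cmul 6).of_le fun i => by
      have e1 : ((t.p i).D : ℝ) ≤ 2 * (t.p i).d ^ 2 := by
        have := (t.hG i).d_pos
        exact_mod_cast (by rw [(t.p i).D_eq]; nlinarith)
      have e2 : ((t.p i).Q.size : ℝ) ≤ (t.p i).g + 2 := by
        exact_mod_cast Nat.size_le.2 (by
          rw [Par.Q, pow_add]; have := Nat.two_pow_pos (t.p i).g; omega)
      have e3 : ((t.p i).B * ((2 * (t.p i).q + 2 : ℕ) + 1) : ℝ) ≤ 3 * t.E i := by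
        rw [t.hE]; push_cast
        nlinarith [(by positivity : (0 : ℝ) ≤ (t.p i).B), (by positivity : (0 : ℝ) ≤ (t.p i).q)]
      have := t.E0 i
      calc _ ≤ 2 * (t.p i).d ^ 2 * (((t.p i).g + 2) * γ ^ t.J i * ((t.p i).N * (3 * t.E i))) := by
            simp only [a2, ae]; gcongr
        _ = _ := by push_cast; ring)
    fun i j k x => (cond (okB (t.p i).w (t.p i).R (List.replicate (t.p i).D ())
      (fun _ => 2 ^ (t.p i).K) j) ((t.p i).onC (c i) (Z i) (cdec (t.p i).w (t.p i).R j)) 0 k).val.testBit x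
  refine h2.congr (fun _ => rfl) fun i => tab_congr fun j _ => ?_
  have hi := (t.p i).th_inv (t.hG i).d_pos
  have h3 := fun x hx => dg_invI (t.hG i).w_pos (Good.R_pos (p := t.p i)) hi (t.p i).D le_rfl j x hx
  rw [atm_eq]
  simp only [show (t.pr (t.a2.P i)).Q ^ mm ^ t.J i = _ from eR i]
  change _ = atB _ _ fun k x => (cond (okB (t.p i).w (t.p i).R _ _
    (invI (t.p i).w (t.p i).R (t.p i).th (t.p i).D j)) ((t.p i).onC (c i) (Z i) (cdec (t.p i).w (t.p i).R
      (invI (t.p i).w (t.p i).R (t.p i).th (t.p i).D j))) 0 k).val.testBit x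
  have e1 : okB (t.p i).w (t.p i).R (List.replicate (t.p i).D ()) (fun _ => 2 ^ (t.p i).K)
      (invI (t.p i).w (t.p i).R (t.p i).th (t.p i).D j) =
      okB (t.p i).w (t.p i).R (List.replicate (t.p i).D ()) (fun _ => 2 ^ (t.p i).K) j := by
    rw [Bool.eq_iff_iff, okB_iff, okB_iff, List.length_replicate]
    refine ⟨fun h x hx => ?_, fun h x hx => ?_⟩
    · have := h _ (hi x hx).1
      rwa [h3 _ (hi x hx).1, if_pos (Or.inl (hi x hx).1), (hi x hx).2] at this
    · rw [h3 x hx, if_pos (Or.inl hx)]; exact h _ (hi x hx).1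
  have e2 : (t.p i).onC (c i) (Z i) (cdec (t.p i).w (t.p i).R
      (invI (t.p i).w (t.p i).R (t.p i).th (t.p i).D j)) =
      (t.p i).onC (fun a e => (t.p i).th (c i a e)) (Z i) (cdec (t.p i).w (t.p i).R j) := by
    funext k
    simp only [Par.onC]
    congr 1
    · exact invI_mod _ _ _ _ _
    · refine (t.p i).fld_congr fun e he => ?_
      have : e < (t.p i).D := by rw [(t.p i).D_eq]; omega
      simp only [cdec, id, h3 e this, if_pos (Or.inl this), Par.th, if_pos he]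
    · funext a
      refine (t.p i).fld_congr fun e he => ?_
      simp only [cdec, h3 _ (hc i a a.2 e he), if_pos (Or.inl (hc i a a.2 e he))]
  rw [e1, e2]
  rfl

end TE

end Vale.Agent.P338
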