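import Vale.Agent.P338.Spec3

/-! Module E: arithmetic on words. -/

namespace Vale.Agent.P338

open Vale.Agent.Lib.H24.T (Enc sz PT sz_pair sz_bool sz_unit sz_list_le sz_pos)

namespace Wd

theorem lb_tab (n z : ℕ) : lb n z = tab n fun j => z.testBit j := rfl

theorem length_lb (n z : ℕ) : (lb n z).length = n := by simp [lb]

/-- the carry into position `j` -/
def cy (a b j : ℕ) : Bool := decide (2 ^ j ≤ a % 2 ^ j + b % 2 ^ j)

theorem cy_zero (a b : ℕ) : cy a b 0 = false := by simp [cy, Nat.mod_one]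

theorem tb_eq (a j : ℕ) : a.testBit j = decide (a / 2 ^ j % 2 = 1) := Nat.testBit_eq_decide_div_mod_eq

theorem cy_succ (a b j : ℕ) : cy a b (j + 1) =
    cond (cy a b j) (cond (a.testBit j) true (b.testBit j)) (cond (a.testBit j) (b.testBit j) false) := by
  have h0 : 0 < 2 ^ j := by positivity
  have h1 := Nat.mod_lt a h0
  have h2 := Nat.mod_lt b h0
  simp only [cy, tb_eq]
  rw [Nat.mod_pow_succ, Nat.mod_pow_succ, pow_succ]
  generalize a % 2 ^ j = x at *
  generalize b % 2 ^ j = y at *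
  generalize 2 ^ j = P at *
  rcases Nat.mod_two_eq_zero_or_one (a / P) with h | h <;>
    rcases Nat.mod_two_eq_zero_or_one (b / P) with h' | h' <;>
    by_cases hc : P ≤ x + y <;> simp [h, h', hc] <;> omega

theorem tb_add (a b j : ℕ) : (a + b).testBit j =
    cond (cy a b j) (cond (a.testBit j) (b.testBit j) (cond (b.testBit j) false true))
      (cond (a.testBit j) (cond (b.testBit j) false true) (b.testBit j)) := by
  have h0 : 0 < 2 ^ j := by positivity
  simp only [cy, tb_eq, Nat.add_div h0]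
  rcases Nat.mod_two_eq_zero_or_one (a / 2 ^ j) with h | h <;>
    rcases Nat.mod_two_eq_zero_or_one (b / 2 ^ j) with h' | h' <;>
    by_cases hc : 2 ^ j ≤ a % 2 ^ j + b % 2 ^ j <;> simp [h, h', hc] <;> omega

theorem lb_mod (n z : ℕ) : lb n (z % 2 ^ n) = lb n z :=
  tab_congr fun j hj => by simp [Nat.testBit_mod_two_pow, hj]

theorem lb_congr {n a b : ℕ} (h : a % 2 ^ n = b % 2 ^ n) : lb n a = lb n b := by
  rw [← lb_mod n a, h, lb_mod]

theorem lb_append (n m a b : ℕ) : lb n a ++ lb m b = lb (n + m) (a % 2 ^ n + 2 ^ n * b) := by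
  rw [lb_tab, lb_tab, append_tab]
  refine tab_congr fun j _ => ?_
  rw [add_comm, Nat.testBit_two_pow_mul_add _ (Nat.mod_lt _ (by positivity))]
  split_ifs with h
  · simp [Nat.testBit_mod_two_pow, h]
  · rfl

theorem lb_zero (n : ℕ) : lb n 0 = List.replicate n false := by
  rw [replicate_tab]; exact tab_congr fun j _ => by simp

theorem lb_take {m n : ℕ} (z : ℕ) (h : m ≤ n) : (lb n z).take m = lb m z := by
  rw [lb_tab, take_tab, min_eq_left h]; rfl

theorem lb_drop (m n z : ℕ) : (lb n z).drop m = lb (n - m) (z / 2 ^ m) := by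
  rw [lb_tab, drop_tab]
  exact tab_congr fun j _ => by rw [Nat.testBit_div_two_pow, add_comm]

theorem lb_succ (n z : ℕ) : lb (n + 1) z = z.testBit 0 :: lb n (z / 2) := by
  rw [lb_tab, tab_succ']
  congr 1
  exact tab_congr fun j _ => by rw [Nat.testBit_succ]

theorem lv_lb (n z : ℕ) : lv (lb n z) = z % 2 ^ n := by
  induction n generalizing z with
  | zero => simp [lb, lv, Nat.mod_one]
  | succ n ih =>
    rw [lb_succ, lv, ih, pow_succ', Nat.mod_mul, Nat.toNat_testBit]
    simp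

theorem sz_lb (n z : ℕ) : sz (lb n z) ≤ 4 * n + 1 := by
  have := sz_list_le (l := lb n z) (B := 3) fun a _ => sz_bool a
  rw [length_lb] at this
  omega

theorem sz_ruler (k : ℕ) : sz (List.replicate k ()) = 2 * k + 1 := by
  induction k with
  | zero => rfl
  | succ k ih => simp [List.replicate_succ, ih]; omega

theorem val_lt {q : ℕ} (x : Zq q) : x.val < 2 ^ (2 * q) + 1 := ZMod.val_lt x

theorem two_M (q : ℕ) : 2 * (2 ^ (2 * q) + 1) ≤ 2 ^ (2 * q + 2) := by
  have : 0 < 2 ^ (2 * q) := by positivity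
  rw [pow_add]; omega

theorem wd_nat {q z : ℕ} (h : z < 2 ^ (2 * q) + 1) : wd q (z : Zq q) = lb (2 * q + 2) z := by
  rw [wd, ZMod.val_natCast, Nat.mod_eq_of_lt h]

theorem sz_wd (q : ℕ) (x : Zq q) : sz (wd q x) ≤ 8 * q + 9 := by
  have := sz_lb (2 * q + 2) x.val
  unfold wd; omega

theorem le_sz_atm (q B : ℕ) (x : ℕ → Zq q) : B * (q + 1) ≤ sz (atm q B x) := by
  rw [atm, sz_tab]
  have : ∑ _j ∈ Finset.range B, (q + 1) ≤ ∑ j ∈ Finset.range B, (sz (wd q (x j)) + 1) :=
    Finset.sum_le_sum fun j _ => by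
      have := Vale.Agent.Lib.H24.T.length_le_sz (wd q (x j))
      rw [wd, length_lb] at this
      unfold wd; omega
  simp only [Finset.sum_const, Finset.card_range, smul_eq_mul] at this
  omega

theorem split3 (q v : ℕ) (h : v < 2 ^ (6 * q)) : (v : Zq q) =
    ((v % 2 ^ (2 * q) : ℕ) : Zq q) + -((v / 2 ^ (2 * q) % 2 ^ (2 * q) : ℕ) : Zq q) +
      ((v / 2 ^ (2 * q) / 2 ^ (2 * q) % 2 ^ (2 * q) : ℕ) : Zq q) := by
  have h0 : 0 < 2 ^ (2 * q) := by positivity
  have h1 : v / 2 ^ (2 * q) / 2 ^ (2 * q) < 2 ^ (2 * q) := by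
    rw [Nat.div_lt_iff_lt_mul h0, Nat.div_lt_iff_lt_mul h0, ← pow_add, ← pow_add]
    convert h using 2; ring
  rw [Nat.mod_eq_of_lt h1]
  have e1 := Nat.mod_add_div v (2 ^ (2 * q))
  have e2 := Nat.mod_add_div (v / 2 ^ (2 * q)) (2 ^ (2 * q))
  generalize v / 2 ^ (2 * q) / 2 ^ (2 * q) = v2 at *
  generalize v / 2 ^ (2 * q) % 2 ^ (2 * q) = v1 at *
  generalize v % 2 ^ (2 * q) = v0 at *
  rw [← e1, ← e2]
  push_cast
  rw [two_pow_eq]
  ring

end Wd

open Wd

variable {ι α : Type} [Enc α] {c : Ctx ι α} {q B : ι → ℕ}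

/-- long addition -/
theorem Lin.addB {n a b : ι → ℕ} (ha : Lin c fun i => lb (n i) (a i))
    (hb : Lin c fun i => lb (n i) (b i)) : Lin c fun i => lb (n i) (a i + b i) := by
  have hz := Lin.ztab (N := n) (F := fun i j => (a i).testBit j) (G := fun i j => (b i).testBit j)
    ha hb
  have := Lin.scan (N := n) (fun i j => cy (a i) (b i) j)
    (fun i j => [(a i + b i).testBit j]) (fun _ _ => 1) ((ha.cst false).congr fun i => cy_zero _ _) hz
    ⟨11, fun p => ⟨by positivity, by
      have h1 := sz_bool (cy (a p.1.1) (b p.1.1) p.1.2)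
      have h2 := sz_bool ((a p.1.1).testBit p.1.2)
      have h3 := sz_bool ((b p.1.1).testBit p.1.2)
      simp only [sz_pair]
      exact_mod_cast (by omega)⟩⟩
    (ha.len.of_le fun i => by simp [length_lb])
    fun h1 h2 => by
      have x := h2.fst
      have y := h2.snd
      have t := h1.cst true
      have f := h1.cst false
      have ny := y.cond f t
      exact ((h1.cond (x.cond t y) (x.cond y f)).pair
        ((h1.cond (x.cond y ny) (x.cond ny y)).cons (h1.cst []))).congr fun p => by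
          rw [cy_succ, tb_add]
  exact this.snd.congr fun i => (flatMap_single _ _).symm

theorem Lin.eRul {n a : ι → ℕ} (h : Lin c fun i => lb (n i) (a i)) :
    Lin c fun i => List.replicate (n i) () :=
  Lin.ruler (F := fun i j => (a i).testBit j) h

theorem Lin.eAddR {n m : ι → ℕ} (hn : Lin c fun i => List.replicate (n i) ())
    (hm : Lin c fun i => List.replicate (m i) ()) :
    Lin c fun i => List.replicate (n i + m i) () :=
  (hn.append hm).congr fun _ => List.replicate_add _ _ _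

theorem Lin.eSubR {n m : ι → ℕ} (hn : Lin c fun i => List.replicate (n i) ())
    (hm : Lin c fun i => List.replicate (m i) ()) :
    Lin c fun i => List.replicate (n i - m i) () :=
  (Lin.drop hm hn).congr fun _ => by simp

theorem Lin.eMulR {n : ι → ℕ} (hn : Lin c fun i => List.replicate (n i) ()) (k : ℕ) :
    Lin c fun i => List.replicate (k * n i) () := by
  induction k with
  | zero => exact (hn.cst []).congr fun i => by simp
  | succ k ih => exact (ih.eAddR hn).congr fun i => by rw [Nat.succ_mul]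

theorem Lin.eCstR {β : Type} [Enc β] {y : ι → β} (h : Lin c y) (k : ℕ) :
    Lin c fun _ => List.replicate k () := h.cst _

theorem Lin.eApp {n m a b : ι → ℕ} (ha : Lin c fun i => lb (n i) (a i))
    (hb : Lin c fun i => lb (m i) (b i)) :
    Lin c fun i => lb (n i + m i) (a i % 2 ^ n i + 2 ^ n i * b i) :=
  (ha.append hb).congr fun _ => (lb_append _ _ _ _).symm

theorem Lin.eZero {n : ι → ℕ} (hn : Lin c fun i => List.replicate (n i) ()) :
    Lin c fun i => lb (n i) 0 := (hn.fillN false).congr fun _ => lb_zero _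

theorem Lin.eTake {n m a : ι → ℕ} (hm : Lin c fun i => List.replicate (m i) ())
    (ha : Lin c fun i => lb (n i) (a i)) (h : ∀ i, m i ≤ n i) : Lin c fun i => lb (m i) (a i) :=
  (Lin.take hm ha).congr fun i => (lb_take _ (h i)).symm

theorem Lin.eDrop {n m a : ι → ℕ} (hm : Lin c fun i => List.replicate (m i) ())
    (ha : Lin c fun i => lb (n i) (a i)) : Lin c fun i => lb (n i - m i) (a i / 2 ^ m i) :=
  (Lin.drop hm ha).congr fun _ => (lb_drop _ _ _).symm

/-- change the length of a bit string -/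
theorem Lin.eFit {n m a : ι → ℕ} (hm : Lin c fun i => List.replicate (m i) ())
    (ha : Lin c fun i => lb (n i) (a i)) : Lin c fun i => lb (m i) (a i % 2 ^ n i) :=
  (hm.eTake (ha.eApp hm.eZero) fun i => by omega).congr fun i => by simp

theorem Lin.eFit' {n m a : ι → ℕ} (hm : Lin c fun i => List.replicate (m i) ())
    (ha : Lin c fun i => lb (n i) (a i)) (h : ∀ i, a i < 2 ^ n i) :
    Lin c fun i => lb (m i) (a i) :=
  (hm.eFit ha).congr fun i => by rw [Nat.mod_eq_of_lt (h i)]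

theorem Lin.ePow {n k : ι → ℕ} (hn : Lin c fun i => List.replicate (n i) ())
    (hk : Lin c fun i => List.replicate (k i) ()) : Lin c fun i => lb (n i) (2 ^ k i) :=
  (hn.eFit' (hk.eZero.eApp (m := fun _ => 1) (b := fun _ => 1) (hn.cst (lb 1 1))) fun i => by
    simp [pow_succ]).congr fun i => by simp

theorem Lin.eShift {n k a : ι → ℕ} (hk : Lin c fun i => List.replicate (k i) ())
    (ha : Lin c fun i => lb (n i) (a i)) : Lin c fun i => lb (k i + n i) (2 ^ k i * a i) :=
  (hk.eZero.eApp ha).congr fun i => by simp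

theorem Lin.eBit {n k a : ι → ℕ} (hk : Lin c fun i => List.replicate (k i) ())
    (ha : Lin c fun i => lb (n i) (a i)) (h : ∀ i, k i < n i) :
    Lin c fun i => (a i).testBit (k i) :=
  Lin.head (z := fun i => lb (n i - k i - 1) (a i / 2 ^ k i / 2)) ((hk.eDrop ha).congr fun i => by
    have := h i
    rw [show n i - k i = n i - k i - 1 + 1 by omega, lb_succ, Nat.testBit_div_two_pow]
    simp)

theorem Lin.eNot {n a : ι → ℕ} (ha : Lin c fun i => lb (n i) (a i)) (h : ∀ i, a i < 2 ^ n i) :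
    Lin c fun i => lb (n i) (2 ^ n i - (a i + 1)) :=
  (Lin.map0 (N := n) (F := fun i j => (a i).testBit j)
    (fun i j => _root_.cond ((a i).testBit j) false true) ha
    fun hx => hx.cond (hx.cst false) (hx.cst true)).congr fun i => tab_congr fun j hj => by
      rw [Nat.testBit_two_pow_sub_succ (h i)]
      cases (a i).testBit j <;> simp [hj]

/-- subtraction modulo a power of two -/
theorem Lin.eSub {n a b : ι → ℕ} (ha : Lin c fun i => lb (n i) (a i))
    (hb : Lin c fun i => lb (n i) (b i)) (h : ∀ i, b i < 2 ^ n i) :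
    Lin c fun i => lb (n i) (a i + (2 ^ n i - b i)) :=
  ((ha.addB (hb.eNot h)).addB (ha.eRul.ePow (ha.eCstR 0))).congr fun i => by
    have := h i
    congr 1; omega

theorem Lin.eW (hq : Lin c fun i => List.replicate (q i) ()) :
    Lin c fun i => List.replicate (2 * q i + 2) () := (hq.eMulR 2).eAddR (hq.eCstR 2)

theorem Lin.eM (hq : Lin c fun i => List.replicate (q i) ()) :
    Lin c fun i => lb (2 * q i + 2) (2 ^ (2 * q i) + 1) :=
  ((hq.eW.ePow (hq.eMulR 2)).addB (hq.eW.ePow (hq.eCstR 0))).congr fun i => by rw [pow_zero]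

/-- reduction of a number below twice the modulus -/
theorem Lin.eRed (hq : Lin c fun i => List.replicate (q i) ()) {z : ι → ℕ}
    (hz : Lin c fun i => lb (2 * q i + 2) (z i)) (h : ∀ i, z i < 2 * (2 ^ (2 * q i) + 1)) :
    Lin c fun i => wd (q i) (z i : Zq (q i)) := by
  have ht := hz.eSub hq.eM fun i => by
    have := two_M (q i)
    have h0 : 0 < 2 ^ (2 * q i) := by positivity
    omega
  have hb := ((hq.eMulR 2).eAddR (hq.eCstR 1)).eBit ht fun i => by omega
  refine (hb.cond hz ht).congr fun i => ?_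
  have h1 := h i
  have h0 : 0 < 2 ^ (2 * q i) := by positivity
  have e2 : 2 ^ (2 * q i + 2) = 4 * 2 ^ (2 * q i) := by ring
  have e1 : 2 ^ (2 * q i + 1) = 2 * 2 ^ (2 * q i) := by ring
  rw [wd, ZMod.val_natCast, tb_eq]
  by_cases hz : z i < 2 ^ (2 * q i) + 1
  · have : (z i + (2 ^ (2 * q i + 2) - (2 ^ (2 * q i) + 1))) / 2 ^ (2 * q i + 1) = 1 := by
      refine Nat.div_eq_of_lt_le ?_ ?_ <;> omega
    rw [this, Nat.mod_eq_of_lt hz]
    rfl
  · have : (z i + (2 ^ (2 * q i + 2) - (2 ^ (2 * q i) + 1))) / 2 ^ (2 * q i + 1) = 2 := by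
      refine Nat.div_eq_of_lt_le ?_ ?_ <;> omega
    rw [this, Nat.mod_eq_sub_mod (by omega), Nat.mod_eq_of_lt (by omega)]
    refine lb_congr ?_
    rw [show z i + (2 ^ (2 * q i + 2) - (2 ^ (2 * q i) + 1)) =
      z i - (2 ^ (2 * q i) + 1) + 2 ^ (2 * q i + 2) by omega, Nat.add_mod_right]

theorem Lin.eAdd (hq : Lin c fun i => List.replicate (q i) ()) {x y : ∀ i, Zq (q i)}
    (hx : Lin c fun i => wd (q i) (x i)) (hy : Lin c fun i => wd (q i) (y i)) :
    Lin c fun i => wd (q i) (x i + y i) :=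
  (hq.eRed (Lin.addB (n := fun i => 2 * q i + 2) hx hy) fun i => by
    have := val_lt (x i)
    have := val_lt (y i)
    omega).congr fun i => by simp

theorem Lin.eNeg (hq : Lin c fun i => List.replicate (q i) ()) {x : ∀ i, Zq (q i)}
    (hx : Lin c fun i => wd (q i) (x i)) : Lin c fun i => wd (q i) (-x i) := by
  have h1 := hq.eM.eSub (b := fun i => (x i).val) hx fun i => by
    have := val_lt (x i)
    have := two_M (q i)
    omega
  refine (hq.eRed (z := fun i => 2 ^ (2 * q i) + 1 - (x i).val) (h1.congr fun i => lb_congr ?_)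
    fun i => by
      have h0 : 0 < 2 ^ (2 * q i) := by positivity
      omega).congr fun i => ?_
  · have := val_lt (x i)
    have := two_M (q i)
    rw [show 2 ^ (2 * q i) + 1 + (2 ^ (2 * q i + 2) - (x i).val) =
      2 ^ (2 * q i) + 1 - (x i).val + 2 ^ (2 * q i + 2) by omega, Nat.add_mod_right]
  · rw [Nat.cast_sub (val_lt (x i)).le, ZMod.natCast_self]
    simp

theorem Lin.eHalf (hq : Lin c fun i => List.replicate (q i) ()) (h1 : ∀ i, 1 ≤ q i)
    {x : ∀ i, Zq (q i)} (hx : Lin c fun i => wd (q i) (x i)) :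
    Lin c fun i => wd (q i) (hh (q i) * x i) := by
  have hb := (hq.eCstR 0).eBit (n := fun i => 2 * q i + 2) (a := fun i => (x i).val) hx
    fun i => by omega
  have h2 : Lin c fun i => lb (2 * q i + 2)
      (_root_.cond ((x i).val.testBit 0) (2 ^ (2 * q i) + 1) 0) :=
    (hb.cond hq.eM hq.eW.eZero).congr fun i => by cases (x i).val.testBit 0 <;> rfl
  have h3 := (hq.eCstR 1).eDrop (Lin.addB (n := fun i => 2 * q i + 2) hx h2)
  have key : ∀ i, ∃ s, (x i).val + _root_.cond ((x i).val.testBit 0) (2 ^ (2 * q i) + 1) 0 = 2 * s ∧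
      s < 2 ^ (2 * q i) + 1 ∧ (s : Zq (q i)) = hh (q i) * x i := by
    intro i
    have hv := val_lt (x i)
    have he : 2 ^ (2 * q i) = 2 * 2 ^ (2 * q i - 1) := by
      rw [← pow_succ']; congr 1; have := h1 i; omega
    have hs : ∀ s, (x i).val + _root_.cond ((x i).val.testBit 0) (2 ^ (2 * q i) + 1) 0 = 2 * s →
        (s : Zq (q i)) = hh (q i) * x i := by
      intro s hs
      have h4 := congrArg (Nat.cast : ℕ → Zq (q i)) hs
      have h5 : ((_root_.cond ((x i).val.testBit 0) (2 ^ (2 * q i) + 1) 0 : ℕ) : Zq (q i)) = 0 := by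
        cases (x i).val.testBit 0
        · simp
        · exact ZMod.natCast_self _
      rw [Nat.cast_add, h5, ZMod.natCast_zmod_val, add_zero] at h4
      push_cast at h4
      rw [h4, ← mul_assoc, mul_comm (hh _), two_hh (h1 i), one_mul]
    rcases Nat.mod_two_eq_zero_or_one (x i).val with h | h
    · have e : (x i).val + _root_.cond ((x i).val.testBit 0) (2 ^ (2 * q i) + 1) 0 =
          2 * ((x i).val / 2) := by simp [h]; omega
      exact ⟨_, e, by omega, hs _ e⟩
    · have e : (x i).val + _root_.cond ((x i).val.testBit 0) (2 ^ (2 * q i) + 1) 0 =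
          2 * ((x i).val / 2 + 2 ^ (2 * q i - 1) + 1) := by simp [h]; omega
      exact ⟨_, e, by omega, hs _ e⟩
  choose s hs using key
  refine (hq.eW.eFit' (a := s) (n := fun i => 2 * q i + 2 - 1) (h3.congr fun i => ?_)
    fun i => ?_).congr fun i => ?_
  · rw [(hs i).1]; simp
  · have := (hs i).2.1
    have h0 : 0 < 2 ^ (2 * q i) := by positivity
    rw [show 2 * q i + 2 - 1 = 2 * q i + 1 by omega, pow_succ]
    omega
  · rw [← (hs i).2.2, wd_nat (hs i).2.1]

theorem Lin.eOf (hq : Lin c fun i => List.replicate (q i) ()) {n v : ι → ℕ}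
    (hv : Lin c fun i => lb (n i) (v i)) (h : ∀ i, 2 * q i ≤ n i) :
    Lin c fun i => wd (q i) ((v i % 2 ^ (2 * q i) : ℕ) : Zq (q i)) :=
  (hq.eW.eFit ((hq.eMulR 2).eTake hv h)).congr fun i =>
    wd_nat ((Nat.mod_lt _ (by positivity)).trans (Nat.lt_succ_self _))

/-- reduction of a number with at most `6 q` bits -/
theorem Lin.eRed3 (hq : Lin c fun i => List.replicate (q i) ()) {n v : ι → ℕ}
    (hv : Lin c fun i => lb (n i) (v i)) (h : ∀ i, v i < 2 ^ n i) (h' : ∀ i, v i < 2 ^ (6 * q i)) :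
    Lin c fun i => wd (q i) (v i : Zq (q i)) := by
  have h0 := (hq.eMulR 6).eFit' hv h
  have h1 := (hq.eMulR 2).eDrop h0
  have h2 := (hq.eMulR 2).eDrop h1
  exact (hq.eAdd (hq.eAdd (hq.eOf h0 fun i => by omega) (hq.eNeg (hq.eOf h1 fun i => by omega)))
    (hq.eOf h2 fun i => by omega)).congr fun i => by rw [← split3 _ _ (h' i)]

theorem Lin.eMulI (hq : Lin c fun i => List.replicate (q i) ()) (h1 : ∀ i, 1 ≤ q i)
    {x : ∀ i, Zq (q i)} (hx : Lin c fun i => wd (q i) (x i)) :
    Lin c fun i => wd (q i) (ii (q i) * x i) := by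
  have hl : ∀ i, (x i).val < 2 ^ (2 * q i + 1) := fun i => by
    have := val_lt (x i)
    have h0 : 0 < 2 ^ (2 * q i) := by positivity
    rw [pow_succ]; omega
  have hl' : ∀ i, 2 ^ q i * (x i).val < 2 ^ (q i + (2 * q i + 1)) := fun i => by
    rw [pow_add]; exact Nat.mul_lt_mul_of_pos_left (hl i) (by positivity)
  refine (hq.eRed3 (hq.eShift (n := fun i => 2 * q i + 2) (a := fun i => (x i).val) hx)
    (fun i => (hl' i).trans_le (Nat.pow_le_pow_right (by omega) (by omega)))
    fun i => (hl' i).trans_le (Nat.pow_le_pow_right (by omega) (by have := h1 i; omega))).congr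
    fun i => by simp [ii]

theorem Lin.ePowW (hq : Lin c fun i => List.replicate (q i) ()) {k : ι → ℕ}
    (hk : Lin c fun i => List.replicate (k i) ()) (h : ∀ i, k i ≤ 2 * q i) :
    Lin c fun i => wd (q i) (2 ^ k i) :=
  (hq.eW.ePow hk).congr fun i => by
    rw [← wd_nat (Nat.lt_succ_of_le (Nat.pow_le_pow_right (by omega) (h i)))]
    simp

/-- a word operation applied to all words of an atom -/
theorem Lin.eMap {β : Type} [Enc β] (hq : Lin c fun i => List.replicate (q i) ())
    {F : ι → ℕ → β} {y : ∀ i, ℕ → Zq (q i)} (hF : Lin c fun i => tab (B i) (F i))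
    (hU : Bd (fun i => ((B i * (q i + 1) : ℕ) : ℝ)) c.U)
    (hs : ∀ i k, sz (F i k) ≤ 20 * (q i + 1))
    (h : ∀ c' : Ctx (Pos B) (List Unit × β), (Lin c' fun p => List.replicate (q p.1.1) ()) →
      (Lin c' fun p => F p.1.1 p.1.2) → Lin c' fun p => wd (q p.1.1) (y p.1.1 p.1.2)) :
    Lin c fun i => atm (q i) (B i) (y i) :=
  Lin.map1 (N := B) (fun i k => wd (q i) (y i k)) (fun i _ => q i + 1) hq hF
    ⟨22, fun p => ⟨by positivity, by
      have h1 := hs p.1.1 p.1.2
      simp only [sz_pair, sz_ruler]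
      exact_mod_cast (by omega)⟩⟩
    (hU.of_le fun i => by simp [mul_add]) (h _)

theorem Lin.eBd {x : ∀ i, ℕ → Zq (q i)} (hx : Lin c fun i => atm (q i) (B i) (x i)) :
    Bd (fun i => ((B i * (q i + 1) : ℕ) : ℝ)) c.U :=
  hx.bd.of_le fun i => by exact_mod_cast le_sz_atm _ _ _

theorem Lin.addZ (hq : Lin c fun i => List.replicate (q i) ()) (hs : Small q c.U)
    (h1 : ∀ i, 1 ≤ q i) {x y : ∀ i, ℕ → Zq (q i)} (hx : Lin c fun i => atm (q i) (B i) (x i))
    (hy : Lin c fun i => atm (q i) (B i) (y i)) :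
    Lin c fun i => atm (q i) (B i) fun k => x i k + y i k :=
  hq.eMap (Lin.ztab (N := B) (F := fun i k => wd (q i) (x i k)) (G := fun i k => wd (q i) (y i k))
    hx hy) hx.eBd (fun i k => by
      have := sz_wd (q i) (x i k)
      have := sz_wd (q i) (y i k)
      rw [sz_pair]; omega) fun _ a b => a.eAdd b.fst b.snd

theorem Lin.negZ (hq : Lin c fun i => List.replicate (q i) ()) (hs : Small q c.U)
    (h1 : ∀ i, 1 ≤ q i) {x : ∀ i, ℕ → Zq (q i)} (hx : Lin c fun i => atm (q i) (B i) (x i)) :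
    Lin c fun i => atm (q i) (B i) fun k => -x i k :=
  hq.eMap (F := fun i k => wd (q i) (x i k)) hx hx.eBd (fun i k => by
    have := sz_wd (q i) (x i k)
    omega) fun _ a b => a.eNeg b

theorem Lin.halfZ (hq : Lin c fun i => List.replicate (q i) ()) (hs : Small q c.U)
    (h1 : ∀ i, 1 ≤ q i) {x : ∀ i, ℕ → Zq (q i)} (hx : Lin c fun i => atm (q i) (B i) (x i)) :
    Lin c fun i => atm (q i) (B i) fun k => hh (q i) * x i k :=
  hq.eMap (F := fun i k => wd (q i) (x i k)) hx hx.eBd (fun i k => by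
    have := sz_wd (q i) (x i k)
    omega) fun _ a b => a.eHalf (fun p => h1 p.1.1) b

theorem Lin.mulI (hq : Lin c fun i => List.replicate (q i) ()) (hs : Small q c.U)
    (h1 : ∀ i, 1 ≤ q i) {x : ∀ i, ℕ → Zq (q i)} (hx : Lin c fun i => atm (q i) (B i) (x i)) :
    Lin c fun i => atm (q i) (B i) fun k => ii (q i) * x i k :=
  hq.eMap (F := fun i k => wd (q i) (x i k)) hx hx.eBd (fun i k => by
    have := sz_wd (q i) (x i k)
    omega) fun _ a b => a.eMulI (fun p => h1 p.1.1) b

/-- the word of a small constant -/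
theorem Lin.wdZ (hq : Lin c fun i => List.replicate (q i) ()) (hs : Small q c.U)
    {z : ι → ℤ × ℤ} (hz : Lin c z) (hs' : Small (fun i => sz (z i)) c.U) :
    Lin c fun i => wd (q i) (gz (q i) ⟨(z i).1, (z i).2⟩) := by
  have hp : PT fun a : List Unit × (ℤ × ℤ) =>
      (List.range ((a.1 ++ a.1) ++ [(), ()]).length).map fun j =>
        ((a.2.1 + a.2.2 * 2 ^ a.1.length) % (2 ^ (a.1 ++ a.1).length + 1)).toNat.testBit j := by
    fun_prop
  have h2 : Small (fun i => sz (List.replicate (q i) ())) c.U :=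
    hs.poly 2 fun i => by rw [sz_ruler]; nlinarith
  refine ((hq.pair hz).pt hp (h2.pair hs')).congr fun i => ?_
  simp only [List.length_append, List.length_replicate, List.length_cons, List.length_nil]
  rw [wd, lb, ← two_mul]
  congr 2
  have h3 : gz (q i) ⟨(z i).1, (z i).2⟩ = (((z i).1 + (z i).2 * 2 ^ q i : ℤ) : Zq (q i)) := by
    rw [gz_apply, ii]; push_cast; rfl
  have h4 := ZMod.val_intCast (n := 2 ^ (2 * q i) + 1) ((z i).1 + (z i).2 * 2 ^ q i)
  funext j
  rw [h3]
  push_cast at h4 ⊢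
  rw [← h4, Int.toNat_natCast]

theorem Wd.wd_gz {q : ℕ} {a b : ℕ} (ha : a < 2 ^ q) (hb : b < 2 ^ q) :
    wd q (gz q ⟨a, b⟩) = lb (2 * q + 2) (a + 2 ^ q * b) := by
  rw [← wd_nat]
  · congr 1
    rw [gz_apply, ii]; push_cast; ring
  · have : 2 ^ q * (b + 1) ≤ 2 ^ q * 2 ^ q := Nat.mul_le_mul_left _ hb
    rw [two_mul, pow_add]
    nlinarith

/-- divide both components by a power of two -/
theorem Lin.eShr (hq : Lin c fun i => List.replicate (q i) ()) {f a b : ι → ℕ}
    (hf : Lin c fun i => List.replicate (f i) ()) (h1 : ∀ i, f i ≤ q i)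
    (ha : ∀ i, a i < 2 ^ q i) (hb : ∀ i, b i < 2 ^ q i)
    (hx : Lin c fun i => wd (q i) (gz (q i) ⟨a i, b i⟩)) :
    Lin c fun i => wd (q i) (gz (q i) ⟨(a i / 2 ^ f i : ℕ), (b i / 2 ^ f i : ℕ)⟩) := by
  have hl : ∀ i x, x < 2 ^ q i → x / 2 ^ f i < 2 ^ (q i - f i) := fun i x hx => by
    rw [Nat.div_lt_iff_lt_mul (by positivity), ← pow_add, Nat.sub_add_cancel (h1 i)]
    exact hx
  have h0 : Lin c fun i => lb (2 * q i + 2) (a i + 2 ^ q i * b i) :=
    hx.congr fun i => (wd_gz (ha i) (hb i)).symm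
  have h2 : Lin c fun i => lb (q i) (a i) :=
    (hq.eTake h0 fun i => by omega).congr fun i => lb_congr (by simp)
  have h3 : Lin c fun i => lb (2 * q i + 2 - q i) (b i) :=
    (hq.eDrop h0).congr fun i => by
      rw [Nat.add_mul_div_left _ _ (by positivity), Nat.div_eq_of_lt (ha i), zero_add]
  have h4 := hq.eFit' (hf.eDrop h2) fun i => hl i _ (ha i)
  have h5 := (hq.eAddR (hq.eCstR 2)).eFit' (hf.eDrop h3) fun i =>
    (hl i _ (hb i)).trans_le (Nat.pow_le_pow_right (by omega) (by omega))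
  refine (h4.eApp h5).congr fun i => ?_
  have h6 : a i / 2 ^ f i < 2 ^ q i := (Nat.div_le_self _ _).trans_lt (ha i)
  rw [wd_gz h6 ((Nat.div_le_self _ _).trans_lt (hb i)), Nat.mod_eq_of_lt h6]
  congr 1; omega

theorem Wd.shift_div {q f : ℕ} (h1 : 1 ≤ f) (h2 : f + 2 ≤ q) {x : ℤ} (hx : |x| < 2 ^ (q - 2)) :
    ∃ a : ℕ, a < 2 ^ q ∧ (a : ℤ) = x + (2 ^ (q - 1) + 2 ^ (f - 1)) ∧
      ((a / 2 ^ f : ℕ) : ℤ) = (x + 2 ^ (f - 1)) / 2 ^ f + 2 ^ (q - 1 - f) := by
  obtain ⟨r, rfl⟩ : ∃ r, q = r + 2 := ⟨q - 2, by omega⟩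
  have e1 : (2 : ℤ) ^ (f - 1) ≤ 2 ^ r := pow_le_pow_right₀ (by norm_num) (by omega)
  have e2 : (0 : ℤ) < 2 ^ (f - 1) := by positivity
  have e3 : (2 : ℤ) ^ (r + 2 - 1) = 2 * 2 ^ r := by rw [← pow_succ']; rfl
  rw [Nat.add_sub_cancel, abs_lt] at hx
  obtain ⟨a, ha⟩ := Int.eq_ofNat_of_zero_le (a := x + (2 ^ (r + 2 - 1) + 2 ^ (f - 1))) (by omega)
  refine ⟨a, ?_, ha.symm, ?_⟩
  · have : (a : ℤ) < 2 ^ (r + 2) := by rw [pow_add]; omega
    exact_mod_cast this
  · push_cast
    rw [← ha, ← Int.add_mul_ediv_right _ _ (by positivity), ← pow_add,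
      show r + 1 - f + f = r + 2 - 1 by omega]
    congr 1; ring

/-- rounding -/
theorem Lin.eRnd (hq : Lin c fun i => List.replicate (q i) ()) {f : ι → ℕ}
    (hf : Lin c fun i => List.replicate (f i) ()) (h1 : ∀ i, 1 ≤ f i ∧ f i + 2 ≤ q i) {z : ι → GI}
    (hz : ∀ i, Fit (q i - 2) (z i)) (hx : Lin c fun i => wd (q i) (gz (q i) (z i))) :
    Lin c fun i => wd (q i) (gz (q i) (rnd (f i) (z i))) := by
  choose a ha using fun i => shift_div (h1 i).1 (h1 i).2 (hz i).1
  choose b hb using fun i => shift_div (h1 i).1 (h1 i).2 (hz i).2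
  have hq1 : ∀ i, 1 ≤ q i := fun i => by have := h1 i; omega
  have r1 := hq.eSubR (hq.eCstR 1)
  have k1 := hq.eAdd (hq.ePowW r1 fun i => by omega)
    (hq.ePowW (hf.eSubR (hq.eCstR 1)) fun i => by have := h1 i; omega)
  have k2 := hq.ePowW (r1.eSubR hf) fun i => by omega
  have h2 : Lin c fun i => wd (q i) (gz (q i) ⟨a i, b i⟩) :=
    (hq.eAdd hx (hq.eAdd k1 (hq.eMulI hq1 k1))).congr fun i => by
      congr 1
      rw [gz_apply, gz_apply]
      simp only [(ha i).2.1, (hb i).2.1]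
      push_cast; ring
  have h3 := hq.eShr hf (fun i => by have := h1 i; omega) (fun i => (ha i).1) (fun i => (hb i).1) h2
  refine (hq.eAdd h3 (hq.eNeg (hq.eAdd k2 (hq.eMulI hq1 k2)))).congr fun i => ?_
  congr 1
  rw [gz_apply, gz_apply]
  simp only [(ha i).2.2, (hb i).2.2, rnd]
  push_cast; ring

/-- product of two words by a call -/
theorem Cmp.eMul (hq : Lin c fun i => List.replicate (q i) ()) {T : ι → ℝ}
    (hm : ∀ i, MulT (c.s i) (2 * q i + 2) (T i)) (h1 : ∀ i, 1 ≤ q i) {x y : ∀ i, Zq (q i)}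
    (hx : Lin c fun i => wd (q i) (x i)) (hy : Lin c fun i => wd (q i) (y i)) :
    Cmp c.s c.x (fun i => wd (q i) (x i * y i)) c.U T := by
  have hv : ∀ i (x : Zq (q i)), lv (wd (q i) x) = x.val := fun i x => by
    have := val_lt x
    have := two_M (q i)
    rw [wd, lv_lb, Nat.mod_eq_of_lt (by omega)]
  have hl : ∀ i, (x i).val * (y i).val < 2 ^ (4 * q i + 1) := fun i => by
    have a1 := Nat.le_of_lt_succ (val_lt (x i))
    have a2 := Nat.le_of_lt_succ (val_lt (y i))
    have := Nat.mul_le_mul a1 a2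
    have h0 : 0 < 2 ^ (4 * q i) := by positivity
    rw [← pow_add, show 2 * q i + 2 * q i = 4 * q i by ring] at this
    rw [pow_succ]; omega
  have hc : Cmp c.s (fun i => (wd (q i) (x i), wd (q i) (y i)))
      (fun i => lb (2 * (2 * q i + 2)) ((x i).val * (y i).val)) c.U T :=
    Cmp.call (hx.pair hy).bd (((hq.len.cmul 16).add (hq.one.const 17)).of_le fun i => by
      have := sz_lb (2 * (2 * q i + 2)) ((x i).val * (y i).val)
      simp only [List.length_replicate]
      exact_mod_cast (by omega)) fun i => by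
      have := hm i (wd (q i) (x i)) (wd (q i) (y i)) (length_lb _ _) (length_lb _ _)
      rwa [hv, hv] at this
  have h2 := Cmp.pair hq (Cmp.trans0' (hx.pair hy) hc)
  have h3 := Lin.self (c := ⟨c.s, _, c.U⟩) h2.bdy
  refine (h2.trans0 ((h3.fst.eRed3 h3.snd
    (fun i => (hl i).trans_le (Nat.pow_le_pow_right (by omega) (by omega)))
    fun i => (hl i).trans_le (Nat.pow_le_pow_right (by omega) (by have := h1 i; omega))).congr
      fun i => by simp)).monoV fun i => by simp

/-- multiply by a constant and round -/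
theorem Cmp.mulRnd (hq : Lin c fun i => List.replicate (q i) ()) (hs : Small q c.U) {T : ι → ℝ}
    (hm : ∀ i, MulT (c.s i) (2 * q i + 2) (T i)) {f : ι → ℕ}
    (hf : Lin c fun i => List.replicate (f i) ()) (h1 : ∀ i, 1 ≤ f i ∧ f i + 2 ≤ q i)
    {a : ∀ i, Zq (q i)} (ha : Lin c fun i => wd (q i) (a i)) {x : ∀ i, ℕ → Zq (q i)}
    (hx : Lin c fun i => atm (q i) (B i) (x i)) {z : ι → ℕ → GI}
    (hz : ∀ i, ∀ k < B i, a i * x i k = gz (q i) (z i k) ∧ Fit (q i - 2) (z i k)) :
    Cmp c.s c.x (fun i => atm (q i) (B i) fun k => gz (q i) (rnd (f i) (z i k))) c.U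
      fun i => B i * T i := by
  have hT : ∀ i, 0 ≤ T i := fun i => by
    obtain ⟨t, ht, -⟩ := hm i (wd (q i) 0) (wd (q i) 0) (length_lb _ _) (length_lb _ _)
    exact (Nat.cast_nonneg t).trans ht
  let P := fun i => ((List.replicate (q i) (), List.replicate (f i) ()), wd (q i) (a i))
  have h0 := Lin.self (c := c.el B (fun i k => (P i, wd (q i) (x i k))) fun i _ => q i + 1)
    ⟨30, fun p => ⟨by positivity, by
      have := sz_wd _ (a p.1.1)
      have := sz_wd _ (x p.1.1 p.1.2)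
      have := h1 p.1.1
      simp only [P, sz_pair, sz_ruler]
      exact_mod_cast (by omega)⟩⟩
  have h2 := Cmp.eMul (q := fun p : Pos B => q p.1.1) (T := fun p => T p.1.1)
    (x := fun p => a p.1.1) (y := fun p => x p.1.1 p.1.2) h0.fst.fst.fst (fun p => hm p.1.1)
    (fun p => by have := h1 p.1.1; omega) h0.fst.snd h0.snd
  have h3 := Cmp.pair h0.fst.fst h2
  have h4 := Lin.self (c := ⟨fun p : Pos B => c.s p.1.1, _, _⟩) h3.bdy
  have h5 := Lin.eRnd (q := fun p : Pos B => q p.1.1) (f := fun p => f p.1.1)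
    (z := fun p => z p.1.1 p.1.2) h4.fst.fst h4.fst.snd (fun p => h1 p.1.1)
    (fun p => (hz _ _ p.2).2) (h4.snd.congr fun p => by rw [← (hz _ _ p.2).1])
  exact Cmp.mapV (N := B) (P := P) (F := fun i k => wd (q i) (x i k))
    (G := fun i k => wd (q i) (gz (q i) (rnd (f i) (z i k)))) (U' := fun i _ => q i + 1)
    (V' := fun i _ => T i) ((hq.pair hf).pair ha) hx ((h3.trans0 h5).monoV fun p => by simp)
    (hx.eBd.of_le fun i => by simp [mul_add]) (fun i => mul_nonneg (Nat.cast_nonneg _) (hT i))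
    fun i => by simp

end Vale.Agent.P338
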