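import Vale.Agent.P338.Tr2
import Vale.Agent.P338.Wrd

/-! The preparation and the butterflies of the transform. -/

namespace Vale.Agent.P338

open Function
open Vale.Agent.Lib.H24.T (Enc PT sz)

variable {ι π : Type} [Enc π]

theorem upd_upd {w X j v v' : ℕ} (hw : 0 < w) (hv : v < X) :
    upd w X (upd w X j v) v' = upd w X j v' := by
  rw [upd, upd_mod dvd_rfl, upd_div hw hv dvd_rfl, upd]

theorem upd_mod_hi {w X w' j v : ℕ} (hw : 0 < w) (hv : v < X) (h : w * X ∣ w') (h0 : 0 < w') :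
    upd w X j v % w' = upd w X (j % w') v := by
  have h1 := upd_lt hw hv h (Nat.mod_lt j h0)
  have h2 := Nat.mod_add_div (upd w X j v) w'
  rw [upd_div hw hv h] at h2
  obtain ⟨k, rfl⟩ := h
  have e : upd w X j v = upd w X (j % (w * X * k)) v + w * X * k * (j / (w * X * k)) := by
    unfold upd
    rw [Nat.mod_mod_of_dvd _ ⟨X * k, by ring⟩, Nat.mod_mul_right_div_self,
      ← Nat.div_div_eq_div_mul j (w * X) k]
    conv_lhs => rw [← Nat.mod_add_div (j / (w * X)) k]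
    ring
  omega

theorem atm_congr {q B : ℕ} {v v' : ℕ → Zq q} (h : ∀ k < B, v k = v' k) : atm q B v = atm q B v' :=
  tab_congr fun k hk => by rw [h k hk]

theorem Good.q_pos {WS WC J j : ℕ} {p : Par} (h : Good WS WC J j p) : 1 ≤ p.q := by
  have := h.b_pos
  rw [p.q_eq]; omega

namespace TE
variable {WS WC : ℕ} (t : TE ι π WS WC)

/-- restriction -/
def re {ι' : Type} (g : ι' → ι) : TE ι' π WS WC where
  toEnv := t.toEnv.re g
  pr := t.pr
  ppr := t.ppr
  J := fun i => t.J (g i)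
  j := fun i => t.j (g i)
  hG := fun i => t.hG (g i)
  hE := fun i => t.hE (g i)
  U := fun i => t.U (g i)
  hU := ⟨t.hU.1, t.hU.2.re g⟩

/-- inside a loop -/
def ext {δ : Type} [Enc δ] (I : π → List δ) (hI : PT I) (d : δ) (U : ι → ℕ → ℝ)
    (hU : ∀ i k, ((t.p i).N + 1) * t.E i ≤ U i k) :
    TE (Pos fun i => (I (t.P i)).length) (π × δ) WS WC where
  toEnv := t.toEnv.ext I hI d
  pr := fun x => t.pr x.1
  ppr := t.ppr.comp (by fun_prop)
  J := fun q => t.J q.1.1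
  j := fun q => t.j q.1.1
  hG := fun q => t.hG q.1.1
  hE := fun q => t.hE q.1.1
  U := fun q => U q.1.1 q.1.2
  hU := ⟨by have := t.ppr; fun_prop,
    Bd.le_right (fun q => mul_nonneg (by positivity) (t.E0 _)) fun q => hU _ _⟩

theorem flip (Z : ∀ i, (t.p i).ZF) : Op t.toEnv t.U (fun i => (t.p i).R0 (Z i))
    (fun i => (t.p i).R0 fun k lo dv r => Z i k (upd (t.p i).A (2 ^ (t.p i).d) lo
      (2 ^ (t.p i).d - 1 - lo / (t.p i).A % 2 ^ (t.p i).d)) dv r) 0 := by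
  have pp := t.ppr
  have h0 : ∀ i, 0 < (t.p i).A ∧ 0 < 2 ^ (t.p i).d := fun i => ⟨(t.hG i).hA0, by positivity⟩
  have hd : ∀ i, (t.p i).A * 2 ^ (t.p i).d ∣ (t.p i).Lp * (t.p i).Ns :=
    fun i => (Dvd.intro _ rfl : (t.p i).w ∣ (t.p i).Lp).mul_right _
  refine Op.lin t.hU.bdE (t.bd0 Z) fun hP hx => ?_
  have h1 := Lin.neg (e := t.toEnv) hP t.a0.hN (t.at' _) (w := fun x => (t.pr x).A)
    (X := fun x => 2 ^ (t.pr x).d) (by fun_prop) (by fun_prop) h0 hd t.a0.N0 hx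
  have h2 := Lin.rot (e := t.toEnv) hP t.a0.hN (t.at' _) (w := fun x => (t.pr x).A)
    (X := fun x => 2 ^ (t.pr x).d) (by fun_prop) (by fun_prop) h0 hd t.a0.N0 (r := fun _ => 1)
    (by fun_prop) (fun _ _ _ _ => rfl) h1
  refine h2.congr fun i => tab_congr fun j _ => ?_
  have e0 := Nat.mod_lt (dg (t.p i).A (2 ^ (t.p i).d) j + 1) (h0 i).2
  have e1 := dg_lt (w := (t.p i).A) (j := j) (h0 i).2
  have e : (2 ^ (t.p i).d - (dg (t.p i).A (2 ^ (t.p i).d) j + 1) % 2 ^ (t.p i).d) % 2 ^ (t.p i).d =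
      2 ^ (t.p i).d - 1 - dg (t.p i).A (2 ^ (t.p i).d) j := by
    rcases (Nat.succ_le_of_lt e1).lt_or_eq with h | h
    · rw [Nat.mod_eq_of_lt h, Nat.mod_eq_of_lt (by omega)]; omega
    · rw [Nat.succ_eq_add_one] at h
      rw [h, Nat.mod_self, Nat.sub_zero, Nat.mod_self]; omega
  have e2 : 2 ^ (t.p i).d - 1 - dg (t.p i).A (2 ^ (t.p i).d) j < 2 ^ (t.p i).d := by omega
  simp only [upd_upd (h0 i).1 e0, dg_upd_self (h0 i).1 e0]
  rw [e]
  simp only [upd_mod_hi (h0 i).1 e2 (dvd_refl (t.p i).w) (t.hG i).w_pos,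
    dg_upd_hi (w' := (t.p i).w) (h0 i).1 e2 dvd_rfl, fun a => dg_upd_hi (X' := (t.p i).sf a) (j := j)
      (h0 i).1 e2 ((Dvd.intro _ rfl : (t.p i).w ∣ (t.p i).Lp).mul_right (pw (t.p i).sf a)),
    show j % (t.p i).w / (t.p i).A % 2 ^ (t.p i).d = _ from dg_mod (dvd_refl (t.p i).w)]

theorem negs (hU : Bd (fun i => (t.p i).d * (((t.p i).N + 1) * t.E i)) t.U) (Z : ∀ i, (t.p i).ZF) :
    Op t.toEnv t.U (fun i => (t.p i).R0 (Z i))
    (fun i => (t.p i).R0 fun k lo dv r => Z i k lo dv fun a =>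
      if (lo / (t.p i).A).testBit a then ((t.p i).sF a - r a) % (t.p i).sF a else r a) 0 := by
  have pp := t.ppr
  have hI : PT fun x => List.range (t.pr x).d := by fun_prop
  let t' := t.ext _ hI 0 (fun i _ => ((t.p i).N + 1) * t.E i) fun _ _ => le_rfl
  let Zs := fun i (n : ℕ) => (fun k lo dv r => Z i k lo dv fun a =>
    if a < n ∧ (lo / (t.p i).A).testBit a then ((t.p i).sF a - r a) % (t.p i).sF a else r a :
      (t.p i).ZF)
  have := Op.loop (e := t.toEnv) (U := t.U) (V := 0) hI 0 (fun i n => (t.p i).R0 (Zs i n))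
    (U₁ := fun i _ => ((t.p i).N + 1) * t.E i) (V₁ := fun _ _ => 0) ?_
    (Bd.sum_const (by simpa using hU)) t.hU.bdE (t.bd0 fun i => Zs i 0) (fun _ => le_rfl)
    fun i => by simp
  · exact this.congr (fun i => by simp [Zs]) fun i => by simp [Zs]
  have eP : ∀ q, (t'.P q).2 = q.1.2 := fun q => by
    have := q.2
    simp only [List.length_range] at this
    simp [t', TE.ext, Env.ext, this]
  have hq : ∀ q : Pos fun i => (List.range (t.p i).d).length, q.1.2 < (t.p q.1.1).d :=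
    fun q => by simpa using q.2
  have eP1 : ∀ q, (t'.P q).1 = t.P q.1.1 := fun _ => rfl
  refine Op.lin t'.hU.bdE (t'.bd0 fun q => Zs q.1.1 q.1.2) fun hP hx => ?_
  have h1 := Lin.neg (e := t'.toEnv) hP t'.a0.hN (t'.at' _)
    (w := fun x => (t.pr x.1).Lp * pw (t.pr x.1).sf (min x.2 (t.pr x.1).d))
    (X := fun x => (t.pr x.1).sf x.2) (by fun_prop) (by fun_prop)
    (fun q => by
      rw [eP, eP1, min_eq_left (hq q).le]
      exact ⟨Nat.mul_pos (t.hG _).Lp_pos (pw_pos fun a ha => ((t.hG _).hs a (ha.trans (hq q))).1),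
        ((t.hG _).hs _ (hq q)).1⟩)
    (fun q => by rw [eP, eP1, min_eq_left (hq q).le]; exact pw_dvd _ _ (hq q)) t'.a0.N0 hx
  refine (Lin.sel (e := t'.toEnv) hP t'.a0.hN
    (b := fun x => (x.2 % (t.pr x.1.1).w / (t.pr x.1.1).A).testBit x.1.2) (by fun_prop) h1 hx).congr
    fun q => tab_congr fun j _ => ?_
  have h2 := hq q
  have e := eP q
  obtain ⟨⟨i, n⟩, hn⟩ := q
  have e1 : (t'.P ⟨(i, n), hn⟩).1 = t.P i := rfl
  simp only [e, e1, min_eq_left h2.le] at h2 ⊢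
  have s0 := ((t.hG i).hs n h2).1
  have w0 : 0 < (t.p i).Lp * pw (t.p i).sf n :=
    Nat.mul_pos (t.hG _).Lp_pos (pw_pos fun a ha => ((t.hG _).hs a (ha.trans h2)).1)
  have hv := Nat.mod_lt ((t.p i).sf n - dg ((t.p i).Lp * pw (t.p i).sf n) ((t.p i).sf n) j) s0
  cases hb : (j % (t.p i).w / (t.p i).A).testBit n
  · refine atm_congr fun k _ => congrArg _ (funext fun a => if_congr ?_ rfl rfl)
    refine and_congr_left fun h => ⟨fun h' => ?_, fun h' => by omega⟩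
    rcases (Nat.lt_succ_iff.1 h').lt_or_eq with h3 | h3
    · exact h3
    · rw [h3, hb] at h; exact absurd h (by simp)
  · refine atm_congr fun k _ => ?_
    have h3 := (t.p i).low_congr (upd_mod (w := (t.p i).Lp * pw (t.p i).sf n) (X := (t.p i).sf n)
      (j := j) (v := ((t.p i).sf n - dg ((t.p i).Lp * pw (t.p i).sf n) ((t.p i).sf n) j) %
        (t.p i).sf n) (Dvd.intro _ rfl))
    simp only [Zs]
    change _ = Z i k (upd _ _ _ _ % (t.p i).w) (dg (t.p i).w (2 ^ (t.p i).L) (upd _ _ _ _))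
      fun a => if a < n ∧ (upd _ _ _ _ % (t.p i).w / (t.p i).A).testBit a then
        (_ - dg ((t.p i).Lp * pw (t.p i).sf a) ((t.p i).sf a) (upd _ _ _ _)) % _ else
        dg ((t.p i).Lp * pw (t.p i).sf a) ((t.p i).sf a) (upd _ _ _ _)
    rw [h3.1, h3.2]
    refine congrArg _ (funext fun a => ?_)
    rcases lt_trichotomy (a : ℕ) n with h | h | h
    · simp only [dg_upd_lo (pw_dvd _ _ h), h, h.trans (Nat.lt_succ_self n)]
    · subst h
      simp only [dg_upd_self w0 hv, hb, lt_irrefl, false_and, if_false, Nat.lt_succ_self, and_self,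
        if_true, Par.sF]
    · simp only [dg_upd_hi w0 hv (pw_dvd _ _ h), show ¬(a : ℕ) < n by omega,
        show ¬(a : ℕ) < n + 1 by omega]

theorem prep (hU : Bd (fun i => (t.p i).d * (((t.p i).N + 1) * t.E i)) t.U)
    (x : ∀ i, ℕ → (Fin (t.p i).d → ℕ) → GI) :
    Op t.toEnv t.U (fun i => rarr (t.p i) fun k r => gz _ (x i k r))
      (fun i => (t.p i).R1 ((t.p i).ZS (pre (t.p i).sF ((t.p i).B * (t.p i).A) (x i)))) 0 := by
  refine (((t.flip fun i k lo dv r => gz _ (x i (k + (t.p i).B * (lo + (t.p i).w * dv)) r)).trans0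
    (t.negs hU _)).trans0 (t.pad1 _)).congr (fun i => ?_) fun i => tab_congr fun j _ =>
      atm_congr fun k hk => ?_
  · simp only [rarr, Par.R0, Par.mod_Lp]
  · have hA := (t.hG i).hA0
    have hw := (t.hG i).w_pos
    simp only [Par.ZS, pre, apply_ite (gz (t.p i).q), map_zero, Par.sp, (t.p i).setcb_eq hk,
      sum_not_bits]
    refine if_congr Iff.rfl ?_ rfl
    generalize hlo : j % (t.p i).w = lo
    have h1 : lo < (t.p i).A * 2 ^ (t.p i).d := hlo ▸ Nat.mod_lt _ hw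
    have h2 : lo % (t.p i).A < (t.p i).w :=
      (Nat.mod_lt _ hA).trans_le (Nat.le_mul_of_pos_right _ (by positivity))
    rw [upd, Nat.div_eq_of_lt h1, Nat.add_mul_div_left _ _ hw, Nat.div_eq_of_lt h2, Par.w, mul_assoc,
      Nat.add_mul_mod_self_left, Nat.mod_mod]
    simp [mul_assoc]

theorem cnAt {γ : ℝ} (hc : CNSpec WS WC γ) (j : ι → ℕ) {k : π → List Unit} {ρ c : π → ℕ}
    (hk : PT k) (hρ : PT ρ) (hp : PT c) (h : ∀ i, (k (t.P i)).length = mm ^ j i ∧ j i ≤ t.j i ∧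
      mm ^ j i ≤ c (t.P i) ∧ c (t.P i) + mm ^ j i ≤ (t.p i).D ∧ ρ (t.P i) < (t.p i).K ∧
      (j i = 0 ∨ ρ (t.P i) + 1 + 2 * (t.p i).g ≤ (t.p i).K))
    (hU : Bd (fun i => (j i * ((t.p i).g + 2) * γ ^ (t.J i + j i) + γ ^ j i) *
      ((t.p i).N * t.E i)) t.U) (F : ∀ i, CA' → ℕ → Zq (t.p i).q) :
    Op t.toEnv t.U (fun i => (t.p i).R2 (F i)) (fun i => (t.p i).R2 (cpr (hh _) (ii _)
      (xo _ (ρ (t.P i))) (fun a => Pi.single (c (t.P i) + a) 1) (mm ^ j i) (F i))) 0 := by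
  have pp := t.ppr
  have eK : ∀ i, (t.p i).g * mm ^ t.J i = (t.p i).K := fun i => by rw [Par.K_eq, (t.hG i).hu]
  have eR : ∀ i, (2 ^ (t.p i).g + 1) ^ mm ^ t.J i = (t.p i).R := fun i => by
    rw [Par.R, (t.hG i).hu, Par.Q]
  have h1 := hc ι t.s t.J j (fun i => (t.p i).w) (fun i => (t.p i).g) (fun i => ρ (t.P i))
    (fun i => c (t.P i)) (fun i => (t.p i).D) (fun i => (t.p i).q) (fun i => (t.p i).B) F fun i => by
      obtain ⟨-, a, b, c, d, e⟩ := h i
      rw [eK, eR]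
      exact ⟨((mul_dvd_mul (pow_dvd_pow _ a) (pow_dvd_pow _ (by omega))).trans (t.hG i).hA).mul_right _,
        (t.hG i).w_pos, (t.hG i).hg, (t.hG i).q_pos, b, c, d, e,
        (qp_mono (Nat.le_add_right _ _)).trans (t.hG i).hB⟩
  simp only [eK, eR] at h1
  refine Op.call (f := fun x => (((t.pr x).uU, (t.pr x).gU, (t.pr x).DU, k x, (t.pr x).qU),
    ((t.pr x).w, ρ x, c x))) (by fun_prop) t.hU.bdE (t.bd2 F) ((h1.mono
      (by simpa only [t.hE, Par.N] using hU) fun _ => le_rfl).congr (fun i => ?_) fun _ => rfl)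
  rw [← (t.hG i).hu, ← (h i).1, ← eq_rep, ← eq_rep, ← eq_rep, ← eq_rep, ← eq_rep]
  rfl

theorem naive {γ : ℝ} (hc : CNSpec WS WC γ) {ρ c : π → ℕ} (hρ : PT ρ) (hp : PT c)
    (h : ∀ i, 1 ≤ c (t.P i) ∧ c (t.P i) + (t.p i).d ≤ (t.p i).D ∧ ρ (t.P i) < (t.p i).K)
    (hU : Bd (fun i => (t.p i).d * (((t.p i).N + 1) * t.E i)) t.U)
    (F : ∀ i, CA' → ℕ → Zq (t.p i).q) :
    Op t.toEnv t.U (fun i => (t.p i).R2 (F i)) (fun i => (t.p i).R2 (cpr (hh _) (ii _)
      (xo _ (ρ (t.P i))) (fun a => Pi.single (c (t.P i) + a) 1) (t.p i).d (F i))) 0 := by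
  have pp := t.ppr
  have hI : PT fun x => List.range (t.pr x).d := by fun_prop
  let t' := t.ext _ hI 0 (fun i _ => ((t.p i).N + 1) * t.E i) fun _ _ => le_rfl
  let Fs := fun i n => cpr (hh _) (ii _) (xo _ (ρ (t.P i)))
    (fun a => Pi.single (c (t.P i) + ((t.p i).d - n) + a) 1) n (F i)
  have := Op.loop (e := t.toEnv) (U := t.U) (V := 0) hI 0 (fun i n => (t.p i).R2 (Fs i n))
    (U₁ := fun i _ => ((t.p i).N + 1) * t.E i) (V₁ := fun _ _ => 0) ?_
    (Bd.sum_const (by simpa using hU)) t.hU.bdE (t.bd2 fun i => Fs i 0) (fun _ => le_rfl)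
    fun i => by simp
  · exact this.congr (fun i => by simp [Fs, cpr]) fun i => by simp [Fs]
  have eP : ∀ q, (t'.P q).2 = q.1.2 := fun q => by
    have := q.2
    simp only [List.length_range] at this
    simp [t', TE.ext, Env.ext, this]
  have hq : ∀ q : Pos fun i => (List.range (t.p i).d).length, q.1.2 < (t.p q.1.1).d :=
    fun q => by simpa using q.2
  have h1 := t'.cnAt hc (fun _ => 0) (k := fun _ => [()]) (ρ := fun x => ρ x.1)
    (c := fun x => c x.1 + ((t.pr x.1).d - (x.2 + 1))) (by fun_prop) (by fun_prop) (by fun_prop)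
    (fun q => by
      have h1 := h q.1.1
      have h2 := hq q
      have e : c (t'.P q).1 + ((t.pr (t'.P q).1).d - ((t'.P q).2 + 1)) =
        c (t.P q.1.1) + ((t.p q.1.1).d - (q.1.2 + 1)) := by rw [eP]; rfl
      rw [e]
      exact ⟨rfl, Nat.zero_le _, by rw [pow_zero]; omega,
        show _ ≤ (t.p q.1.1).D by rw [pow_zero]; omega, h1.2.2, Or.inl rfl⟩)
    (Bd.le_right (fun q => by have := t'.E0 q; simp; positivity) fun q => by
      have := t.E0 q.1.1
      simp only [Nat.cast_zero, zero_mul, zero_add, pow_zero, one_mul]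
      exact mul_le_mul_of_nonneg_right (le_add_of_nonneg_right zero_le_one) this)
    fun q => Fs q.1.1 q.1.2
  refine h1.congr (fun _ => rfl) fun q => ?_
  have h2 := hq q
  rw [eP]
  simp only [Fs, cpr, List.range_succ_eq_map, List.map_cons, List.prod_cons, List.map_map,
    pow_zero, zero_add, List.range_zero, List.map_nil, List.prod_nil, mul_one, Module.End.mul_apply,
    comp_def, show ∀ a, c (t.P q.1.1) + ((t.p q.1.1).d - (q.1.2 + 1)) + Nat.succ a =
      c (t.P q.1.1) + ((t.p q.1.1).d - q.1.2) + a from fun a => by omega]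
  rfl

theorem flipC {c : π → ℕ} (hp : PT c) (h : ∀ i, c (t.P i) < (t.p i).d)
    (F : ∀ i, CA' → ℕ → Zq (t.p i).q) :
    Op t.toEnv t.U (fun i => (t.p i).R2 (F i)) (fun i => (t.p i).R2 fun a => F i
      (upd ((t.p i).A * 2 ^ c (t.P i)) 2 a.1 ((dg ((t.p i).A * 2 ^ c (t.P i)) 2 a.1 + 1) % 2), a.2)) 0 := by
  have pp := t.ppr
  have e : ∀ i, pb 2 (t.p i).dU (c (t.P i)) = 2 ^ c (t.P i) := fun i => pb_eq (h i).le
  have hd : ∀ i, (t.p i).A * 2 ^ c (t.P i) * 2 ∣ (t.p i).w := fun i => pow_dvd (h i)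
  have h0 : ∀ i, 0 < (t.p i).A * 2 ^ c (t.P i) := fun i => Nat.mul_pos (t.hG i).hA0 (by positivity)
  refine Op.lin t.hU.bdE (t.bd2 F) fun hP hx => ?_
  have h1 := Lin.rot hP t.hU (t.at' _) (w := fun x => (t.pr x).A * pb 2 (t.pr x).dU (c x))
    (X := fun _ => 2) (by fun_prop) (by fun_prop) (fun i => by rw [e]; exact ⟨h0 i, by omega⟩)
    (fun i => by rw [e]; exact (hd i).mul_right _) (fun i => (t.hG i).N_pos) (r := fun _ => 1)
    (by fun_prop) (fun _ _ _ _ => rfl) hx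
  refine h1.congr fun i => tab_congr fun j _ => ?_
  have hv := Nat.mod_lt (dg ((t.p i).A * 2 ^ c (t.P i)) 2 j + 1) (show 0 < 2 by omega)
  have h2 := fun x => dg_upd_hi (X' := (t.p i).R) (j := j) (h0 i) hv
    ((hd i).mul_right ((t.p i).R ^ x))
  rw [e]
  have e1 : okB (t.p i).w (t.p i).R (List.replicate (t.p i).D ()) (fun _ => 2 ^ (t.p i).K)
      (upd ((t.p i).A * 2 ^ c (t.P i)) 2 j ((dg ((t.p i).A * 2 ^ c (t.P i)) 2 j + 1) % 2)) =
      okB (t.p i).w (t.p i).R (List.replicate (t.p i).D ()) (fun _ => 2 ^ (t.p i).K) j := by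
    rw [Bool.eq_iff_iff, okB_iff, okB_iff]; simp only [h2]
  simp only [e1, cdec, h2, upd_mod_hi (h0 i) hv (hd i) (t.hG i).w_pos, dg_mod (hd i)]

end TE

end Vale.Agent.P338
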