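import Vale.Agent.P338.Tr3

/-! One stage of the transform. -/

namespace Vale.Agent.P338

open Function
open Vale.Agent.Lib.H24.T (Enc PT sz)

variable {ι π : Type} [Enc π]

@[fun_prop] theorem PTX.iprod {f : π → List ℤ} (hf : PT f) : PT fun a => (f a).prod := by
  have h : PT fun a => (-1 : ℤ) ^ ((f a).filter fun x => decide (x < 0)).length *
      (((f a).map fun x => x.natAbs).prod : ℕ) := by fun_prop
  refine h.of_eq fun a => ?_
  induction f a with
  | nil => rfl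
  | cons x l ih =>
    rw [List.prod_cons, ← ih]
    by_cases hx : x < 0
    · simp [hx, abs_of_neg hx, pow_succ]; ring
    · simp [hx, abs_of_nonneg (not_lt.1 hx)]; ring

@[fun_prop] theorem PT.dsp {f : π → List ((ℤ × ℕ) × (ℤ × ℕ))} (hf : PT f) :
    PT fun a => dsp (f a) := by
  have : PT P338.dsp := by unfold P338.dsp; fun_prop
  exact this.comp hf

theorem PT.cs {D : FD} (h1 : PT D.ds) (h2 : PT D.ms) {T : π → List Unit} {g : π → Stage}
    {l : π → List (ℕ × Bool × ℕ)} (hT : PT T) (hg : PT g) (hl : PT l) :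
    PT fun a => D.cs (T a) (g a) (l a) := by
  unfold FD.cs; fun_prop

namespace Par
variable (p : Par)

/-- the address of an atom as a list -/
def adr (j : ℕ) : List (ℕ × Bool × ℕ) := (List.range p.d).map fun i =>
  (p.sf i, (j % p.w / p.A).testBit i, ((List.range p.d).map fun e =>
    dg (p.w * pb p.R p.DU (p.d + e * p.d + i)) p.R j % 2 ^ p.K * pb (2 ^ p.K) p.dU e).sum)

@[fun_prop] theorem pt_adr {f : π → Par} {x : π → ℕ} (h : PT f) (hx : PT x) :
    PT fun a => (f a).adr (x a) := by unfold adr; fun_prop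

/-- the address of an atom -/
def ad (a : CA') : MA p.d := fun i => ((a.1 / p.A).testBit i, p.fld a (p.cT i))

theorem adr_eq (j : ℕ) :
    p.adr j = List.ofFn fun i => (p.sF i, p.ad (cdec p.w p.R j) i) := by
  rw [adr, ← tab, ← ofFn_tab]
  refine congrArg _ (funext fun i => Prod.ext rfl (Prod.ext rfl ?_))
  simp only [ad, fld, ← Finset.sum_list_map_count, cdec]
  rw [Finset.sum_range, ← tab, ← ofFn_tab, List.sum_ofFn]
  refine Finset.sum_congr rfl fun e _ => ?_
  rw [pb_eq e.2.le, pb_eq (p := p.d + e * p.d + i) (p.cN_lt e.2 i.2).le]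
  rfl

theorem onC_ZS (S : ℕ → MA p.d → GI) (a : CA') (k : ℕ) :
    p.onC p.cT (p.ZS S) a k = gz p.q (S (p.sp k a.1 (p.fld a id)) (p.ad a)) := rfl

theorem sp_lt (hA : 0 < p.A) {k : ℕ} (hk : k < p.B) (lo : ℕ) {dv : ℕ} (h : dv < 2 ^ p.L) :
    p.sp k lo dv < p.La := by
  have h1 : lo % p.A < p.w :=
    (Nat.mod_lt _ hA).trans_le (Nat.le_mul_of_pos_right _ (by positivity))
  have h2 : lo % p.A + p.w * dv + 1 ≤ p.Lp := by rw [Lp]; nlinarith
  rw [sp, La]; nlinarith

/-- the vector that is multiplied by the constants -/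
def Yf (g : Stage) (F : CA' → ℕ → Zq p.q) : CA' → ℕ → Zq p.q :=
  if g.1 = 0 then F else if g.1 = 1 then cpr (hh _) (ii _) (xo _ (g.2.1 % p.K))
    (fun a => Pi.single (p.d + g.2.1 / p.K * p.d + a) 1) p.d F
  else fun a => F (upd (p.A * 2 ^ g.2.1) 2 a.1 ((dg (p.A * 2 ^ g.2.1) 2 a.1 + 1) % 2), a.2)

theorem Yf_ZS (hq : 1 ≤ p.q) (hA : 0 < p.A) {g : Stage} (h1 : g.1 = 1 → g.2.1 < p.L)
    (h2 : 2 ≤ g.1 → g.2.1 < p.d) (S : ℕ → MA p.d → GI) (a : CA') (k : ℕ) :
    2 ^ p.d * p.Yf g (p.onC p.cT (p.ZS S)) a k =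
      gz p.q (opd g (S (p.sp k a.1 (p.fld a id))) (p.ad a)) := by
  unfold Yf opd
  by_cases e0 : g.1 = 0
  · simp only [e0, if_true, map_mul, map_pow, map_ofNat, onC_ZS]
  by_cases e1 : g.1 = 1
  · simp only [if_neg e0, if_pos e1]
    exact congrFun (congrFun (p.cpr_ZS hq S (h1 e1)) a) k
  have h3 := h2 (by omega)
  simp only [if_neg e0, if_neg e1, dif_pos h3, map_mul, map_pow, map_ofNat, onC_ZS]
  have h0 : 0 < p.A * 2 ^ g.2.1 := by positivity
  have hv := Nat.mod_lt (dg (p.A * 2 ^ g.2.1) 2 a.1 + 1) (show 0 < 2 by omega)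
  congr 3
  · rw [sp, sp, upd_mod (Dvd.intro _ rfl)]; rfl
  · funext i
    by_cases h : i = ⟨g.2.1, h3⟩
    · subst h
      have := dg_lt (w := p.A * 2 ^ g.2.1) (j := a.1) (show 0 < 2 by omega)
      simp only [fl, update_self, ad, testBit_dg, dg_upd_self h0 hv]
      refine Prod.ext ?_ rfl
      by_cases h : dg (p.A * 2 ^ g.2.1) 2 a.1 = 1
      · simp [h]
      · simp [show dg (p.A * 2 ^ g.2.1) 2 a.1 = 0 by omega]
    · simp only [fl, update_of_ne h, ad, testBit_dg]
      refine Prod.ext ?_ rfl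
      rcases lt_or_gt_of_ne (fun e => h (Fin.ext e) : (i : ℕ) ≠ g.2.1) with h4 | h4
      · simp only [dg_upd_lo (pow_dvd h4)]
      · simp only [dg_upd_hi h0 hv (pow_dvd h4)]
end Par

/-- the constant of an atom -/
def FD.cw (D : FD) (p : Par) (g : Stage) (j : ℕ) : ℤ × ℤ :=
  (2 ^ p.d * (D.ev (mulU (List.replicate 3000 ()) p.bU, D.cs p.TU g (p.adr j))).1,
    2 ^ p.d * (D.ev (mulU (List.replicate 3000 ()) p.bU, D.cs p.TU g (p.adr j))).2)

theorem FD.pt_cw {D : FD} (p1 : PT D.ev) (p2 : PT D.ds) (p3 : PT D.ms) {p : π → Par}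
    {g : π → Stage} {j : π → ℕ} (hp : PT p) (hg : PT g) (hj : PT j) :
    PT fun x => D.cw (p x) (g x) (j x) := by
  have := p1.comp (PT.pair (f := fun x => mulU (List.replicate 3000 ()) (p x).bU) (by fun_prop)
    (PT.cs p2 p3 (T := fun x => (p x).TU) (l := fun x => (p x).adr (j x)) (by fun_prop) hg
      (by fun_prop)))
  unfold FD.cw
  exact PT.pair ((PTX.ipow (PT.const 2) (Par.pt_dU hp)).imul this.fst)
    ((PTX.ipow (PT.const 2) (Par.pt_dU hp)).imul this.snd)

theorem FD.cw_eq (D : FD) {p : Par} (h : p.TU.length = 2 ^ p.L) (g : Stage) (j : ℕ) :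
    gz p.q ⟨(D.cw p g j).1, (D.cw p g j).2⟩ =
      gz p.q (D.cz p.L (3000 * (p.d * p.L)) p.sF g (p.ad (cdec p.w p.R j))) * 2 ^ p.d := by
  have e : List.replicate (3000 * (p.d * p.L)) () = mulU (List.replicate 3000 ()) p.bU := by
    rw [eq_rep (mulU _ _), length_mulU, List.length_replicate, ← p.b_eq]
  rw [FD.cz, ← p.adr_eq, ← h, ← eq_rep, e, gz_apply, gz_apply, FD.cw]
  generalize D.ev _ = v
  push_cast
  ring

theorem rnd_zero {f : ℕ} (h : 0 < f) : rnd f 0 = 0 := by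
  have : (2 : ℤ) ^ (f - 1) / 2 ^ f = 0 :=
    Int.ediv_eq_zero_of_lt (by positivity) (pow_lt_pow_right₀ (by omega) (by omega))
  ext <;> simp [rnd, this]

/-- passes used by one stage -/
noncomputable def cS (γ : ℝ) (J j : ℕ) (p : Par) (g : Stage) : ℝ :=
  1 + if g.1 = 1 then (if g.2.1 % p.K + 1 + 2 * p.g ≤ p.K then
    j * (p.g + 2) * γ ^ (J + j) + γ ^ j else p.d) else 0

namespace TE
variable {WS WC : ℕ} (t : TE ι π WS WC)

theorem yf {γ : ℝ} (h0 : 0 ≤ γ) (hc : CNSpec WS WC γ) {g : π → Stage} (hg : PT g)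
    (h : ∀ i, ((g (t.P i)).1 = 1 → (g (t.P i)).2.1 < (t.p i).L) ∧
      (2 ≤ (g (t.P i)).1 → (g (t.P i)).2.1 < (t.p i).d))
    (hU : ∀ i, cS γ (t.J i) (t.j i) (t.p i) (g (t.P i)) * (((t.p i).N + 1) * t.E i) ≤ t.U i)
    (F : ∀ i, CA' → ℕ → Zq (t.p i).q) :
    Op t.toEnv t.U (fun i => (t.p i).R2 (F i))
      (fun i => (t.p i).R2 ((t.p i).Yf (g (t.P i)) (F i))) 0 := by
  have pp := t.ppr
  refine Op.cases (b := fun x => decide ((g x).1 = 1)) (by fun_prop) t.hU.bdE (t.bd2 F) ?_ ?_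
  · let t1 := t.re fun i : {i // decide ((g (t.P i)).1 = 1) = true} => i
    have e1 : ∀ i : {i // decide ((g (t.P i)).1 = 1) = true}, (g (t.P i)).1 = 1 :=
      fun i => by simpa using i.2
    have hp : ∀ i : {i // decide ((g (t.P i)).1 = 1) = true}, (t.p i).d +
        (g (t.P i)).2.1 / (t.p i).K * (t.p i).d + (t.p i).d ≤ (t.p i).D := fun i => by
      have h1 : (g (t.P i)).2.1 / (t.p i).K < (t.p i).d := by
        rw [Nat.div_lt_iff_lt_mul (t.hG i).K_pos, ← Par.L_eq]; exact (h i).1 (e1 i)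
      rw [Par.D_eq]; nlinarith
    refine Op.congr (e := t1.toEnv) (y := fun i : {i // decide ((g (t.P i)).1 = 1) = true} => (t.p i).R2 (cpr (hh _) (ii _) (xo _ ((g (t.P i)).2.1 % (t.p i).K))
      (fun a => Pi.single ((t.p i).d + (g (t.P i)).2.1 / (t.p i).K * (t.p i).d + a) 1) (t.p i).d
      (F i))) ?_ (fun _ => rfl) fun i => by simp only [Par.Yf, e1 i]; simp
    refine Op.cases (e := t1.toEnv) (b := fun x => decide ((g x).2.1 % (t.pr x).K + 1 +
      2 * (t.pr x).g ≤ (t.pr x).K)) (by fun_prop) t1.hU.bdE (t1.bd2 fun i => F i) ?_ ?_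
    · let t2 := t1.re fun i : {i // decide ((g (t1.P i)).2.1 % (t.pr (t1.P i)).K + 1 +
        2 * (t.pr (t1.P i)).g ≤ (t.pr (t1.P i)).K) = true} => i
      have := t2.cnAt hc t2.j (k := fun x => (t.pr x).dU) (ρ := fun x => (g x).2.1 % (t.pr x).K)
        (c := fun x => (t.pr x).d + (g x).2.1 / (t.pr x).K * (t.pr x).d) (by fun_prop) (by fun_prop)
        (by fun_prop) (fun i => ⟨(t2.hG i).hd, le_rfl, (t2.hG i).hd ▸ Nat.le_add_right _ _,
          (t2.hG i).hd ▸ hp i, Nat.mod_lt _ (t2.hG i).K_pos, Or.inr (of_decide_eq_true i.2)⟩)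
        (Bd.le_right (fun i => by have := t2.E0 i; positivity) fun i => by
          refine le_trans ?_ (hU i)
          have h2 : (g (t.P i)).2.1 % (t.p i).K + 1 + 2 * (t.p i).g ≤ (t.p i).K :=
            of_decide_eq_true i.2
          rw [cS, if_pos (e1 i), if_pos h2]
          have := t.E0 i
          exact mul_le_mul (le_add_of_nonneg_left zero_le_one) (mul_le_mul_of_nonneg_right
            (le_add_of_nonneg_right zero_le_one) this) (by positivity) (by positivity)) fun i => F i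
      exact this.congr (fun _ => rfl) fun i => by rw [← (t2.hG i).hd]; rfl
    · let t2 := t1.re fun i : {i // decide ((g (t1.P i)).2.1 % (t.pr (t1.P i)).K + 1 +
        2 * (t.pr (t1.P i)).g ≤ (t.pr (t1.P i)).K) = false} => i
      exact t2.naive hc (ρ := fun x => (g x).2.1 % (t.pr x).K)
        (c := fun x => (t.pr x).d + (g x).2.1 / (t.pr x).K * (t.pr x).d) (by fun_prop) (by fun_prop)
        (fun i => ⟨(t2.hG i).d_pos.trans_le (Nat.le_add_right _ _), hp i,
          Nat.mod_lt _ (t2.hG i).K_pos⟩)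
        (Bd.le_right (fun i => by have := t2.E0 i; positivity) fun i => by
          refine le_trans ?_ (hU i)
          have h2 : ¬(g (t.P i)).2.1 % (t.p i).K + 1 + 2 * (t.p i).g ≤ (t.p i).K :=
            of_decide_eq_false i.2
          rw [cS, if_pos (e1 i), if_neg h2]
          have := t.E0 i
          change ((t.p i).d : ℝ) * (((t.p i).N + 1) * t.E i) ≤ _
          gcongr; linarith) fun i => F i
  · let t1 := t.re fun i : {i // decide ((g (t.P i)).1 = 1) = false} => i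
    have e1 : ∀ i : {i // decide ((g (t.P i)).1 = 1) = false}, ¬(g (t.P i)).1 = 1 :=
      fun i => by simpa using i.2
    refine Op.cases (e := t1.toEnv) (b := fun x => decide ((g x).1 = 0)) (by fun_prop) t1.hU.bdE
      (t1.bd2 fun i => F i) ?_ ?_
    · let t2 := t1.re fun i : {i // decide ((g (t1.P i)).1 = 0) = true} => i
      refine (Op.lin t2.hU.bdE (t2.bd2 fun i => F i) fun _ hx => hx).congr (fun _ => rfl) fun i => ?_
      have e0 : (g (t.P i)).1 = 0 := of_decide_eq_true i.2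
      simp only [Par.Yf, if_pos e0]; rfl
    · let t2 := t1.re fun i : {i // decide ((g (t1.P i)).1 = 0) = false} => i
      have e0 : ∀ i : {i // decide ((g (t1.P i)).1 = 0) = false}, ¬(g (t.P i)).1 = 0 :=
        fun i => of_decide_eq_false i.2
      refine (t2.flipC (c := fun x => (g x).2.1) (by fun_prop) (fun i => (h i).2 (by
        have := e0 i; have := e1 i; omega)) fun i => F i).congr (fun _ => rfl) fun i => ?_
      simp only [Par.Yf, if_neg (e0 i), if_neg (e1 i)]; rfl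

theorem qI {α β : Type} [Enc α] [Enc β] {c : Ctx ι α} {N : π → ℕ} {hN : PT N} {X : ι → ℕ → β}
    (h : Lin (t.toEnv.cel c N X) (t.toEnv.el N hN).P) :
    Lin (t.toEnv.cel c N X) fun a => List.replicate (t.p a.1.1).q () :=
  (h.parI (f := fun x => (t.pr x.1).qU) (by have := t.ppr; fun_prop)).congr fun _ => (eq_rep _).symm

theorem qS : Small (fun i => (t.p i).q) t.E :=
  (t.hS.pt (f := fun x => (t.pr x).q) (by have := t.ppr; fun_prop) |>.add
    (t.hS.pt (f := fun x => (t.pr x).qU) (by have := t.ppr; fun_prop))).of_le fun i =>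
      (Vale.Agent.Lib.H24.T.length_le_sz _).trans (Nat.le_add_left _ _)

/-- multiply every atom by a constant and round -/
theorem mr {N : π → ℕ} (hN : t.toEnv.Ok N t.U) {T : ι → ℝ}
    (hm : ∀ i, MulT (t.s i) (2 * (t.p i).q + 2) (T i)) {f : π → List Unit} (hf : PT f)
    (h1 : ∀ i, 1 ≤ (f (t.P i)).length ∧ (f (t.P i)).length + 2 ≤ (t.p i).q)
    {a : π × ℕ → ℤ × ℤ} (ha : PT a) (x : ∀ i, ℕ → ℕ → Zq (t.p i).q) (z : ι → ℕ → ℕ → GI)
    (hz : ∀ i, ∀ j < N (t.P i), ∀ k < (t.p i).B,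
      gz _ ⟨(a (t.P i, j)).1, (a (t.P i, j)).2⟩ * x i j k = gz _ (z i j k) ∧
        Fit ((t.p i).q - 2) (z i j k)) :
    Op t.toEnv t.U (fun i => tab (N (t.P i)) fun j => atm (t.p i).q (t.p i).B (x i j))
      (fun i => tab (N (t.P i)) fun j => atm (t.p i).q (t.p i).B fun k =>
        gz _ (rnd (f (t.P i)).length (z i j k))) fun i => N (t.P i) * ((t.p i).B * T i) := by
  have hT : ∀ i, 0 ≤ T i := fun i => by
    obtain ⟨t, ht, -⟩ := hm i _ _ (List.length_replicate (a := false)) (List.length_replicate (a := false))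
    exact (Nat.cast_nonneg t).trans ht
  refine Op.cmp hN.bdE (hN.sztab (t.at' x)) fun hP hx => ?_
  have h0 := t.toEnv.cel_self (t.toEnv.ctx t.U fun i => tab (N (t.P i)) fun j =>
    atm (t.p i).q (t.p i).B (x i j)) hN.1 (t.at' x)
  have hq := t.qI (hN := hN.1) h0.fst
  have hs := t.qS.re fun q : Pos fun i => N (t.P i) => q.1.1
  exact Cmp.mapI (V' := fun i _ => (t.p i).B * T i) hP hN hx (Cmp.mulRnd hq hs (fun q => hm q.1.1)
    ((Lin.parI (hN := hN.1) h0.fst (f := fun x => f x.1) (by fun_prop)).congr fun _ => (eq_rep _).symm)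
    (fun q => h1 q.1.1) (Lin.wdZ hq hs (Lin.parI (hN := hN.1) h0.fst ha)
      ((t.toEnv.el N hN.1).hS.pt ha)) h0.snd fun q => hz q.1.1 q.1.2 q.2)
    (fun i => by have := hT i; positivity) fun i => by simp

theorem comb {α : Type} [Enc α] {y : ι → α} (hP : Lin (t.toEnv.ctx t.U y) t.P)
    {b b' : π × ℕ → Bool} (hb : PT b) (hb' : PT b') {m x : ∀ i, ℕ → ℕ → Zq (t.p i).q}
    (hm : Lin (t.toEnv.ctx t.U y) fun i => tab (t.p i).N fun j => atm (t.p i).q (t.p i).B (m i j))
    (hx : Lin (t.toEnv.ctx t.U y) fun i => tab (t.p i).N fun j => atm (t.p i).q (t.p i).B (x i j)) :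
    Lin (t.toEnv.ctx t.U y) fun i => tab (t.p i).N fun j => atm (t.p i).q (t.p i).B fun k =>
      cond (b (t.P i, j)) (m i j k) (cond (b' (t.P i, j)) (x i j k + m i j k) (x i j k)) := by
  have h3 := Lin.mapI (fun i j => atm (t.p i).q (t.p i).B fun k => x i j k + m i j k) hP t.hU
    ((t.at' x).pair (t.at' m)) (hx.ztab hm) fun a b =>
    Lin.addZ (t.qI a) (t.qS.re fun q : Pos _ => q.1.1) (fun q => (t.hG q.1.1).q_pos) b.fst b.snd
  refine (Lin.sel hP t.hU hb hm (Lin.sel hP t.hU hb' h3 hx)).congr fun i => tab_congr fun j _ => ?_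
  cases b (t.P i, j) <;> cases b' (t.P i, j) <;> rfl

theorem stage {γ : ℝ} (h0 : 0 ≤ γ) (hc : CNSpec WS WC γ) {D : FD} (p1 : PT D.ev) (p2 : PT D.ds)
    (p3 : PT D.ms) {T : ι → ℝ} (hm : ∀ i, MulT (t.s i) (2 * (t.p i).q + 2) (T i))
    {g : π → Stage} (hg : PT g) (h : ∀ i, ((g (t.P i)).1 = 1 → (g (t.P i)).2.1 < (t.p i).L) ∧
      (2 ≤ (g (t.P i)).1 → (g (t.P i)).2.1 < (t.p i).d))
    (hU : ∀ i, cS γ (t.J i) (t.j i) (t.p i) (g (t.P i)) * (((t.p i).N + 1) * t.E i) ≤ t.U i)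
    (S : ∀ i, ℕ → MA (t.p i).d → GI) (hF : ∀ i, ∀ k < (t.p i).La, ∀ a : MA (t.p i).d,
      (∀ x, (a x).2 < 2 ^ (t.p i).L) → Fit (6000 * ((t.p i).d * (t.p i).L))
        (D.arg (t.p i).L (3000 * ((t.p i).d * (t.p i).L)) (t.p i).sF (S i k) (g (t.P i)) a)) :
    Op t.toEnv t.U (fun i => (t.p i).R2 ((t.p i).onC (t.p i).cT ((t.p i).ZS (S i))))
      (fun i => (t.p i).R2 ((t.p i).onC (t.p i).cT ((t.p i).ZS fun k => D.stZ (t.p i).L
        (3000 * ((t.p i).d * (t.p i).L)) (t.p i).sF (S i k) (g (t.P i)))))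
      fun i => (t.p i).N * ((t.p i).B * T i) := by
  have pp := t.ppr
  let ok := fun i j => okB (t.p i).w (t.p i).R (List.replicate (t.p i).D ()) (fun _ => 2 ^ (t.p i).K) j
  let ar := fun i j k => D.arg (t.p i).L (3000 * ((t.p i).d * (t.p i).L)) (t.p i).sF
    (S i ((t.p i).sp k (j % (t.p i).w) ((t.p i).fld (cdec (t.p i).w (t.p i).R j) id))) (g (t.P i))
    ((t.p i).ad (cdec (t.p i).w (t.p i).R j))
  have ef : ∀ i, (mulU (List.replicate 3000 ()) (t.p i).bU ++ (t.p i).dU).length =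
      3000 * ((t.p i).d * (t.p i).L) + (t.p i).d := fun i => by
    rw [List.length_append, length_mulU, List.length_replicate, ← Par.b_eq]
  have h1 := t.mr t.hU hm (f := fun x => mulU (List.replicate 3000 ()) (t.pr x).bU ++ (t.pr x).dU)
    (by fun_prop) (fun i => by
      have a1 : 0 < (t.p i).d := (t.hG i).d_pos
      have a2 : (t.p i).d ≤ (t.p i).b := (t.hG i).d_le.trans (t.hG i).L_le
      have a3 := (t.p i).q_eq
      rw [ef, ← Par.b_eq]
      omega) (a := fun x => D.cw (t.pr x.1) (g x.1) x.2)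
    (FD.pt_cw p1 p2 p3 (by fun_prop) (by fun_prop) (by fun_prop))
    (fun i j => cond (ok i j) ((t.p i).Yf (g (t.P i)) ((t.p i).onC (t.p i).cT
      ((t.p i).ZS (S i))) (cdec (t.p i).w (t.p i).R j)) 0) (fun i j k => cond (ok i j) (ar i j k) 0)
    fun i j _ k hk => by
      cases ok i j
      · exact ⟨by simp, by simp [Fit]⟩
      have a1 := hF i _ ((t.p i).sp_lt (t.hG i).hA0 hk (j % (t.p i).w) ((t.p i).fld_lt
        (cdec (t.p i).w (t.p i).R j) id)) ((t.p i).ad (cdec (t.p i).w (t.p i).R j))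
        fun x => (t.p i).fld_lt _ _
      have a2 : (2 : ℤ) ^ (6000 * ((t.p i).d * (t.p i).L)) ≤ 2 ^ ((t.p i).q - 2) :=
        pow_le_pow_right₀ (by omega) (by
          have : 0 < (t.p i).b := (t.hG i).b_pos
          rw [← Par.b_eq, Par.q_eq]; omega)
      refine ⟨?_, a1.1.trans_le a2, a1.2.trans_le a2⟩
      rw [D.cw_eq (t.hG i).hT, mul_assoc, cond_true, cond_true,
        (t.p i).Yf_ZS (t.hG i).q_pos (t.hG i).hA0 (h i).1 (h i).2, ← map_mul]
      rfl
  simp only [ef] at h1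
  have h2 := ((t.yf h0 hc hg h hU _).trans0' h1).pair
    (Op.lin t.hU.bdE (t.bd2 fun i => (t.p i).onC (t.p i).cT ((t.p i).ZS (S i))) fun _ hx => hx)
  refine (h2.thenL t.hU.bdE fun hP hx => ?_).monoV fun i => by simp
  refine (t.comb hP (b := fun x => decide ((g x.1).1 ≤ 1)) (b' := fun x =>
    decide ((x.2 % (t.pr x.1).w / (t.pr x.1).A).testBit (g x.1).2.1 = decide ((g x.1).1 = 3)))
    (by fun_prop) (by fun_prop) hx.fst hx.snd).congr fun i => tab_congr fun j _ =>
      congrArg _ (funext fun k => ?_)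
  simp only [ok, ar]
  cases okB (t.p i).w (t.p i).R (List.replicate (t.p i).D ()) (fun _ => 2 ^ (t.p i).K) j
  · simp [rnd_zero (Nat.add_pos_right _ (t.hG i).d_pos)]
  simp only [cond_true, Par.onC_ZS, FD.stZ]
  by_cases a1 : (g (t.P i)).1 ≤ 1
  · simp only [a1, decide_true, cond_true, if_true]; rfl
  · simp only [a1, decide_false, cond_false, if_false, dif_pos ((h i).2 (by omega)), Bool.cond_decide,
      apply_ite (gz (t.p i).q), map_add]
    rfl

end TE

end Vale.Agent.P338
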